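import Crest.Prelude.Def_CoordMetric
import Crest.Prelude.Def_CoordVolume
import Crest.Prelude.Def_ChartCurvature

/-!
# Row 202 (S0309, S0310): concrete definitions

`W n` = smooth 0-homogeneous functions on `ℝⁿ \ 0` (value `0` at `0`) with the `L²(Sⁿ⁻¹)` inner product.
`X n` = continuous matrix fields on the sphere, `form K u w = ∫_S K(∇u,∇w)`.
`BB n` = symmetric tangential polynomial tensors with a `C²` norm, `HX (iota b) = det(1+b)^{-1/(n-1)} (Π + b)`.
`metric l b` = the metric `dr² + r² e^{2 l(t)} h_{b(t)}`, `t = log r`, written through its inverse `Amat`.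
See `Notes.lean` for the whole proof.
-/

set_option autoImplicit false
open scoped ContDiff RealInnerProductSpace
open MeasureTheory Crest.GeometryTopology.CoordMetric

noncomputable section
namespace Crest.Agent.R202

abbrev E (n : ℕ) := EuclideanSpace ℝ (Fin n)
abbrev Sp (n : ℕ) := Metric.sphere (0 : E n) 1
abbrev CS (n : ℕ) := C(Sp n, ℝ)

variable {n : ℕ}

/-! shortcut instances (avoid the `maxSynthPendingDepth` limit) -/
instance : NormedAddCommGroup (E n →L[ℝ] E n →L[ℝ] ℝ) := inferInstance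
instance : NormedSpace ℝ (E n →L[ℝ] E n →L[ℝ] ℝ) := inferInstance
instance : IsTopologicalAddGroup (E n →L[ℝ] E n →L[ℝ] ℝ) := inferInstance
instance : ContinuousSMul ℝ (E n →L[ℝ] E n →L[ℝ] ℝ) := inferInstance
set_option maxSynthPendingDepth 3 in
instance : NormedAddCommGroup C(Sp n, E n →L[ℝ] E n →L[ℝ] ℝ) := inferInstance
set_option maxSynthPendingDepth 3 in
instance : NormedSpace ℝ C(Sp n, E n →L[ℝ] E n →L[ℝ] ℝ) := inferInstance

lemma Sp.ne_zero (x : Sp n) : (x : E n) ≠ 0 := ne_zero_of_mem_unit_sphere x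
lemma Sp.norm_eq (x : Sp n) : ‖(x : E n)‖ = 1 := norm_eq_of_mem_sphere x

/-- surface measure on the unit sphere -/
def sig (n : ℕ) : Measure (Sp n) := (volume : Measure (E n)).toSphere
instance : IsFiniteMeasure (sig n) := by unfold sig; infer_instance
instance : (sig n).IsOpenPosMeasure := by unfold sig; infer_instance

lemma CS.integrable (F : CS n) : Integrable (fun x => F x) (sig n) :=
  F.continuous.integrable_of_hasCompactSupport (HasCompactSupport.of_compactSpace _)

/-- integration over the sphere as a continuous linear functional -/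
def integ (n : ℕ) : CS n →L[ℝ] ℝ :=
  LinearMap.mkContinuous
    { toFun := fun F => ∫ x, F x ∂sig n
      map_add' := fun F G => by
        simpa using integral_add (CS.integrable F) (CS.integrable G)
      map_smul' := fun c F => by simp [integral_const_mul] }
    ((sig n).real Set.univ) (fun F => by
      rw [mul_comm]
      exact norm_integral_le_of_norm_le_const (Filter.Eventually.of_forall fun x => F.norm_coe_le_norm x))

lemma integ_apply (F : CS n) : integ n F = ∫ x, F x ∂sig n := rfl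

/-! ### The space `W n` -/

def Wsub (n : ℕ) : Submodule ℝ (E n → ℝ) where
  carrier := {u | ContDiffOn ℝ ∞ u {0}ᶜ ∧ (∀ c : ℝ, 0 < c → ∀ x, u (c • x) = u x) ∧ u 0 = 0}
  add_mem' := fun {u w} hu hw => ⟨hu.1.add hw.1, fun c hc x => by
    simp [hu.2.1 c hc x, hw.2.1 c hc x], by simp [hu.2.2, hw.2.2]⟩
  zero_mem' := ⟨contDiffOn_const, fun _ _ _ => rfl, rfl⟩
  smul_mem' := fun a u hu => ⟨hu.1.const_smul a, fun c hc x => by
    simp [hu.2.1 c hc x], by simp [hu.2.2]⟩

/-- smooth `0`-homogeneous functions on `ℝⁿ \ 0`, normalised by `u 0 = 0` -/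
def W (n : ℕ) : Type := ↥(Wsub n)

instance : AddCommGroup (W n) := inferInstanceAs (AddCommGroup (Wsub n))
instance : Module ℝ (W n) := inferInstanceAs (Module ℝ (Wsub n))
instance : FunLike (W n) (E n) ℝ where
  coe u := u.1
  coe_injective _ _ h := Subtype.ext h

namespace W
@[ext] lemma ext {u w : W n} (h : ∀ x, u x = w x) : u = w := DFunLike.ext _ _ h
/-- constructor -/
def mk (f : E n → ℝ) (h1 : ContDiffOn ℝ ∞ f {0}ᶜ) (h2 : ∀ c : ℝ, 0 < c → ∀ x, f (c • x) = f x)
    (h3 : f 0 = 0) : W n := ⟨f, h1, h2, h3⟩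
@[simp] lemma mk_apply (f : E n → ℝ) (h1 h2 h3) (x : E n) : mk f h1 h2 h3 x = f x := rfl
@[simp] lemma coe_mk (f : E n → ℝ) (h1 h2 h3) : ⇑(mk f h1 h2 h3) = f := rfl
lemma smooth (u : W n) : ContDiffOn ℝ ∞ u {0}ᶜ := u.2.1
lemma homog (u : W n) {c : ℝ} (hc : 0 < c) (x : E n) : u (c • x) = u x := u.2.2.1 c hc x
@[simp] lemma at_zero (u : W n) : u 0 = 0 := u.2.2.2
@[simp] lemma add_apply (u w : W n) (x : E n) : (u + w) x = u x + w x := rfl
@[simp] lemma smul_apply (c : ℝ) (u : W n) (x : E n) : (c • u) x = c * u x := rfl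
@[simp] lemma zero_apply (x : E n) : (0 : W n) x = 0 := rfl
@[simp] lemma neg_apply (u : W n) (x : E n) : (-u) x = -u x := rfl
@[simp] lemma sub_apply (u w : W n) (x : E n) : (u - w) x = u x - w x := rfl
lemma coe_add (u w : W n) : ⇑(u + w) = ⇑u + ⇑w := rfl
lemma coe_smul (c : ℝ) (u : W n) : ⇑(c • u) = c • ⇑u := rfl
lemma sum_apply {ι : Type*} (s : Finset ι) (f : ι → W n) (x : E n) :
    (∑ i ∈ s, f i) x = ∑ i ∈ s, f i x := by
  classical
  induction s using Finset.induction_on with
  | empty => simp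
  | insert a s ha ih => simp [Finset.sum_insert ha, ih]
lemma contDiffAt (u : W n) {x : E n} (hx : x ≠ 0) : ContDiffAt ℝ ∞ u x :=
  u.smooth.contDiffAt (isOpen_compl_singleton.mem_nhds hx)
lemma differentiableAt (u : W n) {x : E n} (hx : x ≠ 0) : DifferentiableAt ℝ u x :=
  (u.contDiffAt hx).differentiableAt (by simp)
lemma smooth_fderiv (u : W n) : ContDiffOn ℝ ∞ (fderiv ℝ u) {0}ᶜ :=
  u.smooth.fderiv_of_isOpen isOpen_compl_singleton (by simp)
lemma contDiffAt_fderiv (u : W n) {x : E n} (hx : x ≠ 0) : ContDiffAt ℝ ∞ (fderiv ℝ u) x :=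
  u.smooth_fderiv.contDiffAt (isOpen_compl_singleton.mem_nhds hx)
lemma smooth_fderiv2 (u : W n) : ContDiffOn ℝ ∞ (fderiv ℝ (fderiv ℝ u)) {0}ᶜ :=
  u.smooth_fderiv.fderiv_of_isOpen isOpen_compl_singleton (by simp)
/-- the derivative is `(-1)`-homogeneous -/
lemma fderiv_homog (u : W n) {c : ℝ} (hc : 0 < c) (x : E n) :
    c • fderiv ℝ u (c • x) = fderiv ℝ u x := by
  have h : (fun y => u (c • y)) = u := funext fun y => u.homog hc y
  rw [← fderiv_comp_smul (𝕜 := ℝ) (f := u) c, h]
lemma fderiv_add' (u w : W n) {x : E n} (hx : x ≠ 0) :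
    fderiv ℝ (u + w : W n) x = fderiv ℝ u x + fderiv ℝ w x :=
  fderiv_add (u.differentiableAt hx) (w.differentiableAt hx)
lemma fderiv_smul' (c : ℝ) (u : W n) {x : E n} (hx : x ≠ 0) :
    fderiv ℝ (c • u : W n) x = c • fderiv ℝ u x :=
  fderiv_const_smul (u.differentiableAt hx) c
end W

lemma contOn_sphere {F : Type*} [TopologicalSpace F] {f : E n → F} (h : ContinuousOn f {0}ᶜ) :
    Continuous fun x : Sp n => f x :=
  h.comp_continuous continuous_subtype_val fun x => Sp.ne_zero x

/-- restriction to the unit sphere -/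
def res : W n →ₗ[ℝ] CS n where
  toFun u := ⟨fun x => u x, contOn_sphere u.smooth.continuousOn⟩
  map_add' _ _ := rfl
  map_smul' _ _ := rfl
@[simp] lemma res_apply (u : W n) (x : Sp n) : res u x = u x := rfl

lemma W.eq_of_sphere {u w : W n} (h : ∀ x : Sp n, u x = w x) : u = w := by
  ext x
  by_cases hx : x = 0
  · simp [hx]
  · have hn : 0 < ‖x‖⁻¹ := inv_pos.2 (norm_pos_iff.2 hx)
    have := h ⟨‖x‖⁻¹ • x, by simp [norm_smul, hx]⟩
    simpa [u.homog hn, w.homog hn] using this

lemma res_injective : Function.Injective (res : W n → CS n) := fun _ _ h =>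
  W.eq_of_sphere fun x => by simpa using DFunLike.congr_fun h x

/-- first derivative on the unit sphere -/
def d1 : W n →ₗ[ℝ] C(Sp n, E n →L[ℝ] ℝ) where
  toFun u := ⟨fun x => fderiv ℝ u x, contOn_sphere u.smooth_fderiv.continuousOn⟩
  map_add' u w := by ext1 x; exact W.fderiv_add' u w (Sp.ne_zero x)
  map_smul' c u := by ext1 x; exact W.fderiv_smul' c u (Sp.ne_zero x)
@[simp] lemma d1_apply (u : W n) (x : Sp n) : d1 u x = fderiv ℝ u x := rfl

/-- second derivative on the unit sphere -/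
def d2 : W n →ₗ[ℝ] C(Sp n, E n →L[ℝ] E n →L[ℝ] ℝ) where
  toFun u := ⟨fun x => fderiv ℝ (fderiv ℝ u) x, contOn_sphere u.smooth_fderiv2.continuousOn⟩
  map_add' u w := by
    ext1 x
    have hx := Sp.ne_zero x
    have h : fderiv ℝ (u + w : W n) =ᶠ[nhds (x : E n)] fderiv ℝ u + fderiv ℝ w := by
      filter_upwards [isOpen_compl_singleton.mem_nhds hx] with y hy
      exact W.fderiv_add' u w hy
    change fderiv ℝ (fderiv ℝ (u + w : W n)) x = _
    rw [h.fderiv_eq]
    exact fderiv_add ((u.contDiffAt_fderiv hx).differentiableAt (by simp))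
      ((w.contDiffAt_fderiv hx).differentiableAt (by simp))
  map_smul' c u := by
    ext1 x
    have hx := Sp.ne_zero x
    have h : fderiv ℝ (c • u : W n) =ᶠ[nhds (x : E n)] c • fderiv ℝ u := by
      filter_upwards [isOpen_compl_singleton.mem_nhds hx] with y hy
      exact W.fderiv_smul' c u hy
    change fderiv ℝ (fderiv ℝ (c • u : W n)) x = _
    rw [h.fderiv_eq]
    exact fderiv_const_smul ((u.contDiffAt_fderiv hx).differentiableAt (by simp)) c
@[simp] lemma d2_apply (u : W n) (x : Sp n) : d2 u x = fderiv ℝ (fderiv ℝ u) x := rfl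

/-- `i`-th component of the (Euclidean = tangential) gradient on the unit sphere -/
def grad (i : Fin n) : W n →ₗ[ℝ] CS n where
  toFun u := ⟨fun x => fderiv ℝ u x (EuclideanSpace.single i 1),
    (d1 u).continuous.clm_apply continuous_const⟩
  map_add' u w := by ext1 x; simp [W.fderiv_add' u w (Sp.ne_zero x)]
  map_smul' c u := by ext1 x; simp [W.fderiv_smul' c u (Sp.ne_zero x)]
@[simp] lemma grad_apply (i : Fin n) (u : W n) (x : Sp n) :
    grad i u x = fderiv ℝ u x (EuclideanSpace.single i 1) := rfl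

/-- the `L²(S)` inner product -/
@[instance_reducible] def wCore (n : ℕ) : InnerProductSpace.Core ℝ (W n) where
  inner u w := integ n (res u * res w)
  conj_inner_symm u w := by simp [mul_comm]
  re_inner_nonneg u := by
    simp only [RCLike.re_to_real, integ_apply]
    exact integral_nonneg fun x => by simpa using mul_self_nonneg _
  add_left u w z := by simp [add_mul]
  smul_left u w r := by simp
  definite u hu := by
    have h0 : ∫ x, (res u * res u) x ∂sig n = 0 := hu
    rw [integral_eq_zero_iff_of_nonneg (fun x => by simpa using mul_self_nonneg _)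
      (CS.integrable _)] at h0
    have h1 := (Continuous.ae_eq_iff_eq (sig n) (res u * res u).continuous continuous_zero).1 h0
    refine W.eq_of_sphere fun x => ?_
    simpa using congrFun h1 x

instance : NormedAddCommGroup (W n) :=
  { (inferInstance : AddCommGroup (W n)),
    @InnerProductSpace.Core.toNormedAddCommGroup ℝ (W n) _ _ _ (wCore n) with }
instance : NormedSpace ℝ (W n) :=
  { (inferInstance : Module ℝ (W n)) with
    norm_smul_le := (InnerProductSpace.ofCore (wCore n).toCore).toNormedSpace.norm_smul_le }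
instance : InnerProductSpace ℝ (W n) :=
  { (inferInstance : NormedSpace ℝ (W n)) with
    inner := fun u w => integ n (res u * res w)
    norm_sq_eq_re_inner := (InnerProductSpace.ofCore (wCore n).toCore).norm_sq_eq_re_inner
    conj_inner_symm := (wCore n).conj_inner_symm
    add_left := (wCore n).add_left
    smul_left := (wCore n).smul_left }

lemma inner_W (u w : W n) : ⟪u, w⟫ = integ n (res u * res w) := rfl

/-- pointwise product -/
def mulW (u w : W n) : W n := W.mk (fun x => u x * w x) (u.smooth.mul w.smooth)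
  (fun c hc x => by simp [u.homog hc, w.homog hc]) (by simp)
@[simp] lemma mulW_apply (u w : W n) (x : E n) : mulW u w x = u x * w x := rfl

/-- derivative along the linear vector field `x ↦ Ξ x` -/
def Lv (Ξ : E n →L[ℝ] E n) : W n →ₗ[ℝ] W n where
  toFun u := W.mk (fun x => fderiv ℝ u x (Ξ x))
    (u.smooth_fderiv.clm_apply Ξ.contDiff.contDiffOn)
    (fun c hc x => by
      rw [← u.fderiv_homog hc x]; simp) (by simp)
  map_add' u w := W.eq_of_sphere fun x => by simp [W.fderiv_add' u w (Sp.ne_zero x)]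
  map_smul' c u := W.eq_of_sphere fun x => by simp [W.fderiv_smul' c u (Sp.ne_zero x)]
@[simp] lemma Lv_apply (Ξ : E n →L[ℝ] E n) (u : W n) (x : E n) :
    Lv Ξ u x = fderiv ℝ u x (Ξ x) := rfl

/-- infinitesimal rotation `x ↦ ⟪e,x⟫ e' - ⟪e',x⟫ e` -/
def gen (e e' : E n) : E n →L[ℝ] E n :=
  (innerSL ℝ e).smulRight e' - (innerSL ℝ e').smulRight e
@[simp] lemma gen_apply (e e' x : E n) : gen e e' x = ⟪e, x⟫ • e' - ⟪e', x⟫ • e := by
  simp [gen]

/-- coordinate rotation fields `L_{ij} = x_i ∂_j - x_j ∂_i` -/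
def Lij (i j : Fin n) : W n →ₗ[ℝ] W n :=
  Lv (gen (EuclideanSpace.single i 1) (EuclideanSpace.single j 1))

/-- a word in the `L_{ij}` (head of the list applied last) -/
def Lw : List (Fin n × Fin n) → W n → W n
  | [], u => u
  | I :: w, u => Lij I.1 I.2 (Lw w u)

/-- an oriented plane: an orthonormal pair -/
structure Plane (n : ℕ) where
  e : E n
  e' : E n
  he : ‖e‖ = 1
  he' : ‖e'‖ = 1
  orth : ⟪e, e'⟫ = 0

/-- coordinate plane -/
def Plane.coord (i j : Fin n) (h : i ≠ j) : Plane n :=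
  ⟨EuclideanSpace.single i 1, EuclideanSpace.single j 1, by simp, by simp, by
    simp [EuclideanSpace.inner_single_left, h]⟩

/-- generator and derivative operator of a plane -/
def Plane.gen (π : Plane n) : E n →L[ℝ] E n := R202.gen π.e π.e'
def Plane.L (π : Plane n) : W n →ₗ[ℝ] W n := Lv π.gen

def rotL (π : Plane n) (s : ℝ) : E n →ₗ[ℝ] E n where
  toFun x := x + (Real.cos s - 1) • (⟪π.e, x⟫ • π.e + ⟪π.e', x⟫ • π.e') + Real.sin s • π.gen x
  map_add' x y := by simp only [inner_add_right, map_add]; module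
  map_smul' c x := by simp only [inner_smul_right, map_smul, RingHom.id_apply]; module

lemma rotL_norm (π : Plane n) (s : ℝ) (x : E n) : ‖rotL π s x‖ = ‖x‖ := by
  have h1 : ⟪π.e, π.e⟫ = 1 := by rw [real_inner_self_eq_norm_sq, π.he]; norm_num
  have h2 : ⟪π.e', π.e'⟫ = 1 := by rw [real_inner_self_eq_norm_sq, π.he']; norm_num
  have h3 := π.orth
  have h4 : ⟪π.e', π.e⟫ = 0 := by rw [real_inner_comm]; exact h3
  have h5 : ⟪x, π.e⟫ = ⟪π.e, x⟫ := real_inner_comm _ _
  have h6 : ⟪x, π.e'⟫ = ⟪π.e', x⟫ := real_inner_comm _ _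
  have h : ⟪rotL π s x, rotL π s x⟫ = ⟪x, x⟫ := by
    change ⟪x + (Real.cos s - 1) • (⟪π.e, x⟫ • π.e + ⟪π.e', x⟫ • π.e') + Real.sin s • π.gen x,
      x + (Real.cos s - 1) • (⟪π.e, x⟫ • π.e + ⟪π.e', x⟫ • π.e') + Real.sin s • π.gen x⟫ = _
    simp only [Plane.gen, gen_apply, inner_add_left, inner_add_right, inner_sub_left, inner_sub_right,
      real_inner_smul_left, real_inner_smul_right, h1, h2, h3, h4, h5, h6]
    linear_combination (⟪π.e, x⟫ ^ 2 + ⟪π.e', x⟫ ^ 2) * Real.sin_sq_add_cos_sq s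
  rw [real_inner_self_eq_norm_sq, real_inner_self_eq_norm_sq] at h
  exact (sq_eq_sq₀ (norm_nonneg _) (norm_nonneg _)).1 h

/-- rotation by the angle `s` in the plane `π` -/
def rot (π : Plane n) (s : ℝ) : E n ≃ₗᵢ[ℝ] E n :=
  LinearIsometry.toLinearIsometryEquiv ⟨rotL π s, rotL_norm π s⟩ rfl
lemma rot_apply (π : Plane n) (s : ℝ) (x : E n) : rot π s x =
    x + (Real.cos s - 1) • (⟪π.e, x⟫ • π.e + ⟪π.e', x⟫ • π.e') + Real.sin s • π.gen x := rfl

/-- reflection `x_i ↦ -x_i` -/
def refl (i : Fin n) : E n ≃ₗᵢ[ℝ] E n :=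
  LinearIsometryEquiv.piLpCongrRight 2 fun j =>
    if j = i then LinearIsometryEquiv.neg ℝ else LinearIsometryEquiv.refl ℝ ℝ
lemma refl_apply (i : Fin n) (x : E n) (j : Fin n) : refl i x j = if j = i then -x j else x j := by
  simp only [refl, LinearIsometryEquiv.piLpCongrRight_apply]
  split_ifs with h <;> simp [h]

/-- action of an isometry on `W n`: `u ↦ u ∘ g` -/
def act (g : E n ≃ₗᵢ[ℝ] E n) : W n →ₗ[ℝ] W n where
  toFun u := W.mk (fun x => u (g x))
    (u.smooth.comp g.contDiff.contDiffOn fun x hx => by simpa using hx)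
    (fun c hc x => by simp [u.homog hc]) (by simp)
  map_add' _ _ := rfl
  map_smul' _ _ := rfl
@[simp] lemma act_apply (g : E n ≃ₗᵢ[ℝ] E n) (u : W n) (x : E n) : act g u x = u (g x) := rfl

def sphMap (g : E n ≃ₗᵢ[ℝ] E n) : C(Sp n, Sp n) :=
  ⟨fun x => ⟨g x, by simp⟩, by fun_prop⟩
@[simp] lemma sphMap_coe (g : E n ≃ₗᵢ[ℝ] E n) (x : Sp n) : (sphMap g x : E n) = g x := rfl

/-- action on continuous functions on the sphere -/
def actC (g : E n ≃ₗᵢ[ℝ] E n) : CS n →L[ℝ] CS n := ContinuousMap.compCLM ℝ ℝ (sphMap g)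
@[simp] lemma actC_apply (g : E n ≃ₗᵢ[ℝ] E n) (F : CS n) (x : Sp n) :
    actC g F x = F (sphMap g x) := rfl

/-! ### Polynomials and levels -/

/-- `x ↦ p(x/|x|)` -/
def toW : MvPolynomial (Fin n) ℝ →ₗ[ℝ] W n where
  toFun p := W.mk (fun x => if x = 0 then 0 else MvPolynomial.eval (fun i => (‖x‖⁻¹ • x) i) p)
    (by
      have h1 : ContDiffOn ℝ ∞ (fun x : E n => ‖x‖⁻¹ • x) {0}ᶜ := fun x hx =>
        ((((contDiffAt_norm ℝ hx).inv (norm_ne_zero_iff.2 hx)).smul contDiffAt_id)).contDiffWithinAt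
      have h2 : ContDiff ℝ ∞ (fun y : E n => MvPolynomial.eval (fun i => y i) p) := by
        induction p using MvPolynomial.induction_on with
        | C a => simpa using contDiff_const
        | add p q hp hq => simpa using hp.add hq
        | mul_X p i hp =>
          simp only [map_mul, MvPolynomial.eval_X]
          exact hp.mul (by fun_prop)
      refine (h2.comp_contDiffOn h1).congr fun x hx => ?_
      have hx' : x ≠ 0 := hx
      simp [hx'])
    (fun c hc x => by
      by_cases hx : x = 0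
      · simp [hx]
      · have : ‖c • x‖⁻¹ • c • x = ‖x‖⁻¹ • x := by
          rw [norm_smul, Real.norm_of_nonneg hc.le, smul_smul]
          congr 1
          field_simp
        simp only [smul_eq_zero, hc.ne', hx, or_self, if_false, this])
    (by simp)
  map_add' p q := W.eq_of_sphere fun x => by simp [Sp.ne_zero x]
  map_smul' c p := W.eq_of_sphere fun x => by simp [Sp.ne_zero x]

lemma toW_apply_sphere (p : MvPolynomial (Fin n) ℝ) (x : Sp n) :
    toW p x = MvPolynomial.eval (fun i => (x : E n) i) p := by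
  change (if (x : E n) = 0 then 0 else _) = _
  simp [Sp.ne_zero x]

lemma toW_apply_of_ne (p : MvPolynomial (Fin n) ℝ) {x : E n} (hx : x ≠ 0) :
    toW p x = MvPolynomial.eval (fun i => (‖x‖⁻¹ • x) i) p := if_neg hx

/-- the constant `1` (off the origin) -/
def oneW : W n := toW 1
@[simp] lemma oneW_sphere (x : Sp n) : (oneW : W n) x = 1 := by simp [oneW, toW_apply_sphere]

/-- restrictions of polynomials -/
def Poly (n : ℕ) : Submodule ℝ (W n) := LinearMap.range toW
/-- restrictions of homogeneous polynomials of degree `l` -/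
def Hom (n l : ℕ) : Submodule ℝ (W n) := (MvPolynomial.homogeneousSubmodule (Fin n) ℝ l).map toW
/-- restrictions of polynomials of degree `< l` -/
def Plt (n l : ℕ) : Submodule ℝ (W n) := ⨆ j : Fin l, Hom n j
/-- level `l` = spherical harmonics of degree `l` -/
def Lev (n l : ℕ) : Submodule ℝ (W n) := Plt n (l + 1) ⊓ (Plt n l)ᗮ

instance (l : ℕ) : FiniteDimensional ℝ (Hom n l) := by
  have h : MvPolynomial.homogeneousSubmodule (Fin n) ℝ l ≤
      MvPolynomial.restrictTotalDegree (Fin n) ℝ l := fun p hp =>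
    (MvPolynomial.mem_restrictTotalDegree _ _ _).2 (MvPolynomial.IsHomogeneous.totalDegree_le hp)
  haveI : FiniteDimensional ℝ (MvPolynomial.homogeneousSubmodule (Fin n) ℝ l) :=
    Submodule.finiteDimensional_of_le h
  unfold Hom; infer_instance
instance (l : ℕ) : FiniteDimensional ℝ (Plt n l) := by unfold Plt; infer_instance
instance (l : ℕ) : FiniteDimensional ℝ (Lev n l) :=
  Submodule.finiteDimensional_of_le (inf_le_left : Lev n l ≤ Plt n (l + 1))
instance (l : ℕ) : CompleteSpace (Plt n l) := FiniteDimensional.complete ℝ _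
instance (l : ℕ) : CompleteSpace (Lev n l) := FiniteDimensional.complete ℝ _

/-- orthogonal projections onto a level and onto `Plt` -/
def lev (l : ℕ) : W n →L[ℝ] W n := (Lev n l).starProjection
def prP (M : ℕ) : W n →L[ℝ] W n := (Plt n M).starProjection
/-- round eigenvalue of level `l` -/
def ev (n l : ℕ) : ℝ := l * (l + n - 2)
/-- number of spherical harmonics of degree `< l` -/
def nl (n l : ℕ) : ℕ := Module.finrank ℝ (Plt n l)
/-- the level of the `i`-th (0-based) round eigenvalue -/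
def levOf (n i : ℕ) : ℕ := sInf {l | i < nl n (l + 1)}
/-- spectral Sobolev norm (squared), on `Plt n M` -/
def sob (M s : ℕ) (u : W n) : ℝ := ∑ l ∈ Finset.range M, (1 + (l : ℝ)) ^ (2 * s) * ‖lev l u‖ ^ 2

/-! ### Matrix fields and forms -/

abbrev X (n : ℕ) := Fin n → Fin n → CS n

/-- `form K u w = ∫_S K(∇u, ∇w)` -/
def form (K : X n) : W n →ₗ[ℝ] W n →ₗ[ℝ] ℝ :=
  LinearMap.mk₂ ℝ (fun u w => integ n (∑ i, ∑ j, K i j * (grad i u * grad j w)))
    (fun u u' w => by simp [add_mul, mul_add, Finset.sum_add_distrib])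
    (fun c u w => by simp [← Finset.smul_sum])
    (fun u w w' => by simp [mul_add, Finset.sum_add_distrib])
    (fun c u w => by simp [← Finset.smul_sum])
lemma form_apply (K : X n) (u w : W n) :
    form K u w = integ n (∑ i, ∑ j, K i j * (grad i u * grad j w)) := rfl

/-- `K ↦ form K u w` as a continuous linear functional -/
def formK (u w : W n) : X n →L[ℝ] ℝ :=
  integ n ∘L ∑ i, ∑ j, ((ContinuousLinearMap.mul ℝ (CS n)).flip (grad i u * grad j w)) ∘L
    (ContinuousLinearMap.proj j ∘L (ContinuousLinearMap.proj i : X n →L[ℝ] (Fin n → CS n)))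
@[simp] lemma formK_apply (u w : W n) (K : X n) : formK u w K = form K u w := by
  simp [formK, form_apply, mul_comm]

/-- value of a matrix field at a point, and the gradient vector -/
def X.at (K : X n) (x : Sp n) : Matrix (Fin n) (Fin n) ℝ := Matrix.of fun i j => K i j x
def gv (u : W n) (x : Sp n) : Fin n → ℝ := fun i => grad i u x

/-- tangential projector `Π = 1 - x xᵀ` -/
def PiX (n : ℕ) : X n := fun i j =>
  ⟨fun x => (if i = j then 1 else 0) - (x : E n) i * (x : E n) j, by fun_prop⟩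
/-- gradient seminorm `‖∇u‖_{L²}` -/
def gr (u : W n) : ℝ := √(form (PiX n) u u)

/-- matrix entries of an isometry -/
def ent (g : E n ≃ₗᵢ[ℝ] E n) (k i : Fin n) : ℝ := g (EuclideanSpace.single i 1) k

/-- `(g • K)(x) = gᵀ K(g x) g` -/
def actX (g : E n ≃ₗᵢ[ℝ] E n) : X n →L[ℝ] X n :=
  ContinuousLinearMap.pi fun i => ContinuousLinearMap.pi fun j =>
    ∑ k, ∑ l, (ent g k i * ent g l j) • (actC g ∘L
      (ContinuousLinearMap.proj l ∘L (ContinuousLinearMap.proj k : X n →L[ℝ] (Fin n → CS n))))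
lemma actX_apply (g : E n ≃ₗᵢ[ℝ] E n) (K : X n) (i j : Fin n) (x : Sp n) :
    actX g K i j x = ∑ k, ∑ l, ent g k i * ent g l j * K k l (sphMap g x) := by
  simp [actX]

/-- orbit derivatives along the rotation of a plane -/
def orbD (π : Plane n) (j : ℕ) (K : X n) : X n := iteratedDeriv j (fun s => actX (rot π s) K) 0
def OrbSmooth (K : X n) : Prop := ∀ π : Plane n, ContDiff ℝ ∞ fun s => actX (rot π s) K

/-- `det(1+β)^{-1/(n-1)}`, truncated so that it is globally continuous -/
def om (β : Matrix (Fin n) (Fin n) ℝ) : ℝ := (max (1 + β).det (1 / 2)) ^ (-(1 / ((n : ℝ) - 1)))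

lemma continuous_om : Continuous (om : Matrix (Fin n) (Fin n) ℝ → ℝ) := by
  unfold om
  refine Continuous.rpow_const (((continuous_const.add continuous_id).matrix_det).max
    continuous_const) fun β => Or.inl ?_
  exact (lt_of_lt_of_le (by norm_num) (le_max_right _ _)).ne'

lemma X.continuous_at (K : X n) : Continuous K.at :=
  continuous_matrix fun i j => (K i j).continuous

/-- `H(β) = det(1+β)^{-1/(n-1)} (Π + β)` -/
def HX (β : X n) : X n := fun i j =>
  (⟨fun x => om (β.at x), continuous_om.comp β.continuous_at⟩ : CS n) * (PiX n i j + β i j)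
lemma HX_apply (β : X n) (i j : Fin n) (x : Sp n) :
    HX β i j x = om (β.at x) * (PiX n i j x + β i j x) := rfl

/-- the truncation in `om` is inactive -/
def DetOK (β : X n) : Prop := ∀ x, |(1 + β.at x).det - 1| < 1 / 2

/-- admissible radii of the parameter ball -/
def Good (n : ℕ) (ε : ℝ) : Prop :=
  0 < ε ∧ n * ε ≤ 1 / 2 ∧
    ∀ β : Matrix (Fin n) (Fin n) ℝ, (∀ i j, |β i j| ≤ ε) → |(1 + β).det - 1| < 1 / 2

/-! ### The parameter space -/

def Bsub (n : ℕ) : Submodule ℝ (Fin n → Fin n → W n) where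
  carrier := {b | (∀ i j, b i j ∈ Poly n) ∧ (∀ i j, b i j = b j i) ∧
    ∀ i (x : E n), ∑ j, b i j x * x j = 0}
  add_mem' := fun {b c} hb hc => ⟨fun i j => (Poly n).add_mem (hb.1 i j) (hc.1 i j),
    fun i j => by simp [hb.2.1 i j, hc.2.1 i j], fun i x => by
      simp [add_mul, Finset.sum_add_distrib, hb.2.2 i x, hc.2.2 i x]⟩
  zero_mem' := ⟨fun i j => (Poly n).zero_mem, fun _ _ => rfl, fun i x => by simp⟩
  smul_mem' := fun a b hb => ⟨fun i j => (Poly n).smul_mem a (hb.1 i j),
    fun i j => by simp [hb.2.1 i j], fun i x => by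
      simp [mul_assoc, ← Finset.mul_sum, hb.2.2 i x]⟩

/-- symmetric tangential polynomial tensors, with the `C²` norm on the unit sphere -/
def BB (n : ℕ) : Type := ↥(Bsub n)
instance : AddCommGroup (BB n) := inferInstanceAs (AddCommGroup (Bsub n))
instance : Module ℝ (BB n) := inferInstanceAs (Module ℝ (Bsub n))

/-- entries -/
def BB.e (b : BB n) (i j : Fin n) : W n := b.1 i j
lemma BB.poly (b : BB n) (i j : Fin n) : b.e i j ∈ Poly n := b.2.1 i j
lemma BB.symm (b : BB n) (i j : Fin n) : b.e i j = b.e j i := b.2.2.1 i j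
lemma BB.tang (b : BB n) (i : Fin n) (x : E n) : ∑ j, b.e i j x * x j = 0 := b.2.2.2 i x
@[simp] lemma BB.e_add (b c : BB n) (i j : Fin n) : (b + c).e i j = b.e i j + c.e i j := rfl
@[simp] lemma BB.e_smul (a : ℝ) (b : BB n) (i j : Fin n) : (a • b).e i j = a • b.e i j := rfl
@[simp] lemma BB.e_zero (i j : Fin n) : (0 : BB n).e i j = 0 := rfl
@[ext] lemma BB.ext {b c : BB n} (h : ∀ i j, b.e i j = c.e i j) : b = c :=
  Subtype.ext (funext fun i => funext fun j => h i j)
def BB.mk (b : Fin n → Fin n → W n) (h1 : ∀ i j, b i j ∈ Poly n) (h2 : ∀ i j, b i j = b j i)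
    (h3 : ∀ i (x : E n), ∑ j, b i j x * x j = 0) : BB n := ⟨b, h1, h2, h3⟩
@[simp] lemma BB.mk_e (b : Fin n → Fin n → W n) (h1 h2 h3) (i j : Fin n) :
    (BB.mk b h1 h2 h3).e i j = b i j := rfl

abbrev Jet (n : ℕ) :=
  Fin n → Fin n → CS n × C(Sp n, E n →L[ℝ] ℝ) × C(Sp n, E n →L[ℝ] E n →L[ℝ] ℝ)

def jetB : BB n →ₗ[ℝ] Jet n where
  toFun b i j := (res (b.e i j), d1 (b.e i j), d2 (b.e i j))
  map_add' b c := by funext i j; simp
  map_smul' a b := by funext i j; simp

lemma jetB_injective : Function.Injective (jetB : BB n → Jet n) := fun _ _ h =>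
  BB.ext fun i j => res_injective (congrArg Prod.fst (congrFun (congrFun h i) j))

instance : NormedAddCommGroup (BB n) :=
  { (inferInstance : AddCommGroup (BB n)),
    NormedAddCommGroup.induced (BB n) (Jet n) jetB jetB_injective with }
instance : NormedSpace ℝ (BB n) :=
  { (inferInstance : Module ℝ (BB n)) with
    norm_smul_le := (NormedSpace.induced ℝ (BB n) (Jet n) jetB).norm_smul_le }
lemma BB.norm_def (b : BB n) : ‖b‖ = ‖jetB b‖ := rfl

lemma BB.jet_le (b : BB n) (i j : Fin n) : ‖jetB b i j‖ ≤ ‖b‖ :=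
  (norm_le_pi_norm (jetB b i) j).trans (norm_le_pi_norm (jetB b) i)
lemma BB.abs_le (b : BB n) (i j : Fin n) (x : Sp n) : |b.e i j x| ≤ ‖b‖ :=
  ((res (b.e i j)).norm_coe_le_norm x).trans ((norm_fst_le (jetB b i j)).trans (b.jet_le i j))
lemma BB.d1_le (b : BB n) (i j : Fin n) (x : Sp n) : ‖fderiv ℝ (b.e i j) x‖ ≤ ‖b‖ :=
  ((d1 (b.e i j)).norm_coe_le_norm x).trans (((norm_fst_le (jetB b i j).2).trans
    (norm_snd_le (jetB b i j))).trans (b.jet_le i j))
lemma BB.d2_le (b : BB n) (i j : Fin n) (x : Sp n) : ‖fderiv ℝ (fderiv ℝ (b.e i j)) x‖ ≤ ‖b‖ :=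
  ((d2 (b.e i j)).norm_coe_le_norm x).trans (((norm_snd_le (jetB b i j).2).trans
    (norm_snd_le (jetB b i j))).trans (b.jet_le i j))

/-- the tensor as a continuous matrix field on the sphere -/
def iota : BB n →L[ℝ] X n :=
  LinearMap.mkContinuous
    { toFun := fun b i j => res (b.e i j)
      map_add' := fun b c => by funext i j; simp
      map_smul' := fun a b => by funext i j; simp } 1
    (fun b => by
      rw [one_mul]
      refine (pi_norm_le_iff_of_nonneg (norm_nonneg _)).2 fun i =>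
        (pi_norm_le_iff_of_nonneg (norm_nonneg _)).2 fun j => ?_
      exact (norm_fst_le (jetB b i j)).trans (b.jet_le i j))
@[simp] lemma iota_apply (b : BB n) (i j : Fin n) (x : Sp n) : iota b i j x = b.e i j x := rfl

/-- the quadratic form of the parameter `b`, and its derivative in `b` -/
def aB (b : BB n) : W n →ₗ[ℝ] W n →ₗ[ℝ] ℝ := form (HX (iota b))
def daB (b : BB n) : BB n →ₗ[ℝ] W n →ₗ[ℝ] W n →ₗ[ℝ] ℝ where
  toFun v := form (fderiv ℝ HX (iota b) (iota v))
  map_add' v v' := by ext u w; simp [← formK_apply]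
  map_smul' c v := by ext u w; simp [← formK_apply]

/-- sign of a coordinate under `refl i` -/
def sg (i j : Fin n) : ℝ := if j = i then -1 else 1

lemma act_refl_poly (i : Fin n) {u : W n} (hu : u ∈ Poly n) : act (refl i) u ∈ Poly n := by
  obtain ⟨p, rfl⟩ := hu
  refine ⟨MvPolynomial.aeval (fun j => MvPolynomial.C (sg i j) * MvPolynomial.X j) p,
    W.eq_of_sphere fun x => ?_⟩
  have := toW_apply_sphere p (sphMap (refl i) x)
  rw [act_apply, toW_apply_sphere]
  simp only [sphMap_coe] at this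
  rw [this, MvPolynomial.aeval_eq_bind₁]
  change MvPolynomial.eval₂Hom (RingHom.id ℝ) _ _ = MvPolynomial.eval₂Hom (RingHom.id ℝ) _ _
  rw [MvPolynomial.eval₂Hom_bind₁]
  congr 2
  funext j
  simp only [sg, refl_apply]
  split_ifs <;> simp

/-- action of the reflection `refl i` on tensors -/
def reflB (i : Fin n) : BB n →ₗ[ℝ] BB n where
  toFun b := BB.mk (fun j k => (sg i j * sg i k) • act (refl i) (b.e j k))
    (fun j k => (Poly n).smul_mem _ (act_refl_poly i (b.poly j k)))
    (fun j k => by rw [b.symm j k, mul_comm])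
    (fun j x => by
      have := b.tang j (refl i x)
      have h2 : ∀ k, (sg i j * sg i k) * b.e j k (refl i x) * x k =
          sg i j * (b.e j k (refl i x) * refl i x k) := fun k => by
        rw [refl_apply]; unfold sg; split_ifs <;> ring
      simp only [W.smul_apply, act_apply, h2, ← Finset.mul_sum, this, mul_zero])
  map_add' b c := by ext j k x; simp [mul_add]
  map_smul' a b := by ext j k x; simp; ring

/-! ### Galerkin operators -/

/-- the Galerkin space `Plt n M` as a type (a synonym, so that `rw`/`simp` with the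
`inner_smul` lemmas work) -/
def PM (n M : ℕ) : Type := ↥(Plt n M)
instance (M : ℕ) : NormedAddCommGroup (PM n M) := inferInstanceAs (NormedAddCommGroup (Plt n M))
instance (M : ℕ) : InnerProductSpace ℝ (PM n M) := inferInstanceAs (InnerProductSpace ℝ (Plt n M))
instance (M : ℕ) : FiniteDimensional ℝ (PM n M) := inferInstanceAs (FiniteDimensional ℝ (Plt n M))
instance (M : ℕ) : CompleteSpace (PM n M) := FiniteDimensional.complete ℝ _
/-- the inclusion -/
def incl (M : ℕ) : PM n M →ₗᵢ[ℝ] W n := (Plt n M).subtypeₗᵢ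
lemma incl_mem {M : ℕ} (u : PM n M) : incl M u ∈ Plt n M := u.2
def PM.mk {M : ℕ} (u : W n) (h : u ∈ Plt n M) : PM n M := ⟨u, h⟩
@[simp] lemma incl_mk {M : ℕ} (u : W n) (h : u ∈ Plt n M) : incl M (PM.mk u h) = u := rfl
lemma finrank_PM (M : ℕ) : Module.finrank ℝ (PM n M) = nl n M := rfl
/-- orthogonal projection onto `PM n M` -/
def toPM (M : ℕ) : W n →L[ℝ] PM n M := (Plt n M).orthogonalProjectionOnto
lemma incl_toPM (M : ℕ) (u : W n) : incl M (toPM M u) = prP M u := rfl
lemma inner_toPM (M : ℕ) (u : W n) (v : PM n M) : ⟪v, toPM M u⟫ = ⟪incl M v, u⟫ :=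
  Submodule.inner_orthogonalProjectionOnto_eq_of_mem_left (K := Plt n M) v u

/-- the operator on `PM n M` with `⟪opA M K u, w⟫ = form K u w` (lemma `inner_opA`) -/
def opA (M : ℕ) : X n →L[ℝ] (PM n M →L[ℝ] PM n M) :=
  ∑ i, ∑ j, (formK (incl M (stdOrthonormalBasis ℝ (PM n M) j))
      (incl M (stdOrthonormalBasis ℝ (PM n M) i))).smulRight
    ((innerSL ℝ (stdOrthonormalBasis ℝ (PM n M) j)).smulRight (stdOrthonormalBasis ℝ (PM n M) i))

lemma inner_opA (M : ℕ) (K : X n) (u w : PM n M) :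
    ⟪opA M K u, w⟫ = form K (incl M u) (incl M w) := by
  set e := stdOrthonormalBasis ℝ (PM n M)
  have hu : incl M u = ∑ j, ⟪e j, u⟫ • incl M (e j) := by
    conv_lhs => rw [← e.sum_repr' u]
    simp
  have hw : incl M w = ∑ i, ⟪e i, w⟫ • incl M (e i) := by
    conv_lhs => rw [← e.sum_repr' w]
    simp
  rw [hu, hw]
  simp only [opA, sum_apply, ContinuousLinearMap.smulRight_apply,
    formK_apply, smul_apply, innerSL_apply_apply, sum_inner,
    real_inner_smul_left, map_sum, map_smul, LinearMap.sum_apply, LinearMap.smul_apply,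
    smul_eq_mul, Finset.mul_sum]
  refine Finset.sum_congr rfl fun i _ => Finset.sum_congr rfl fun j _ => ?_
  ring

/-! ### The metric -/

/-- inverse metric at `x` for `log f = l` and tensor value `β` -/
def Amat (x : E n) (l : ℝ) (β : Matrix (Fin n) (Fin n) ℝ) : Matrix (Fin n) (Fin n) ℝ :=
  Matrix.vecMulVec (fun i => (‖x‖⁻¹ • x) i) (fun i => (‖x‖⁻¹ • x) i) +
    (Real.exp (-2 * l) * om β) •
      (1 + β - Matrix.vecMulVec (fun i => (‖x‖⁻¹ • x) i) (fun i => (‖x‖⁻¹ • x) i))
def bmat (b : BB n) (x : E n) : Matrix (Fin n) (Fin n) ℝ := Matrix.of fun i j => b.e i j x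

/-- the metric `dr² + r² e^{2 l(log r)} h_{b(log r)}` -/
def metric (l : ℝ → ℝ) (b : ℝ → BB n) : MetricField n := fun x =>
  (Amat x (l (Real.log ‖x‖)) (bmat (b (Real.log ‖x‖)) x))⁻¹

/-- locally, the curve is a finite combination with smooth coefficients -/
def LocFin {B : Type*} [AddCommGroup B] [Module ℝ B] (b : ℝ → B) : Prop :=
  ∀ T : ℝ, ∃ (I : ℕ) (c : Fin I → ℝ → ℝ) (v : Fin I → B),
    (∀ k, ContDiff ℝ ∞ (c k)) ∧ ∀ t < T, b t = ∑ k, c k t • v k

/-- admissible data for `metric` -/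
structure Adm (ε : ℝ) (l : ℝ → ℝ) (b : ℝ → BB n) : Prop where
  good : Good n ε
  smooth : ContDiff ℝ ∞ l
  l0 : ∀ t ≤ 0, l t = 0
  b0 : ∀ t ≤ 0, b t = 0
  small : ∀ t, ‖b t‖ < ε
  fin : LocFin b

/-- `u = ϖ ũ` removes the first-order term: `ϖ(t) = exp(-(n-2)t/2 - (n-1) l(t)/2)` -/
def varpi (n : ℕ) (l : ℝ → ℝ) (t : ℝ) : ℝ :=
  Real.exp (-(((n : ℝ) - 2) * t / 2) - ((n : ℝ) - 1) * l t / 2)
/-- `p = n - 2 + (n-1) l'` and `q = p²/4 + p'/2` -/
def pf (n : ℕ) (l : ℝ → ℝ) (t : ℝ) : ℝ := (n : ℝ) - 2 + ((n : ℝ) - 1) * deriv l t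
def qf (n : ℕ) (l : ℝ → ℝ) (t : ℝ) : ℝ := pf n l t ^ 2 / 4 + deriv (pf n l) t / 2
/-- the angular coefficient field `f⁻² H_{b}` -/
def Kf (l : ℝ → ℝ) (b : ℝ → BB n) (t : ℝ) : X n := Real.exp (-2 * l t) • HX (iota (b t))

end Crest.Agent.R202
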