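import Crest.Agent.R202.Dyn1Aux

/-! # Row 202, Dyn1: the Lyapunov form `Qf` -/

set_option autoImplicit false
open scoped RealInnerProductSpace
open Set Filter

noncomputable section
namespace Crest.Agent.R202

/-- **Lyapunov inequality.** Put `C = B - γ²`, `R = (1+B)⁻¹ = Ring.inverse (1+B)` (a unit since `B ≥ q₀ ≥ 0`
in the eigenbasis `φ τ`; differentiate it with `hasFDerivAt_ringInverse`/`HasFDerivAt.comp_hasDerivAt`: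
`R' = -R B' R`), `S = 1/(1+γ²) - R = C R/(1+γ²)`, `y = u' - γ u`.  Then `y' = C u - γ y - γ' u`,
`Q₀ = ⟪Cu,u⟫ - ‖y‖²` has `Q₀' = 2γ Q₀ + 4γ‖y‖² + ⟪C'u,u⟫ + 2γ'⟪y,u⟫`, and `D = ⟪y,Su⟫` has
`D' - 2γ D = ⟪Cu,Su⟫ + ⟪y,Sy⟫ - 2γ⟪y,Su⟫ - γ'⟪u,Su⟫ + ⟪y,S'u⟫`.  In the eigenbasis `‖S‖ ≤ 1`,
`‖Su‖² ≤ ⟪Cu,Su⟫`, `⟪Cu,Su⟫ = Σ Cᵢ²/((1+βᵢ)(1+γ²)) uᵢ² ≥ c₁ Σ (1+βᵢ) uᵢ²` with
`c₁ = (μ/(1+Γ²+μ))²/(1+Γ²)` (because `|Cᵢ|/(1+βᵢ) ≥ μ/(1+Γ²+μ)`), `‖Rx‖² + ⟪BRx,Rx⟫ = ⟪x,Rx⟫ ≤ ‖x‖²`.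
So `Q' - 2γQ ≥ (4γ - δ(1+2Γ²))‖y‖² + (δ c₁/2)(‖u‖²+⟪Bu,u⟫) - O(ε)(…)`; take
`δ = min 1 (2γ₀/(1+2Γ²))` and use `‖u'‖² ≤ 2‖y‖² + 2Γ²‖u‖²`. -/
theorem lyap (γ₀ μ Γ : ℝ) (h₀ : 0 < γ₀) (hμ : 0 < μ) :
    ∃ δ c ε : ℝ, 0 < δ ∧ δ ≤ 1 ∧ 0 < c ∧ 0 < ε ∧
      ∀ {V : Type} [NormedAddCommGroup V] [InnerProductSpace ℝ V] [FiniteDimensional ℝ V] {D : ℕ}
        (B B' : ℝ → V →L[ℝ] V) (φ : ℝ → OrthonormalBasis (Fin D) ℝ V) (β : ℝ → Fin D → ℝ)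
        (q₀ : ℝ), 0 ≤ q₀ → Slow B B' φ β q₀ ε →
        ∀ (q : ℕ) (γ γ' : ℝ → ℝ) (s t : ℝ), Thr β q γ γ' μ Γ ε s t → (∀ τ ∈ Icc s t, γ₀ ≤ γ τ) →
        ∀ u u' : ℝ → V, Sol B u u' → ∀ τ ∈ Icc s t, ∃ Q' : ℝ,
          HasDerivAt (fun σ => Qf (B σ) δ (γ σ) (u σ) (u' σ)) Q' τ ∧
          2 * γ τ * Qf (B τ) δ (γ τ) (u τ) (u' τ) +
            c * (‖u' τ‖ ^ 2 + ‖u τ‖ ^ 2 + ⟪B τ (u τ), u τ⟫) ≤ Q' := by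
  obtain ⟨δ, hδ⟩ : ∃ δ : ℝ, δ = min 1 (2 * γ₀ / (1 + 2 * Γ ^ 2)) := ⟨_, rfl⟩
  obtain ⟨c₁, hc₁⟩ : ∃ c₁ : ℝ, c₁ = (μ / (1 + Γ ^ 2 + μ)) ^ 2 / (1 + Γ ^ 2) := ⟨_, rfl⟩
  have hδ0 : 0 < δ := by rw [hδ]; exact lt_min one_pos (by positivity)
  have hδ1 : δ ≤ 1 := by rw [hδ]; exact min_le_left _ _
  have hδ2 : δ * (1 + 2 * Γ ^ 2) ≤ 2 * γ₀ := by
    rw [← le_div_iff₀ (by positivity), hδ]; exact min_le_right _ _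
  have hc₁0 : 0 < c₁ := by rw [hc₁]; positivity
  obtain ⟨k, hk⟩ : ∃ k : ℝ, k = min γ₀ (δ * c₁ / 4) := ⟨_, rfl⟩
  have hk0 : 0 < k := by rw [hk]; exact lt_min h₀ (by positivity)
  have hk1 : k ≤ γ₀ := by rw [hk]; exact min_le_left _ _
  have hk2 : k ≤ δ * c₁ / 4 := by rw [hk]; exact min_le_right _ _
  obtain ⟨ε, hε⟩ : ∃ ε : ℝ, ε = k / (7 + Γ ^ 2) := ⟨_, rfl⟩
  obtain ⟨c, hc⟩ : ∃ c : ℝ, c = k / (2 * (1 + 2 * Γ ^ 2)) := ⟨_, rfl⟩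
  have hε0 : 0 < ε := by rw [hε]; positivity
  have hc0 : 0 < c := by rw [hc]; positivity
  have hε1 : ε * (7 + Γ ^ 2) = k := by rw [hε]; field_simp
  have hc1 : c * (2 * (1 + 2 * Γ ^ 2)) = k := by rw [hc]; field_simp
  refine ⟨δ, c, ε, hδ0, hδ1, hc0, hε0, ?_⟩
  intro V _ _ _ D B B' φ β q₀ hq₀ hS q γ γ' s t hT hγ₀ u u' hu τ hτ
  have h0 : ∀ i, 0 ≤ β τ i := fun i => hq₀.trans (hS.low τ i)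
  have hB := hS.eig τ
  refine ⟨_, dyn1_hasDerivAt δ (hS.der τ) (dyn1_isUnit hB h0) (hT.der τ hτ) (hu τ).1 (hu τ).2, ?_⟩
  rw [dyn1_dQ_eq hB h0]
  obtain ⟨hγ1, hγ2⟩ := hT.rng τ hτ
  have hγΓ : γ τ ^ 2 ≤ Γ ^ 2 := pow_le_pow_left₀ hγ1 hγ2 2
  have hg : |γ τ * (1 + γ τ ^ 2)⁻¹ ^ 2| ≤ 1 := by
    have h1 := dyn1_inv_le (sq_nonneg (γ τ))
    have h2 := dyn1_inv_pos (sq_nonneg (γ τ))
    have h3 : γ τ * (1 + γ τ ^ 2)⁻¹ ≤ 1 := by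
      rw [← div_eq_mul_inv, div_le_one (by positivity)]
      nlinarith [sq_nonneg (γ τ - 1)]
    rw [abs_of_nonneg (by positivity), pow_two (1 + γ τ ^ 2)⁻¹, ← mul_assoc]
    exact mul_le_one₀ h3 h2.le h1
  have hm := Finset.sum_le_sum fun (i : Fin D) (_ : i ∈ Finset.univ) =>
    dyn1_mode (c₁ := c₁) (dyn1_S_abs (γ := γ τ) (h0 i)) (dyn1_S_sq (h0 i))
      (by
        rw [hc₁]
        refine dyn1_SC (h0 i) hμ hγ1 hγ2 ?_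
        rcases lt_or_ge (i : ℕ) q with h | h
        · exact Or.inl ((hT.gap τ hτ i).1 h)
        · exact Or.inr ((hT.gap τ hτ i).2 h))
      (h0 i) (hγ₀ τ hτ) hγ1 hγ2 hδ0.le hδ1 hδ2 (hT.slow τ hτ) hg
      ⟪φ τ i, u τ⟫ ⟪φ τ i, u' τ - γ τ • u τ⟫
  have hsum : ∑ i, ((2 * γ₀ - 2 * ε) * ⟪φ τ i, u' τ - γ τ • u τ⟫ ^ 2
      + (δ * c₁ / 2 - ε * (4 + Γ ^ 2)) * ((1 + β τ i) * ⟪φ τ i, u τ⟫ ^ 2))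
      = (2 * γ₀ - 2 * ε) * ‖u' τ - γ τ • u τ‖ ^ 2
        + (δ * c₁ / 2 - ε * (4 + Γ ^ 2)) * (‖u τ‖ ^ 2 + ⟪B τ (u τ), u τ⟫) := by
    rw [dyn1_norm_sq (φ τ), dyn1_norm_sq (φ τ), dyn1_BB hB]
    simp only [Finset.mul_sum, ← Finset.sum_add_distrib]
    exact Finset.sum_congr rfl fun i _ => by ring
  rw [hsum] at hm
  have hBu : 0 ≤ ⟪B τ (u τ), u τ⟫ := by
    rw [dyn1_BB hB]
    exact Finset.sum_nonneg fun i _ => mul_nonneg (h0 i) (sq_nonneg _)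
  have e1 := neg_le_of_abs_le (hS.slow τ (u τ) (u τ))
  have e2 : -(ε * (‖u τ‖ ^ 2 + ‖u' τ - γ τ • u τ‖ ^ 2)) ≤
      δ * ⟪B' τ (Ring.inverse (1 + B τ) (u τ)), Ring.inverse (1 + B τ) (u' τ - γ τ • u τ)⟫ := by
    refine neg_le_of_abs_le ?_
    rw [abs_mul, abs_of_pos hδ0]
    refine (mul_le_of_le_one_left (abs_nonneg _) hδ1).trans ((hS.slow τ _ _).trans ?_)
    refine mul_le_mul_of_nonneg_left ?_ hε0.le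
    have h1 := dyn1_R_le hB h0 (u τ)
    have h2 := dyn1_R_le hB h0 (u' τ - γ τ • u τ)
    linarith
  have e3 : ‖u' τ‖ ^ 2 ≤ 2 * ‖u' τ - γ τ • u τ‖ ^ 2 + 2 * Γ ^ 2 * ‖u τ‖ ^ 2 := by
    have h1 : ‖u' τ‖ ≤ ‖u' τ - γ τ • u τ‖ + γ τ * ‖u τ‖ := by
      have h2 := norm_add_le (u' τ - γ τ • u τ) (γ τ • u τ)
      rwa [sub_add_cancel, norm_smul, Real.norm_of_nonneg hγ1] at h2
    have h2 := pow_le_pow_left₀ (norm_nonneg _) h1 2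
    have h3 := mul_le_mul_of_nonneg_right hγΓ (sq_nonneg ‖u τ‖)
    nlinarith [sq_nonneg (‖u' τ - γ τ • u τ‖ - γ τ * ‖u τ‖)]
  have hU := sq_nonneg ‖u τ‖
  have hY := sq_nonneg ‖u' τ - γ τ • u τ‖
  generalize ‖u τ‖ ^ 2 = U at *
  generalize ‖u' τ - γ τ • u τ‖ ^ 2 = Y at *
  generalize ‖u' τ‖ ^ 2 = W at *
  generalize ⟪B τ (u τ), u τ⟫ = P at *
  have hΓ := sq_nonneg Γ
  have f1 : c * W ≤ c * (2 * Y + 2 * Γ ^ 2 * U) := mul_le_mul_of_nonneg_left e3 hc0.le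
  have f2 : (2 * c + 3 * ε) * Y ≤ 2 * γ₀ * Y := by
    refine mul_le_mul_of_nonneg_right ?_ hY
    nlinarith [mul_nonneg hc0.le hΓ, mul_nonneg hε0.le hΓ]
  have f3 : (c * (1 + 2 * Γ ^ 2) + ε * (7 + Γ ^ 2)) * (U + P) ≤ δ * c₁ / 2 * (U + P) := by
    refine mul_le_mul_of_nonneg_right ?_ (by linarith)
    linarith
  have f4 : 0 ≤ c * Γ ^ 2 * P := by positivity
  have f5 : 0 ≤ ε * P := by positivity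
  linarith

variable {V : Type*} [NormedAddCommGroup V] [InnerProductSpace ℝ V] [FiniteDimensional ℝ V] {D : ℕ}

/-- mode by mode: `(β-γ²) - (√β-γ)² + δ(√β-γ)Sᵢ ≥ 0` with `Sᵢ = (β-γ²)/((1+β)(1+γ²)) ≥ 0`. -/
theorem Qf_init {B : V →L[ℝ] V} {φ : OrthonormalBasis (Fin D) ℝ V} {β : Fin D → ℝ}
    (hB : EigB B φ β) {δ γ : ℝ} (hδ : 0 ≤ δ) (hγ : 0 ≤ γ) (hβ : ∀ i, γ ^ 2 ≤ β i) {x y : V}
    (h : Reg0 φ β x y) : 0 ≤ Qf B δ γ x y := by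
  have h0 : ∀ i, 0 ≤ β i := fun i => (sq_nonneg γ).trans (hβ i)
  rw [dyn1_Qf hB h0]
  refine Finset.sum_nonneg fun i _ => ?_
  rw [h i]
  have h1 : γ ≤ √(β i) := Real.le_sqrt_of_sq_le (hβ i)
  have h2 : √(β i) ^ 2 = β i := Real.sq_sqrt (h0 i)
  have h3 : 0 ≤ (1 + γ ^ 2)⁻¹ - (1 + β i)⁻¹ :=
    sub_nonneg.2 (inv_anti₀ (by positivity) (by linarith [hβ i]))
  unfold dyn1_qm
  generalize (1 + γ ^ 2)⁻¹ - (1 + β i)⁻¹ = S at h3 ⊢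
  generalize √(β i) = r at h1 h2 ⊢
  generalize ⟪φ i, x⟫ = a
  rw [← h2]
  have h4 : 0 ≤ (r - γ) * a ^ 2 * (2 * γ + δ * S) :=
    mul_nonneg (mul_nonneg (sub_nonneg.2 h1) (sq_nonneg _)) (by positivity)
  linarith

/-- `Q ≤ ⟪Cx,x⟫ + δ²‖Sx‖²/4 = Σ (Cᵢ + δ²Sᵢ²/4) xᵢ² ≤ 0` as `-γ² ≤ Cᵢ ≤ 0` on the support of `x`. -/
theorem Qf_final {B : V →L[ℝ] V} {φ : OrthonormalBasis (Fin D) ℝ V} {β : Fin D → ℝ}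
    (hB : EigB B φ β) (h0 : ∀ i, 0 ≤ β i) {δ γ : ℝ} (hδ : 0 ≤ δ) (hδ1 : δ ≤ 1) {q : ℕ} {x : V}
    (hβ : ∀ i : Fin D, (i : ℕ) < q → β i ≤ γ ^ 2) (hx : ∀ i : Fin D, q ≤ (i : ℕ) → ⟪φ i, x⟫ = 0)
    (y : V) : Qf B δ γ x y ≤ 0 := by
  rw [dyn1_Qf hB h0]
  refine Finset.sum_nonpos fun i _ => ?_
  unfold dyn1_qm
  rcases lt_or_ge (i : ℕ) q with h | h
  · have h1 := hβ i h
    have h2 := dyn1_S_sq (γ := γ) (h0 i)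
    have h3 := neg_le_of_abs_le (dyn1_S_abs (γ := γ) (h0 i))
    generalize (1 + γ ^ 2)⁻¹ - (1 + β i)⁻¹ = S at h2 h3 ⊢
    generalize ⟪φ i, y⟫ - γ * ⟪φ i, x⟫ = z
    generalize ⟪φ i, x⟫ = a
    have h4 : S ^ 2 ≤ -(β i - γ ^ 2) := by
      nlinarith [mul_nonneg (by linarith : 0 ≤ S + 1) (sub_nonneg.2 h1)]
    have h5 : δ ^ 2 ≤ 1 := pow_le_one₀ hδ hδ1
    have h6 : δ ^ 2 * S ^ 2 ≤ -(β i - γ ^ 2) :=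
      (mul_le_of_le_one_left (sq_nonneg _) h5).trans h4
    have h7 := mul_le_mul_of_nonneg_right h6 (sq_nonneg a)
    nlinarith [sq_nonneg (δ * S * a - z), sq_nonneg z, mul_nonneg (sub_nonneg.2 h1) (sq_nonneg a)]
  · rw [hx i h]
    nlinarith [sq_nonneg (⟪φ i, y⟫ - γ * 0)]

/-- With `F = ‖x‖²`, `P = ⟪x,y⟫`: `0 ≤ Q_{γ₀} - Q_γ = 2(γ²-γ₀²)F - 2(γ-γ₀)P
+ δ[P(γ²-γ₀²)/((1+γ₀²)(1+γ²)) + F(γ-γ₀)(1-γγ₀)/((1+γ²)(1+γ₀²)) - (γ-γ₀)⟪x,Rx⟫]`; divide by `γ-γ₀`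
and use `γ+γ₀ ≤ (1+γ²)(1+γ₀²)`, `⟪x,Rx⟫ ≥ 0`. -/
theorem Qf_diff {B : V →L[ℝ] V} {φ : OrthonormalBasis (Fin D) ℝ V} {β : Fin D → ℝ}
    (hB : EigB B φ β) (h0 : ∀ i, 0 ≤ β i) {δ γ₀ γ : ℝ} (hδ : 0 ≤ δ) (hδ1 : δ ≤ 1) (hγ₀ : 0 ≤ γ₀)
    (hγ : γ₀ < γ) {x y : V} (h1 : 0 ≤ Qf B δ γ₀ x y) (h2 : Qf B δ γ x y ≤ 0) :
    ⟪x, y⟫ ≤ (2 * (γ + γ₀) + 1) * ‖x‖ ^ 2 := by
  have hγ0 : 0 ≤ γ := hγ₀.trans hγ.le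
  obtain ⟨w, hw⟩ : ∃ w : ℝ, w = (1 + γ ^ 2)⁻¹ * (1 + γ₀ ^ 2)⁻¹ := ⟨_, rfl⟩
  have hw0 : 0 ≤ w := by rw [hw]; positivity
  have hw1 : w ≤ 1 := by
    rw [hw]
    exact mul_le_one₀ (dyn1_inv_le (sq_nonneg _)) (by positivity) (dyn1_inv_le (sq_nonneg _))
  have hw2 : (γ + γ₀) * w ≤ 1 := by
    rw [hw, ← mul_inv, ← div_eq_mul_inv, div_le_one (by positivity)]
    nlinarith [sq_nonneg (γ - 1 / 2), sq_nonneg (γ₀ - 1 / 2), sq_nonneg (γ * γ₀)]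
  have hk : δ * ((γ + γ₀) * w) ≤ 1 := mul_le_one₀ hδ1 (by positivity) hw2
  have hm : ∀ i, dyn1_qm (β i) δ γ₀ ⟪φ i, x⟫ ⟪φ i, y⟫ - dyn1_qm (β i) δ γ ⟪φ i, x⟫ ⟪φ i, y⟫
      ≤ (γ - γ₀) * ((2 * (γ + γ₀) + 1) * ⟪φ i, x⟫ ^ 2
        - (2 - δ * ((γ + γ₀) * w)) * (⟪φ i, x⟫ * ⟪φ i, y⟫)) := by
    intro i
    have h3 := dyn1_inv_pos (h0 i)
    unfold dyn1_qm
    generalize (1 + β i)⁻¹ = r at h3 ⊢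
    generalize ⟪φ i, x⟫ = a
    generalize ⟪φ i, y⟫ = b
    have h4 : (β i - γ₀ ^ 2) * a ^ 2 - (b - γ₀ * a) ^ 2 + δ * (((1 + γ₀ ^ 2)⁻¹ - r) * (b - γ₀ * a) * a)
        - ((β i - γ ^ 2) * a ^ 2 - (b - γ * a) ^ 2 + δ * (((1 + γ ^ 2)⁻¹ - r) * (b - γ * a) * a))
        = (γ - γ₀) * ((2 * (γ + γ₀) + δ * ((1 - γ * γ₀) * w - r)) * a ^ 2
          - (2 - δ * ((γ + γ₀) * w)) * (a * b)) := by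
      have h5 : (1 + γ ^ 2) ≠ 0 := by positivity
      have h6 : (1 + γ₀ ^ 2) ≠ 0 := by positivity
      rw [hw]
      field_simp
      ring
    rw [h4]
    refine mul_le_mul_of_nonneg_left (sub_le_sub_right (mul_le_mul_of_nonneg_right ?_
      (sq_nonneg a)) _) (sub_nonneg.2 hγ.le)
    have h5 : (1 - γ * γ₀) * w - r ≤ 1 := by nlinarith [mul_nonneg (mul_nonneg hγ0 hγ₀) hw0]
    have h6 := mul_le_mul_of_nonneg_left h5 hδ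
    linarith
  have h3 : Qf B δ γ₀ x y - Qf B δ γ x y ≤ (γ - γ₀) * ((2 * (γ + γ₀) + 1) * ‖x‖ ^ 2
      - (2 - δ * ((γ + γ₀) * w)) * ⟪x, y⟫) := by
    rw [dyn1_Qf hB h0, dyn1_Qf hB h0, ← Finset.sum_sub_distrib, dyn1_norm_sq φ, dyn1_inner φ x y,
      Finset.mul_sum, Finset.mul_sum, ← Finset.sum_sub_distrib, Finset.mul_sum]
    exact Finset.sum_le_sum fun i _ => hm i
  have h4 : 0 ≤ (2 * (γ + γ₀) + 1) * ‖x‖ ^ 2 - (2 - δ * ((γ + γ₀) * w)) * ⟪x, y⟫ :=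
    (mul_nonneg_iff_of_pos_left (sub_pos.2 hγ)).1 (by linarith)
  rcases le_total ⟪x, y⟫ 0 with h5 | h5
  · exact h5.trans (by positivity)
  · nlinarith [mul_nonneg (sub_nonneg.2 hk) h5]

/-- `‖S‖ ≤ 1`, `‖y-γx‖² ≤ 2‖y‖²+2γ²‖x‖²`. -/
theorem Qf_bound {B : V →L[ℝ] V} {φ : OrthonormalBasis (Fin D) ℝ V} {β : Fin D → ℝ}
    (hB : EigB B φ β) (h0 : ∀ i, 0 ≤ β i) {δ γ Γ : ℝ} (hδ : 0 ≤ δ) (hδ1 : δ ≤ 1) (hγ : 0 ≤ γ)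
    (hΓ : γ ≤ Γ) (x y : V) :
    |Qf B δ γ x y| ≤ (5 + 5 * Γ ^ 2) * (‖y‖ ^ 2 + ‖x‖ ^ 2 + ⟪B x, x⟫) := by
  have hγΓ : γ ^ 2 ≤ Γ ^ 2 := pow_le_pow_left₀ hγ hΓ 2
  rw [dyn1_Qf hB h0, dyn1_norm_sq φ, dyn1_norm_sq φ, dyn1_BB hB, ← Finset.sum_add_distrib,
    ← Finset.sum_add_distrib, Finset.mul_sum]
  refine (Finset.abs_sum_le_sum_abs _ _).trans (Finset.sum_le_sum fun i _ => ?_)
  have h1 : |δ * ((1 + γ ^ 2)⁻¹ - (1 + β i)⁻¹) / 2| ≤ 1 / 2 := by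
    rw [abs_div, abs_mul, abs_of_nonneg hδ, abs_two]
    have := mul_le_one₀ hδ1 (abs_nonneg _) (dyn1_S_abs (γ := γ) (h0 i))
    linarith
  have h2 := h0 i
  unfold dyn1_qm
  generalize (1 + γ ^ 2)⁻¹ - (1 + β i)⁻¹ = S at h1 ⊢
  generalize ⟪φ i, x⟫ = a
  generalize ⟪φ i, y⟫ = b
  have h3 := dyn1_cross h1 a (b - γ * a)
  have h4 := dyn1_cross h1 (-a) (b - γ * a)
  have h5 : (b - γ * a) ^ 2 ≤ 2 * b ^ 2 + 2 * (γ ^ 2 * a ^ 2) := by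
    nlinarith [sq_nonneg (b + γ * a)]
  have h6 : γ ^ 2 * a ^ 2 ≤ Γ ^ 2 * a ^ 2 := mul_le_mul_of_nonneg_right hγΓ (sq_nonneg a)
  have h7 : 0 ≤ β i * a ^ 2 := by positivity
  have h8 : 0 ≤ Γ ^ 2 * (β i * a ^ 2) := by positivity
  have h9 : 0 ≤ Γ ^ 2 * b ^ 2 := by positivity
  have h10 : 0 ≤ γ ^ 2 * a ^ 2 := by positivity
  have h11 := sq_nonneg a
  have h12 := sq_nonneg b
  have h13 := sq_nonneg (b - γ * a)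
  rw [abs_le]
  constructor <;> nlinarith

end Crest.Agent.R202
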