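import Crest.Agent.R202.GDefs

/-! # Row 202, Dyn1Aux: coordinates in the eigenbasis and scalar inequalities for `Qf` -/

set_option autoImplicit false
set_option linter.unusedSectionVars false
set_option linter.unusedVariables false
open scoped RealInnerProductSpace
open Set Filter

noncomputable section
namespace Crest.Agent.R202

/-! ### scalar facts -/

theorem dyn1_S_eq {β γ : ℝ} (hβ : 0 ≤ β) :
    (1 + γ ^ 2)⁻¹ - (1 + β)⁻¹ = (β - γ ^ 2) * ((1 + β)⁻¹ * (1 + γ ^ 2)⁻¹) := by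
  have h1 : (1 + β) ≠ 0 := by positivity
  have h2 : (1 + γ ^ 2) ≠ 0 := by positivity
  field_simp
  ring

theorem dyn1_inv_le {β : ℝ} (hβ : 0 ≤ β) : (1 + β)⁻¹ ≤ 1 :=
  inv_le_one_of_one_le₀ (by linarith)

theorem dyn1_inv_pos {β : ℝ} (hβ : 0 ≤ β) : 0 < (1 + β)⁻¹ := by positivity

theorem dyn1_S_abs {β γ : ℝ} (hβ : 0 ≤ β) : |(1 + γ ^ 2)⁻¹ - (1 + β)⁻¹| ≤ 1 := by
  have h1 := dyn1_inv_le hβ
  have h2 := dyn1_inv_pos hβ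
  have h3 := dyn1_inv_le (sq_nonneg γ)
  have h4 := dyn1_inv_pos (sq_nonneg γ)
  rw [abs_le]
  constructor <;> linarith

theorem dyn1_S_sq {β γ : ℝ} (hβ : 0 ≤ β) :
    ((1 + γ ^ 2)⁻¹ - (1 + β)⁻¹) ^ 2 ≤ ((1 + γ ^ 2)⁻¹ - (1 + β)⁻¹) * (β - γ ^ 2) := by
  rw [dyn1_S_eq hβ]
  have h1 := dyn1_inv_le hβ
  have h2 := dyn1_inv_pos hβ
  have h3 := dyn1_inv_le (sq_nonneg γ)
  have h4 := dyn1_inv_pos (sq_nonneg γ)
  obtain ⟨w, hw⟩ : ∃ w, w = (1 + β)⁻¹ * (1 + γ ^ 2)⁻¹ := ⟨_, rfl⟩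
  have h5 : 0 ≤ w := by rw [hw]; positivity
  have h6 : w ≤ 1 := by rw [hw]; exact mul_le_one₀ h1 h4.le h3
  rw [← hw]
  have h7 : 0 ≤ (β - γ ^ 2) ^ 2 * (w * (1 - w)) :=
    mul_nonneg (sq_nonneg _) (mul_nonneg h5 (by linarith))
  nlinarith [h7]

theorem dyn1_SC {β γ μ Γ : ℝ} (hβ : 0 ≤ β) (hμ : 0 < μ) (hγ : 0 ≤ γ) (hΓ : γ ≤ Γ)
    (hgap : β ≤ γ ^ 2 - μ ∨ γ ^ 2 + μ ≤ β) :
    (μ / (1 + Γ ^ 2 + μ)) ^ 2 / (1 + Γ ^ 2) * (1 + β)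
      ≤ ((1 + γ ^ 2)⁻¹ - (1 + β)⁻¹) * (β - γ ^ 2) := by
  have hγΓ : γ ^ 2 ≤ Γ ^ 2 := pow_le_pow_left₀ hγ hΓ 2
  have hd : 0 < 1 + Γ ^ 2 + μ := by positivity
  obtain ⟨m, hm⟩ : ∃ m, m = μ / (1 + Γ ^ 2 + μ) := ⟨_, rfl⟩
  have hm0 : 0 ≤ m := by rw [hm]; positivity
  have h1 : m * (1 + β) ≤ |β - γ ^ 2| := by
    rw [hm, div_mul_eq_mul_div, div_le_iff₀ hd]
    rcases hgap with h | h
    · rw [abs_of_nonpos (by linarith)]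
      have h2 : μ * (1 + β) ≤ μ * (1 + Γ ^ 2 + μ) :=
        mul_le_mul_of_nonneg_left (by linarith) hμ.le
      have h3 : μ * (1 + Γ ^ 2 + μ) ≤ -(β - γ ^ 2) * (1 + Γ ^ 2 + μ) :=
        mul_le_mul_of_nonneg_right (by linarith) hd.le
      linarith
    · rw [abs_of_nonneg (by linarith)]
      have h2 : μ * (1 + γ ^ 2) ≤ (β - γ ^ 2) * (1 + Γ ^ 2) :=
        mul_le_mul (by linarith) (by linarith) (by positivity) (by linarith)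
      nlinarith [h2]
  have h2 : (m * (1 + β)) ^ 2 ≤ (β - γ ^ 2) ^ 2 := by
    rw [← sq_abs (β - γ ^ 2)]
    exact pow_le_pow_left₀ (by positivity) h1 2
  rw [← hm, dyn1_S_eq hβ]
  have h3 : (1 + Γ ^ 2)⁻¹ ≤ (1 + γ ^ 2)⁻¹ := inv_anti₀ (by positivity) (by linarith)
  have h4 : (1 + β) ≠ 0 := by positivity
  calc m ^ 2 / (1 + Γ ^ 2) * (1 + β) = (m * (1 + β)) ^ 2 * ((1 + β)⁻¹ * (1 + Γ ^ 2)⁻¹) := by
        field_simp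
    _ ≤ (β - γ ^ 2) ^ 2 * ((1 + β)⁻¹ * (1 + γ ^ 2)⁻¹) :=
        mul_le_mul h2 (mul_le_mul_of_nonneg_left h3 (dyn1_inv_pos hβ).le) (by positivity)
          (sq_nonneg _)
    _ = _ := by ring

theorem dyn1_cross {k ε : ℝ} (hk : |k| ≤ ε) (a z : ℝ) : -(ε * (a ^ 2 + z ^ 2)) ≤ 2 * k * a * z := by
  obtain ⟨h1, h2⟩ := abs_le.1 hk
  nlinarith [mul_nonneg (sub_nonneg.2 h2) (sq_nonneg (a - z)),
    mul_nonneg (by linarith : 0 ≤ ε + k) (sq_nonneg (a + z))]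

theorem dyn1_mode {γ₀ Γ δ c₁ ε β γ γ' S g : ℝ} (hS : |S| ≤ 1) (hSC : S ^ 2 ≤ S * (β - γ ^ 2))
    (hc₁ : c₁ * (1 + β) ≤ S * (β - γ ^ 2)) (hβ : 0 ≤ β) (hγ₀ : γ₀ ≤ γ) (hγ : 0 ≤ γ) (hΓ : γ ≤ Γ)
    (hδ0 : 0 ≤ δ) (hδ1 : δ ≤ 1) (hδ : δ * (1 + 2 * Γ ^ 2) ≤ 2 * γ₀) (hγ' : |γ'| ≤ ε)
    (hg : |γ * g ^ 2| ≤ 1) (a z : ℝ) :
    (2 * γ₀ - 2 * ε) * z ^ 2 + (δ * c₁ / 2 - ε * (4 + Γ ^ 2)) * ((1 + β) * a ^ 2)
      ≤ 4 * γ * z ^ 2 + δ * (S * (β - γ ^ 2) * a ^ 2 + S * z ^ 2 - 2 * γ * S * z * a)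
        - 2 * γ * γ' * a ^ 2 + 2 * γ' * a * z - δ * γ' * S * a ^ 2
        - 2 * δ * γ * γ' * g ^ 2 * z * a := by
  have hε : 0 ≤ ε := (abs_nonneg _).trans hγ'
  have hγΓ : γ ^ 2 ≤ Γ ^ 2 := pow_le_pow_left₀ hγ hΓ 2
  have ha := sq_nonneg a
  have hz := sq_nonneg z
  have e1 : 2 * γ * γ' * a ^ 2 ≤ ε * (1 + Γ ^ 2) * a ^ 2 := by
    refine mul_le_mul_of_nonneg_right ?_ ha
    have h1 : γ * γ' ≤ γ * ε := mul_le_mul_of_nonneg_left (le_of_abs_le hγ') hγ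
    have h2 : ε * (2 * γ) ≤ ε * (1 + Γ ^ 2) :=
      mul_le_mul_of_nonneg_left (by nlinarith [sq_nonneg (γ - 1)]) hε
    linarith
  have e2 := dyn1_cross hγ' a z
  have hδγ : |δ * γ'| ≤ ε := by
    rw [abs_mul, abs_of_nonneg hδ0]
    exact (mul_le_of_le_one_left (abs_nonneg _) hδ1).trans hγ'
  have e3 : δ * γ' * S * a ^ 2 ≤ ε * a ^ 2 := by
    refine mul_le_mul_of_nonneg_right ((le_abs_self _).trans ?_) ha
    rw [abs_mul]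
    exact (mul_le_of_le_one_right (abs_nonneg _) hS).trans hδγ
  have e4 : -(ε * (a ^ 2 + z ^ 2)) ≤ 2 * (-(δ * γ' * (γ * g ^ 2))) * a * z := by
    refine dyn1_cross ?_ a z
    rw [abs_neg, abs_mul]
    exact (mul_le_of_le_one_right (abs_nonneg _) hg).trans hδγ
  have m1 : -z ^ 2 ≤ S * z ^ 2 := by
    have := mul_le_mul_of_nonneg_right (neg_le_of_abs_le hS) hz
    linarith
  have m2 : 2 * γ * S * z * a ≤ S * (β - γ ^ 2) * a ^ 2 / 2 + 2 * Γ ^ 2 * z ^ 2 := by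
    have h1 := mul_le_mul_of_nonneg_right hSC ha
    have h2 := mul_le_mul_of_nonneg_right hγΓ hz
    nlinarith [sq_nonneg (S * a - 2 * γ * z)]
  have m3 : c₁ * (1 + β) * a ^ 2 ≤ S * (β - γ ^ 2) * a ^ 2 := mul_le_mul_of_nonneg_right hc₁ ha
  have m4 : δ * (c₁ * (1 + β) * a ^ 2 / 2 - (1 + 2 * Γ ^ 2) * z ^ 2)
      ≤ δ * (S * (β - γ ^ 2) * a ^ 2 + S * z ^ 2 - 2 * γ * S * z * a) :=
    mul_le_mul_of_nonneg_left (by linarith) hδ0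
  have m5 := mul_le_mul_of_nonneg_right hδ hz
  have m6 := mul_le_mul_of_nonneg_right hγ₀ hz
  have m7 : 0 ≤ ε * (4 + Γ ^ 2) * (β * a ^ 2) := by positivity
  nlinarith [m4, m5, m6, m7, e1, e2, e3, e4]

/-- the contribution of one mode to `Qf` -/
def dyn1_qm (β δ γ a b : ℝ) : ℝ :=
  (β - γ ^ 2) * a ^ 2 - (b - γ * a) ^ 2 + δ * (((1 + γ ^ 2)⁻¹ - (1 + β)⁻¹) * (b - γ * a) * a)

/-! ### coordinates -/

variable {V : Type*} [NormedAddCommGroup V] [InnerProductSpace ℝ V] [FiniteDimensional ℝ V] {D : ℕ}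
  {B : V →L[ℝ] V} {φ : OrthonormalBasis (Fin D) ℝ V} {β : Fin D → ℝ}

theorem dyn1_inner (φ : OrthonormalBasis (Fin D) ℝ V) (x y : V) :
    ⟪x, y⟫ = ∑ i, ⟪φ i, x⟫ * ⟪φ i, y⟫ := by
  rw [← φ.sum_inner_mul_inner x y]
  exact Finset.sum_congr rfl fun i _ => by rw [real_inner_comm]

theorem dyn1_norm_sq (φ : OrthonormalBasis (Fin D) ℝ V) (x : V) :
    ‖x‖ ^ 2 = ∑ i, ⟪φ i, x⟫ ^ 2 := by
  rw [← real_inner_self_eq_norm_sq, dyn1_inner φ]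
  exact Finset.sum_congr rfl fun i _ => by ring

theorem dyn1_B (hB : EigB B φ β) (i : Fin D) (x : V) : ⟪φ i, B x⟫ = β i * ⟪φ i, x⟫ := by
  conv_lhs => rw [← φ.sum_repr' x]
  simp only [map_sum, map_smul, hB.2, inner_sum, real_inner_smul_right, φ.inner_eq_ite]
  rw [Finset.sum_eq_single i (fun j _ hj => by simp [Ne.symm hj]) (by simp)]
  simp [mul_comm]

theorem dyn1_eq_zero {x : V} (h : ∀ i, ⟪φ i, x⟫ = 0) : x = 0 := by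
  rw [← φ.sum_repr' x]
  simp [h]

theorem dyn1_isUnit (hB : EigB B φ β) (h0 : ∀ i, 0 ≤ β i) : IsUnit (1 + B) := by
  have : CompleteSpace V := FiniteDimensional.complete ℝ V
  rw [ContinuousLinearMap.isUnit_iff_isUnit_toLinearMap, LinearMap.isUnit_iff_ker_eq_bot,
    LinearMap.ker_eq_bot']
  intro x hx
  refine dyn1_eq_zero (φ := φ) fun i => ?_
  have h1 : x + B x = 0 := hx
  have h2 : ⟪φ i, x + B x⟫ = 0 := by rw [h1, inner_zero_right]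
  rw [inner_add_right, dyn1_B hB] at h2
  have h3 : (1 + β i) * ⟪φ i, x⟫ = 0 := by linarith
  have h4 : (1 + β i) ≠ 0 := by have := h0 i; positivity
  exact (mul_eq_zero.1 h3).resolve_left h4

theorem dyn1_R (hB : EigB B φ β) (h0 : ∀ i, 0 ≤ β i) (i : Fin D) (x : V) :
    ⟪φ i, Ring.inverse (1 + B) x⟫ = (1 + β i)⁻¹ * ⟪φ i, x⟫ := by
  have h1 := Ring.mul_inverse_cancel _ (dyn1_isUnit hB h0)
  have h2 : Ring.inverse (1 + B) x + B (Ring.inverse (1 + B) x) = x :=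
    congrArg (fun T : V →L[ℝ] V => T x) h1
  have h3 := congrArg (fun y => ⟪φ i, y⟫) h2
  simp only [inner_add_right, dyn1_B hB] at h3
  have h4 : (1 + β i) ≠ 0 := by have := h0 i; positivity
  rw [← h3]
  field_simp

theorem dyn1_Qf (hB : EigB B φ β) (h0 : ∀ i, 0 ≤ β i) (δ γ : ℝ) (x y : V) :
    Qf B δ γ x y = ∑ i, dyn1_qm (β i) δ γ ⟪φ i, x⟫ ⟪φ i, y⟫ := by
  unfold Qf dyn1_qm
  rw [dyn1_inner φ (B x) x, dyn1_norm_sq φ x, dyn1_norm_sq φ (y - γ • x),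
    dyn1_inner φ (y - γ • x) x, dyn1_inner φ (y - γ • x) (Ring.inverse (1 + B) x), div_eq_mul_inv]
  simp only [dyn1_B hB, dyn1_R hB h0, inner_sub_right, real_inner_smul_right, Finset.mul_sum,
    Finset.sum_mul, ← Finset.sum_add_distrib, ← Finset.sum_sub_distrib]
  exact Finset.sum_congr rfl fun i _ => by ring

theorem dyn1_BB (hB : EigB B φ β) (x : V) : ⟪B x, x⟫ = ∑ i, β i * ⟪φ i, x⟫ ^ 2 := by
  rw [dyn1_inner φ]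
  exact Finset.sum_congr rfl fun i _ => by rw [dyn1_B hB]; ring

theorem dyn1_R_le (hB : EigB B φ β) (h0 : ∀ i, 0 ≤ β i) (x : V) :
    ‖Ring.inverse (1 + B) x‖ ^ 2 + ⟪B (Ring.inverse (1 + B) x), Ring.inverse (1 + B) x⟫
      ≤ ‖x‖ ^ 2 := by
  rw [dyn1_BB hB, dyn1_norm_sq φ, dyn1_norm_sq φ x, ← Finset.sum_add_distrib]
  refine Finset.sum_le_sum fun i _ => ?_
  rw [dyn1_R hB h0]
  have h4 : (1 + β i) ≠ 0 := by have := h0 i; positivity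
  have h1 : ((1 + β i)⁻¹ * ⟪φ i, x⟫) ^ 2 + β i * ((1 + β i)⁻¹ * ⟪φ i, x⟫) ^ 2
      = (1 + β i)⁻¹ * ⟪φ i, x⟫ ^ 2 := by
    field_simp
  rw [h1]
  exact mul_le_of_le_one_left (sq_nonneg _) (dyn1_inv_le (h0 i))

theorem dyn1_R_symm (hB : EigB B φ β) (h0 : ∀ i, 0 ≤ β i) (x y : V) :
    ⟪x, Ring.inverse (1 + B) y⟫ = ⟪y, Ring.inverse (1 + B) x⟫ := by
  rw [dyn1_inner φ, dyn1_inner φ y]
  exact Finset.sum_congr rfl fun i _ => by rw [dyn1_R hB h0, dyn1_R hB h0]; ring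

/-- the derivative of `Qf` along a solution -/
def dyn1_dQ (B B' : V →L[ℝ] V) (δ γ γ' : ℝ) (u v : V) : ℝ :=
  (⟪B u, v⟫ + ⟪B' u + B v, u⟫) - (2 * γ * γ' * ⟪u, u⟫ + γ ^ 2 * (⟪u, v⟫ + ⟪v, u⟫))
    - (⟪v - γ • u, B u - (γ • v + γ' • u)⟫ + ⟪B u - (γ • v + γ' • u), v - γ • u⟫)
    + δ * (((⟪v - γ • u, v⟫ + ⟪B u - (γ • v + γ' • u), u⟫) * (1 + γ ^ 2)⁻¹
        + ⟪v - γ • u, u⟫ * (-(2 * γ * γ') * (1 + γ ^ 2)⁻¹ ^ 2))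
      - (⟪v - γ • u, -Ring.inverse (1 + B) (B' (Ring.inverse (1 + B) u)) + Ring.inverse (1 + B) v⟫
        + ⟪B u - (γ • v + γ' • u), Ring.inverse (1 + B) u⟫))

theorem dyn1_hasDerivAt {B : ℝ → V →L[ℝ] V} {B' : V →L[ℝ] V} {γ : ℝ → ℝ} {γ' τ : ℝ}
    {u v : ℝ → V} (δ : ℝ) (hB : HasDerivAt B B' τ) (hU : IsUnit (1 + B τ))
    (hγ : HasDerivAt γ γ' τ) (hu : HasDerivAt u (v τ) τ) (hv : HasDerivAt v (B τ (u τ)) τ) :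
    HasDerivAt (fun σ => Qf (B σ) δ (γ σ) (u σ) (v σ))
      (dyn1_dQ (B τ) B' δ (γ τ) γ' (u τ) (v τ)) τ := by
  have : CompleteSpace V := FiniteDimensional.complete ℝ V
  have hR : HasDerivAt (fun σ => Ring.inverse (1 + B σ))
      (-(Ring.inverse (1 + B τ) * B' * Ring.inverse (1 + B τ))) τ := by
    have h1 := hasFDerivAt_ringInverse (𝕜 := ℝ) hU.unit
    rw [hU.unit_spec] at h1
    have h2 := h1.comp_hasDerivAt τ (hB.const_add 1)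
    refine h2.congr_deriv ?_
    rw [Ring.inverse_of_isUnit hU]
    simp
  have hy : HasDerivAt (fun σ => v σ - γ σ • u σ) (B τ (u τ) - (γ τ • v τ + γ' • u τ)) τ :=
    hv.sub (hγ.smul hu)
  have hγ2 : HasDerivAt (fun σ => γ σ ^ 2) (2 * γ τ * γ') τ := by
    refine (hγ.fun_pow 2).congr_deriv ?_
    simp
  have hg : HasDerivAt (fun σ => (1 + γ σ ^ 2)⁻¹) (-(2 * γ τ * γ') * (1 + γ τ ^ 2)⁻¹ ^ 2) τ := by
    have h1 : (1 + γ τ ^ 2) ≠ 0 := by positivity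
    refine ((hγ2.const_add 1).fun_inv h1).congr_deriv ?_
    rw [div_eq_mul_inv, inv_pow]
  have h1 := (hB.clm_apply hu).inner ℝ hu
  have h2 := hγ2.fun_mul (hu.inner ℝ hu)
  have h3 := hy.inner ℝ hy
  have h4 := (hy.inner ℝ hu).fun_mul hg
  have h5 := hy.inner ℝ (hR.clm_apply hu)
  have h6 := ((h1.fun_sub h2).fun_sub h3).fun_add ((h4.fun_sub h5).const_mul δ)
  have h7 : (fun σ => Qf (B σ) δ (γ σ) (u σ) (v σ)) = fun σ =>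
      ⟪B σ (u σ), u σ⟫ - γ σ ^ 2 * ⟪u σ, u σ⟫ - ⟪v σ - γ σ • u σ, v σ - γ σ • u σ⟫ +
        δ * (⟪v σ - γ σ • u σ, u σ⟫ * (1 + γ σ ^ 2)⁻¹
          - ⟪v σ - γ σ • u σ, Ring.inverse (1 + B σ) (u σ)⟫) := by
    funext σ
    simp only [Qf, real_inner_self_eq_norm_sq, div_eq_mul_inv]
  rw [h7]
  exact h6

theorem dyn1_dQ_eq (hB : EigB B φ β) (h0 : ∀ i, 0 ≤ β i) (B' : V →L[ℝ] V) (δ γ γ' : ℝ)
    (u v : V) :
    dyn1_dQ B B' δ γ γ' u v = 2 * γ * Qf B δ γ u v + ⟪B' u, u⟫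
      + δ * ⟪B' (Ring.inverse (1 + B) u), Ring.inverse (1 + B) (v - γ • u)⟫
      + ∑ i, (4 * γ * ⟪φ i, v - γ • u⟫ ^ 2
        + δ * (((1 + γ ^ 2)⁻¹ - (1 + β i)⁻¹) * (β i - γ ^ 2) * ⟪φ i, u⟫ ^ 2
          + ((1 + γ ^ 2)⁻¹ - (1 + β i)⁻¹) * ⟪φ i, v - γ • u⟫ ^ 2
          - 2 * γ * ((1 + γ ^ 2)⁻¹ - (1 + β i)⁻¹) * ⟪φ i, v - γ • u⟫ * ⟪φ i, u⟫)
        - 2 * γ * γ' * ⟪φ i, u⟫ ^ 2 + 2 * γ' * ⟪φ i, u⟫ * ⟪φ i, v - γ • u⟫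
        - δ * γ' * ((1 + γ ^ 2)⁻¹ - (1 + β i)⁻¹) * ⟪φ i, u⟫ ^ 2
        - 2 * δ * γ * γ' * (1 + γ ^ 2)⁻¹ ^ 2 * ⟪φ i, v - γ • u⟫ * ⟪φ i, u⟫) := by
  unfold dyn1_dQ
  rw [dyn1_Qf hB h0, inner_add_left (B' u), inner_add_right (v - γ • u) (-_), inner_neg_right,
    dyn1_R_symm hB h0 (v - γ • u) (B' _)]
  generalize ⟪B' u, u⟫ = p₁
  generalize ⟪B' (Ring.inverse (1 + B) u), Ring.inverse (1 + B) (v - γ • u)⟫ = p₂
  rw [dyn1_inner φ (B u) v, dyn1_inner φ (B v) u, dyn1_inner φ u u, dyn1_inner φ u v,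
    dyn1_inner φ v u, dyn1_inner φ (v - γ • u) (B u - _), dyn1_inner φ (B u - _) (v - γ • u),
    dyn1_inner φ (v - γ • u) v, dyn1_inner φ (B u - _) u, dyn1_inner φ (v - γ • u) u,
    dyn1_inner φ (v - γ • u) (Ring.inverse (1 + B) v),
    dyn1_inner φ (B u - _) (Ring.inverse (1 + B) u)]
  have key : ∀ A₁ A₂ A₃ A₄ A₅ A₆ A₇ A₈ A₉ : ℝ, A₁ + A₂ - A₃ - A₄ + δ * (A₅ - (A₆ + A₇)) = A₈ + A₉ →
      A₁ + (p₁ + A₂) - A₃ - A₄ + δ * (A₅ - (-p₂ + A₆ + A₇)) = A₈ + p₁ + δ * p₂ + A₉ := by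
    intro A₁ A₂ A₃ A₄ A₅ A₆ A₇ A₈ A₉ h
    linear_combination h
  apply key
  simp only [dyn1_qm, dyn1_B hB, dyn1_R hB h0, inner_sub_right, inner_add_right,
    real_inner_smul_right, Finset.mul_sum, Finset.sum_mul, ← Finset.sum_add_distrib,
    ← Finset.sum_sub_distrib]
  exact Finset.sum_congr rfl fun i _ => by ring

end Crest.Agent.R202
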