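import Crest.Agent.R202.GDefs

/-! # Row 202, Dyn2: the high and the low frozen modes are small -/

set_option autoImplicit false
open scoped RealInnerProductSpace
open Set Filter

noncomputable section
namespace Crest.Agent.R202

theorem dyn2a_coord {V : Type*} [NormedAddCommGroup V] [InnerProductSpace ℝ V] {D : ℕ}
    {A : V →L[ℝ] V} {φ : OrthonormalBasis (Fin D) ℝ V} {lam : Fin D → ℝ} (h : EigB A φ lam)
    (i : Fin D) (x : V) : ⟪φ i, A x⟫ = lam i * ⟪φ i, x⟫ := by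
  have e : A x = ∑ j, (lam j * ⟪φ j, x⟫) • φ j := by
    conv_lhs => rw [← φ.sum_repr' x]
    rw [map_sum]
    exact Finset.sum_congr rfl fun j _ => by rw [map_smul, h.2 j, smul_smul, mul_comm]
  rw [e, φ.orthonormal.inner_right_fintype]

theorem dyn2a_inner {V : Type*} [NormedAddCommGroup V] [InnerProductSpace ℝ V] {D : ℕ}
    (φ : OrthonormalBasis (Fin D) ℝ V) (x y : V) : ⟪x, y⟫ = ∑ i, ⟪φ i, x⟫ * ⟪φ i, y⟫ := by
  rw [← φ.sum_inner_mul_inner x y]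
  exact Finset.sum_congr rfl fun i _ => by rw [real_inner_comm]

theorem dyn2a_form {V : Type*} [NormedAddCommGroup V] [InnerProductSpace ℝ V] {D : ℕ}
    {A : V →L[ℝ] V} {φ : OrthonormalBasis (Fin D) ℝ V} {lam : Fin D → ℝ} (h : EigB A φ lam)
    (x y : V) : ⟪A x, y⟫ = ∑ i, lam i * ⟪φ i, x⟫ * ⟪φ i, y⟫ := by
  rw [dyn2a_inner φ]
  exact Finset.sum_congr rfl fun i _ => by rw [dyn2a_coord h]

theorem dyn2a_gronwall {f f' : ℝ → ℝ} {c : ℝ} (hf : ∀ s, HasDerivAt f (f' s) s)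
    (hb : ∀ s, |f' s| ≤ c * f s) (t τ : ℝ) : f τ ≤ Real.exp (c * |τ - t|) * f t := by
  rcases le_total t τ with h | h
  · have ha : Antitone fun s => Real.exp (-(c * s)) * f s :=
      antitone_of_hasDerivAt_nonpos
        (f' := fun s => Real.exp (-(c * s)) * (-(c * 1)) * f s + Real.exp (-(c * s)) * f' s)
        (fun s => (((hasDerivAt_id s).const_mul c).neg.exp).mul (hf s)) fun s => by
          have h1 := (abs_le.1 (hb s)).2
          have h2 := Real.exp_pos (-(c * s))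
          simp only [Pi.zero_apply]
          nlinarith
    have h1 := mul_le_mul_of_nonneg_left (ha h) (Real.exp_pos (c * τ)).le
    simp only [← mul_assoc, ← Real.exp_add, add_neg_cancel, Real.exp_zero, one_mul] at h1
    rw [abs_of_nonneg (sub_nonneg.2 h), mul_sub, sub_eq_add_neg]
    exact h1
  · have ha : Monotone fun s => Real.exp (c * s) * f s :=
      monotone_of_hasDerivAt_nonneg
        (f' := fun s => Real.exp (c * s) * (c * 1) * f s + Real.exp (c * s) * f' s)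
        (fun s => (((hasDerivAt_id s).const_mul c).exp).mul (hf s)) fun s => by
          have h1 := (abs_le.1 (hb s)).1
          have h2 := Real.exp_pos (c * s)
          simp only [Pi.zero_apply]
          nlinarith
    have h1 := mul_le_mul_of_nonneg_left (ha h) (Real.exp_pos (-(c * τ))).le
    simp only [← mul_assoc, ← Real.exp_add, neg_add_cancel, Real.exp_zero, one_mul] at h1
    rw [abs_of_nonpos (sub_nonpos.2 h), neg_sub, mul_sub, sub_eq_neg_add]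
    exact h1

theorem dyn2a_der {V : Type*} [NormedAddCommGroup V] [InnerProductSpace ℝ V]
    {B B' : ℝ → V →L[ℝ] V} (h : ∀ t, HasDerivAt B (B' t) t) (x y : V) (s : ℝ) :
    HasDerivAt (fun s => ⟪B s x, y⟫) ⟪B' s x, y⟫ s := by
  have h1 : HasDerivAt (fun s => B s x) (B' s x) s := by
    simpa using (h s).clm_apply (hasDerivAt_const s x)
  simpa using h1.inner ℝ (hasDerivAt_const s y)

/-- second order condition at a maximum -/
theorem dyn2a_max {K G w : ℝ → ℝ} {a b s G' : ℝ} (hK : ∀ t, HasDerivAt K (G t * w t) t)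
    (hw : ∀ t, 0 < w t) (hs : s ∈ Ioo a b) (hm : IsMaxOn K (Icc a b) s)
    (hG : HasDerivAt G G' s) : G' ≤ 0 := by
  by_contra hpos
  push Not at hpos
  have h0 : G s = 0 := by
    have := (hm.isLocalMax (Icc_mem_nhds hs.1 hs.2)).hasDerivAt_eq_zero (hK s)
    exact (mul_eq_zero.1 this).resolve_right (hw s).ne'
  have h1 : ∀ᶠ t in nhdsWithin s (Ioi s), 0 < slope G s t :=
    ((hasDerivAt_iff_tendsto_slope.1 hG).mono_left
      (nhdsWithin_mono _ fun t ht => ne_of_gt ht)).eventually (lt_mem_nhds hpos)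
  obtain ⟨r, hr, hr'⟩ := (mem_nhdsGT_iff_exists_Ioo_subset' hs.2).1
    (h1.and (Ioo_mem_nhdsGT hs.2))
  have hsr : s < (s + r) / 2 := by linarith [mem_Ioi.1 hr]
  have hsr' : (s + r) / 2 < r := by linarith [mem_Ioi.1 hr]
  have hmono : StrictMonoOn K (Icc s ((s + r) / 2)) := by
    refine strictMonoOn_of_deriv_pos (convex_Icc _ _)
      (fun t _ => (hK t).continuousAt.continuousWithinAt) fun t ht => ?_
    rw [interior_Icc] at ht
    have h2 := (hr' ⟨ht.1, ht.2.trans hsr'⟩).1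
    rw [slope_def_field, h0, sub_zero] at h2
    rw [(hK t).deriv]
    exact mul_pos ((div_pos_iff_of_pos_right (sub_pos.2 ht.1)).1 h2) (hw t)
  have h3 := hmono (left_mem_Icc.2 hsr.le) (right_mem_Icc.2 hsr.le) hsr
  have h4 := (hr' ⟨hsr, hsr'⟩).2
  exact absurd (hm ⟨hs.1.le.trans hsr.le, h4.2.le⟩) (not_le.2 h3)

/-- closeness to the frozen operator.  Gronwall for `τ ↦ ‖x‖² + ⟪B τ x, x⟫` (derivative `≤ 2ε·itself` in
absolute value) gives `‖x‖²+⟪B τ x,x⟫ ≤ e^{2ε|τ-t|}(‖x‖²+⟪B t x,x⟫)`; then the mean value inequality for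
`τ ↦ ⟪B τ x, y⟫`. -/
theorem Slow.frozen {V : Type*} [NormedAddCommGroup V] [InnerProductSpace ℝ V] {D : ℕ}
    {B B' : ℝ → V →L[ℝ] V} {φ : ℝ → OrthonormalBasis (Fin D) ℝ V} {β : ℝ → Fin D → ℝ} {q₀ ε : ℝ}
    (h : Slow B B' φ β q₀ ε) (hq : 0 ≤ q₀) (hε : 0 ≤ ε) (t τ : ℝ) (x y : V) :
    |⟪B τ x - B t x, y⟫| ≤ ε * |τ - t| * Real.exp (2 * ε * |τ - t|) *
      (‖x‖ ^ 2 + ⟪B t x, x⟫ + ‖y‖ ^ 2 + ⟪B t y, y⟫) := by
  have hN0 : ∀ s z, 0 ≤ ‖z‖ ^ 2 + ⟪B s z, z⟫ := fun s z => by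
    rw [dyn2a_form (h.eig s)]
    refine add_nonneg (sq_nonneg _) (Finset.sum_nonneg fun i _ => ?_)
    rw [mul_assoc]
    exact mul_nonneg (hq.trans (h.low s i)) (mul_self_nonneg _)
  have hN : ∀ z, ∀ s ∈ uIcc t τ, ‖z‖ ^ 2 + ⟪B s z, z⟫ ≤
      Real.exp (2 * ε * |τ - t|) * (‖z‖ ^ 2 + ⟪B t z, z⟫) := fun z s hs => by
    refine (dyn2a_gronwall (f := fun s => ‖z‖ ^ 2 + ⟪B s z, z⟫) (c := 2 * ε)
      (fun s => (dyn2a_der h.der z z s).const_add _)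
      (fun s => (h.slow s z z).trans (le_of_eq (by ring))) t s).trans ?_
    refine mul_le_mul_of_nonneg_right (Real.exp_le_exp.2 ?_) (hN0 _ _)
    exact mul_le_mul_of_nonneg_left (abs_sub_left_of_mem_uIcc hs) (by positivity)
  have key := (convex_uIcc t τ).norm_image_sub_le_of_norm_hasDerivWithin_le
    (f := fun s => ⟪B s x, y⟫) (f' := fun s => ⟪B' s x, y⟫)
    (C := ε * (Real.exp (2 * ε * |τ - t|) * (‖x‖ ^ 2 + ⟪B t x, x⟫ + ‖y‖ ^ 2 + ⟪B t y, y⟫)))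
    (fun s _ => (dyn2a_der h.der x y s).hasDerivWithinAt)
    (fun s hs => (h.slow s x y).trans (mul_le_mul_of_nonneg_left
      (by linarith [hN x s hs, hN y s hs]) hε)) left_mem_uIcc right_mem_uIcc
  rw [inner_sub_left]
  exact key.trans (le_of_eq (by rw [Real.norm_eq_abs]; ring))

/-- the high part of `⟪A x, ·⟫` for an operator `A` close to the frozen operator `A₀` -/
theorem dyn2a_low {V : Type*} [NormedAddCommGroup V] [InnerProductSpace ℝ V] {D : ℕ}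
    {A A₀ : V →L[ℝ] V} {φ : OrthonormalBasis (Fin D) ℝ V} {lam : Fin D → ℝ} (h : EigB A₀ φ lam)
    {q : ℕ} {γ₀ μ Γ e : ℝ} (hγ : 0 ≤ γ₀) (hΓ : γ₀ ≤ Γ) (hμ : 0 < μ) (he : 0 ≤ e)
    (he' : e * (2 * Γ ^ 2 + 2 * μ + 1) ≤ μ / 4)
    (hg : ∀ i : Fin D, ((i : ℕ) < q → lam i ≤ γ₀ ^ 2) ∧ (q ≤ (i : ℕ) → γ₀ ^ 2 + μ ≤ lam i)) (x : V)
    (hA : ∀ y, |⟪A x - A₀ x, y⟫| ≤ e * (‖x‖ ^ 2 + ⟪A₀ x, x⟫ + ‖y‖ ^ 2 + ⟪A₀ y, y⟫)) :
    (γ₀ ^ 2 + μ / 2 + μ / 4) * hiB φ q x - e * (1 + Γ ^ 2) * ‖x‖ ^ 2 ≤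
      ∑ i : Fin D, if q ≤ (i : ℕ) then ⟪φ i, x⟫ * ⟪φ i, A x⟫ else 0 := by
  set y : V := ∑ i : Fin D, (if q ≤ (i : ℕ) then ⟪φ i, x⟫ else 0) • φ i with hy
  have hc : ∀ i, ⟪φ i, y⟫ = if q ≤ (i : ℕ) then ⟪φ i, x⟫ else 0 := fun i =>
    φ.orthonormal.inner_right_fintype _ i
  set S := ∑ i : Fin D, if q ≤ (i : ℕ) then lam i * ⟪φ i, x⟫ ^ 2 else 0 with hS
  have e1 : ⟪A x, y⟫ = ∑ i : Fin D, if q ≤ (i : ℕ) then ⟪φ i, x⟫ * ⟪φ i, A x⟫ else 0 := by
    rw [dyn2a_inner φ]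
    exact Finset.sum_congr rfl fun i _ => by rw [hc]; split_ifs <;> ring
  have e2 : ⟪A₀ x, y⟫ = S := by
    rw [dyn2a_form h]
    exact Finset.sum_congr rfl fun i _ => by rw [hc]; split_ifs <;> ring
  have e3 : ⟪A₀ y, y⟫ = S := by
    rw [dyn2a_form h]
    exact Finset.sum_congr rfl fun i _ => by rw [hc]; split_ifs <;> ring
  have e4 : ‖y‖ ^ 2 = hiB φ q x := by
    rw [← φ.sum_sq_inner_right]
    exact Finset.sum_congr rfl fun i _ => by rw [hc]; split_ifs <;> ring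
  have hΓ2 : γ₀ ^ 2 ≤ Γ ^ 2 := pow_le_pow_left₀ hγ hΓ 2
  have e5 : ⟪A₀ x, x⟫ ≤ S + Γ ^ 2 * ‖x‖ ^ 2 := by
    rw [dyn2a_form h, ← φ.sum_sq_inner_right, Finset.mul_sum, hS, ← Finset.sum_add_distrib]
    refine Finset.sum_le_sum fun i _ => ?_
    split_ifs with hi
    · nlinarith [mul_nonneg (sq_nonneg Γ) (sq_nonneg ⟪φ i, x⟫)]
    · have := mul_le_mul_of_nonneg_right (((hg i).1 (not_le.1 hi)).trans hΓ2) (sq_nonneg ⟪φ i, x⟫)
      nlinarith
  have e6 : (γ₀ ^ 2 + μ) * hiB φ q x ≤ S := by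
    rw [hiB, Finset.mul_sum]
    refine Finset.sum_le_sum fun i _ => ?_
    split_ifs with hi
    · exact mul_le_mul_of_nonneg_right ((hg i).2 hi) (sq_nonneg _)
    · simp
  have e7 : 0 ≤ hiB φ q x := e4 ▸ sq_nonneg _
  have e8 := (abs_le.1 (hA y)).1
  rw [inner_sub_left, e1, e2, e3, e4] at e8
  have e9 : 0 ≤ 1 - 2 * e := by nlinarith [mul_nonneg he (sq_nonneg Γ)]
  have f1 := mul_le_mul_of_nonneg_left e6 e9
  have f2 := mul_le_mul_of_nonneg_left e5 he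
  have f3 : e * (2 * γ₀ ^ 2 + 2 * μ + 1) ≤ μ / 4 :=
    (mul_le_mul_of_nonneg_left (by linarith) he).trans he'
  have f4 := mul_le_mul_of_nonneg_right f3 e7
  nlinarith

/-- **High modes are small.**  `h = P u` with `P` the frozen projection onto the modes `≥ q` of `B t₀`
(`P x = Σ_{i ≥ q} ⟪φ t₀ i, x⟫ φ t₀ i`, `hiB = ‖P x‖²`), `κ = √(γ₀²+μ/2)`, `k(s) = h(t₀+s)/cosh(κ s)`,
`K = ‖k‖²`.  With `Slow.frozen` (`ε₁ = ε L e^{2εL}`): `⟪Bu,h⟫ ≥ (1-2ε₁)⟪B₀h,h⟫ - 2ε₁‖h‖² - ε₁(1+Γ²)‖u‖²`,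
so `(cosh² K')' ≥ cosh² (a K - M)`, `a = μ/2`, `M = O(ε₁) sup ‖u‖²/cosh² ≤ O(ε₁) · 4 C₁ ‖u t₀‖²` as soon as
`γ₀ + εL ≤ κ`.  Maximum principle on `[-L,L]` (at an interior maximum with `K > M/a`, `cosh² K'` vanishes and
has positive derivative, contradiction): `K 0 ≤ max (K(-L)) (K L) (M/a)`, and
`K(±L) ≤ 4 C₁ e^{-2(κ-γ₀-εL)L}‖u t₀‖²`.  Choose `L` large, then `ε` small. -/
theorem high (μ Γ C₁ η : ℝ) (hμ : 0 < μ) (hC : 1 ≤ C₁) (hη : 0 < η) :
    ∃ ε L : ℝ, 0 < ε ∧ 1 ≤ L ∧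
      ∀ {V : Type} [NormedAddCommGroup V] [InnerProductSpace ℝ V] [FiniteDimensional ℝ V] {D : ℕ}
        (B B' : ℝ → V →L[ℝ] V) (φ : ℝ → OrthonormalBasis (Fin D) ℝ V) (β : ℝ → Fin D → ℝ)
        (q₀ : ℝ), 0 ≤ q₀ → Slow B B' φ β q₀ ε → ∀ u u' : ℝ → V, Sol B u u' →
        ∀ (q : ℕ) (t₀ γ₀ : ℝ), 0 ≤ γ₀ → γ₀ ≤ Γ →
        (∀ i : Fin D, ((i : ℕ) < q → β t₀ i ≤ γ₀ ^ 2) ∧ (q ≤ (i : ℕ) → γ₀ ^ 2 + μ ≤ β t₀ i)) →
        (∀ t ∈ Icc (t₀ - L) t₀, ‖u t‖ ≤ ‖u t₀‖) →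
        (∀ t ∈ Icc t₀ (t₀ + L),
          ‖u t‖ ^ 2 ≤ C₁ * Real.exp (2 * (γ₀ + ε * L) * (t - t₀)) * ‖u t₀‖ ^ 2) →
        hiB (φ t₀) q (u t₀) ≤ η * ‖u t₀‖ ^ 2 := by
  obtain ⟨δ, hδ0, hδ1, hδ⟩ : ∃ δ : ℝ, 0 < δ ∧ δ ≤ 1 ∧ δ * (8 * (|Γ| + 1)) ≤ μ :=
    ⟨min 1 (μ / (8 * (|Γ| + 1))), by positivity, min_le_left _ _,
      (le_div_iff₀ (by positivity)).1 (min_le_right _ _)⟩
  obtain ⟨θ, hθ0, hθ1, hθ2, hθ3⟩ : ∃ θ : ℝ, 0 < θ ∧ θ ≤ δ ∧
      θ * (36 * (2 * Γ ^ 2 + 2 * μ + 1)) ≤ μ ∧ θ * (144 * C₁ * (1 + Γ ^ 2)) ≤ η * μ :=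
    ⟨min δ (min (μ / (36 * (2 * Γ ^ 2 + 2 * μ + 1))) (η * μ / (144 * C₁ * (1 + Γ ^ 2)))),
      by positivity, min_le_left _ _,
      (le_div_iff₀ (by positivity)).1 ((min_le_right _ _).trans (min_le_left _ _)),
      (le_div_iff₀ (by positivity)).1 ((min_le_right _ _).trans (min_le_right _ _))⟩
  obtain ⟨L, hL1, hL⟩ : ∃ L : ℝ, 1 ≤ L ∧ 4 * C₁ ≤ η * (2 * δ * L) :=
    ⟨1 + 2 * C₁ / (η * δ), le_add_of_nonneg_right (by positivity), by
      have : η * (2 * δ * (1 + 2 * C₁ / (η * δ))) = 2 * η * δ + 4 * C₁ := by field_simp; ring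
      rw [this]; linarith [mul_pos hη hδ0]⟩
  have hL0 : 0 < L := by linarith
  refine ⟨θ / L, L, by positivity, hL1, ?_⟩
  intro V _ _ _ D B B' φ β q₀ hq hS u u' hu q t₀ γ₀ hγ hΓ hg hl hr
  have hεL : θ / L * L = θ := div_mul_cancel₀ _ hL0.ne'
  rw [hεL] at hr
  set κ := γ₀ + 2 * δ with hκ
  have hκ0 : 0 < κ := by linarith
  have hκ2 : κ ^ 2 ≤ γ₀ ^ 2 + μ / 2 := by
    have : γ₀ ≤ |Γ| := hΓ.trans (le_abs_self _)
    rw [hκ]; nlinarith
  set c : ℝ → ℝ := fun t => Real.cosh (κ * (t - t₀)) with hc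
  set sh : ℝ → ℝ := fun t => Real.sinh (κ * (t - t₀)) with hsh
  have hc1 : ∀ t, 1 ≤ c t := fun t => Real.one_le_cosh _
  have hc0 : ∀ t, 0 < c t := fun t => lt_of_lt_of_le one_pos (hc1 t)
  have dl : ∀ t, HasDerivAt (fun t => κ * (t - t₀)) κ t := fun t => by
    simpa using ((hasDerivAt_id t).sub_const t₀).const_mul κ
  have dc : ∀ t, HasDerivAt c (sh t * κ) t := fun t => (dl t).cosh
  have ds : ∀ t, HasDerivAt sh (c t * κ) t := fun t => (dl t).sinh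
  set a : Fin D → ℝ → ℝ := fun i t => ⟪φ t₀ i, u t⟫ with ha
  set b : Fin D → ℝ → ℝ := fun i t => ⟪φ t₀ i, u' t⟫ with hb
  set d : Fin D → ℝ → ℝ := fun i t => ⟪φ t₀ i, B t (u t)⟫ with hd
  have da : ∀ i t, HasDerivAt (a i) (b i t) t := fun i t => by
    simpa using (hasDerivAt_const t (φ t₀ i)).inner ℝ (hu t).1
  have db : ∀ i t, HasDerivAt (b i) (d i t) t := fun i t => by
    simpa using (hasDerivAt_const t (φ t₀ i)).inner ℝ (hu t).2
  set m : Fin D → ℝ → ℝ := fun i t => b i t * c t - κ * (sh t * a i t) with hm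
  have dk : ∀ i t, HasDerivAt (fun t => a i t / c t) (m i t / c t ^ 2) t := fun i t => by
    refine ((da i t).div (dc t) (hc0 t).ne').congr_deriv ?_
    simp only [hm]; ring
  have dm : ∀ i t, HasDerivAt (m i) (c t * (d i t - κ ^ 2 * a i t)) t := fun i t => by
    refine (((db i t).mul (dc t)).sub (((ds t).mul (da i t)).const_mul κ)).congr_deriv ?_
    ring
  set K : ℝ → ℝ := fun t => ∑ i : Fin D, if q ≤ (i : ℕ) then (a i t / c t) ^ 2 else 0 with hK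
  set G : ℝ → ℝ := fun t => ∑ i : Fin D, if q ≤ (i : ℕ) then 2 * (a i t / c t * m i t) else 0
    with hG
  have dK : ∀ t, HasDerivAt K (G t * (c t ^ 2)⁻¹) t := fun t => by
    rw [hG, Finset.sum_mul]
    refine HasDerivAt.fun_sum fun i _ => ?_
    split_ifs
    · refine ((dk i t).fun_pow 2).congr_deriv ?_
      norm_num; ring
    · simpa using hasDerivAt_const t (0 : ℝ)
  have dG : ∀ t, HasDerivAt G (∑ i : Fin D, if q ≤ (i : ℕ) then
      2 * ((m i t / c t) ^ 2 + (a i t * d i t - κ ^ 2 * a i t ^ 2)) else 0) t := fun t => by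
    refine HasDerivAt.fun_sum fun i _ => ?_
    split_ifs
    · refine (((dk i t).mul (dm i t)).const_mul 2).congr_deriv ?_
      have := (hc0 t).ne'
      field_simp
    · exact hasDerivAt_const t (0 : ℝ)
  have hKH : ∀ t, K t = hiB (φ t₀) q (u t) / c t ^ 2 := fun t => by
    rw [hK, hiB, Finset.sum_div]
    exact Finset.sum_congr rfl fun i _ => by split_ifs <;> simp [ha, div_pow]
  have hH : ∀ t, hiB (φ t₀) q (u t) ≤ ‖u t‖ ^ 2 := fun t => by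
    rw [hiB, ← (φ t₀).sum_sq_inner_right]
    exact Finset.sum_le_sum fun i _ => by split_ifs <;> [exact le_rfl; positivity]
  have hce : ∀ t, Real.exp (2 * κ * |t - t₀|) ≤ 4 * c t ^ 2 := fun t => by
    have e1 : Real.exp (κ * |t - t₀|) ≤ 2 * c t := by
      have e2 : c t = Real.cosh (κ * |t - t₀|) := by
        have e3 := Real.cosh_abs (κ * (t - t₀))
        rw [abs_mul, abs_of_pos hκ0] at e3
        exact e3.symm
      rw [e2, Real.cosh_eq]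
      linarith [Real.exp_pos (-(κ * |t - t₀|))]
    calc Real.exp (2 * κ * |t - t₀|) = Real.exp (κ * |t - t₀|) ^ 2 := by
          rw [← Real.exp_nat_mul]; congr 1; push_cast; ring
      _ ≤ (2 * c t) ^ 2 := pow_le_pow_left₀ (Real.exp_pos _).le e1 2
      _ = _ := by ring
  have hn0 : 0 ≤ ‖u t₀‖ ^ 2 := sq_nonneg _
  have hU : ∀ t ∈ Icc (t₀ - L) (t₀ + L),
      ‖u t‖ ^ 2 / c t ^ 2 * Real.exp (2 * δ * |t - t₀|) ≤ 4 * C₁ * ‖u t₀‖ ^ 2 := fun t ht => by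
    have e1 : ‖u t‖ ^ 2 ≤ C₁ * Real.exp (2 * (γ₀ + δ) * |t - t₀|) * ‖u t₀‖ ^ 2 := by
      rcases le_total t t₀ with h | h
      · refine (pow_le_pow_left₀ (norm_nonneg _) (hl t ⟨ht.1, h⟩) 2).trans
          (le_mul_of_one_le_left hn0 (one_le_mul_of_one_le_of_one_le hC ?_))
        exact Real.one_le_exp (by positivity)
      · refine (hr t ⟨h, ht.2⟩).trans ?_
        rw [abs_of_nonneg (sub_nonneg.2 h)]
        have := sub_nonneg.2 h
        gcongr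
    rw [div_mul_eq_mul_div, div_le_iff₀ (by have := hc0 t; positivity)]
    calc _ ≤ C₁ * Real.exp (2 * (γ₀ + δ) * |t - t₀|) * ‖u t₀‖ ^ 2 *
          Real.exp (2 * δ * |t - t₀|) := by gcongr
      _ = C₁ * ‖u t₀‖ ^ 2 * Real.exp (2 * κ * |t - t₀|) := by
          rw [show 2 * κ * |t - t₀| = 2 * (γ₀ + δ) * |t - t₀| + 2 * δ * |t - t₀| by rw [hκ]; ring,
            Real.exp_add]; ring
      _ ≤ C₁ * ‖u t₀‖ ^ 2 * (4 * c t ^ 2) :=
          mul_le_mul_of_nonneg_left (hce t) (by positivity)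
      _ = _ := by ring
  obtain ⟨s, hs, hmax⟩ := (isCompact_Icc (a := t₀ - L) (b := t₀ + L)).exists_isMaxOn
    ⟨t₀, by linarith, by linarith⟩ fun t _ => (dK t).continuousAt.continuousWithinAt
  have h0 : hiB (φ t₀) q (u t₀) ≤ K s := by
    have := hmax (⟨by linarith, by linarith⟩ : t₀ ∈ Icc (t₀ - L) (t₀ + L))
    have e : K t₀ = hiB (φ t₀) q (u t₀) := by rw [hKH]; simp [hc]
    rw [← e]; exact this
  refine h0.trans ?_
  have hcs : 0 < c s ^ 2 := by have := hc0 s; positivity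
  have hsL : |s - t₀| ≤ L := abs_le.2 ⟨by linarith [hs.1], by linarith [hs.2]⟩
  by_cases hend : |s - t₀| = L
  · have e1 := hU s hs
    rw [hend] at e1
    have e2 : K s ≤ ‖u s‖ ^ 2 / c s ^ 2 := by rw [hKH]; gcongr; exact hH s
    have e3 : 4 * C₁ ≤ η * Real.exp (2 * δ * L) :=
      hL.trans (mul_le_mul_of_nonneg_left (by linarith [Real.add_one_le_exp (2 * δ * L)]) hη.le)
    refine e2.trans (le_of_mul_le_mul_right (e1.trans ?_) (Real.exp_pos (2 * δ * L)))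
    nlinarith
  have hs' : s ∈ Ioo (t₀ - L) (t₀ + L) := by
    have := abs_lt.1 (lt_of_le_of_ne hsL hend)
    exact ⟨by linarith [this.1], by linarith [this.2]⟩
  have h1 := dyn2a_max dK (fun t => by have := hc0 t; positivity) hs' hmax (dG s)
  have hpos : ∀ y : V, 0 ≤ ‖u s‖ ^ 2 + ⟪B t₀ (u s), u s⟫ + ‖y‖ ^ 2 + ⟪B t₀ y, y⟫ := fun y => by
    have : ∀ z, 0 ≤ ⟪B t₀ z, z⟫ := fun z => by
      rw [dyn2a_form (hS.eig t₀)]
      refine Finset.sum_nonneg fun i _ => ?_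
      rw [mul_assoc]
      exact mul_nonneg (hq.trans (hS.low t₀ i)) (mul_self_nonneg _)
    have h1 := this (u s)
    have h2 := this y
    positivity
  have h2 := dyn2a_low (A := B s) (hS.eig t₀) hγ hΓ hμ (e := 9 * θ) (by positivity) (by linarith) hg
    (u s) fun y => by
      refine (hS.frozen hq (by positivity) t₀ s (u s) y).trans
        (mul_le_mul_of_nonneg_right ?_ (hpos y))
      have e1 : θ / L * |s - t₀| ≤ θ := by
        rw [← hεL, mul_div_cancel_right₀ _ hL0.ne', hεL]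
        calc _ ≤ θ / L * L := by gcongr
          _ = θ := hεL
      have e2 : Real.exp (2 * (θ / L) * |s - t₀|) ≤ 9 := by
        calc _ ≤ Real.exp (1 + 1) := Real.exp_le_exp.2 (by linarith)
          _ ≤ 3 * 3 := by
            rw [Real.exp_add]
            have := Real.exp_one_lt_three
            have := Real.exp_pos 1
            nlinarith
          _ = 9 := by norm_num
      calc _ ≤ θ * 9 := mul_le_mul e1 e2 (Real.exp_pos _).le hθ0.le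
        _ = _ := by ring
  have h3 : (∑ i : Fin D, if q ≤ (i : ℕ) then a i s * d i s else 0) ≤
      κ ^ 2 * hiB (φ t₀) q (u s) := by
    have e : 2 * ((∑ i : Fin D, if q ≤ (i : ℕ) then a i s * d i s else 0) -
        κ ^ 2 * hiB (φ t₀) q (u s)) ≤ 0 := by
      refine le_trans ?_ h1
      rw [hiB, Finset.mul_sum, ← Finset.sum_sub_distrib, Finset.mul_sum]
      refine Finset.sum_le_sum fun i _ => ?_
      split_ifs
      · simp only [ha]; nlinarith [sq_nonneg (m i s / c s)]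
      · simp
    linarith
  have h4 : 0 ≤ hiB (φ t₀) q (u s) :=
    Finset.sum_nonneg fun i _ => by split_ifs <;> positivity
  have h5 : μ / 4 * hiB (φ t₀) q (u s) ≤ 9 * θ * (1 + Γ ^ 2) * ‖u s‖ ^ 2 := by
    have := mul_le_mul_of_nonneg_right hκ2 h4
    have h6 := h2.trans h3
    nlinarith
  have h6 : ‖u s‖ ^ 2 / c s ^ 2 ≤ 4 * C₁ * ‖u t₀‖ ^ 2 :=
    (le_mul_of_one_le_right (by positivity) (Real.one_le_exp (by positivity))).trans (hU s hs)
  have h7 : μ / 4 * K s ≤ 9 * θ * (1 + Γ ^ 2) * (4 * C₁ * ‖u t₀‖ ^ 2) := by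
    refine le_trans ?_ (mul_le_mul_of_nonneg_left h6 (by positivity))
    rw [hKH, ← mul_div_assoc, ← mul_div_assoc]
    gcongr
  have h8 := mul_le_mul_of_nonneg_right hθ3 hn0
  refine le_of_mul_le_mul_left (h7.trans ?_) (by positivity : 0 < μ / 4)
  nlinarith

end Crest.Agent.R202
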