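import Crest.Agent.R202.GDefs
import Crest.Agent.R202.Dyn2a

/-! # Row 202, Dyn2: the high and the low frozen modes are small -/

set_option autoImplicit false
open scoped RealInnerProductSpace
open Set Filter

noncomputable section
namespace Crest.Agent.R202

section Aux

variable {V : Type} [NormedAddCommGroup V] [InnerProductSpace ℝ V] {D : ℕ}
  {φ : OrthonormalBasis (Fin D) ℝ V}

theorem dyn2_eig {A : V →L[ℝ] V} {lam : Fin D → ℝ} (h : EigB A φ lam) (i : Fin D) (x : V) :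
    ⟪φ i, A x⟫ = lam i * ⟪φ i, x⟫ := by
  conv_lhs => rw [← φ.sum_repr' x]
  simp only [map_sum, map_smul, h.2, inner_sum, real_inner_smul_right, φ.inner_eq_ite]
  simp [mul_comm]

theorem dyn2_inner (φ : OrthonormalBasis (Fin D) ℝ V) (x y : V) :
    ⟪x, y⟫ = ∑ i, ⟪φ i, x⟫ * ⟪φ i, y⟫ := by
  rw [← φ.sum_inner_mul_inner]
  simp only [real_inner_comm]

theorem dyn2_sq (φ : OrthonormalBasis (Fin D) ℝ V) (x : V) : ‖x‖ ^ 2 = ∑ i, ⟪φ i, x⟫ ^ 2 := by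
  rw [← real_inner_self_eq_norm_sq, dyn2_inner φ]
  simp only [sq]

theorem dyn2_quad {A : V →L[ℝ] V} {lam : Fin D → ℝ} (h : EigB A φ lam) (x : V) :
    ⟪A x, x⟫ = ∑ i, lam i * ⟪φ i, x⟫ ^ 2 := by
  rw [dyn2_inner φ]
  simp only [dyn2_eig h, sq, mul_assoc]

theorem dyn2_coord (S : Finset (Fin D)) (c : Fin D → ℝ) (i : Fin D) :
    ⟪φ i, ∑ j ∈ S, c j • φ j⟫ = if i ∈ S then c i else 0 := by
  simp [inner_sum, real_inner_smul_right, φ.inner_eq_ite]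

end Aux

/-- **Low modes are small.**  `l = P u` with `P` the frozen projection onto the modes `< q` of `B₀ = B t₀`,
`b = √(γ₀²-μ)` (if there is no such mode the claim is trivial; otherwise `q₀ ≤ γ₀² - μ`).
`l'' = B₀ l + g`, `g = P (B - B₀) u`, `‖g‖² ≤ 4ε₁²(1+Γ²)(‖u‖²+⟪B₀u,u⟫)` (scale `Slow.frozen`:
`|⟪(B-B₀)x,y⟫| ≤ 2ε₁ ‖x‖_{B₀}‖y‖_{B₀}`).  `W = ‖l'‖² + ⟪B₀ l,l⟫ ≥ q₀‖l‖²` has
`W' = 4⟪l',B₀l⟫ + 2⟪l',g⟫ ≤ (2b+σ)W + ‖g‖²/σ`.  With `P(t) = ⟪u,u'⟫`, `P' = ‖u'‖²+⟪Bu,u⟫ =: 𝔈 ≥ 0`; the mean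
value theorem gives `s* ∈ [t₀-L-1, t₀-L]` with `𝔈(s*) = P(t₀-L) - P(t₀-L-1) ≤ C₁‖u(t₀-L)‖²`, and
`∫_{s*}^{t₀} 𝔈 ≤ P(t₀) ≤ C₁‖u t₀‖²`; `‖u t‖ ≤ ‖u t₀‖` as `P ≥ 0`.  To avoid integrals use monotonicity of
`e^{-(2b+σ)t}W(t) - M₁ P(t) - M₂ t`.  So `q₀‖l t₀‖² ≤ C (e^{-(2γ₀-2ε(L+1)-2b-σ)L} + ε₁² e^{CL})‖u t₀‖²`,
with `γ₀ - b ≥ μ/(2Γ)`. -/
theorem lowS (q₀ μ Γ C₁ η : ℝ) (hq : 0 < q₀) (hμ : 0 < μ) (hC : 1 ≤ C₁) (hη : 0 < η) :
    ∃ ε L : ℝ, 0 < ε ∧ 1 ≤ L ∧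
      ∀ {V : Type} [NormedAddCommGroup V] [InnerProductSpace ℝ V] [FiniteDimensional ℝ V] {D : ℕ}
        (B B' : ℝ → V →L[ℝ] V) (φ : ℝ → OrthonormalBasis (Fin D) ℝ V) (β : ℝ → Fin D → ℝ),
        Slow B B' φ β q₀ ε → ∀ u u' : ℝ → V, Sol B u u' →
        ∀ (q : ℕ) (t₀ γ₀ : ℝ), 0 ≤ γ₀ → γ₀ ≤ Γ →
        (∀ i : Fin D, (i : ℕ) < q → β t₀ i ≤ γ₀ ^ 2 - μ) →
        (∀ t ∈ Icc (t₀ - L - 1) t₀, 0 ≤ ⟪u t, u' t⟫ ∧ ⟪u t, u' t⟫ ≤ C₁ * ‖u t‖ ^ 2 ∧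
          ‖u t‖ ^ 2 ≤ C₁ * Real.exp (-(2 * (γ₀ - ε * (L + 1)) * (t₀ - t))) * ‖u t₀‖ ^ 2) →
        loB (φ t₀) q (u t₀) ≤ η * ‖u t₀‖ ^ 2 := by
  obtain ⟨G, hG1, hGΓ⟩ : ∃ G : ℝ, 1 ≤ G ∧ Γ ≤ G := ⟨max 1 Γ, le_max_left _ _, le_max_right _ _⟩
  obtain ⟨ν, hν, hν'⟩ : ∃ ν : ℝ, 0 < ν ∧ ν * (2 * G) = μ :=
    ⟨μ / (2 * G), by positivity, by field_simp⟩
  obtain ⟨A, hA, hA'⟩ : ∃ A : ℝ, 0 < A ∧ A * q₀ = 2 * (q₀ + 1) :=
    ⟨2 * (q₀ + 1) / q₀, by positivity, by field_simp⟩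
  obtain ⟨L, hL1, hL⟩ : ∃ L : ℝ, 1 ≤ L ∧
      (1 + A) * C₁ ^ 2 * Real.exp (2 * G + ν + 1 - ν * L) ≤ q₀ * η / 2 := by
    obtain ⟨y, hy⟩ : ∃ y : ℝ, (1 + A) * C₁ ^ 2 * Real.exp y = q₀ * η / 2 :=
      ⟨Real.log (q₀ * η / 2 / ((1 + A) * C₁ ^ 2)), by
        rw [Real.exp_log (by positivity)]; field_simp⟩
    refine ⟨max 1 ((2 * G + ν + 1 - y) / ν), le_max_left _ _, ?_⟩
    rw [← hy]
    gcongr
    have := le_max_right 1 ((2 * G + ν + 1 - y) / ν)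
    rw [div_le_iff₀ hν] at this
    linarith
  obtain ⟨δ, hδ, hδ1, hδ2, hδ3⟩ : ∃ δ : ℝ, 0 < δ ∧ δ ≤ 1 / 4 ∧ 2 * δ * (1 + G ^ 2) ≤ ν ∧
      2 * δ * A * Real.exp ((2 * G + ν) * (L + 1)) * C₁ ≤ q₀ * η / 2 := by
    refine ⟨min (1 / 4) (min (ν / (2 * (1 + G ^ 2)))
      (q₀ * η / 2 / (2 * A * Real.exp ((2 * G + ν) * (L + 1)) * C₁))), by positivity,
      min_le_left _ _, ?_, ?_⟩
    · have := (min_le_right (1 / 4 : ℝ) _).trans (min_le_left (ν / (2 * (1 + G ^ 2)))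
        (q₀ * η / 2 / (2 * A * Real.exp ((2 * G + ν) * (L + 1)) * C₁)))
      rw [le_div_iff₀ (by positivity)] at this
      linarith
    · have := (min_le_right (1 / 4 : ℝ) _).trans (min_le_right (ν / (2 * (1 + G ^ 2)))
        (q₀ * η / 2 / (2 * A * Real.exp ((2 * G + ν) * (L + 1)) * C₁)))
      rw [le_div_iff₀ (by positivity)] at this
      linarith
  obtain ⟨ε, hε, hε'⟩ : ∃ ε : ℝ, 0 < ε ∧ ε * (3 * (L + 1) ^ 2) = δ :=
    ⟨δ / (3 * (L + 1) ^ 2), by positivity, by field_simp⟩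
  refine ⟨ε, L, hε, hL1, ?_⟩
  intro V _ _ _ D B B' φ β hS u u' hu q t₀ γ₀ hγ0 hγ hβ hP
  classical
  set S : Finset (Fin D) := Finset.univ.filter fun i => (i : ℕ) < q with hSdef
  have hlo : loB (φ t₀) q (u t₀) = ∑ i ∈ S, ⟪φ t₀ i, u t₀⟫ ^ 2 := by
    rw [loB, hSdef, Finset.sum_filter]
  rw [hlo]
  rcases S.eq_empty_or_nonempty with hE | ⟨i₀, hi₀⟩
  · rw [hE, Finset.sum_empty]; positivity
  have hβS : ∀ i ∈ S, β t₀ i ≤ γ₀ ^ 2 - μ := fun i hi => hβ i (Finset.mem_filter.1 hi).2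
  have hb0 : 0 ≤ γ₀ ^ 2 - μ := hq.le.trans ((hS.low t₀ i₀).trans (hβS i₀ hi₀))
  obtain ⟨b, hb, hb2⟩ : ∃ b : ℝ, 0 ≤ b ∧ b ^ 2 = γ₀ ^ 2 - μ := ⟨_, Real.sqrt_nonneg _, Real.sq_sqrt hb0⟩
  have hbγ : b ≤ γ₀ := by nlinarith
  have hbν : b + ν ≤ γ₀ := by
    by_contra hc
    have h1 : γ₀ - b < ν := by linarith
    have h2 : (γ₀ - b) * (γ₀ + b) ≤ (γ₀ - b) * (2 * G) :=
      mul_le_mul_of_nonneg_left (by linarith) (by linarith)
    nlinarith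
  have hβ0 : ∀ t i, 0 ≤ β t i := fun t i => hq.le.trans (hS.low t i)
  -- frozen estimate
  have hfr : ∀ t ∈ Icc (t₀ - L - 1) t₀, ∀ x y : V, |⟪B t x - B t₀ x, y⟫| ≤
      δ * (‖x‖ ^ 2 + ⟪B t₀ x, x⟫ + ‖y‖ ^ 2 + ⟪B t₀ y, y⟫) := fun t ht x y => by
    refine (hS.frozen hq.le hε.le t₀ t x y).trans (mul_le_mul_of_nonneg_right ?_ ?_)
    · have h1 : |t - t₀| ≤ L + 1 := abs_le.2 ⟨by linarith [ht.1], by linarith [ht.2]⟩
      have h2 : ε * |t - t₀| ≤ δ / 3 := by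
        have : ε * (L + 1) ≤ ε * (L + 1) ^ 2 := by gcongr; nlinarith
        nlinarith [mul_le_mul_of_nonneg_left h1 hε.le]
      have h3 : Real.exp (2 * ε * |t - t₀|) ≤ 3 :=
        (Real.exp_le_exp.2 (by linarith)).trans Real.exp_one_lt_three.le
      calc _ ≤ δ / 3 * 3 := mul_le_mul h2 h3 (by positivity) (by positivity)
        _ = δ := by ring
    · rw [dyn2_quad (hS.eig t₀), dyn2_quad (hS.eig t₀)]
      have h1 : ∀ z : V, 0 ≤ ∑ i, β t₀ i * ⟪φ t₀ i, z⟫ ^ 2 := fun z =>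
        Finset.sum_nonneg fun i _ => mul_nonneg (hβ0 _ _) (sq_nonneg _)
      have := h1 x
      have := h1 y
      positivity
  set En : ℝ → ℝ := fun t => ‖u' t‖ ^ 2 + ⟪B t (u t), u t⟫ with hEn
  have hqB : ∀ t, q₀ * ‖u t‖ ^ 2 ≤ ⟪B t (u t), u t⟫ := fun t => by
    rw [dyn2_quad (hS.eig t), dyn2_sq (φ t), Finset.mul_sum]
    exact Finset.sum_le_sum fun i _ => mul_le_mul_of_nonneg_right (hS.low t i) (sq_nonneg _)
  have hEn0 : ∀ t, 0 ≤ En t := fun t => by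
    have := hqB t
    have : 0 ≤ q₀ * ‖u t‖ ^ 2 := by positivity
    simp only [hEn]
    nlinarith [sq_nonneg ‖u' t‖]
  have hN0 : ∀ t ∈ Icc (t₀ - L - 1) t₀, ‖u t‖ ^ 2 + ⟪B t₀ (u t), u t⟫ ≤ A * En t := fun t ht => by
    have h1 := (abs_le.1 (hfr t ht (u t) (u t))).1
    rw [inner_sub_left] at h1
    have h2 := hqB t
    have h3 : 0 ≤ ⟪B t₀ (u t), u t⟫ := by
      rw [dyn2_quad (hS.eig t₀)]
      exact Finset.sum_nonneg fun i _ => mul_nonneg (hβ0 _ _) (sq_nonneg _)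
    have h4 : ‖u t‖ ^ 2 + ⟪B t₀ (u t), u t⟫ ≤ 2 * (‖u t‖ ^ 2 + ⟪B t (u t), u t⟫) := by
      nlinarith [sq_nonneg ‖u t‖]
    refine h4.trans (le_of_mul_le_mul_left ?_ hq)
    rw [← mul_assoc q₀ A, mul_comm q₀ A, hA']
    simp only [hEn]
    nlinarith [sq_nonneg ‖u' t‖, mul_nonneg hq.le (sq_nonneg ‖u' t‖)]
  have hPd : ∀ t, HasDerivAt (fun t => ⟪u t, u' t⟫) (En t) t := fun t => by
    refine ((hu t).1.inner ℝ (hu t).2).congr_deriv ?_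
    simp only [hEn, real_inner_self_eq_norm_sq, real_inner_comm (B t (u t))]
    ring
  set W : ℝ → ℝ := fun t => ∑ i ∈ S, (⟪φ t₀ i, u' t⟫ ^ 2 + β t₀ i * ⟪φ t₀ i, u t⟫ ^ 2) with hW
  set W' : ℝ → ℝ := fun t => ∑ i ∈ S, (2 * ⟪φ t₀ i, u' t⟫ * ⟪φ t₀ i, B t (u t)⟫ +
    β t₀ i * (2 * ⟪φ t₀ i, u t⟫ * ⟪φ t₀ i, u' t⟫)) with hW'
  have hWd : ∀ t, HasDerivAt W (W' t) t := fun t => by
    refine HasDerivAt.fun_sum fun i _ => ?_
    have h1 : HasDerivAt (fun t => ⟪φ t₀ i, u t⟫) ⟪φ t₀ i, u' t⟫ t := by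
      simpa using (hasDerivAt_const t (φ t₀ i)).inner ℝ (hu t).1
    have h2 : HasDerivAt (fun t => ⟪φ t₀ i, u' t⟫) ⟪φ t₀ i, B t (u t)⟫ t := by
      simpa using (hasDerivAt_const t (φ t₀ i)).inner ℝ (hu t).2
    refine ((h2.fun_pow 2).fun_add ((h1.fun_pow 2).const_mul (β t₀ i))).congr_deriv ?_
    simp
  have hW0 : ∀ t, ∑ i ∈ S, ⟪φ t₀ i, u' t⟫ ^ 2 ≤ W t := fun t =>
    Finset.sum_le_sum fun i _ => le_add_of_nonneg_right (mul_nonneg (hβ0 _ _) (sq_nonneg _))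
  have hWn : ∀ t, 0 ≤ W t := fun t => (Finset.sum_nonneg fun i _ => sq_nonneg _).trans (hW0 t)
  have hWle : ∀ t ∈ Icc (t₀ - L - 1) t₀, W t ≤ (1 + A) * En t := fun t ht => by
    have h1 : W t ≤ ‖u' t‖ ^ 2 + ⟪B t₀ (u t), u t⟫ := by
      rw [dyn2_quad (hS.eig t₀), dyn2_sq (φ t₀), ← Finset.sum_add_distrib]
      exact Finset.sum_le_univ_sum_of_nonneg fun i =>
        add_nonneg (sq_nonneg _) (mul_nonneg (hβ0 _ _) (sq_nonneg _))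
    have h2 := hN0 t ht
    have h3 := hqB t
    have h4 : 0 ≤ q₀ * ‖u t‖ ^ 2 := by positivity
    have h5 : ‖u' t‖ ^ 2 ≤ En t := by simp only [hEn]; linarith
    nlinarith [sq_nonneg ‖u t‖]
  have hW'le : ∀ t ∈ Icc (t₀ - L - 1) t₀, W' t ≤ (2 * b + ν) * W t + 2 * δ * A * En t := by
    intro t ht
    set l : V := ∑ j ∈ S, ⟪φ t₀ j, u' t⟫ • φ t₀ j with hl
    have h1 := (abs_le.1 (hfr t ht (u t) l)).2
    have e1 : ⟪B t (u t) - B t₀ (u t), l⟫ = ∑ i ∈ S, ⟪φ t₀ i, u' t⟫ *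
        (⟪φ t₀ i, B t (u t)⟫ - β t₀ i * ⟪φ t₀ i, u t⟫) := by
      rw [hl, inner_sum]
      refine Finset.sum_congr rfl fun i _ => ?_
      rw [real_inner_smul_right, real_inner_comm (φ t₀ i) (_ - _), inner_sub_right,
        dyn2_eig (hS.eig t₀)]
    have e2 : ‖l‖ ^ 2 + ⟪B t₀ l, l⟫ ≤ (1 + G ^ 2) * W t := by
      rw [dyn2_quad (hS.eig t₀), dyn2_sq (φ t₀), ← Finset.sum_add_distrib]
      refine le_trans ?_ (mul_le_mul_of_nonneg_left (hW0 t) (by positivity))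
      rw [Finset.mul_sum, ← Finset.sum_subset S.subset_univ fun i _ hi => by
        rw [hl, dyn2_coord, if_neg hi]; simp]
      refine Finset.sum_le_sum fun i hi => ?_
      rw [hl, dyn2_coord, if_pos hi]
      have h2 : β t₀ i ≤ G ^ 2 := by nlinarith [hβS i hi]
      nlinarith [mul_le_mul_of_nonneg_right h2 (sq_nonneg ⟪φ t₀ i, u' t⟫)]
    have e3 : W' t ≤ 2 * b * W t + 2 * ⟪B t (u t) - B t₀ (u t), l⟫ := by
      rw [e1]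
      simp only [hW, hW', Finset.mul_sum, ← Finset.sum_add_distrib]
      refine Finset.sum_le_sum fun i hi => ?_
      obtain ⟨r, hr, hr2⟩ : ∃ r : ℝ, 0 ≤ r ∧ r ^ 2 = β t₀ i :=
        ⟨_, Real.sqrt_nonneg _, Real.sq_sqrt (hβ0 _ _)⟩
      have hrb : r ≤ b := by
        refine (sq_le_sq₀ hr hb).1 ?_
        rw [hr2, hb2]; exact hβS i hi
      rw [← hr2]
      generalize ⟪φ t₀ i, u' t⟫ = y
      generalize ⟪φ t₀ i, u t⟫ = x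
      nlinarith [mul_nonneg hr (sq_nonneg (y - r * x)),
        mul_nonneg (sub_nonneg.2 hrb) (add_nonneg (sq_nonneg y) (sq_nonneg (r * x)))]
    have e4 := mul_le_mul_of_nonneg_left (hN0 t ht) hδ.le
    have e5 := mul_le_mul_of_nonneg_left e2 hδ.le
    have e6 := mul_le_mul_of_nonneg_right hδ2 (hWn t)
    nlinarith
  set lam := 2 * b + ν with hlam
  have hlam0 : 0 ≤ lam := by positivity
  set M := 2 * δ * A * Real.exp (lam * (L + 1)) with hM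
  have hFd : ∀ t, HasDerivAt (fun t => Real.exp (lam * (t₀ - t)) * W t - M * ⟪u t, u' t⟫)
      (Real.exp (lam * (t₀ - t)) * (W' t - lam * W t) - M * En t) t := fun t => by
    have h1 : HasDerivAt (fun t => Real.exp (lam * (t₀ - t)))
        (Real.exp (lam * (t₀ - t)) * (lam * (0 - 1))) t :=
      (((hasDerivAt_const t t₀).fun_sub (hasDerivAt_id' t)).const_mul lam).exp
    refine ((h1.fun_mul (hWd t)).fun_sub ((hPd t).const_mul M)).congr_deriv ?_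
    ring
  have hanti : AntitoneOn (fun t => Real.exp (lam * (t₀ - t)) * W t - M * ⟪u t, u' t⟫)
      (Icc (t₀ - L - 1) t₀) := by
    refine antitoneOn_of_deriv_nonpos (convex_Icc _ _)
      (fun t _ => (hFd t).continuousAt.continuousWithinAt)
      (fun t _ => (hFd t).differentiableAt.differentiableWithinAt) fun t ht => ?_
    have ht' := interior_subset ht
    rw [(hFd t).deriv]
    have h1 : Real.exp (lam * (t₀ - t)) ≤ Real.exp (lam * (L + 1)) := by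
      gcongr; linarith [ht'.1]
    have h2 : W' t - lam * W t ≤ 2 * δ * A * En t := by linarith [hW'le t ht']
    have h3 : 0 ≤ 2 * δ * A * En t := mul_nonneg (by positivity) (hEn0 t)
    have h4 := mul_le_mul_of_nonneg_left h2 (Real.exp_pos (lam * (t₀ - t))).le
    have h5 := mul_le_mul_of_nonneg_right h1 h3
    simp only [hM]
    nlinarith
  obtain ⟨s, hs, hs'⟩ := exists_hasDerivAt_eq_slope (fun t => ⟪u t, u' t⟫) En
    (show t₀ - L - 1 < t₀ - L by linarith)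
    (fun t _ => (hPd t).continuousAt.continuousWithinAt) fun t _ => hPd t
  have hs1 : s ∈ Icc (t₀ - L - 1) t₀ := ⟨hs.1.le, by linarith [hs.2]⟩
  have ha : t₀ - L - 1 ∈ Icc (t₀ - L - 1) t₀ := ⟨le_rfl, by linarith⟩
  have hb' : t₀ - L ∈ Icc (t₀ - L - 1) t₀ := ⟨by linarith, by linarith⟩
  have hc : t₀ ∈ Icc (t₀ - L - 1) t₀ := ⟨by linarith, le_rfl⟩
  have k1 : En s ≤ C₁ ^ 2 * Real.exp (-(2 * (γ₀ - ε * (L + 1)) * L)) * ‖u t₀‖ ^ 2 := by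
    have h1 := (hP _ ha).1
    obtain ⟨-, h2, h3⟩ := hP _ hb'
    rw [show t₀ - (t₀ - L) = L by ring] at h3
    rw [hs', show t₀ - L - (t₀ - L - 1) = 1 by ring, div_one]
    nlinarith [mul_le_mul_of_nonneg_left h3 (by linarith : 0 ≤ C₁)]
  have k2 := hanti hs1 hc hs1.2
  simp only [sub_self, mul_zero, Real.exp_zero, one_mul] at k2
  have k3 : Real.exp (lam * (t₀ - s)) * W s ≤ q₀ * η / 2 * ‖u t₀‖ ^ 2 := by
    calc _ ≤ Real.exp (lam * (L + 1)) * ((1 + A) *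
            (C₁ ^ 2 * Real.exp (-(2 * (γ₀ - ε * (L + 1)) * L)) * ‖u t₀‖ ^ 2)) := by
          refine mul_le_mul ?_ ((hWle s hs1).trans ?_) (hWn s) (by positivity)
          · gcongr; linarith [hs1.1]
          · gcongr
      _ = (1 + A) * C₁ ^ 2 * Real.exp (lam * (L + 1) + -(2 * (γ₀ - ε * (L + 1)) * L)) *
            ‖u t₀‖ ^ 2 := by rw [Real.exp_add]; ring
      _ ≤ (1 + A) * C₁ ^ 2 * Real.exp (2 * G + ν + 1 - ν * L) * ‖u t₀‖ ^ 2 := by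
          gcongr
          have h1 : ε * (L + 1) * L ≤ ε * (L + 1) ^ 2 := by
            rw [sq, ← mul_assoc]; gcongr; linarith
          have h2 := mul_le_mul_of_nonneg_right hbν (by linarith : 0 ≤ L)
          simp only [hlam]
          nlinarith
      _ ≤ _ := by gcongr
  have k4 : M * ⟪u t₀, u' t₀⟫ ≤ q₀ * η / 2 * ‖u t₀‖ ^ 2 := by
    calc _ ≤ (2 * δ * A * Real.exp ((2 * G + ν) * (L + 1))) * (C₁ * ‖u t₀‖ ^ 2) := by
          refine mul_le_mul ?_ (hP _ hc).2.1 (hP _ hc).1 (by positivity)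
          simp only [hM, hlam]
          gcongr
          linarith
      _ = (2 * δ * A * Real.exp ((2 * G + ν) * (L + 1)) * C₁) * ‖u t₀‖ ^ 2 := by ring
      _ ≤ _ := by gcongr
  have k5 : 0 ≤ M * ⟪u s, u' s⟫ := mul_nonneg (by positivity) (hP _ hs1).1
  have k6 : q₀ * ∑ i ∈ S, ⟪φ t₀ i, u t₀⟫ ^ 2 ≤ W t₀ := by
    rw [Finset.mul_sum]
    exact Finset.sum_le_sum fun i _ => (mul_le_mul_of_nonneg_right (hS.low t₀ i)
      (sq_nonneg _)).trans (le_add_of_nonneg_left (sq_nonneg _))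
  refine le_of_mul_le_mul_left ?_ hq
  linarith

end Crest.Agent.R202
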