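import Crest.Agent.R202.GDefs

/-! # Row 202, Dyn3Aux: scalar differential inequalities -/

set_option autoImplicit false
open scoped RealInnerProductSpace
open Set Filter

noncomputable section
namespace Crest.Agent.R202

theorem d3_mono {f : ℝ → ℝ} {a b : ℝ} (hab : a ≤ b)
    (h : ∀ τ ∈ Icc a b, ∃ f', HasDerivAt f f' τ ∧ 0 ≤ f') : f a ≤ f b := by
  have hm : MonotoneOn f (Icc a b) := by
    refine monotoneOn_of_deriv_nonneg (convex_Icc a b) (fun τ hτ => ?_) (fun τ hτ => ?_)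
      (fun τ hτ => ?_)
    · obtain ⟨f', h1, -⟩ := h τ hτ
      exact h1.continuousAt.continuousWithinAt
    · obtain ⟨f', h1, -⟩ := h τ (interior_subset hτ)
      exact h1.differentiableAt.differentiableWithinAt
    · obtain ⟨f', h1, h2⟩ := h τ (interior_subset hτ)
      rwa [h1.deriv]
  exact hm (left_mem_Icc.2 hab) (right_mem_Icc.2 hab) hab

theorem d3_cmp {Q : ℝ → ℝ} {a b k m : ℝ} (hab : a ≤ b) (hm : 0 ≤ m) (hk : 0 ≤ k ∨ m = 0)
    (h : ∀ τ ∈ Icc a b, ∃ Q', HasDerivAt Q Q' τ ∧ 2 * k * Q τ + m ≤ Q') :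
    Real.exp (2 * k * (b - a)) * Q a + m * (b - a) ≤ Q b := by
  have h1 := d3_mono (f := fun τ => Real.exp (2 * k * (b - τ)) * Q τ - m * τ) hab (fun τ hτ => by
    obtain ⟨Q', h1, h2⟩ := h τ hτ
    have h3 : HasDerivAt (fun τ => 2 * k * (b - τ)) (2 * k * (-1)) τ :=
      ((hasDerivAt_id τ).const_sub b).const_mul (2 * k)
    refine ⟨_, (h3.exp.mul h1).sub ((hasDerivAt_id τ).const_mul m), ?_⟩
    have h4 : 0 < Real.exp (2 * k * (b - τ)) := Real.exp_pos _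
    have h5 : m ≤ Real.exp (2 * k * (b - τ)) * m := by
      rcases hk with hk | hk
      · refine le_mul_of_one_le_left hm (Real.one_le_exp ?_)
        have := hτ.2
        have : 0 ≤ b - τ := by linarith
        positivity
      · simp [hk]
    nlinarith [mul_le_mul_of_nonneg_left h2 h4.le])
  simp only [sub_self, mul_zero, Real.exp_zero, one_mul] at h1
  linarith

/-- the scalar quantities `F = ‖u‖²`, `P = ⟪u,u'⟫`, `E = P'` -/
structure D3Sc (F P E : ℝ → ℝ) (C T₀ T₁ : ℝ) : Prop where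
  dF : ∀ t, HasDerivAt F (2 * P t) t
  dP : ∀ t, HasDerivAt P (E t) t
  F0 : ∀ t, 0 ≤ F t
  P0 : ∀ t, T₀ ≤ t → 0 ≤ P t
  PF : ∀ t ∈ Icc T₀ T₁, P t ≤ C * F t

/-- the scalar Lyapunov inequality -/
structure D3Ly (F E Q γ : ℝ → ℝ) (c Cb Γ s t : ℝ) : Prop where
  cont : ∀ τ ∈ Icc s t, ContinuousAt γ τ
  rng : ∀ τ ∈ Icc s t, 0 ≤ γ τ ∧ γ τ ≤ Γ
  der : ∀ τ ∈ Icc s t, ∃ Q', HasDerivAt Q Q' τ ∧ 2 * γ τ * Q τ + c * F τ ≤ Q'
  bd : ∀ τ ∈ Icc s t, |Q τ| ≤ Cb * (E τ + F τ)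

variable {F P E Q γ : ℝ → ℝ} {C T₀ T₁ c Cb Γ s t : ℝ}

theorem D3Sc.mono (h : D3Sc F P E C T₀ T₁) {a b : ℝ} (ha : T₀ ≤ a) (hab : a ≤ b) : F a ≤ F b :=
  d3_mono hab fun τ hτ => ⟨_, h.dF τ, by have := h.P0 τ (ha.trans hτ.1); positivity⟩

theorem D3Sc.dbl (h : D3Sc F P E C T₀ T₁) {a b : ℝ} (ha : T₀ ≤ a) (hab : a ≤ b) (hb : b ≤ T₁) :
    F b ≤ Real.exp (2 * C * (b - a)) * F a := by
  have h1 := d3_cmp (Q := fun τ => -F τ) (k := C) hab le_rfl (Or.inr rfl) (fun τ hτ =>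
    ⟨_, (h.dF τ).neg, by have := h.PF τ ⟨ha.trans hτ.1, hτ.2.trans hb⟩; linarith⟩)
  linarith

theorem D3Sc.mvt (h : D3Sc F P E C T₀ T₁) {a : ℝ} (ha : T₀ ≤ a) (hb : a + 1 ≤ T₁) :
    ∃ x ∈ Icc a (a + 1), E x + F x ≤ (C + 1) * F (a + 1) := by
  obtain ⟨x, hx, h1⟩ := exists_hasDerivAt_eq_slope P E (show a < a + 1 by linarith)
    (fun τ _ => (h.dP τ).continuousAt.continuousWithinAt) (fun τ _ => h.dP τ)
  refine ⟨x, Ioo_subset_Icc_self hx, ?_⟩
  rw [add_sub_cancel_left, div_one] at h1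
  have h2 := h.P0 a ha
  have h3 := h.PF (a + 1) ⟨by linarith, hb⟩
  have h4 := h.mono (ha.trans hx.1.le) hx.2.le
  linarith

theorem D3Ly.sign (h : D3Ly F E Q γ c Cb Γ s t) (hc : 0 ≤ c) (hF : ∀ τ, 0 ≤ F τ) {a b : ℝ}
    (ha : s ≤ a) (hab : a ≤ b) (hb : b ≤ t) : ∃ r : ℝ, 0 < r ∧ r * Q a ≤ Q b := by
  have hst : s ≤ t := ha.trans (hab.trans hb)
  set g : ℝ → ℝ := fun τ => γ (projIcc s t hst τ) with hg
  have hgc : Continuous g := by
    have h1 : ContinuousOn γ (Icc s t) := fun τ hτ => (h.cont τ hτ).continuousWithinAt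
    exact h1.comp_continuous (continuous_subtype_val.comp continuous_projIcc)
      (fun τ => (projIcc s t hst τ).2)
  set G : ℝ → ℝ := fun τ => ∫ x in s..τ, g x with hG
  have hGd : ∀ τ, HasDerivAt G (g τ) τ := fun τ => (hgc.integral_hasStrictDerivAt s τ).hasDerivAt
  have h1 := d3_mono (f := fun τ => Real.exp (-2 * G τ) * Q τ) hab (fun τ hτ => by
    have hτ' : τ ∈ Icc s t := ⟨ha.trans hτ.1, hτ.2.trans hb⟩
    obtain ⟨Q', h1, h2⟩ := h.der τ hτ'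
    refine ⟨_, (((hGd τ).const_mul (-2)).exp.mul h1), ?_⟩
    have h3 : g τ = γ τ := by simp only [hg, projIcc_of_mem hst hτ']
    have h4 : 0 < Real.exp (-2 * G τ) := Real.exp_pos _
    have h5 := mul_nonneg hc (hF τ)
    rw [h3]
    nlinarith [mul_le_mul_of_nonneg_left h2 h4.le, mul_nonneg h4.le h5])
  refine ⟨Real.exp (-2 * G a) / Real.exp (-2 * G b), by positivity, ?_⟩
  rw [div_mul_eq_mul_div, div_le_iff₀ (Real.exp_pos _)]
  linarith

theorem D3Ly.nonneg (h : D3Ly F E Q γ c Cb Γ s t) (hc : 0 ≤ c) (hF : ∀ τ, 0 ≤ F τ) {a b : ℝ}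
    (ha : s ≤ a) (hab : a ≤ b) (hb : b ≤ t) (h0 : 0 ≤ Q a) : 0 ≤ Q b := by
  obtain ⟨r, hr, h1⟩ := h.sign hc hF ha hab hb
  exact (mul_nonneg hr.le h0).trans h1

theorem D3Ly.nonpos (h : D3Ly F E Q γ c Cb Γ s t) (hc : 0 ≤ c) (hF : ∀ τ, 0 ≤ F τ) {a b : ℝ}
    (ha : s ≤ a) (hab : a ≤ b) (hb : b ≤ t) (h0 : Q b ≤ 0) : Q a ≤ 0 := by
  obtain ⟨r, hr, h1⟩ := h.sign hc hF ha hab hb
  by_contra h2
  have := mul_pos hr (not_le.1 h2)
  linarith

/-- the constant of the growth estimates -/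
def d3K (C c Cb Γ : ℝ) : ℝ := (Cb * (C + 1) / c + 1) * Real.exp (4 * C + 2 * Γ)

theorem d3K_ge (hC : 0 ≤ C) (hc : 0 < c) (hCb : 0 ≤ Cb) :
    Real.exp (4 * C + 2 * Γ) ≤ d3K C c Cb Γ := by
  refine le_mul_of_one_le_left (Real.exp_pos _).le ?_
  have : 0 ≤ Cb * (C + 1) / c := by positivity
  linarith

theorem d3K_ge' : Cb * (C + 1) / c * Real.exp (4 * C + 2 * Γ) ≤ d3K C c Cb Γ := by
  unfold d3K
  have := Real.exp_pos (4 * C + 2 * Γ)
  linarith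

theorem d3_upper (hS : D3Sc F P E C T₀ T₁) (h : D3Ly F E Q γ c Cb Γ s t) (hC : 0 ≤ C) (hc : 0 < c)
    (hCb : 0 ≤ Cb) (hs : T₀ ≤ s) (ht : t ≤ T₁) {a b t₁ γb : ℝ} (ha : s ≤ a) (hab : a ≤ b)
    (hb : b ≤ t₁) (ht₁ : t₁ ≤ t) (h0 : Q t₁ ≤ 0) (hγ : ∀ τ ∈ Icc a b, γ τ ≤ γb) :
    F b ≤ d3K C c Cb Γ * Real.exp (2 * γb * (b - a)) * F a := by
  have haI : a ∈ Icc s t := ⟨ha, by linarith⟩
  have hγb : 0 ≤ γb := (h.rng a haI).1.trans (hγ a (left_mem_Icc.2 hab))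
  have hΓ : 0 ≤ Γ := (h.rng a haI).1.trans (h.rng a haI).2
  have hFa := hS.F0 a
  have hneg : ∀ τ, s ≤ τ → τ ≤ b → Q τ ≤ 0 := fun τ h1 h2 =>
    h.nonpos hc.le hS.F0 h1 (h2.trans hb) ht₁ h0
  have he : 1 ≤ Real.exp (2 * γb * (b - a)) :=
    Real.one_le_exp (by have : 0 ≤ b - a := by linarith
                        positivity)
  by_cases hcase : b ≤ a + 2
  · have h1 := hS.dbl (hs.trans ha) hab (by linarith)
    have h2 : Real.exp (2 * C * (b - a)) ≤ d3K C c Cb Γ :=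
      (Real.exp_le_exp.2 (by nlinarith)).trans (d3K_ge hC hc hCb)
    have h3 : 0 ≤ d3K C c Cb Γ := (Real.exp_pos _).le.trans h2
    calc F b ≤ Real.exp (2 * C * (b - a)) * F a := h1
      _ ≤ d3K C c Cb Γ * 1 * F a := by rw [mul_one]; gcongr
      _ ≤ _ := by gcongr
  · push Not at hcase
    obtain ⟨x, hx, hx1⟩ := hS.mvt (hs.trans ha) (show a + 1 ≤ T₁ by linarith)
    have hxI : x ∈ Icc s t := ⟨ha.trans hx.1, by linarith [hx.2]⟩
    have h1 : -Q x ≤ Cb * ((C + 1) * (Real.exp (2 * C) * F a)) := by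
      have h2 := hS.dbl (hs.trans ha) (show a ≤ a + 1 by linarith) (by linarith)
      rw [add_sub_cancel_left, mul_one] at h2
      calc -Q x ≤ |Q x| := neg_le_abs _
        _ ≤ Cb * (E x + F x) := h.bd x hxI
        _ ≤ Cb * ((C + 1) * F (a + 1)) := by gcongr
        _ ≤ _ := by gcongr
    have h2 := d3_cmp (Q := Q) (k := γb) (show x ≤ b - 1 by linarith [hx.2]) le_rfl (Or.inr rfl)
      (fun τ hτ => by
        have hτa : a ≤ τ := hx.1.trans hτ.1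
        have hτb : τ ≤ b := by linarith [hτ.2]
        obtain ⟨Q', h1, h2⟩ := h.der τ ⟨ha.trans hτa, by linarith⟩
        refine ⟨Q', h1, ?_⟩
        have h3 := hneg τ (ha.trans hτa) hτb
        have h4 := hγ τ ⟨hτa, hτb⟩
        have h5 := mul_nonneg hc.le (hS.F0 τ)
        nlinarith)
    have h3 := d3_cmp (Q := Q) (k := Γ) (m := c * F (b - 1)) (show b - 1 ≤ b by linarith)
      (mul_nonneg hc.le (hS.F0 _)) (Or.inl hΓ) (fun τ hτ => by
        have hτa : s ≤ τ := by linarith [hτ.1]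
        have hτI : τ ∈ Icc s t := ⟨hτa, by linarith [hτ.2]⟩
        obtain ⟨Q', h1, h2⟩ := h.der τ hτI
        refine ⟨Q', h1, ?_⟩
        have h3 := hneg τ hτa hτ.2
        have h4 := (h.rng τ hτI).2
        have h5 := mul_le_mul_of_nonneg_left (hS.mono (show T₀ ≤ b - 1 by linarith) hτ.1) hc.le
        nlinarith)
    have h4 := hS.dbl (show T₀ ≤ b - 1 by linarith) (show b - 1 ≤ b by linarith) (by linarith)
    rw [sub_sub_cancel, mul_one] at h3 h4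
    rw [mul_one] at h3
    have h5 := hneg b (ha.trans hab) le_rfl
    have h6 : F (b - 1) ≤ Real.exp (2 * Γ) * (-Q (b - 1)) / c := by
      rw [le_div_iff₀ hc]; linarith
    have hQx : 0 ≤ -Q x := by linarith [hneg x hxI.1 (by linarith [hx.2])]
    have h7 : -Q (b - 1) ≤ Real.exp (2 * γb * (b - a)) * (-Q x) := by
      have : Real.exp (2 * γb * (b - 1 - x)) ≤ Real.exp (2 * γb * (b - a)) :=
        Real.exp_le_exp.2 (by nlinarith [hx.1])
      nlinarith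
    have e : Real.exp (4 * C + 2 * Γ) = Real.exp (2 * C) * Real.exp (2 * Γ) * Real.exp (2 * C) := by
      rw [← Real.exp_add, ← Real.exp_add]; congr 1; ring
    calc F b ≤ Real.exp (2 * C) * F (b - 1) := h4
      _ ≤ Real.exp (2 * C) * (Real.exp (2 * Γ) * (Real.exp (2 * γb * (b - a)) *
          (Cb * ((C + 1) * (Real.exp (2 * C) * F a)))) / c) := by
          refine mul_le_mul_of_nonneg_left (h6.trans ?_) (Real.exp_pos _).le
          gcongr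
          exact h7.trans (by gcongr)
      _ = Cb * (C + 1) / c * Real.exp (4 * C + 2 * Γ) * Real.exp (2 * γb * (b - a)) * F a := by
          rw [e]; ring
      _ ≤ _ := by gcongr; exact d3K_ge'

theorem d3_lower (hS : D3Sc F P E C T₀ T₁) (h : D3Ly F E Q γ c Cb Γ s t) (hC : 0 ≤ C) (hc : 0 < c)
    (hCb : 0 ≤ Cb) (hs : T₀ ≤ s) (ht : t ≤ T₁) {s₁ a b γa : ℝ} (hs₁ : s ≤ s₁) (ha : s₁ + 1 ≤ a)
    (hab : a ≤ b) (hb : b ≤ t) (h0 : 0 ≤ Q s₁) (hγ : ∀ τ ∈ Icc a b, γa ≤ γ τ) :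
    F a ≤ d3K C c Cb Γ * Real.exp (-(2 * γa * (b - a))) * F b := by
  have haI : a ∈ Icc s t := ⟨by linarith, by linarith⟩
  have hγa : γa ≤ Γ := (hγ a (left_mem_Icc.2 hab)).trans (h.rng a haI).2
  have hΓ : 0 ≤ Γ := (h.rng a haI).1.trans (h.rng a haI).2
  have hFb := hS.F0 b
  have hpos : ∀ τ, s₁ ≤ τ → τ ≤ b → 0 ≤ Q τ := fun τ h1 h2 =>
    h.nonneg hc.le hS.F0 hs₁ h1 (h2.trans hb) h0
  by_cases hcase : b ≤ a + 1
  · have h1 := hS.mono (show T₀ ≤ a by linarith) hab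
    have h2 : 1 ≤ d3K C c Cb Γ * Real.exp (-(2 * γa * (b - a))) := by
      refine le_trans ?_ (mul_le_mul_of_nonneg_right (d3K_ge hC hc hCb) (Real.exp_pos _).le)
      rw [← Real.exp_add]
      refine Real.one_le_exp ?_
      nlinarith
    exact h1.trans (le_mul_of_one_le_left hFb h2)
  · push Not at hcase
    obtain ⟨x, hx, hx1⟩ := hS.mvt (a := b - 1) (by linarith) (by linarith)
    rw [sub_add_cancel] at hx hx1
    have hxI : x ∈ Icc s t := ⟨by linarith [hx.1], by linarith [hx.2]⟩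
    have h1 : Q x ≤ Cb * ((C + 1) * F b) :=
      calc Q x ≤ |Q x| := le_abs_self _
        _ ≤ Cb * (E x + F x) := h.bd x hxI
        _ ≤ Cb * ((C + 1) * F b) := by gcongr
    have h2 := d3_cmp (Q := Q) (k := γa) (show a ≤ x by linarith [hx.1]) le_rfl (Or.inr rfl)
      (fun τ hτ => by
        have hτb : τ ≤ b := hτ.2.trans hx.2
        obtain ⟨Q', h1, h2⟩ := h.der τ ⟨haI.1.trans hτ.1, by linarith⟩
        refine ⟨Q', h1, ?_⟩
        have h3 := hpos τ (by linarith [hτ.1]) hτb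
        have h4 := hγ τ ⟨hτ.1, hτb⟩
        have h5 := mul_nonneg hc.le (hS.F0 τ)
        nlinarith)
    have h3 := d3_cmp (Q := Q) (k := 0) (m := c * F (a - 1)) (show a - 1 ≤ a by linarith)
      (mul_nonneg hc.le (hS.F0 _)) (Or.inl le_rfl) (fun τ hτ => by
        have hτI : τ ∈ Icc s t := ⟨by linarith [hτ.1], by linarith [hτ.2]⟩
        obtain ⟨Q', h1, h2⟩ := h.der τ hτI
        refine ⟨Q', h1, ?_⟩
        have h3 := hpos τ (by linarith [hτ.1]) (hτ.2.trans hab)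
        have h4 := (h.rng τ hτI).1
        have h5 := mul_le_mul_of_nonneg_left (hS.mono (show T₀ ≤ a - 1 by linarith) hτ.1) hc.le
        nlinarith)
    have h4 := hS.dbl (show T₀ ≤ a - 1 by linarith) (show a - 1 ≤ a by linarith) (by linarith)
    rw [sub_sub_cancel, mul_one] at h3 h4
    simp only [mul_zero, Real.exp_zero, one_mul, mul_one] at h3
    have h5 := hpos (a - 1) (by linarith) (by linarith)
    have h6 : F (a - 1) ≤ Q a / c := by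
      rw [le_div_iff₀ hc]; linarith
    have h7 : Q a ≤ Real.exp (2 * Γ) * Real.exp (-(2 * γa * (b - a))) * Q x := by
      have h8 : Q a ≤ Real.exp (-(2 * γa * (x - a))) * Q x := by
        rw [Real.exp_neg, inv_mul_eq_div, le_div_iff₀ (Real.exp_pos _)]
        linarith
      refine h8.trans (mul_le_mul_of_nonneg_right ?_ (hpos x (by linarith [hx.1]) hx.2))
      rw [← Real.exp_add]
      refine Real.exp_le_exp.2 ?_
      nlinarith [hx.1, hx.2]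
    have e : Real.exp (2 * C) * Real.exp (2 * Γ) ≤ Real.exp (4 * C + 2 * Γ) := by
      rw [← Real.exp_add]; exact Real.exp_le_exp.2 (by linarith)
    calc F a ≤ Real.exp (2 * C) * F (a - 1) := h4
      _ ≤ Real.exp (2 * C) * (Real.exp (2 * Γ) * Real.exp (-(2 * γa * (b - a))) *
          (Cb * ((C + 1) * F b)) / c) := by
          refine mul_le_mul_of_nonneg_left (h6.trans ?_) (Real.exp_pos _).le
          gcongr
          exact h7.trans (by gcongr)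
      _ = Cb * (C + 1) / c * (Real.exp (2 * C) * Real.exp (2 * Γ)) *
          Real.exp (-(2 * γa * (b - a))) * F b := by ring
      _ ≤ Cb * (C + 1) / c * Real.exp (4 * C + 2 * Γ) * Real.exp (-(2 * γa * (b - a))) * F b := by
          gcongr
      _ ≤ _ := by gcongr; exact d3K_ge'

section Hilb
variable {V : Type*} [NormedAddCommGroup V] [InnerProductSpace ℝ V] {D : ℕ}

theorem d3_quad_nonneg {B : V →L[ℝ] V} {φ : OrthonormalBasis (Fin D) ℝ V} {β : Fin D → ℝ}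
    (hB : EigB B φ β) (h0 : ∀ i, 0 ≤ β i) (x : V) : 0 ≤ ⟪B x, x⟫ := by
  have h1 : B x = ∑ i, (⟪φ i, x⟫ * β i) • φ i := by
    conv_lhs => rw [← φ.sum_repr' x]
    simp only [map_sum, map_smul, hB.2, smul_smul]
  rw [h1, sum_inner]
  refine Finset.sum_nonneg fun i _ => ?_
  rw [real_inner_smul_left]
  nlinarith [mul_nonneg (h0 i) (mul_self_nonneg ⟪φ i, x⟫)]

theorem d3_reg_nonneg {φ : OrthonormalBasis (Fin D) ℝ V} {β : Fin D → ℝ} {x y : V}
    (h : Reg0 φ β x y) : 0 ≤ ⟪x, y⟫ := by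
  rw [← φ.sum_inner_mul_inner x y]
  refine Finset.sum_nonneg fun i _ => ?_
  rw [h i, real_inner_comm]
  nlinarith [mul_nonneg (Real.sqrt_nonneg (β i)) (mul_self_nonneg ⟪φ i, x⟫)]

theorem Slow.d3_mono {B B' : ℝ → V →L[ℝ] V} {φ : ℝ → OrthonormalBasis (Fin D) ℝ V}
    {β : ℝ → Fin D → ℝ} {q₀ ε ε' : ℝ} (h : Slow B B' φ β q₀ ε) (hq : 0 ≤ q₀) (hε : ε ≤ ε') :
    Slow B B' φ β q₀ ε' := by
  refine ⟨h.der, h.eig, h.low, fun t x y => (h.slow t x y).trans ?_⟩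
  have h1 := d3_quad_nonneg (h.eig t) (fun i => hq.trans (h.low t i)) x
  have h2 := d3_quad_nonneg (h.eig t) (fun i => hq.trans (h.low t i)) y
  exact mul_le_mul_of_nonneg_right hε (by positivity)

theorem Thr.d3_mono {β : ℝ → Fin D → ℝ} {q : ℕ} {γ γ' : ℝ → ℝ} {μ Γ ε μ' Γ' ε' s t : ℝ}
    (h : Thr β q γ γ' μ Γ ε s t) (hμ : μ' ≤ μ) (hΓ : Γ ≤ Γ') (hε : ε ≤ ε') :
    Thr β q γ γ' μ' Γ' ε' s t :=
  ⟨h.der, fun τ hτ => (h.slow τ hτ).trans hε, fun τ hτ => ⟨(h.rng τ hτ).1, (h.rng τ hτ).2.trans hΓ⟩,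
    fun τ hτ i => ⟨fun hi => by linarith [(h.gap τ hτ i).1 hi],
      fun hi => by linarith [(h.gap τ hτ i).2 hi]⟩⟩

theorem Thr.d3_lip {β : ℝ → Fin D → ℝ} {q : ℕ} {γ γ' : ℝ → ℝ} {μ Γ ε s t : ℝ}
    (h : Thr β q γ γ' μ Γ ε s t) {a b : ℝ} (ha : a ∈ Icc s t) (hb : b ∈ Icc s t) :
    |γ b - γ a| ≤ ε * |b - a| :=
  (convex_Icc s t).norm_image_sub_le_of_norm_hasDerivWithin_le
    (fun τ hτ => (h.der τ hτ).hasDerivWithinAt) h.slow ha hb

theorem Sol.d3_F {B : ℝ → V →L[ℝ] V} {u u' : ℝ → V} (h : Sol B u u') (t : ℝ) :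
    HasDerivAt (fun τ => ‖u τ‖ ^ 2) (2 * ⟪u t, u' t⟫) t := (h t).1.norm_sq

theorem Sol.d3_P {B : ℝ → V →L[ℝ] V} {u u' : ℝ → V} (h : Sol B u u') (t : ℝ) :
    HasDerivAt (fun τ => ⟪u τ, u' τ⟫) (‖u' t‖ ^ 2 + ⟪B t (u t), u t⟫) t := by
  have h1 := (h t).1.inner ℝ (h t).2
  rw [real_inner_self_eq_norm_sq, real_inner_comm, add_comm] at h1
  exact h1

end Hilb

end Crest.Agent.R202
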