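import Crest.Agent.R202.Dyn1
import Crest.Agent.R202.Dyn2
import Crest.Agent.R202.Dyn3Aux

/-! # Row 202, Dyn3: cone and growth properties of regular solutions -/

set_option autoImplicit false
open scoped RealInnerProductSpace
open Set Filter

noncomputable section
namespace Crest.Agent.R202

set_option maxHeartbeats 1000000 in
/-- Notation `F = ‖u‖²`, `P = ⟪u,u'⟫` (`F' = 2P`, `P' = ‖u'‖²+⟪Bu,u⟫ ≥ 0`, `P 0 ≥ 0` by `Reg0`, so `P ≥ 0` and `F`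
increases on `[0,∞)`).  Take `γ₀ = √q₀/2`, `μ' = min μ (q₀/2)`, `Γ' = max Γ γ₀`, and `δ,c,ε` from `lyap γ₀ μ' Γ'`
(all thresholds of gaps `q ≥ 1` satisfy `γ² ≥ β 0 + μ ≥ q₀`, so `γ > γ₀`; the constant threshold `γ₀` is a `Thr` for the gap `0`
on `[0,t]`).  From `lyap`, `e^{-2∫γ} Q` increases (FTC for the continuous `γ`), so
* `Q_{γ₀} ≥ 0` on `[0,∞)` (`Qf_init`), `Q_{γN} ≤ 0` on `[T₀,T₁]` (`Qf_final`), hence `P ≤ C F` on `[T₀,T₁]`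
  (`Qf_diff`) and `F t ≤ e^{2C(t-s)} F s` there (doubling);
* mean value theorem for `P`: every unit interval `[s,s+1] ⊂ [T₀,T₁]` contains `s*` with
  `‖u'‖²+⟪Bu,u⟫ ≤ C F(s+1)` at `s*`, so `|Q(s*)| ≤ C' F(s+1)` (`Qf_bound`);
* upper growth: if `Q_γ(t₁) ≤ 0` with `γ` a `Thr` on `[s,t₁]`, then `-Q ≥ 0` on `[s,t₁]`, `c F(t) ≤ -Q(t)` for
  `t+1 ≤ t₁`, `-Q(t) ≤ e^{2γb(t-s*)}(-Q(s*))`, hence `F t ≤ C e^{2γb(t-s)} F s` for all `s ≤ t ≤ t₁` (doubling at the ends);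
* lower growth: if `Q_γ(s) ≥ 0` then `F τ ≤ C e^{-2γa(t-τ)} F t` for `s+1 ≤ τ ≤ t` when `γ ≥ γa` on `[τ,t]`.
`cone`: if `Q(s+L₁) ≤ 0` then `high` contradicts the hypothesis, so `Q > 0` from `s+L₁` on, and `lowS` applies at `t`
(`|γ τ - γ t₀| ≤ ε|τ-t₀|`).  `grow`: by `lowS`, `Q(t-L₂-2) < 0` if `t-L₂-2 ≥ s`; otherwise use doubling.
Take `ε` = the minimum of the three `ε`'s (`Slow`, `Thr` are monotone in `ε`), `L = L₁+L₂+3`. -/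
theorem dyn_basic (q₀ μ Γ η : ℝ) (hq : 0 < q₀) (hμ : 0 < μ) (hη : 0 < η) :
    ∃ ε L C : ℝ, 0 < ε ∧ 1 ≤ L ∧ 1 ≤ C ∧
      ∀ {V : Type} [NormedAddCommGroup V] [InnerProductSpace ℝ V] [FiniteDimensional ℝ V] {D : ℕ}
        (B B' : ℝ → V →L[ℝ] V) (φ : ℝ → OrthonormalBasis (Fin D) ℝ V) (β : ℝ → Fin D → ℝ),
        0 < D → Slow B B' φ β q₀ ε → ∀ u u' : ℝ → V, Sol B u u' → Reg0 (φ 0) (β 0) (u 0) (u' 0) →
        ∀ (N : ℕ) (T₀ T₁ : ℝ) (γN γN' : ℝ → ℝ), 1 ≤ N → L ≤ T₀ → T₀ ≤ T₁ →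
        Thr β N γN γN' μ Γ ε T₀ T₁ → (∀ i : Fin D, N ≤ (i : ℕ) → ⟪φ T₁ i, u T₁⟫ = 0) →
        MonotoneOn (fun t => ‖u t‖) (Ici 0) ∧
        (∀ (q : ℕ) (γ γ' : ℝ → ℝ) (s t : ℝ), 1 ≤ q → T₀ ≤ s → s + L ≤ t → t ≤ T₁ →
          Thr β q γ γ' μ Γ ε s t → η * ‖u s‖ ^ 2 < hiB (φ s) q (u s) →
          loB (φ t) q (u t) ≤ η * ‖u t‖ ^ 2) ∧
        (∀ (q : ℕ) (γ γ' : ℝ → ℝ) (s t γb : ℝ), 1 ≤ q → T₀ ≤ s → s ≤ t → t ≤ T₁ →
          Thr β q γ γ' μ Γ ε s t → (∀ τ ∈ Icc s t, γ τ ≤ γb) →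
          η * ‖u t‖ ^ 2 < loB (φ t) q (u t) → ‖u t‖ ≤ C * Real.exp (γb * (t - s)) * ‖u s‖) ∧
        (∀ s, T₀ ≤ s → s + L ≤ T₁ → hiB (φ s) N (u s) ≤ η * ‖u s‖ ^ 2) ∧
        (∀ s t γb, T₀ ≤ s → s ≤ t → t ≤ T₁ → (∀ τ ∈ Icc s t, γN τ ≤ γb) →
          ‖u t‖ ≤ C * Real.exp (γb * (t - s)) * ‖u s‖) := by
  set γ₀ : ℝ := √q₀ / 2 with hγ₀
  have hγ₀0 : 0 < γ₀ := by positivity
  have hγ₀2 : γ₀ ^ 2 = q₀ / 4 := by rw [hγ₀, div_pow, Real.sq_sqrt hq.le]; norm_num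
  set μ' : ℝ := min μ (q₀ / 2) with hμ'
  have hμ'0 : 0 < μ' := lt_min hμ (by linarith)
  set Γ' : ℝ := max Γ γ₀ with hΓ'
  have hΓ'0 : 0 < Γ' := hγ₀0.trans_le (le_max_right _ _)
  obtain ⟨δ, c, ε₀, hδ, hδ1, hc, hε₀, hL⟩ := lyap γ₀ μ' Γ' hγ₀0 hμ'0
  set C : ℝ := 2 * (Γ' + γ₀) + 1 with hC
  have hC1 : 1 ≤ C := by rw [hC]; linarith
  have hC0 : 0 ≤ C := by linarith
  set Cb : ℝ := 5 + 5 * Γ' ^ 2 with hCb
  have hCb0 : 0 ≤ Cb := by positivity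
  set K : ℝ := d3K C c Cb Γ' with hK
  have hK0 : 0 ≤ K := (Real.exp_pos _).le.trans (d3K_ge hC0 hc hCb0)
  have hC₁ : 1 ≤ K + C := by linarith
  obtain ⟨ε₁, L₁, hε₁, hL₁, hH⟩ := high μ Γ (K + C) η hμ hC₁ hη
  obtain ⟨ε₂, L₂, hε₂, hL₂, hS⟩ := lowS q₀ μ Γ (K + C) η hq hμ hC₁ hη
  set Cf : ℝ := (K + C) * Real.exp (2 * C * (L₂ + 2)) with hCf
  have hexp1 : 1 ≤ Real.exp (2 * C * (L₂ + 2)) := Real.one_le_exp (by positivity)
  have hCf1 : 1 ≤ Cf := one_le_mul_of_one_le_of_one_le hC₁ hexp1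
  refine ⟨min ε₀ (min ε₁ ε₂), L₁ + L₂ + 3, Cf, lt_min hε₀ (lt_min hε₁ hε₂), by linarith, hCf1, ?_⟩
  intro V _ _ _ D B B' φ β hD hsl u u' hsol hreg N T₀ T₁ γN γN' hN hT₀ hT hThr hfin
  have he₀ : min ε₀ (min ε₁ ε₂) ≤ ε₀ := min_le_left _ _
  have he₁ : min ε₀ (min ε₁ ε₂) ≤ ε₁ := (min_le_right _ _).trans (min_le_left _ _)
  have he₂ : min ε₀ (min ε₁ ε₂) ≤ ε₂ := (min_le_right _ _).trans (min_le_right _ _)
  set ε := min ε₀ (min ε₁ ε₂) with hε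
  have hβ0 : ∀ t i, 0 ≤ β t i := fun t i => hq.le.trans (hsl.low t i)
  have hquad : ∀ t x, 0 ≤ ⟪B t x, x⟫ := fun t x => d3_quad_nonneg (hsl.eig t) (hβ0 t) x
  set F : ℝ → ℝ := fun t => ‖u t‖ ^ 2 with hF
  set P : ℝ → ℝ := fun t => ⟪u t, u' t⟫ with hP
  set E : ℝ → ℝ := fun t => ‖u' t‖ ^ 2 + ⟪B t (u t), u t⟫ with hE
  have hF0 : ∀ t, 0 ≤ F t := fun t => sq_nonneg _
  have hE0 : ∀ t, 0 ≤ E t := fun t => add_nonneg (sq_nonneg _) (hquad t _)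
  have hP0 : ∀ t, 0 ≤ t → 0 ≤ P t := fun t ht =>
    (d3_reg_nonneg hreg).trans (d3_mono (f := P) ht fun τ _ => ⟨_, hsol.d3_P τ, hE0 τ⟩)
  have hFm : ∀ a b, 0 ≤ a → a ≤ b → F a ≤ F b := fun a b ha hab =>
    d3_mono (f := F) hab fun τ hτ =>
      ⟨_, hsol.d3_F τ, mul_nonneg zero_le_two (hP0 τ (ha.trans hτ.1))⟩
  have hnm : ∀ a b, 0 ≤ a → a ≤ b → ‖u a‖ ≤ ‖u b‖ := fun a b ha hab =>
    (pow_le_pow_iff_left₀ (norm_nonneg _) (norm_nonneg _) two_ne_zero).1 (hFm a b ha hab)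
  -- the Lyapunov inequality in scalar form
  have hLy : ∀ (q : ℕ) (γ γ' : ℝ → ℝ) (s t : ℝ), Thr β q γ γ' μ' Γ' ε₀ s t →
      (∀ τ ∈ Icc s t, γ₀ ≤ γ τ) →
      D3Ly F E (fun σ => Qf (B σ) δ (γ σ) (u σ) (u' σ)) γ c Cb Γ' s t := by
    intro q γ γ' s t hth hγ
    refine ⟨fun τ hτ => (hth.der τ hτ).continuousAt, hth.rng, fun τ hτ => ?_, fun τ hτ => ?_⟩
    · obtain ⟨Q', h1, h2⟩ := hL B B' φ β q₀ hq.le (hsl.d3_mono hq.le he₀) q γ γ' s t hth hγ u u'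
        hsol τ hτ
      refine ⟨Q', h1, le_trans ?_ h2⟩
      have h3 := mul_nonneg hc.le (hE0 τ)
      simp only [hF, hE] at h3 ⊢
      linarith
    · have h1 := Qf_bound (hsl.eig τ) (hβ0 τ) hδ.le hδ1 (hth.rng τ hτ).1 (hth.rng τ hτ).2
        (u τ) (u' τ)
      refine h1.trans (le_of_eq ?_)
      simp only [hF, hE, hCb]
      ring
  have hgt : ∀ (q : ℕ) (γ γ' : ℝ → ℝ) (s t : ℝ), 1 ≤ q → Thr β q γ γ' μ Γ ε s t →
      ∀ τ ∈ Icc s t, γ₀ < γ τ := by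
    intro q γ γ' s t hq1 hth τ hτ
    have h1 := (hth.gap τ hτ ⟨0, hD⟩).1 hq1
    have h2 := hsl.low τ ⟨0, hD⟩
    exact lt_of_pow_lt_pow_left₀ 2 (hth.rng τ hτ).1 (by linarith)
  have hLy' : ∀ (q : ℕ) (γ γ' : ℝ → ℝ) (s t : ℝ), 1 ≤ q → Thr β q γ γ' μ Γ ε s t →
      D3Ly F E (fun σ => Qf (B σ) δ (γ σ) (u σ) (u' σ)) γ c Cb Γ' s t :=
    fun q γ γ' s t hq1 hth => hLy q γ γ' s t
      (hth.d3_mono (min_le_left _ _) (le_max_left _ _) he₀)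
      fun τ hτ => (hgt q γ γ' s t hq1 hth τ hτ).le
  have hQ0 : ∀ t, 0 ≤ t → 0 ≤ Qf (B t) δ γ₀ (u t) (u' t) := by
    intro t ht
    have hth : Thr β 0 (fun _ => γ₀) (fun _ => 0) μ' Γ' ε₀ 0 t :=
      ⟨fun τ _ => hasDerivAt_const τ γ₀, fun τ _ => by simpa using hε₀.le,
        fun τ _ => ⟨hγ₀0.le, le_max_right _ _⟩, fun τ _ i => ⟨fun hi => absurd hi (Nat.not_lt_zero _),
          fun _ => by
            have h1 := hsl.low τ i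
            have h2 : μ' ≤ q₀ / 2 := min_le_right _ _
            linarith⟩⟩
    exact (hLy 0 _ _ 0 t hth fun _ _ => le_rfl).nonneg hc.le hF0 le_rfl ht le_rfl
      (Qf_init (hsl.eig 0) hδ.le hγ₀0.le (fun i => by have := hsl.low 0 i; linarith) hreg)
  have hLN := hLy' N γN γN' T₀ T₁ hN hThr
  have hQN : ∀ t ∈ Icc T₀ T₁, Qf (B t) δ (γN t) (u t) (u' t) ≤ 0 := fun t ht =>
    hLN.nonpos hc.le hF0 ht.1 ht.2 le_rfl
      (Qf_final (hsl.eig T₁) (hβ0 T₁) hδ.le hδ1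
        (fun i hi => by have := (hThr.gap T₁ (right_mem_Icc.2 hT) i).1 hi; linarith) hfin _)
  have hT₀0 : 0 ≤ T₀ := by linarith
  have hSc : D3Sc F P E C T₀ T₁ := by
    refine ⟨hsol.d3_F, hsol.d3_P, hF0, fun t ht => hP0 t (hT₀0.trans ht), fun t ht => ?_⟩
    have h1 := Qf_diff (hsl.eig t) (hβ0 t) hδ.le hδ1 hγ₀0.le (hgt N γN γN' T₀ T₁ hN hThr t ht)
      (hQ0 t (hT₀0.trans ht.1)) (hQN t ht)
    refine h1.trans (mul_le_mul_of_nonneg_right ?_ (sq_nonneg _))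
    have h2 : γN t ≤ Γ' := (hThr.rng t ht).2.trans (le_max_left _ _)
    rw [hC]
    linarith
  -- high modes
  have hhigh : ∀ (q : ℕ) (γ γ' : ℝ → ℝ) (s t a : ℝ), 1 ≤ q → T₀ ≤ s → t ≤ T₁ →
      Thr β q γ γ' μ Γ ε s t → s ≤ a → a + L₁ ≤ t →
      Qf (B (a + L₁)) δ (γ (a + L₁)) (u (a + L₁)) (u' (a + L₁)) ≤ 0 →
      hiB (φ a) q (u a) ≤ η * ‖u a‖ ^ 2 := by
    intro q γ γ' s t a hq1 hs ht hth ha hat hQ
    have haI : a ∈ Icc s t := ⟨ha, by linarith⟩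
    refine hH B B' φ β q₀ hq.le (hsl.d3_mono hq.le he₁) u u' hsol q a (γ a) (hth.rng a haI).1
      (hth.rng a haI).2 (fun i => ⟨fun hi => by linarith [(hth.gap a haI i).1 hi],
        (hth.gap a haI i).2⟩) (fun τ hτ => hnm τ a (by linarith [hτ.1]) hτ.2) fun τ hτ => ?_
    have h1 := d3_upper hSc (hLy' q γ γ' s t hq1 hth) hC0 hc hCb0 hs ht (γb := γ a + ε₁ * L₁) ha
      hτ.1 hτ.2 hat hQ (fun σ hσ => by
        have h2 := (hth.d3_mono le_rfl le_rfl he₁).d3_lip haI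
          (show σ ∈ Icc s t from ⟨ha.trans hσ.1, by linarith [hσ.2, hτ.2]⟩)
        rw [abs_of_nonneg (show 0 ≤ σ - a by linarith [hσ.1])] at h2
        have h3 : ε₁ * (σ - a) ≤ ε₁ * L₁ :=
          mul_le_mul_of_nonneg_left (by linarith [hσ.2, hτ.2]) hε₁.le
        linarith [le_abs_self (γ σ - γ a)])
    refine h1.trans ?_
    have := hF0 a
    gcongr
    linarith
  -- low modes
  have hlow : ∀ (q : ℕ) (γ γ' : ℝ → ℝ) (s t a : ℝ), 1 ≤ q → T₀ ≤ s → t ≤ T₁ →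
      Thr β q γ γ' μ Γ ε s t → s ≤ a → a + L₂ + 2 ≤ t →
      0 ≤ Qf (B a) δ (γ a) (u a) (u' a) → loB (φ t) q (u t) ≤ η * ‖u t‖ ^ 2 := by
    intro q γ γ' s t a hq1 hs ht hth ha hat hQ
    have htI : t ∈ Icc s t := ⟨by linarith, le_rfl⟩
    refine hS B B' φ β (hsl.d3_mono hq.le he₂) u u' hsol q t (γ t) (hth.rng t htI).1
      (hth.rng t htI).2 (fun i => (hth.gap t htI i).1) fun τ hτ => ?_
    have hτ0 : T₀ ≤ τ := by linarith [hτ.1]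
    refine ⟨hSc.P0 τ hτ0, (hSc.PF τ ⟨hτ0, hτ.2.trans ht⟩).trans
      (mul_le_mul_of_nonneg_right (by linarith) (hF0 τ)), ?_⟩
    have h1 := d3_lower hSc (hLy' q γ γ' s t hq1 hth) hC0 hc hCb0 hs ht
      (γa := γ t - ε₂ * (L₂ + 1)) ha (show a + 1 ≤ τ by linarith [hτ.1]) hτ.2 le_rfl hQ
      (fun σ hσ => by
        have h2 := (hth.d3_mono le_rfl le_rfl he₂).d3_lip
          (show σ ∈ Icc s t from ⟨by linarith [hσ.1, hτ.1], hσ.2⟩) htI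
        rw [abs_of_nonneg (show 0 ≤ t - σ by linarith [hσ.2])] at h2
        have h3 : ε₂ * (t - σ) ≤ ε₂ * (L₂ + 1) :=
          mul_le_mul_of_nonneg_left (by linarith [hσ.1, hτ.1]) hε₂.le
        linarith [le_abs_self (γ t - γ σ)])
    refine h1.trans ?_
    have := hF0 t
    gcongr
    linarith
  have hsqrt : ∀ s t γb : ℝ, F t ≤ Cf * Real.exp (2 * γb * (t - s)) * F s →
      ‖u t‖ ≤ Cf * Real.exp (γb * (t - s)) * ‖u s‖ := by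
    intro s t γb h
    refine (pow_le_pow_iff_left₀ (norm_nonneg _) (by positivity) two_ne_zero).1 (h.trans ?_)
    have e : Real.exp (2 * γb * (t - s)) = Real.exp (γb * (t - s)) ^ 2 := by
      rw [← Real.exp_nat_mul]; congr 1; push_cast; ring
    rw [e, mul_pow, mul_pow]
    have h2 : Cf ≤ Cf ^ 2 := le_self_pow₀ hCf1 two_ne_zero
    have := hF0 s
    gcongr
  have hKCf : K ≤ Cf := by
    have : K + C ≤ Cf := le_mul_of_one_le_right (by linarith) hexp1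
    linarith
  refine ⟨fun a ha b _ hab => hnm a b ha hab, ?_, ?_, ?_, ?_⟩
  · intro q γ γ' s t hq1 hs hst ht hth hhi
    refine hlow q γ γ' s t (s + L₁) hq1 hs ht hth (by linarith) (by linarith) ?_
    by_contra hQ
    exact absurd (hhigh q γ γ' s t s hq1 hs ht hth le_rfl (by linarith) (not_le.1 hQ).le)
      (not_le.2 hhi)
  · intro q γ γ' s t γb hq1 hs hst ht hth hγb hlo
    have hγb0 : 0 ≤ γb :=
      (hth.rng s (left_mem_Icc.2 hst)).1.trans (hγb s (left_mem_Icc.2 hst))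
    have hFs := hF0 s
    refine hsqrt s t γb ?_
    by_cases hcase : s ≤ t - L₂ - 2
    · have hQ : Qf (B (t - L₂ - 2)) δ (γ (t - L₂ - 2)) (u (t - L₂ - 2)) (u' (t - L₂ - 2)) ≤ 0 := by
        by_contra hQ
        exact absurd (hlow q γ γ' s t (t - L₂ - 2) hq1 hs ht hth hcase (by linarith)
          (not_le.1 hQ).le) (not_le.2 hlo)
      have h1 := d3_upper hSc (hLy' q γ γ' s t hq1 hth) hC0 hc hCb0 hs ht (γb := γb) le_rfl hcase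
        le_rfl (by linarith) hQ (fun σ hσ => hγb σ ⟨hσ.1, by linarith [hσ.2]⟩)
      have h2 := hSc.dbl (hs.trans hcase) (show t - L₂ - 2 ≤ t by linarith) ht
      rw [show t - (t - L₂ - 2) = L₂ + 2 by ring] at h2
      have h3 : Real.exp (2 * γb * (t - L₂ - 2 - s)) ≤ Real.exp (2 * γb * (t - s)) :=
        Real.exp_le_exp.2 (by nlinarith)
      calc F t ≤ Real.exp (2 * C * (L₂ + 2)) * F (t - L₂ - 2) := h2
        _ ≤ Real.exp (2 * C * (L₂ + 2)) * ((K + C) * Real.exp (2 * γb * (t - s)) * F s) := by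
            refine mul_le_mul_of_nonneg_left (h1.trans ?_) (Real.exp_pos _).le
            gcongr
            linarith
        _ = Cf * Real.exp (2 * γb * (t - s)) * F s := by rw [hCf]; ring
    · push Not at hcase
      have h2 := hSc.dbl hs hst ht
      have h3 : Real.exp (2 * C * (t - s)) ≤ Cf :=
        (Real.exp_le_exp.2 (by nlinarith)).trans (le_mul_of_one_le_left (Real.exp_pos _).le hC₁)
      have h4 : 1 ≤ Real.exp (2 * γb * (t - s)) :=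
        Real.one_le_exp (by have : 0 ≤ t - s := by linarith
                            positivity)
      calc F t ≤ Real.exp (2 * C * (t - s)) * F s := h2
        _ ≤ Cf * 1 * F s := by rw [mul_one]; gcongr
        _ ≤ _ := by gcongr
  · intro s hs hsL
    exact hhigh N γN γN' T₀ T₁ s hN le_rfl le_rfl hThr hs (by linarith)
      (hQN _ ⟨by linarith, by linarith⟩)
  · intro s t γb hs hst ht hγb
    refine hsqrt s t γb ((d3_upper hSc hLN hC0 hc hCb0 le_rfl le_rfl hs hst le_rfl ht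
      (hQN t ⟨hs.trans hst, ht⟩) hγb).trans ?_)
    have := hF0 s
    gcongr

end Crest.Agent.R202
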