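import Mathlib

/-!
# Row 202: abstract definitions (spectral theory of families of forms, plans of moves, dynamics)
-/

set_option autoImplicit false
open scoped RealInnerProductSpace
open Set Filter

noncomputable section
namespace Crest.Agent.R202

/-! ### Forms on a real inner product space -/
section Forms
variable {V : Type*} [NormedAddCommGroup V] [InnerProductSpace ℝ V]

abbrev BF (V : Type*) [NormedAddCommGroup V] [InnerProductSpace ℝ V] := V →ₗ[ℝ] V →ₗ[ℝ] ℝ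

/-- `j`-th (1-based) min-max value of `q` on the sector `S` -/
def mu (S : Submodule ℝ V) (q : BF V) (j : ℕ) : ℝ :=
  sInf {s | ∃ Y : Submodule ℝ V, Y ≤ S ∧ Module.finrank ℝ Y = j ∧ ∀ y ∈ Y, q y y ≤ s * ‖y‖ ^ 2}
/-- `i`-th (0-based) eigenvalue -/
def lamv (q : BF V) (i : ℕ) : ℝ := mu ⊤ q (i + 1)
/-- weak eigenspace -/
def eigsp (q : BF V) (s : ℝ) : Submodule ℝ V where
  carrier := {u | ∀ w, q u w = s * ⟪u, w⟫}
  add_mem' := fun {u v} hu hv w => by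
    simp only [map_add, LinearMap.add_apply, inner_add_left, hu w, hv w]; ring
  zero_mem' := fun w => by simp
  smul_mem' := fun c u hu w => by
    simp only [map_smul, LinearMap.smul_apply, real_inner_smul_left, hu w, smul_eq_mul]; ring
lemma mem_eigsp {q : BF V} {s : ℝ} {u : V} : u ∈ eigsp q s ↔ ∀ w, q u w = s * ⟪u, w⟫ := Iff.rfl
/-- sum of the eigenspaces below `s` -/
def low (q : BF V) (s : ℝ) : Submodule ℝ V := ⨆ t : Iio s, eigsp q t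

/-- a complete eigen-system -/
structure EigSys (q : BF V) (lam : ℕ → ℝ) (φ : ℕ → V) : Prop where
  orth : Orthonormal ℝ φ
  mono : Monotone lam
  tend : Tendsto lam atTop atTop
  eig : ∀ i, φ i ∈ eigsp q (lam i)
  compl : ∀ i w, (∀ j < i, ⟪φ j, w⟫ = 0) → lam i * ‖w‖ ^ 2 ≤ q w w

/-- symmetric, nonnegative, with a complete eigen-system -/
structure Nice (q : BF V) : Prop where
  symm : ∀ u w, q u w = q w u
  nonneg : ∀ u, 0 ≤ q u u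
  eig : ∃ lam φ, EigSys q lam φ

/-- `S` is a sector for `q`: every eigenspace splits along `S` and `Sᗮ` -/
def Sect (q : BF V) (S : Submodule ℝ V) : Prop :=
  ∀ s, ∀ u ∈ eigsp q s, ∃ u₁ ∈ S, u - u₁ ∈ Sᗮ ∧ u₁ ∈ eigsp q s

variable {B : Type*} [NormedAddCommGroup B] [NormedSpace ℝ B]

/-- a family of forms `a b`, `‖b‖ < ε`, comparable to `a 0`, strictly differentiable in `b` with
derivative `da b`, each with a complete eigen-system -/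
structure Fam (a : B → BF V) (da : B → B →ₗ[ℝ] BF V) (ε : ℝ) : Prop where
  pos : 0 < ε
  nice : ∀ b, ‖b‖ < ε → Nice (a b)
  dsymm : ∀ b, ‖b‖ < ε → ∀ v u w, da b v u w = da b v w u
  comp : ∃ c C : ℝ, 0 < c ∧ ∀ b, ‖b‖ < ε → ∀ u, c * a 0 u u ≤ a b u u ∧ a b u u ≤ C * a 0 u u
  lip : ∃ C : ℝ, ∀ b b', ‖b‖ < ε → ‖b'‖ < ε → ∀ u w,
    |a b u w - a b' u w| ≤ C * ‖b - b'‖ * (√(a 0 u u) * √(a 0 w w))
  dbd : ∀ b, ‖b‖ < ε → ∃ C : ℝ, ∀ v u w, |da b v u w| ≤ C * ‖v‖ * (√(a 0 u u) * √(a 0 w w))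
  strict : ∀ b, ‖b‖ < ε → ∀ η > 0, ∃ δ > 0, ∀ b₁ b₂, ‖b₁ - b‖ < δ → ‖b₂ - b‖ < δ → ∀ u w,
    |a b₁ u w - a b₂ u w - da b (b₁ - b₂) u w| ≤ η * ‖b₁ - b₂‖ * (√(a 0 u u) * √(a 0 w w))

/-- an involutive symmetry of the family -/
structure SymData (a : B → BF V) (da : B → B →ₗ[ℝ] BF V) (ε : ℝ) (σ : V →ₗ[ℝ] V)
    (σB : B →ₗ[ℝ] B) : Prop where
  invol : ∀ u, σ (σ u) = u
  iso : ∀ u w, ⟪σ u, σ w⟫ = ⟪u, w⟫
  involB : ∀ v, σB (σB v) = v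
  comm : ∀ b, ‖b‖ < ε → σB b = b → ∀ u w, a b (σ u) (σ w) = a b u w
  dcomm : ∀ b, ‖b‖ < ε → σB b = b → ∀ v u w, da b (σB v) u w = da b v (σ u) (σ w)

/-- (P): an orthonormal pair in one eigenspace is coupled by some perturbation -/
def HypP (a : B → BF V) (da : B → B →ₗ[ℝ] BF V) (ε : ℝ) : Prop :=
  ∀ b, ‖b‖ < ε → ∀ s, ∀ φ ∈ eigsp (a b) s, ∀ ψ ∈ eigsp (a b) s,
    ‖φ‖ = 1 → ‖ψ‖ = 1 → ⟪φ, ψ⟫ = 0 → ∃ v, da b v φ ψ ≠ 0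

/-- (DD): pairs in different eigenspaces can be split independently -/
def HypDD (a : B → BF V) (da : B → B →ₗ[ℝ] BF V) (ε : ℝ) : Prop :=
  ∀ b, ‖b‖ < ε → ∀ s s', s ≠ s' → ∀ φ₁ ∈ eigsp (a b) s, ∀ φ₂ ∈ eigsp (a b) s,
    ∀ ψ₁ ∈ eigsp (a b) s', ∀ ψ₂ ∈ eigsp (a b) s',
    ‖φ₁‖ = 1 → ‖φ₂‖ = 1 → ⟪φ₁, φ₂⟫ = 0 → ‖ψ₁‖ = 1 → ‖ψ₂‖ = 1 → ⟪ψ₁, ψ₂⟫ = 0 →
    ∃ v, da b v φ₁ φ₂ = 0 ∧ da b v φ₁ φ₁ = da b v φ₂ φ₂ ∧
      (da b v ψ₁ ψ₂ ≠ 0 ∨ da b v ψ₁ ψ₁ ≠ da b v ψ₂ ψ₂)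

/-- (X): even and odd mixed states of one eigenspace are distinguished by some perturbation -/
def HypX (a : B → BF V) (da : B → B →ₗ[ℝ] BF V) (ε : ℝ) (σ : V →ₗ[ℝ] V) (σB : B →ₗ[ℝ] B) : Prop :=
  ∀ b, ‖b‖ < ε → σB b = b → ∀ (s : ℝ) (m : ℕ) (u g : Fin m → V),
    (∀ k, u k ∈ eigsp (a b) s ∧ σ (u k) = u k) → (∀ k, g k ∈ eigsp (a b) s ∧ σ (g k) = -g k) →
    (∀ v, ∑ k, da b v (u k) (u k) = ∑ k, da b v (g k) (g k)) → ∀ k, g k = 0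

/-- a symmetric point where the gap `p` is closed by an eigenspace containing both parities -/
def Start (a : B → BF V) (ε : ℝ) (σ : V →ₗ[ℝ] V) (σB : B →ₗ[ℝ] B) (p : ℕ) (z : B) : Prop :=
  ‖z‖ < ε ∧ σB z = z ∧ lamv (a z) (p - 1) = lamv (a z) p ∧
    (∃ u ∈ eigsp (a z) (lamv (a z) p), u ≠ 0 ∧ σ u = u) ∧
    (∃ u ∈ eigsp (a z) (lamv (a z) p), u ≠ 0 ∧ σ u = -u)

/-- the gap `q` (between the eigenvalues `q-1` and `q`) is open -/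
def Gap (q : BF V) (i : ℕ) : Prop := lamv q (i - 1) < lamv q i

/-- parameters with the gaps `1, …, N` open -/
def Simple (a : B → BF V) (ε : ℝ) (N : ℕ) : Set B :=
  {b | ‖b‖ < ε ∧ ∀ q, 1 ≤ q → q ≤ N → Gap (a b) q}

end Forms

/-! ### Moves and plans -/

/-- the point of a move from `w` to `w'` with bump direction `e`, progress `x ∈ [0,1]`,
control `θ ∈ [-1,1]` -/
def pt {B : Type*} [AddCommGroup B] [Module ℝ B] (w w' e : B) (x θ : ℝ) : B :=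
  w + x • (w' - w) + (θ * (4 * x * (1 - x))) • e

/-- a sequence of moves: vertices `w m`, thresholds `s m q`, bump directions `e m`, `se m q`,
swap flags, swap positions, sign-tracking vectors `ψ m (±1)` -/
structure Plan (B V : Type*) where
  w : ℕ → B
  e : ℕ → B
  s : ℕ → ℕ → ℝ
  se : ℕ → ℕ → ℝ
  sw : ℕ → Prop
  pos : ℕ → ℕ
  ψ : ℕ → ℝ → V

section Moves
variable {V : Type*} [NormedAddCommGroup V] [InnerProductSpace ℝ V]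
variable {B : Type*} [NormedAddCommGroup B] [NormedSpace ℝ B]

/-- validity of one move -/
structure MoveOK (a : B → BF V) (ε : ℝ) (N : ℕ) (w w' e : B) (s s' se : ℕ → ℝ) (sw : Prop)
    (p : ℕ) (ψ : ℝ → V) : Prop where
  mem : ∀ x ∈ Icc (0 : ℝ) 1, ∀ θ ∈ Icc (-1 : ℝ) 1, ‖pt w w' e x θ‖ < ε
  gap : ∀ x ∈ Icc (0 : ℝ) 1, ∀ θ ∈ Icc (-1 : ℝ) 1, ∀ q, 1 ≤ q → q ≤ N → (¬(sw ∧ q = p) ∨ |θ| = 1) →
    lamv (a (pt w w' e x θ)) (q - 1) < pt (s q) (s' q) (se q) x θ ∧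
      pt (s q) (s' q) (se q) x θ < lamv (a (pt w w' e x θ)) q
  rng : sw → 1 ≤ p ∧ p < N
  nrm : sw → ∀ θ, ‖ψ θ‖ ≤ 2
  sgn : sw → ∀ x ∈ Icc (0 : ℝ) 1, ∀ θ, |θ| = 1 →
    ∀ φ ∈ eigsp (a (pt w w' e x θ)) (lamv (a (pt w w' e x θ)) p), ‖φ‖ = 1 → 1 / 2 ≤ |⟪φ, ψ θ⟫|
  ent : sw → ∀ φ ∈ eigsp (a w) (lamv (a w) p), ‖φ‖ = 1 → 0 < ⟪φ, ψ 1⟫ * ⟪φ, ψ (-1)⟫
  ext : sw → ∀ φ ∈ eigsp (a w') (lamv (a w') p), ‖φ‖ = 1 → ⟪φ, ψ 1⟫ * ⟪φ, ψ (-1)⟫ < 0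

def Plan.OK (P : Plan B V) (a : B → BF V) (ε : ℝ) (N m : ℕ) : Prop :=
  MoveOK a ε N (P.w m) (P.w (m + 1)) (P.e m) (P.s m) (P.s (m + 1)) (P.se m) (P.sw m) (P.pos m) (P.ψ m)

end Moves

/-- one cycle of `K` moves containing the swaps at `N-1, N-2, …, p₀+1` in this order, never
adjacent, never first or last -/
structure Cyc (sw : ℕ → Prop) (pos : ℕ → ℕ) (K N p₀ : ℕ) : Prop where
  first : pos 0 = N - 1
  last : pos K = p₀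
  swap : ∀ m < K, sw m → p₀ < pos m ∧ pos (m + 1) = pos m - 1 ∧ 1 ≤ m ∧ m + 1 < K ∧
    ¬sw (m - 1) ∧ ¬sw (m + 1)
  stay : ∀ m < K, ¬sw m → pos (m + 1) = pos m

/-- periodic extension of a cycle of `K` moves, preceded by `R` rests at the base vertex -/
def extSw (sw : ℕ → Prop) (R K m : ℕ) : Prop := R ≤ m % (R + K) ∧ sw (m % (R + K) - R)
def extF {α : Type*} (f : ℕ → α) (R K m : ℕ) : α := f (m % (R + K) - R)
def Plan.per {B V : Type*} [Zero B] (P : Plan B V) (R K : ℕ) : Plan B V where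
  w := extF P.w R K
  e m := if m % (R + K) < R then 0 else extF P.e R K m
  s := extF P.s R K
  se m := if m % (R + K) < R then 0 else extF P.se R K m
  sw := extSw P.sw R K
  pos := extF P.pos R K
  ψ := extF P.ψ R K

/-- the token recursion: `Eb m k` bounds the `k`-th token at checkpoint `m`; `g m q` is the growth
factor over the move `m` of solutions lying below the gap `q` -/
structure Rec (N : ℕ) (sw : ℕ → Prop) (pos : ℕ → ℕ) (g : ℕ → ℕ → ℝ) (Eb : ℕ → ℕ → ℝ) : Prop where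
  init : ∀ k < N, 2 ≤ Eb 0 k
  stay : ∀ m, ¬sw m → ∀ k < N, g m (k + 1) * Eb m k ≤ Eb (m + 1) k
  other : ∀ m, sw m → ∀ k < N, k ≠ pos m → k + 1 ≠ pos m → g m N * Eb m k ≤ Eb (m + 1) k
  down : ∀ m, sw m → g m N * (Eb m (pos m) + 3 * Eb m (pos m - 1)) ≤ Eb (m + 1) (pos m - 1)
  up : ∀ m, sw m → 3 * g m N * Eb m (pos m - 1) ≤ Eb (m + 1) (pos m)

/-- controls -/
def cube : Set (ℕ → ℝ) := {θ | ∀ m, |θ m| ≤ 1}

/-! ### Timeline -/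

/-- smooth transition, `0` on `(-∞,1/3]`, `1` on `[2/3,∞)` -/
def chi (s : ℝ) : ℝ := Real.smoothTransition (3 * s - 1)
/-- checkpoints -/
def tl (A ρ : ℝ) (m : ℕ) : ℝ := A * ρ ^ m
/-- progress of the move `m` at time `t` -/
def prog (A ρ : ℝ) (m : ℕ) (t : ℝ) : ℝ := chi ((t - tl A ρ m) / (tl A ρ (m + 1) - tl A ρ m))
/-- the curve running through the moves; equal to `w 0` before time `A` -/
def glue {B : Type*} [NormedAddCommGroup B] [NormedSpace ℝ B] (A ρ : ℝ) (w e : ℕ → B)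
    (θ : ℕ → ℝ) (t : ℝ) : B :=
  w 0 + ∑' m, (prog A ρ m t • (w (m + 1) - w m) +
    (θ m * (4 * prog A ρ m t * (1 - prog A ρ m t))) • e m)
/-- progress of the preliminary move on `[A/ρ, A]` -/
def pre (A ρ t : ℝ) : ℝ := chi ((t - A / ρ) / (A - A / ρ))
/-- `glue` preceded by the move from `0` to `w 0` on `[A/ρ, A]` -/
def bcurve {B : Type*} [NormedAddCommGroup B] [NormedSpace ℝ B] (A ρ : ℝ) (w e : ℕ → B)
    (θ : ℕ → ℝ) (t : ℝ) : B :=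
  glue A ρ w e θ t - (1 - pre A ρ t) • w 0

/-! ### Dynamics `u'' = B(t) u` -/
section Dyn
variable {V : Type*} [NormedAddCommGroup V] [InnerProductSpace ℝ V] {D : ℕ}

/-- sorted orthonormal eigenbasis -/
def EigB (A : V →L[ℝ] V) (φ : OrthonormalBasis (Fin D) ℝ V) (lam : Fin D → ℝ) : Prop :=
  Monotone lam ∧ ∀ i, A (φ i) = lam i • φ i

def Sol (B : ℝ → V →L[ℝ] V) (u u' : ℝ → V) : Prop :=
  ∀ t, HasDerivAt u (u' t) t ∧ HasDerivAt u' (B t (u t)) t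

/-- initial condition `u'(0) = √B(0) u(0)` (solutions regular at the origin of `ℝⁿ`) -/
def Reg0 (φ : OrthonormalBasis (Fin D) ℝ V) (β : Fin D → ℝ) (x y : V) : Prop :=
  ∀ i, ⟪φ i, y⟫ = √(β i) * ⟪φ i, x⟫

def hiB (φ : OrthonormalBasis (Fin D) ℝ V) (q : ℕ) (x : V) : ℝ :=
  ∑ i : Fin D, if q ≤ (i : ℕ) then ⟪φ i, x⟫ ^ 2 else 0
def loB (φ : OrthonormalBasis (Fin D) ℝ V) (q : ℕ) (x : V) : ℝ :=
  ∑ i : Fin D, if (i : ℕ) < q then ⟪φ i, x⟫ ^ 2 else 0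

/-- slowly varying positive operators -/
structure Slow (B B' : ℝ → V →L[ℝ] V) (φ : ℝ → OrthonormalBasis (Fin D) ℝ V)
    (β : ℝ → Fin D → ℝ) (q₀ ε : ℝ) : Prop where
  der : ∀ t, HasDerivAt B (B' t) t
  eig : ∀ t, EigB (B t) (φ t) (β t)
  low : ∀ t i, q₀ ≤ β t i
  slow : ∀ t x y, |⟪B' t x, y⟫| ≤ ε * (‖x‖ ^ 2 + ⟪B t x, x⟫ + ‖y‖ ^ 2 + ⟪B t y, y⟫)

/-- a slowly varying threshold `γ` with `γ²` in the gap `q` (margin `μ`) on `[s,t]` -/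
structure Thr (β : ℝ → Fin D → ℝ) (q : ℕ) (γ γ' : ℝ → ℝ) (μ Γ ε s t : ℝ) : Prop where
  der : ∀ τ ∈ Icc s t, HasDerivAt γ (γ' τ) τ
  slow : ∀ τ ∈ Icc s t, |γ' τ| ≤ ε
  rng : ∀ τ ∈ Icc s t, 0 ≤ γ τ ∧ γ τ ≤ Γ
  gap : ∀ τ ∈ Icc s t, ∀ i : Fin D,
    ((i : ℕ) < q → β τ i ≤ γ τ ^ 2 - μ) ∧ (q ≤ (i : ℕ) → γ τ ^ 2 + μ ≤ β τ i)

/-- the Lyapunov form at `(x, y) = (u, u')` -/
def Qf (B : V →L[ℝ] V) (δ γ : ℝ) (x y : V) : ℝ :=
  ⟪B x, x⟫ - γ ^ 2 * ‖x‖ ^ 2 - ‖y - γ • x‖ ^ 2 +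
    δ * (⟪y - γ • x, x⟫ / (1 + γ ^ 2) - ⟪y - γ • x, Ring.inverse (1 + B) x⟫)

end Dyn

/-- squared norms of the coordinates `≥ q` and `< q` -/
def hiN {N : ℕ} (q : ℕ) (x : EuclideanSpace ℝ (Fin N)) : ℝ :=
  ∑ i : Fin N, if q ≤ (i : ℕ) then x i ^ 2 else 0
def loN {N : ℕ} (q : ℕ) (x : EuclideanSpace ℝ (Fin N)) : ℝ :=
  ∑ i : Fin N, if (i : ℕ) < q then x i ^ 2 else 0

end Crest.Agent.R202
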