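import Crest.Agent.R202.Sph1
import Crest.Agent.R202.GDefs

/-! # Row 202, Forms1: the map `β ↦ HX β` -/

set_option autoImplicit false
open scoped ContDiff RealInnerProductSpace
open Set Filter Topology MeasureTheory Crest.GeometryTopology.CoordMetric

noncomputable section
namespace Crest.Agent.R202

variable {n : ℕ}

theorem f1a_sum_sq (x : Sp n) : ∑ j, (x : E n) j * (x : E n) j = 1 := by
  have h := EuclideanSpace.real_norm_sq_eq (x : E n)
  rw [Sp.norm_eq] at h
  simpa [sq] using h.symm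

theorem f1a_PiX_at (x : Sp n) : (PiX n).at x =
    1 - Matrix.vecMulVec (fun i => (x : E n) i) (fun i => (x : E n) i) := by
  ext i j
  simp [X.at, PiX, Matrix.one_apply, Matrix.vecMulVec_apply]

theorem f1a_HX_at (β : X n) (x : Sp n) :
    (HX β).at x = om (β.at x) • ((PiX n).at x + β.at x) := by
  ext i j
  simp [X.at, HX_apply]

theorem f1a_tang (b : BB n) (x : Sp n) : ((iota b).at x).mulVec (fun i => (x : E n) i) = 0 := by
  funext i
  simpa [Matrix.mulVec, dotProduct, X.at] using b.tang i x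

theorem f1a_PiX_quad (x : Sp n) (ξ : Fin n → ℝ) (hξ : ξ ⬝ᵥ (fun i => (x : E n) i) = 0) :
    ((PiX n).at x).mulVec ξ = ξ := by
  rw [f1a_PiX_at, Matrix.sub_mulVec, Matrix.one_mulVec, Matrix.vecMulVec_mulVec,
    dotProduct_comm, hξ]
  simp

theorem exists_good (n : ℕ) : ∃ ε, Good n ε := by
  have hc : Continuous fun β : Fin n → Fin n → ℝ => (1 + Matrix.of β).det :=
    (continuous_const.add continuous_id).matrix_det
  obtain ⟨δ, hδ, h⟩ := Metric.continuousAt_iff.1 (hc.continuousAt (x := 0)) (1 / 2) (by norm_num)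
  have h1 : (0 : ℝ) < 1 / (2 * (n + 1)) := by positivity
  refine ⟨min (δ / 2) (1 / (2 * (n + 1))), lt_min (by linarith) h1, ?_, fun β hβ => ?_⟩
  · calc (n : ℝ) * min (δ / 2) (1 / (2 * (n + 1))) ≤ (n + 1) * (1 / (2 * (n + 1))) := by
          gcongr
          · linarith
          · exact min_le_right _ _
      _ = 1 / 2 := by field_simp
  · have h2 : dist (Matrix.of.symm β) 0 < δ := by
      rw [dist_zero_right]
      refine lt_of_le_of_lt ?_ (half_lt_self hδ)
      exact (pi_norm_le_iff_of_nonneg (by linarith)).2 fun i =>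
        (pi_norm_le_iff_of_nonneg (by linarith)).2 fun j => (hβ i j).trans (min_le_left _ _)
    have h3 := h h2
    rw [Real.dist_eq] at h3
    simpa using h3
theorem Good.mono {ε ε' : ℝ} (h : Good n ε) (h0 : 0 < ε') (h1 : ε' ≤ ε) : Good n ε' := by
  refine ⟨h0, le_trans ?_ h.2.1, fun β hβ => h.2.2 β fun i j => (hβ i j).trans h1⟩
  gcongr
theorem Good.detOK {ε : ℝ} (h : Good n ε) {b : BB n} (hb : ‖b‖ < ε) : DetOK (iota b) := by
  exact fun x => h.2.2 _ fun i j => (b.abs_le i j x).trans hb.le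
theorem HX_zero : HX (0 : X n) = PiX n := by
  funext i j
  ext x
  have h : X.at (0 : X n) x = 0 := by ext i j; simp [X.at]
  rw [HX_apply, h, om, add_zero, Matrix.det_one, max_eq_left (by norm_num), Real.one_rpow]
  simp
theorem aB_zero : aB (0 : BB n) = form (PiX n) := by
  unfold aB; rw [map_zero, HX_zero]
theorem HX_symm (b : BB n) (i j : Fin n) : HX (iota b) i j = HX (iota b) j i := by
  ext x
  rw [HX_apply, HX_apply, iota_apply, iota_apply, b.symm i j]
  simp [PiX, mul_comm, eq_comm]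
theorem HX_tang (b : BB n) (x : Sp n) : ((HX (iota b)).at x).mulVec (fun i => (x : E n) i) = 0 := by
  rw [f1a_HX_at, Matrix.smul_mulVec, Matrix.add_mulVec, f1a_tang, f1a_PiX_at, Matrix.sub_mulVec,
    Matrix.one_mulVec, Matrix.vecMulVec_mulVec]
  have h : (fun i => (x : E n) i) ⬝ᵥ (fun i => (x : E n) i) = 1 := f1a_sum_sq x
  rw [h]
  simp
/-- `(actX g K).at x = Gᵀ K(gx) G` with `G = Matrix.of (ent g)` orthogonal -/
theorem actX_at (g : E n ≃ₗᵢ[ℝ] E n) (K : X n) (x : Sp n) :
    (actX g K).at x = (Matrix.of (ent g)).transpose * K.at (sphMap g x) * Matrix.of (ent g) := by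
  ext i j
  simp only [X.at, Matrix.of_apply, actX_apply, Matrix.mul_apply, Matrix.transpose_apply,
    Finset.sum_mul]
  rw [Finset.sum_comm]
  exact Finset.sum_congr rfl fun l _ => Finset.sum_congr rfl fun k _ => by ring
theorem ent_orth (g : E n ≃ₗᵢ[ℝ] E n) : (Matrix.of (ent g)).transpose * Matrix.of (ent g) = 1 := by
  ext i j
  have h := g.inner_map_map (EuclideanSpace.single i 1) (EuclideanSpace.single j 1)
  rw [PiLp.inner_apply, EuclideanSpace.inner_single_left] at h
  simp only [Matrix.mul_apply, Matrix.transpose_apply, Matrix.of_apply, ent, Matrix.one_apply]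
  simpa [mul_comm, Pi.single_apply, eq_comm] using h
theorem f1a_det (g : E n ≃ₗᵢ[ℝ] E n) (β : X n) (x : Sp n) :
    (1 + (actX g β).at x).det = (1 + β.at (sphMap g x)).det := by
  have h1 : 1 + (actX g β).at x =
      (Matrix.of (ent g)).transpose * (1 + β.at (sphMap g x)) * Matrix.of (ent g) := by
    rw [actX_at, mul_add, add_mul, mul_one, ent_orth]
  have h2 := congrArg Matrix.det (ent_orth g)
  rw [Matrix.det_mul, Matrix.det_one] at h2
  rw [h1, Matrix.det_mul, Matrix.det_mul]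
  linear_combination (1 + β.at (sphMap g x)).det * h2
theorem HX_actX (g : E n ≃ₗᵢ[ℝ] E n) (β : X n) : HX (actX g β) = actX g (HX β) := by
  funext i j
  ext x
  have h1 : om ((actX g β).at x) = om (β.at (sphMap g x)) := by unfold om; rw [f1a_det]
  have h2 := actX_apply g (PiX n) i j x
  rw [actX_PiX] at h2
  rw [HX_apply, h1, h2, actX_apply, actX_apply, ← Finset.sum_add_distrib, Finset.mul_sum]
  refine Finset.sum_congr rfl fun k _ => ?_
  rw [← Finset.sum_add_distrib, Finset.mul_sum]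
  refine Finset.sum_congr rfl fun l _ => ?_
  rw [HX_apply]
  ring
theorem DetOK.actX (g : E n ≃ₗᵢ[ℝ] E n) {β : X n} (h : DetOK β) : DetOK (actX g β) := by
  exact fun x => by rw [f1a_det]; exact h _
theorem iota_reflB (i : Fin n) (b : BB n) : iota (reflB i b) = actX (refl i) (iota b) := by
  funext j k
  ext x
  have h : ∀ a c, ent (refl i) a c = if a = c then sg i c else 0 := fun a c => by
    simp only [ent, refl_apply, sg, PiLp.single_apply]
    by_cases h1 : a = c
    · subst h1; simp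
    · simp [h1]
  rw [actX_apply, iota_apply]
  simp only [h, ite_mul, zero_mul, mul_ite, mul_zero, Finset.sum_ite_eq', Finset.mem_univ, if_true]
  rfl

theorem f1a_om_bd (hn : 2 ≤ n) {β : Matrix (Fin n) (Fin n) ℝ} (h : |(1 + β).det - 1| < 1 / 2) :
    2 / 3 ≤ om β ∧ om β ≤ 2 := by
  obtain ⟨h1, h2⟩ := abs_lt.1 h
  have hn' : (2 : ℝ) ≤ n := by exact_mod_cast hn
  have ha0 : 0 < 1 / ((n : ℝ) - 1) := by apply div_pos <;> linarith
  have ha1 : 1 / ((n : ℝ) - 1) ≤ 1 := by rw [div_le_one (by linarith)]; linarith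
  unfold om
  rw [max_eq_left (by linarith)]
  constructor
  · calc (2 / 3 : ℝ) = (3 / 2) ^ (-1 : ℝ) := by rw [Real.rpow_neg_one]; norm_num
      _ ≤ (3 / 2) ^ (-(1 / ((n : ℝ) - 1))) :=
          Real.rpow_le_rpow_of_exponent_le (by norm_num) (by linarith)
      _ ≤ _ := Real.rpow_le_rpow_of_nonpos (by linarith) (by linarith) (by linarith)
  · calc (1 + β).det ^ (-(1 / ((n : ℝ) - 1))) ≤ (1 / 2) ^ (-(1 / ((n : ℝ) - 1))) :=
          Real.rpow_le_rpow_of_nonpos (by linarith) (by linarith) (by linarith)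
      _ ≤ (1 / 2) ^ (-1 : ℝ) :=
          Real.rpow_le_rpow_of_exponent_ge (by norm_num) (by norm_num) (by linarith)
      _ = 2 := by rw [Real.rpow_neg_one]; norm_num

/-- `det (H + x xᵀ) = 1`: for tangential symmetric `β`, `ω(Π+β) + xxᵀ = (1+β)(ωΠ + xxᵀ)` and `det(ωΠ + xxᵀ) = ω^{n-1}` -/
theorem det_HX (hn : 2 ≤ n) {ε : ℝ} (h : Good n ε) {b : BB n} (hb : ‖b‖ < ε) (x : Sp n) :
    ((HX (iota b)).at x + Matrix.vecMulVec (fun i => (x : E n) i) (fun i => (x : E n) i)).det = 1 := by
  set v : Fin n → ℝ := fun i => (x : E n) i with hv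
  set β := (iota b).at x with hβ
  have hD := h.detOK hb x
  have hω : 0 < om β := lt_of_lt_of_le (by norm_num) (f1a_om_bd hn hD).1
  have h1 : β * Matrix.vecMulVec v v = 0 := by
    rw [Matrix.mul_vecMulVec, f1a_tang, Matrix.zero_vecMulVec]
  have h2 : (HX (iota b)).at x + Matrix.vecMulVec v v =
      (1 + β) * (om β • (1 + Matrix.vecMulVec (((om β)⁻¹ - 1) • v) v)) := by
    rw [f1a_HX_at, f1a_PiX_at, Matrix.smul_vecMulVec, smul_add (om β) 1, smul_smul, add_mul,
      one_mul, mul_add, Matrix.mul_smul, Matrix.mul_smul, h1, mul_one, mul_sub,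
      mul_inv_cancel₀ hω.ne', ← hβ, ← hv]
    module
  have h3 : v ⬝ᵥ v = 1 := f1a_sum_sq x
  rw [h2, Matrix.det_mul, Matrix.det_smul, Matrix.vecMulVec_eq Unit,
    Matrix.det_one_add_replicateCol_mul_replicateRow, dotProduct_smul, h3, Fintype.card_fin]
  have hn' : (2 : ℝ) ≤ n := by exact_mod_cast hn
  have hD0 : 1 / 2 < (1 + β).det := by linarith [(abs_lt.1 hD).1]
  have h4 : om β ^ (n - 1) = ((1 + β).det)⁻¹ := by
    unfold om
    rw [max_eq_left hD0.le, ← Real.rpow_natCast, ← Real.rpow_mul (by linarith),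
      ← Real.rpow_neg_one]
    congr 1
    rw [Nat.cast_sub (by omega)]
    have : (n : ℝ) - 1 ≠ 0 := by linarith
    push_cast
    field_simp
  have h5 : om β ^ n = om β ^ (n - 1) * om β := by rw [← pow_succ]; congr 1; omega
  rw [h5, h4, smul_eq_mul]
  have : (1 + β).det ≠ 0 := by linarith
  field_simp
  ring

/-- `1/2 < det < 3/2` gives `2/3 ≤ om ≤ 2`; `|β(ξ,ξ)| ≤ n ε |ξ|² ≤ |ξ|²/2` -/
theorem HX_coer (hn : 2 ≤ n) {ε : ℝ} (h : Good n ε) {b : BB n} (hb : ‖b‖ < ε) (x : Sp n) (ξ : Fin n → ℝ)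
    (hξ : ξ ⬝ᵥ (fun i => (x : E n) i) = 0) :
    (1 / 3) * (ξ ⬝ᵥ ξ) ≤ ξ ⬝ᵥ ((HX (iota b)).at x).mulVec ξ ∧
      ξ ⬝ᵥ ((HX (iota b)).at x).mulVec ξ ≤ 3 * (ξ ⬝ᵥ ξ) := by
  obtain ⟨h1, h2⟩ := f1a_om_bd hn (h.detOK hb x)
  have h0 : 0 ≤ ξ ⬝ᵥ ξ := Finset.sum_nonneg fun i _ => mul_self_nonneg _
  have h3 : |ξ ⬝ᵥ ((iota b).at x).mulVec ξ| ≤ 1 / 2 * (ξ ⬝ᵥ ξ) := by
    calc |ξ ⬝ᵥ ((iota b).at x).mulVec ξ| = |∑ i, ∑ j, ξ i * (b.e i j x * ξ j)| := by
          simp [dotProduct, Matrix.mulVec, X.at, Finset.mul_sum]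
      _ ≤ ∑ i, ∑ j, ε / 2 * (ξ i * ξ i + ξ j * ξ j) := by
          refine (Finset.abs_sum_le_sum_abs _ _).trans (Finset.sum_le_sum fun i _ =>
            (Finset.abs_sum_le_sum_abs _ _).trans (Finset.sum_le_sum fun j _ => ?_))
          have e1 := (b.abs_le i j x).trans hb.le
          have e2 : |ξ i| * |ξ j| ≤ (ξ i * ξ i + ξ j * ξ j) / 2 := by
            nlinarith [sq_nonneg (|ξ i| - |ξ j|), abs_mul_abs_self (ξ i), abs_mul_abs_self (ξ j)]
          calc |ξ i * (b.e i j x * ξ j)| = |b.e i j x| * (|ξ i| * |ξ j|) := by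
                rw [abs_mul, abs_mul]; ring
            _ ≤ ε * ((ξ i * ξ i + ξ j * ξ j) / 2) := by
                gcongr
                exact h.1.le
            _ = _ := by ring
      _ = n * ε * (ξ ⬝ᵥ ξ) := by
          simp only [← Finset.mul_sum, Finset.sum_add_distrib, Finset.sum_const, Finset.card_univ,
            Fintype.card_fin, nsmul_eq_mul, dotProduct]
          rw [Finset.sum_congr rfl fun y _ => mul_left_comm (ξ y) (n : ℝ) (ξ y), ← Finset.mul_sum]
          ring
      _ ≤ _ := mul_le_mul_of_nonneg_right h.2.1 h0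
  obtain ⟨h4, h5⟩ := abs_le.1 h3
  rw [f1a_HX_at, Matrix.smul_mulVec, Matrix.add_mulVec, f1a_PiX_quad x ξ hξ, dotProduct_smul,
    dotProduct_add, smul_eq_mul]
  constructor <;> nlinarith

theorem aB_coer (hn : 2 ≤ n) {ε : ℝ} (h : Good n ε) {b : BB n} (hb : ‖b‖ < ε) (u : W n) :
    (1 / 3) * form (PiX n) u u ≤ aB b u u ∧ aB b u u ≤ 3 * form (PiX n) u u := by
  have h1 : ∀ c : ℝ, c * form (PiX n) u u = form (c • PiX n) u u := fun c => by
    rw [← formK_apply, ← formK_apply, map_smul, smul_eq_mul]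
  have h2 : ∀ (c : ℝ) (x : Sp n),
      gv u x ⬝ᵥ (X.at (c • PiX n) x).mulVec (gv u x) = c * (gv u x ⬝ᵥ gv u x) := fun c x => by
    have : X.at (c • PiX n) x = c • (PiX n).at x := rfl
    rw [this, Matrix.smul_mulVec, f1a_PiX_quad x (gv u x) (grad_tang u x), dotProduct_smul,
      smul_eq_mul]
  rw [h1, h1]
  exact ⟨form_mono u fun x => by rw [h2]; exact (HX_coer hn h hb x _ (grad_tang u x)).1,
    form_mono u fun x => by rw [h2]; exact (HX_coer hn h hb x _ (grad_tang u x)).2⟩

theorem f1a_an_poly (π : Plane n) (p : MvPolynomial (Fin n) ℝ) (s : ℝ) :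
    AnalyticAt ℝ (fun s => actC (rot π s) (res (toW p))) s := by
  induction p using MvPolynomial.induction_on with
  | C a =>
    have : (fun s => actC (rot π s) (res (toW (MvPolynomial.C a)))) =
        fun _ => ContinuousMap.const (Sp n) a := by
      funext s; ext x
      rw [actC_apply, res_apply, toW_apply_sphere]
      simp
    rw [this]
    exact analyticAt_const
  | add p q hp hq =>
    simp only [map_add]
    exact hp.add hq
  | mul_X p i hp =>
    let A : CS n := ⟨fun x => (x : E n) i, by fun_prop⟩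
    let B : CS n := ⟨fun x => (⟪π.e, (x : E n)⟫ • π.e + ⟪π.e', (x : E n)⟫ • π.e') i, by fun_prop⟩
    let C : CS n := ⟨fun x => π.gen (x : E n) i, by fun_prop⟩
    have : (fun s => actC (rot π s) (res (toW (p * MvPolynomial.X i)))) =
        fun s => actC (rot π s) (res (toW p)) * (A + (Real.cos s - 1) • B + Real.sin s • C) := by
      funext s; ext x
      rw [ContinuousMap.mul_apply, actC_apply, actC_apply, res_apply, res_apply, toW_apply_sphere,
        toW_apply_sphere, map_mul, MvPolynomial.eval_X, sphMap_coe]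
      rfl
    rw [this]
    exact hp.mul ((analyticAt_const.add ((Real.analyticAt_cos.sub analyticAt_const).smul
      analyticAt_const)).add (Real.analyticAt_sin.smul analyticAt_const))

theorem f1a_an_ent (π : Plane n) (k i : Fin n) (s : ℝ) :
    AnalyticAt ℝ (fun s => ent (rot π s) k i) s := by
  simp only [ent, rot_apply, PiLp.add_apply, PiLp.smul_apply, smul_eq_mul]
  exact (analyticAt_const.add ((Real.analyticAt_cos.sub analyticAt_const).mul
    analyticAt_const)).add (Real.analyticAt_sin.mul analyticAt_const)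

/-- `s ↦ actC (rot π s) (res (toW p))` is analytic into `CS n` (induction on `p`; a coordinate gives `A + cos s • B + sin s • C`),
and so are the entries `ent (rot π s) k i`. -/
theorem analytic_orbit_iota (π : Plane n) (b : BB n) :
    AnalyticOnNhd ℝ (fun s => actX (rot π s) (iota b)) univ := by
  intro s _
  refine analyticAt_pi_iff.2 fun i => analyticAt_pi_iff.2 fun j => ?_
  have h : (fun s => actX (rot π s) (iota b) i j) = fun s => ∑ k, ∑ l,
      (ent (rot π s) k i * ent (rot π s) l j) • actC (rot π s) (res (b.e k l)) := by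
    funext s; ext x
    simp [actX_apply]
  rw [h]
  refine Finset.analyticAt_fun_sum _ fun k _ => Finset.analyticAt_fun_sum _ fun l _ => ?_
  obtain ⟨p, hp⟩ := b.poly k l
  rw [← hp]
  exact ((f1a_an_ent π k i s).mul (f1a_an_ent π l j s)).smul (f1a_an_poly π p s)

end Crest.Agent.R202
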