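import Crest.Agent.R202.Defs

/-! # Row 202, Geo2Aux: coordinate calculus used in `Geo2` -/

set_option autoImplicit false
open scoped ContDiff
open Set Filter Topology Crest.GeometryTopology.CoordMetric

noncomputable section
namespace Crest.Agent.R202

variable {n : ℕ} {g : MetricField n} {U : Set (E n)}

theorem geo2_pd_congr {f f' : E n → ℝ} {x : E n} (a : Fin n) (h : f =ᶠ[𝓝 x] f') :
    pderiv a f x = pderiv a f' x := by
  unfold pderiv
  rw [h.fderiv_eq]

theorem geo2_symm {m : Matrix (Fin n) (Fin n) ℝ} (hg : m.PosDef) (i j : Fin n) : m i j = m j i := by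
  simpa using hg.isHermitian.apply j i

theorem geo2_fd_symm (hg : IsRiemannianOn g U) {x : E n} (hx : x ∈ U) (i j : Fin n) :
    fderiv ℝ (fun y => g y i j) x = fderiv ℝ (fun y => g y j i) x := by
  refine Filter.EventuallyEq.fderiv_eq ?_
  filter_upwards [hg.isOpen.mem_nhds hx] with y hy using geo2_symm (hg.posDef y hy) i j

theorem geo2_pd_symm (hg : IsRiemannianOn g U) {x : E n} (hx : x ∈ U) (l i j : Fin n) :
    pderiv l (fun y => g y i j) x = pderiv l (fun y => g y j i) x := by
  unfold pderiv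
  rw [geo2_fd_symm hg hx]

theorem geo2_chr_symm (hg : IsRiemannianOn g U) {x : E n} (hx : x ∈ U) (k i j : Fin n) :
    christoffel g x k i j = christoffel g x k j i := by
  unfold christoffel
  congr 1
  refine Finset.sum_congr rfl fun l _ => ?_
  rw [geo2_pd_symm hg hx l i j]; ring

theorem geo2_contDiffAt (hg : IsRiemannianOn g U) {x : E n} (hx : x ∈ U) (a b : Fin n) :
    ContDiffAt ℝ ∞ (fun y => g y a b) x :=
  (hg.contDiffOn a b).contDiffAt (hg.isOpen.mem_nhds hx)

theorem geo2_contDiffAt_det {m : MetricField n} {x : E n}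
    (hs : ∀ a b, ContDiffAt ℝ ∞ (fun y => m y a b) x) :
    ContDiffAt ℝ ∞ (fun y => (m y).det) x := by
  simp only [Matrix.det_apply']
  exact ContDiffAt.sum fun σ _ => contDiffAt_const.mul (contDiffAt_prod fun i _ => hs _ _)

theorem geo2_contDiffAt_inv {m : MetricField n} {x : E n}
    (hs : ∀ a b, ContDiffAt ℝ ∞ (fun y => m y a b) x) (hd : (m x).det ≠ 0) (k l : Fin n) :
    ContDiffAt ℝ ∞ (fun y => inverseField m y k l) x := by
  simp only [inverseField, Matrix.inv_def, Ring.inverse_eq_inv', Matrix.smul_apply, smul_eq_mul,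
    Matrix.adjugate_apply]
  refine ((geo2_contDiffAt_det hs).inv hd).mul (geo2_contDiffAt_det fun a b => ?_)
  simp only [Matrix.updateRow_apply]
  split_ifs
  · exact contDiffAt_const
  · exact hs a b

theorem geo2_contDiffAt_pd {f : E n → ℝ} {x : E n} (hf : ContDiffAt ℝ ∞ f x) (a : Fin n) :
    ContDiffAt ℝ ∞ (pderiv a f) x :=
  (hf.fderiv_right (m := ∞) (by simp)).clm_apply contDiffAt_const

theorem geo2_diff_chr (hg : IsRiemannianOn g U) {x : E n} (hx : x ∈ U) (k i j : Fin n) :
    DifferentiableAt ℝ (fun y => christoffel g y k i j) x := by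
  have hs := geo2_contDiffAt hg hx
  refine ContDiffAt.differentiableAt (n := ∞) ?_ (by simp)
  unfold christoffel
  refine contDiffAt_const.mul (ContDiffAt.sum fun l _ => ContDiffAt.mul ?_ ?_)
  · exact geo2_contDiffAt_inv hs (hg.posDef x hx).det_pos.ne' k l
  · exact ((geo2_contDiffAt_pd (hs _ _) _).add (geo2_contDiffAt_pd (hs _ _) _)).sub
      (geo2_contDiffAt_pd (hs _ _) _)

/-- directional derivatives through partial derivatives -/
theorem geo2_fderiv_eq (f : E n → ℝ) (x v : E n) :
    fderiv ℝ f x v = ∑ i, v i * pderiv i f x := by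
  have h : v = ∑ i, v i • (EuclideanSpace.single i (1 : ℝ) : E n) := by
    ext j
    simp [Finset.sum_apply, Pi.single_apply]
  conv_lhs => rw [h]
  simp [pderiv, map_sum]

theorem geo2_hasFDerivAt_coord (l : Fin n) (x : E n) :
    HasFDerivAt (fun y : E n => y l) (EuclideanSpace.proj l : E n →L[ℝ] ℝ) x :=
  (EuclideanSpace.proj l : E n →L[ℝ] ℝ).hasFDerivAt

theorem geo2_diff_contr {F : Fin n → E n → ℝ} {x : E n} (hF : ∀ l, DifferentiableAt ℝ (F l) x) :
    DifferentiableAt ℝ (fun y => ∑ l, F l y * y l) x :=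
  DifferentiableAt.fun_sum fun l _ => (hF l).mul (geo2_hasFDerivAt_coord l x).differentiableAt

/-- derivative of a contraction with the position vector -/
theorem geo2_fd_contr {F : Fin n → E n → ℝ} {x : E n} (hF : ∀ l, DifferentiableAt ℝ (F l) x)
    (v : E n) : fderiv ℝ (fun y => ∑ l, F l y * y l) x v =
      ∑ l, fderiv ℝ (F l) x v * x l + ∑ l, F l x * v l := by
  have h := HasFDerivAt.fun_sum (u := Finset.univ) fun l _ =>
    (hF l).hasFDerivAt.fun_mul (geo2_hasFDerivAt_coord l x)
  rw [h.fderiv, ← Finset.sum_add_distrib, sum_apply]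
  refine Finset.sum_congr rfl fun l _ => ?_
  simp only [add_apply, smul_apply, smul_eq_mul,
    PiLp.proj_apply]
  ring

theorem geo2_pd_contr {F : Fin n → E n → ℝ} {x : E n} (hF : ∀ l, DifferentiableAt ℝ (F l) x)
    (a : Fin n) : pderiv a (fun y => ∑ l, F l y * y l) x =
      ∑ l, pderiv a (F l) x * x l + F a x := by
  unfold pderiv
  rw [geo2_fd_contr hF]
  simp [Pi.single_apply]

theorem geo2_hasDerivAt_det_one (K : Matrix (Fin n) (Fin n) ℝ) :
    HasDerivAt (fun z : ℝ => (1 + z • K).det) K.trace 0 := by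
  have e : (fun z : ℝ => (1 + z • K).det) = fun z : ℝ => 1 + K.trace * z +
      (Matrix.det (1 + (Polynomial.X : Polynomial ℝ) • K.map Polynomial.C)).divX.divX.eval z *
        z ^ 2 := by
    funext z; exact Matrix.det_one_add_smul z K
  rw [e]
  have h1 : HasDerivAt (fun z : ℝ => 1 + K.trace * z) K.trace 0 := by
    simpa using ((hasDerivAt_id (0 : ℝ)).const_mul K.trace).const_add 1
  have h2 := ((Matrix.det (1 + (Polynomial.X : Polynomial ℝ) •
    K.map Polynomial.C)).divX.divX.hasDerivAt (0 : ℝ)).mul (hasDerivAt_pow 2 (0 : ℝ))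
  exact (h1.add h2).congr_deriv (by simp)

theorem geo2_hasDerivAt_det (M H : Matrix (Fin n) (Fin n) ℝ) (hM : M.det ≠ 0) :
    HasDerivAt (fun s : ℝ => (M + s • H).det) (M.det * (M⁻¹ * H).trace) 0 := by
  have e : (fun s : ℝ => (M + s • H).det) = fun s : ℝ => M.det * (1 + s • (M⁻¹ * H)).det := by
    funext s
    rw [← Matrix.det_mul, Matrix.mul_add, Matrix.mul_one, Matrix.mul_smul, ← Matrix.mul_assoc,
      Matrix.mul_nonsing_inv _ (isUnit_iff_ne_zero.2 hM), Matrix.one_mul]
  rw [e]
  exact (geo2_hasDerivAt_det_one _).const_mul _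

/-- Jacobi's formula -/
theorem geo2_jacobi {m : MetricField n} {x : E n}
    (hs : ∀ a b, DifferentiableAt ℝ (fun y => m y a b) x) (hd : (m x).det ≠ 0) (v : E n) :
    fderiv ℝ (fun y => Real.log (m y).det) x v =
      ((m x)⁻¹ * Matrix.of fun i j => fderiv ℝ (fun y => m y i j) x v).trace := by
  let D : (Fin n → Fin n → ℝ) → ℝ := fun M => (Matrix.of M).det
  have hD : Differentiable ℝ D := by
    simp only [D, Matrix.det_apply', Matrix.of_apply]
    fun_prop
  let G : E n → Fin n → Fin n → ℝ := fun y i j => m y i j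
  have hG : HasFDerivAt G (ContinuousLinearMap.pi fun i => ContinuousLinearMap.pi fun j =>
      fderiv ℝ (fun y => m y i j) x) x :=
    hasFDerivAt_pi.2 fun i => hasFDerivAt_pi.2 fun j => (hs i j).hasFDerivAt
  let H : Fin n → Fin n → ℝ := fun i j => fderiv ℝ (fun y => m y i j) x v
  have h1 : HasDerivAt (fun s : ℝ => G x + s • H) H 0 := by
    simpa using ((hasDerivAt_id (0 : ℝ)).smul_const H).const_add (G x)
  have h2 : HasFDerivAt D (fderiv ℝ D (G x)) (G x + (0 : ℝ) • H) := by
    simpa using (hD (G x)).hasFDerivAt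
  have h3 : fderiv ℝ D (G x) H = (m x).det * ((m x)⁻¹ * Matrix.of H).trace :=
    (h2.comp_hasDerivAt (0 : ℝ) h1).unique (geo2_hasDerivAt_det (m x) (Matrix.of H) hd)
  have h4 := ((hD (G x)).hasFDerivAt.comp x hG).log hd
  have h5 : fderiv ℝ (fun y => Real.log (m y).det) x = _ := h4.fderiv
  rw [h5]
  change ((m x).det)⁻¹ * fderiv ℝ D (G x) H = _
  rw [h3, ← mul_assoc, inv_mul_cancel₀ hd, one_mul]

end Crest.Agent.R202
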