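import Crest.Agent.R202.Sph1
import Crest.Agent.R202.GDefs
import Crest.Agent.R202.Forms1a
import Crest.Agent.R202.Geo2Aux

/-! # Row 202, Forms1: the map `β ↦ HX β` -/

set_option autoImplicit false
open scoped ContDiff RealInnerProductSpace
open Set Filter Topology MeasureTheory Crest.GeometryTopology.CoordMetric

noncomputable section
namespace Crest.Agent.R202

variable {n : ℕ}

theorem forms1_radius (a : ℝ) : 1 ≤ (binomialSeries (CS n) a).radius := by
  refine le_trans (binomialSeries_radius_ge_one (𝔸 := ℝ) (a := a))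
    (FormalMultilinearSeries.radius_le_of_le fun k => ?_)
  unfold binomialSeries
  rw [FormalMultilinearSeries.ofScalars_norm ℝ, FormalMultilinearSeries.ofScalars_norm_eq_mul]
  refine mul_le_of_le_one_right (norm_nonneg _)
    (ContinuousMultilinearMap.norm_mkPiAlgebraFin_le.trans (max_le le_rfl ?_))
  exact (ContinuousMap.norm_le _ zero_le_one).2 fun x => by simp

theorem forms1_sum (a : ℝ) {D : CS n} (hD : ‖D‖ < 1) (x : Sp n) :
    (binomialSeries (CS n) a).sum D x = (1 + D x) ^ a := by
  have h1 : D ∈ Metric.eball (0 : CS n) (binomialSeries (CS n) a).radius := by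
    refine Metric.eball_subset_eball (forms1_radius a) ?_
    rw [← ENNReal.ofReal_one, Metric.eball_ofReal]
    simpa using hD
  have h2 := (ContinuousMap.evalCLM ℝ x).hasSum ((binomialSeries (CS n) a).hasSum h1)
  have h3 : D x ∈ Metric.eball (0 : ℝ) 1 := by
    rw [← ENNReal.ofReal_one, Metric.eball_ofReal]
    simpa using (D.norm_coe_le_norm x).trans_lt hD
  have h4 := (Real.one_add_rpow_hasFPowerSeriesOnBall_zero (a := a)).hasSum h3
  rw [zero_add] at h4
  refine h2.unique ?_
  have e : (fun k => ContinuousMap.evalCLM ℝ x (binomialSeries (CS n) a k fun _ => D)) =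
      fun k => binomialSeries ℝ a k fun _ => D x := by
    funext k
    rw [binomialSeries_apply, binomialSeries_apply]
    simp
  rw [e]
  exact h4

/-- `det (1 + β)` as a continuous function on the sphere -/
def forms1_det (β : X n) : CS n := (1 + Matrix.of β : Matrix (Fin n) (Fin n) (CS n)).det

theorem forms1_det_apply (β : X n) (x : Sp n) : forms1_det β x = (1 + β.at x).det := by
  have h := (ContinuousMap.evalAlgHom ℝ ℝ x).toRingHom.map_det
    (1 + Matrix.of β : Matrix (Fin n) (Fin n) (CS n))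
  refine Eq.trans h ?_
  rw [map_add, map_one]
  rfl

theorem forms1_entry (i j : Fin n) (β : X n) : AnalyticAt ℝ (fun β : X n => β i j) β :=
  ((ContinuousLinearMap.proj j : (Fin n → CS n) →L[ℝ] CS n) ∘L
    (ContinuousLinearMap.proj i : X n →L[ℝ] (Fin n → CS n))).analyticAt β

theorem forms1_det_analytic (β : X n) : AnalyticAt ℝ (forms1_det : X n → CS n) β := by
  unfold forms1_det
  simp only [Matrix.det_apply', Matrix.add_apply, Matrix.of_apply]
  exact Finset.analyticAt_fun_sum _ fun σ _ => analyticAt_const.mul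
    (Finset.analyticAt_fun_prod _ fun i _ => analyticAt_const.add (forms1_entry _ _ β))

theorem forms1_detOK {β : X n} : DetOK β ↔ ‖forms1_det β - 1‖ < 1 / 2 := by
  rw [ContinuousMap.norm_lt_iff _ (by norm_num)]
  simp only [ContinuousMap.sub_apply, forms1_det_apply, ContinuousMap.one_apply, Real.norm_eq_abs]
  rfl

theorem forms1_om {β : Matrix (Fin n) (Fin n) ℝ} (h : |(1 + β).det - 1| < 1 / 2) :
    om β = (1 + β).det ^ (-(1 / ((n : ℝ) - 1))) := by
  unfold om
  rw [max_eq_left (by linarith [(abs_lt.1 h).1])]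

theorem forms1_detOK_nhds {β : X n} (h : DetOK β) : ∀ᶠ γ in 𝓝 β, DetOK γ := by
  simp only [forms1_detOK] at h ⊢
  exact (((forms1_det_analytic β).continuousAt.sub continuousAt_const).norm).eventually
    (gt_mem_nhds h)

/-- `β ↦ det(1+β) ∈ CS n` is a polynomial map into the Banach algebra `CS n` (`Matrix.det_apply`, `AnalyticAt.mul`); near a `DetOK` point (compactness: `‖det - 1‖ < 1/2`)
`om` is the sum of the series `Σ choose(a,k) (det-1)^k`, `a = -1/(n-1)`: `FormalMultilinearSeries.ofScalars (CS n) (Ring.choose a ·)` has radius `≥ 1`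
(compare with `binomialSeries ℝ a`, `ofScalars_norm_le`/`le_radius_of_summable_norm`), its sum is analytic on the unit ball, and evaluating at a point gives
`(1+w)^a` (`Real.one_add_rpow_hasFPowerSeriesOnBall_zero`). -/
theorem analyticAt_HX {β : X n} (h : DetOK β) : AnalyticAt ℝ (HX : X n → X n) β := by
  have h1 : AnalyticAt ℝ (binomialSeries (CS n) (-(1 / ((n : ℝ) - 1)))).sum (forms1_det β - 1) := by
    refine FormalMultilinearSeries.analyticOnNhd _ (Metric.eball_subset_eball (forms1_radius _) ?_)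
    rw [← ENNReal.ofReal_one, Metric.eball_ofReal]
    simpa using (forms1_detOK.1 h).trans (by norm_num)
  have h2 := h1.comp (f := fun γ : X n => forms1_det γ - 1)
    ((forms1_det_analytic β).sub analyticAt_const)
  refine analyticAt_pi_iff.2 fun i => analyticAt_pi_iff.2 fun j => ?_
  refine (h2.mul (analyticAt_const.add (forms1_entry i j β) (f := fun _ => PiX n i j))).congr ?_
  filter_upwards [forms1_detOK_nhds h] with γ hγ
  ext x
  rw [HX_apply, forms1_om (hγ x)]
  simp only [Pi.mul_apply, Function.comp_apply, ContinuousMap.mul_apply, Pi.add_apply,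
    ContinuousMap.add_apply]
  rw [forms1_sum _ ((forms1_detOK.1 hγ).trans (by norm_num))]
  simp [forms1_det_apply]

/-- pointwise formula for the derivative (evaluate at `x`, Jacobi's formula; team lemmas `hasDerivAt_det` in `R236/CoreB`, `R341`, `R285`) -/
theorem fderiv_HX {β : X n} (h : DetOK β) (v : X n) (i j : Fin n) (x : Sp n) :
    fderiv ℝ HX β v i j x = om (β.at x) * (v i j x -
      (1 / ((n : ℝ) - 1)) * ((1 + β.at x)⁻¹ * v.at x).trace * (PiX n i j x + β i j x)) := by
  set a : ℝ := -(1 / ((n : ℝ) - 1)) with ha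
  let L : X n →L[ℝ] ℝ := ContinuousMap.evalCLM ℝ x ∘L
    ((ContinuousLinearMap.proj j : (Fin n → CS n) →L[ℝ] CS n) ∘L
      (ContinuousLinearMap.proj i : X n →L[ℝ] (Fin n → CS n)))
  have h0 : HasDerivAt (fun s : ℝ => β + s • v) v 0 := by
    simpa using ((hasDerivAt_id (0 : ℝ)).smul_const v).const_add β
  have h1 : HasFDerivAt HX (fderiv ℝ HX β) (β + (0 : ℝ) • v) := by
    rw [zero_smul, add_zero]
    exact (analyticAt_HX h).differentiableAt.hasFDerivAt
  have h2 := L.hasFDerivAt.comp_hasDerivAt 0 (h1.comp_hasDerivAt 0 h0)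
  have hpos : 0 < (1 + β.at x).det := by linarith [(abs_lt.1 (h x)).1]
  have h3 := (geo2_hasDerivAt_det (1 + β.at x) (v.at x) hpos.ne').rpow_const (p := a)
    (Or.inl (by simpa using hpos.ne'))
  have h4 : HasDerivAt (fun s : ℝ => PiX n i j x + β i j x + s * v i j x) (v i j x) 0 := by
    simpa using ((hasDerivAt_id (0 : ℝ)).mul_const (v i j x)).const_add (PiX n i j x + β i j x)
  have h5 := h3.fun_mul h4
  have h6 : ∀ᶠ s in 𝓝 (0 : ℝ), DetOK (β + s • v) := by
    refine h0.continuousAt.eventually ?_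
    simpa using forms1_detOK_nhds h
  have h7 := h2.unique (h5.congr_of_eventuallyEq (by
    filter_upwards [h6] with s hs
    change HX (β + s • v) i j x = _
    have e : 1 + (β + s • v).at x = 1 + β.at x + s • v.at x := by
      ext k l
      simp [X.at, add_assoc]
    rw [HX_apply, forms1_om (hs x), e]
    simp [add_assoc, ha]))
  refine Eq.trans h7 ?_
  rw [forms1_om (h x), ← ha]
  simp only [zero_smul, add_zero, zero_mul]
  rw [Real.rpow_sub_one hpos.ne', show 1 / ((n : ℝ) - 1) = -a by rw [ha, neg_neg]]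
  field_simp
  ring



/-- from `fderiv_HX`; the entries of `(1+β)⁻¹` are bounded on the compact box `|β i j| ≤ ε` (where `det ≥ 1/2`) -/
theorem fderiv_HX_bound {ε : ℝ} (h : Good n ε) : ∃ C : ℝ, ∀ b : BB n, ‖b‖ < ε →
    ‖HX (iota b)‖ ≤ C ∧ ‖fderiv ℝ HX (iota b)‖ ≤ C := by
  let M := Fin n → Fin n → ℝ
  let Φ : M × M × M → M × M := fun q =>
    (fun i j => om (Matrix.of q.1) * (q.2.1 i j + q.1 i j),
     fun i j => om (Matrix.of q.1) * (q.2.2 i j - (1 / ((n : ℝ) - 1)) *
      (((max (1 + Matrix.of q.1).det (1 / 2))⁻¹ • (1 + Matrix.of q.1).adjugate) *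
        Matrix.of q.2.2).trace * (q.2.1 i j + q.1 i j)))
  have hof : Continuous fun q : M × M × M => (Matrix.of q.1 : Matrix (Fin n) (Fin n) ℝ) :=
    continuous_fst
  have hof' : Continuous fun q : M × M × M => (Matrix.of q.2.2 : Matrix (Fin n) (Fin n) ℝ) :=
    continuous_snd.snd
  have hom := continuous_om.comp hof
  have hΦ : Continuous Φ := by
    refine Continuous.prodMk (continuous_pi fun i => continuous_pi fun j => hom.mul (by fun_prop))
      (continuous_pi fun i => continuous_pi fun j => hom.mul (Continuous.sub (by fun_prop)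
        (Continuous.mul (continuous_const.mul (Continuous.matrix_trace
          (Continuous.matrix_mul (Continuous.fun_smul (Continuous.fun_inv₀ ?_ fun q => ?_)
            (continuous_const.add hof).matrix_adjugate) hof'))) (by fun_prop))))
    · exact (continuous_const.add hof).matrix_det.max continuous_const
    · exact (lt_of_lt_of_le (by norm_num) (le_max_right _ _)).ne'
  obtain ⟨C, hC⟩ := (isCompact_closedBall (0 : M × M × M) (ε + ‖PiX n‖ + 1)).exists_bound_of_continuousOn
    hΦ.continuousOn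
  have hε := h.1
  have hP := norm_nonneg (PiX n)
  have hC0 : 0 ≤ C := (norm_nonneg _).trans (hC 0 (Metric.mem_closedBall_self (by linarith)))
  have hat : ∀ (K : X n) (x : Sp n), ‖(fun i j => K i j x : M)‖ ≤ ‖K‖ := fun K x =>
    (pi_norm_le_iff_of_nonneg (norm_nonneg _)).2 fun i =>
      (pi_norm_le_iff_of_nonneg (norm_nonneg _)).2 fun j =>
        ((K i j).norm_coe_le_norm x).trans ((norm_le_pi_norm (K i) j).trans (norm_le_pi_norm K i))
  have hX : ∀ K : X n, (∀ x : Sp n, ‖(fun i j => K i j x : M)‖ ≤ C) → ‖K‖ ≤ C := fun K hK =>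
    (pi_norm_le_iff_of_nonneg hC0).2 fun i => (pi_norm_le_iff_of_nonneg hC0).2 fun j =>
      (ContinuousMap.norm_le _ hC0).2 fun x =>
        ((norm_le_pi_norm (fun j => K i j x) j).trans
          (norm_le_pi_norm (fun i j => K i j x : M) i)).trans (hK x)
  refine ⟨C, fun b hb => ?_⟩
  have hmem : ∀ (v : X n) (x : Sp n), ‖v‖ ≤ 1 →
      ‖Φ (fun i j => iota b i j x, fun i j => PiX n i j x, fun i j => v i j x)‖ ≤ C := by
    intro v x hv
    refine hC _ (mem_closedBall_zero_iff.2 (norm_prod_le_iff.2 ⟨?_, norm_prod_le_iff.2 ⟨?_, ?_⟩⟩))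
    · refine le_trans ((pi_norm_le_iff_of_nonneg (norm_nonneg b)).2 fun i =>
        (pi_norm_le_iff_of_nonneg (norm_nonneg b)).2 fun j => b.abs_le i j x) (by linarith)
    · exact (hat _ x).trans (by linarith)
    · exact (hat _ x).trans (by linarith)
  refine ⟨hX _ fun x => (norm_fst_le _).trans (hmem 0 x (by simp)),
    ContinuousLinearMap.opNorm_le_of_unit_norm hC0 fun v hv => hX _ fun x => ?_⟩
  refine le_trans (le_of_eq ?_) ((norm_snd_le _).trans (hmem v x hv.le))
  congr 1
  funext i j
  have hd := h.detOK hb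
  rw [fderiv_HX hd, Matrix.inv_def, Ring.inverse_eq_inv',
    ← max_eq_left (show (1 / 2 : ℝ) ≤ (1 + (iota b).at x).det by linarith [(abs_lt.1 (hd x)).1])]
  rfl

theorem forms1_norm_iota (b : BB n) : ‖iota b‖ ≤ ‖b‖ :=
  (pi_norm_le_iff_of_nonneg (norm_nonneg _)).2 fun i =>
    (pi_norm_le_iff_of_nonneg (norm_nonneg _)).2 fun j =>
      (ContinuousMap.norm_le _ (norm_nonneg _)).2 fun x => b.abs_le i j x

theorem forms1_form_sub (K K' : X n) (u w : W n) :
    form K u w - form K' u w = form (K - K') u w := by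
  simp only [← formK_apply, map_sub]

theorem forms1_sqrt (u : W n) : √(aB (0 : BB n) u u) = gr u := by
  rw [aB_zero]; rfl

/-- everything in `Fam` except the eigen-systems: `form_le`, the mean value inequality on the convex ball, `AnalyticAt.hasStrictFDerivAt`;
symmetry of `fderiv HX (iota b) (iota v)` from `fderiv_HX`. -/
theorem fam_of_eig (hn : 2 ≤ n) {ε : ℝ} (h : Good n ε)
    (he : ∀ b : BB n, ‖b‖ < ε → ∃ lam φ, EigSys (aB b) lam φ) :
    Fam (aB : BB n → BF (W n)) daB ε := by
  obtain ⟨C, hC⟩ := fderiv_HX_bound h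
  have hC0 : 0 ≤ C := (norm_nonneg _).trans (hC 0 (by simpa using h.1)).1
  have hgr : ∀ u w : W n, 0 ≤ gr u * gr w := fun u w =>
    mul_nonneg (Real.sqrt_nonneg _) (Real.sqrt_nonneg _)
  have hs : ∀ b : BB n, ‖b‖ < ε →
      HasStrictFDerivAt (fun b : BB n => HX (iota b)) (fderiv ℝ HX (iota b) ∘L iota) b := fun b hb =>
    (analyticAt_HX (h.detOK hb)).hasStrictFDerivAt.comp b iota.hasStrictFDerivAt
  have hD : ∀ b : BB n, ‖b‖ < ε → ∀ v : BB n, ‖fderiv ℝ HX (iota b) (iota v)‖ ≤ C * ‖v‖ :=
    fun b hb v => ((fderiv ℝ HX (iota b)).le_opNorm _).trans (mul_le_mul (hC b hb).2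
      (forms1_norm_iota v) (norm_nonneg _) hC0)
  refine ⟨h.1, fun b hb => ⟨form_symm (HX_symm b), fun u => ?_, he b hb⟩, fun b hb v u w => ?_,
    ⟨1 / 3, 3, by norm_num, fun b hb u => ?_⟩, ⟨n * C, fun b b' hb hb' u w => ?_⟩,
    fun b hb => ⟨n * C, fun v u w => ?_⟩, fun b hb η hη => ?_⟩
  · have := (aB_coer hn h hb u).1
    have := form_PiX_nonneg u
    linarith
  · refine form_symm (K := fderiv ℝ HX (iota b) (iota v)) (fun i j => ?_) u w
    ext x
    rw [fderiv_HX (h.detOK hb), fderiv_HX (h.detOK hb)]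
    simp only [iota_apply, v.symm i j, b.symm i j, PiX, ContinuousMap.coe_mk, eq_comm (a := i),
      mul_comm ((x : E n) i)]
  · rw [aB_zero]
    exact aB_coer hn h hb u
  · rw [forms1_sqrt, forms1_sqrt]
    unfold aB
    rw [forms1_form_sub]
    refine (form_le _ u w).trans (mul_le_mul_of_nonneg_right ?_ (hgr u w))
    rw [mul_assoc]
    refine mul_le_mul_of_nonneg_left ?_ (Nat.cast_nonneg n)
    refine (convex_ball (0 : BB n) ε).norm_image_sub_le_of_norm_hasFDerivWithin_le
      (f := fun b : BB n => HX (iota b)) (f' := fun b => fderiv ℝ HX (iota b) ∘L iota)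
      (fun z hz => (hs z (mem_ball_zero_iff.1 hz)).hasFDerivAt.hasFDerivWithinAt) (fun z hz => ?_)
      (mem_ball_zero_iff.2 hb') (mem_ball_zero_iff.2 hb)
    have hz' := mem_ball_zero_iff.1 hz
    exact ContinuousLinearMap.opNorm_le_bound _ hC0 (hD z hz')
  · rw [forms1_sqrt, forms1_sqrt]
    refine (form_le (fderiv ℝ HX (iota b) (iota v)) u w).trans
      (mul_le_mul_of_nonneg_right ?_ (hgr u w))
    rw [mul_assoc]
    exact mul_le_mul_of_nonneg_left (hD b hb v) (Nat.cast_nonneg n)
  · have hn0 : (0 : ℝ) < n := by exact_mod_cast (by omega : 0 < n)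
    have h1 := (hs b hb).isLittleO.def (div_pos hη hn0)
    obtain ⟨δ, hδ, h2⟩ := Metric.eventually_nhds_iff.1 h1
    refine ⟨δ, hδ, fun b₁ b₂ hb₁ hb₂ u w => ?_⟩
    have h3 := h2 (y := (b₁, b₂)) (by
      rw [Prod.dist_eq, dist_eq_norm, dist_eq_norm]
      exact max_lt hb₁ hb₂)
    rw [forms1_sqrt, forms1_sqrt]
    change |form (HX (iota b₁)) u w - form (HX (iota b₂)) u w -
      form (fderiv ℝ HX (iota b) (iota (b₁ - b₂))) u w| ≤ _
    rw [forms1_form_sub, forms1_form_sub]
    refine (form_le _ u w).trans (mul_le_mul_of_nonneg_right ?_ (hgr u w))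
    refine (mul_le_mul_of_nonneg_left h3 hn0.le).trans (le_of_eq ?_)
    field_simp

/-- `HX ∘ actX g = actX g ∘ HX`, differentiate at `iota b = actX g (iota b)`; `form_act`, `act_refl_refl` -/
theorem symData (i : Fin n) {ε : ℝ} (h : Good n ε) :
    SymData (aB : BB n → BF (W n)) daB ε (act (refl i)) (reflB i) := by
  refine ⟨act_refl_refl i, inner_act _, fun v => BB.ext fun j k => ?_, fun b hb hσ u w => ?_,
    fun b hb hσ v u w => ?_⟩
  · change (sg i j * sg i k) • act (refl i) ((sg i j * sg i k) • act (refl i) (v.e j k)) = _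
    rw [map_smul, act_refl_refl, smul_smul]
    have : sg i j * sg i k * (sg i j * sg i k) = 1 := by
      unfold sg
      split_ifs <;> norm_num
    rw [this, one_smul]
  · have h1 : actX (refl i) (iota b) = iota b := by rw [← iota_reflB, hσ]
    unfold aB
    conv_lhs => rw [← h1, HX_actX]
    exact form_act _ _ u w
  · have h1 : actX (refl i) (iota b) = iota b := by rw [← iota_reflB, hσ]
    have h2 := (analyticAt_HX (h.detOK hb)).differentiableAt.hasFDerivAt
    have h3 : HasFDerivAt HX (fderiv ℝ HX (iota b)) (actX (refl i) (iota b)) := by rwa [h1]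
    have h4 := h3.comp (iota b) (actX (refl i)).hasFDerivAt
    have h5 := (actX (refl i)).hasFDerivAt.comp (iota b) h2
    have h6 : HX ∘ actX (refl i) = actX (refl i) ∘ (HX : X n → X n) :=
      funext fun β => HX_actX _ β
    rw [h6] at h4
    have h7 := congrArg (fun L : X n →L[ℝ] X n => L (iota v)) (h4.unique h5)
    change form (fderiv ℝ HX (iota b) (iota (reflB i v))) u w =
      form (fderiv ℝ HX (iota b) (iota v)) (act (refl i) u) (act (refl i) w)
    rw [iota_reflB, ← form_act (refl i) (fderiv ℝ HX (iota b) (iota v)), act_refl_refl, act_refl_refl]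
    exact congrArg (fun K => form K u w) h7

theorem analytic_orbit {ε : ℝ} (h : Good n ε) {b : BB n} (hb : ‖b‖ < ε) (π : Plane n) :
    AnalyticOnNhd ℝ (fun s => actX (rot π s) (HX (iota b))) univ := by
  intro s hs
  simp only [← HX_actX]
  exact (analyticAt_HX ((h.detOK hb).actX (rot π s))).comp
    (f := fun s => actX (rot π s) (iota b)) (analytic_orbit_iota π b s hs)
theorem orbSmooth_HX {ε : ℝ} (h : Good n ε) {b : BB n} (hb : ‖b‖ < ε) : OrbSmooth (HX (iota b)) :=
  fun π => (analytic_orbit h hb π).contDiff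
/-- Cauchy estimates from the power series at `0` (`HasFPowerSeriesOnBall.factorial_smul`, `norm_mul_pow_le_of_lt_radius`) -/
theorem orbD_factorial {ε : ℝ} (h : Good n ε) {b : BB n} (hb : ‖b‖ < ε) (π : Plane n) :
    ∃ C K : ℝ, 0 ≤ C ∧ 0 ≤ K ∧ ∀ j, ‖orbD π j (HX (iota b))‖ ≤ C * K ^ j * j.factorial := by
  obtain ⟨p, r, hp⟩ := analytic_orbit h hb π 0 (mem_univ _)
  obtain ⟨C, K, hC, hK, hb⟩ := p.le_mul_pow_of_radius_pos (hp.r_pos.trans_le hp.r_le)
  refine ⟨C, K, hC.le, hK.le, fun j => ?_⟩
  unfold orbD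
  rw [iteratedDeriv_eq_iteratedFDeriv, ← hp.factorial_smul 1 j, ← Nat.cast_smul_eq_nsmul ℝ,
    norm_smul, Real.norm_natCast, mul_comm]
  refine mul_le_mul_of_nonneg_right (le_trans ?_ (hb j)) (Nat.cast_nonneg _)
  simp

end Crest.Agent.R202
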