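import Crest.Agent.R202.Defs

/-! # Row 202, Lim: uniform derivative bounds and smooth ultralimits -/

set_option autoImplicit false
open scoped ContDiff RealInnerProductSpace
open Set Filter Topology MeasureTheory Crest.GeometryTopology.CoordMetric

noncomputable section
namespace Crest.Agent.R202

variable {n : ℕ}

theorem lima_single_sum (x : E n) : ∑ j, x j • EuclideanSpace.single j (1 : ℝ) = x := by
  ext i
  simp [Finset.sum_apply, Pi.single_apply]

theorem word_bound_aux {A Ω : Type*} [Fintype A] {O S : Set (E n)} (hO : IsOpen O) (hS : IsCompact S)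
    (hSO : S ⊆ O) (F : Ω → List A → E n → ℝ) (c : Fin n → A → E n → ℝ)
    (hc : ∀ i α, ContDiffOn ℝ ∞ (c i α) O) (hF : ∀ o w, ContDiffOn ℝ ∞ (F o w) O)
    (hd : ∀ o w i, ∀ x ∈ O, fderiv ℝ (F o w) x (EuclideanSpace.single i 1) = ∑ α, c i α x * F o (α :: w) x)
    (m : ℕ) : ∃ C : ℝ, 0 ≤ C ∧ ∀ k ≤ m, ∀ (w : List A) (o : Ω) (M : ℝ), 0 ≤ M →
      (∀ w' : List A, w'.length ≤ m → ∀ x ∈ S, |F o (w' ++ w) x| ≤ M) →
      ∀ x ∈ S, ‖iteratedFDerivWithin ℝ k (F o w) O x‖ ≤ C * M := by
  have hU := hO.uniqueDiffOn (𝕜 := ℝ)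
  induction m with
  | zero =>
    refine ⟨1, zero_le_one, fun k hk w o M _ h x hx => ?_⟩
    obtain rfl : k = 0 := Nat.le_zero.1 hk
    rw [norm_iteratedFDerivWithin_zero, one_mul]
    exact h [] le_rfl x hx
  | succ m ih =>
    obtain ⟨C, hC, ih⟩ := ih
    let g : Fin n × A → E n → (E n →L[ℝ] ℝ) := fun p y => c p.1 p.2 y • EuclideanSpace.proj p.1
    have hg : ∀ p, ContDiffOn ℝ ∞ (g p) O := fun p => (hc p.1 p.2).smul contDiffOn_const
    have hK : ∀ (p : Fin n × A) (j : ℕ), ∃ K : ℝ, ∀ x ∈ S, ‖iteratedFDerivWithin ℝ j (g p) O x‖ ≤ K :=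
      fun p j => hS.exists_bound_of_continuousOn
        (((hg p).continuousOn_iteratedFDerivWithin (by exact_mod_cast le_top) hU).mono hSO)
    choose K hK using hK
    refine ⟨max C (∑ p, ∑ l ∈ Finset.range (m + 1), (m.choose l : ℝ) * C * K p (m - l)),
      le_max_of_le_left hC, fun k hk w o M hM h x hx => ?_⟩
    rcases Nat.lt_or_eq_of_le hk with hk | rfl
    · exact (ih k (Nat.lt_succ_iff.1 hk) w o M hM (fun w' hw' => h w' (by omega)) x hx).trans
        (mul_le_mul_of_nonneg_right (le_max_left _ _) hM)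
    refine le_trans ?_ (mul_le_mul_of_nonneg_right (le_max_right _ _) hM)
    have hE : EqOn (fderivWithin ℝ (F o w) O) (fun y => ∑ p : Fin n × A, F o (p.2 :: w) y • g p y) O := by
      intro y hy
      rw [fderivWithin_of_isOpen hO hy]
      ext v
      conv_lhs => rw [← lima_single_sum v]
      simp only [map_sum, map_smul, hd o w _ y hy, smul_eq_mul, sum_apply,
        smul_apply, g, Fintype.sum_prod_type, Finset.mul_sum]
      refine Finset.sum_congr rfl fun i _ => Finset.sum_congr rfl fun α _ => ?_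
      simp only [EuclideanSpace.proj, PiLp.proj_apply]
      ring
    rw [← norm_iteratedFDerivWithin_fderivWithin hU (hSO hx), iteratedFDerivWithin_congr hE (hSO hx),
      iteratedFDerivWithin_fun_sum_apply (f := fun (p : Fin n × A) y => F o (p.2 :: w) y • g p y)
        hU (hSO hx) (fun p _ =>
        (((hF o (p.2 :: w)).smul (hg p)).of_le (by exact_mod_cast le_top)) x (hSO hx)),
      Finset.sum_mul]
    refine (norm_sum_le _ _).trans (Finset.sum_le_sum fun p _ => ?_)
    refine (norm_iteratedFDerivWithin_smul_le (hF o (p.2 :: w)) (hg p) hU (hSO hx)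
      (by exact_mod_cast le_top)).trans ?_
    rw [Finset.sum_mul]
    refine Finset.sum_le_sum fun l hl => ?_
    have h1 := ih l (Nat.lt_succ_iff.1 (Finset.mem_range.1 hl)) (p.2 :: w) o M hM
      (fun w' hw' y hy => by
        have := h (w' ++ [p.2]) (by simpa using hw') y hy
        simpa using this) x hx
    have h2 := hK p (m - l) x hx
    calc _ ≤ (m.choose l : ℝ) * (C * M) * K p (m - l) := by gcongr
      _ = _ := by ring

/-- **word lemma.**  A family of functions `F o w` (`w` a word) closed under partial differentiation with fixed smooth coefficients and bounded on the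
compact set `S` has bounded derivatives of every order on `S`.  Induction on `m` for all words at once: near a point of `O`,
`fderiv (F o w) = Σ_i Σ_α (c i α · F o (α :: w)) • EuclideanSpace.proj i`; `norm_iteratedFDeriv_fderiv`, `iteratedFDeriv_sum`, `norm_iteratedFDeriv_mul_le`
(use `iteratedFDerivWithin` on the open set `O`, or the `ContDiffAt` versions).  The index sets `G w k` may shrink with the order. -/
theorem word_bound {A Ω : Type*} [Fintype A] {O S : Set (E n)} (hO : IsOpen O) (hS : IsCompact S)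
    (hSO : S ⊆ O) (F : Ω → List A → E n → ℝ) (c : Fin n → A → E n → ℝ)
    (hc : ∀ i α, ContDiffOn ℝ ∞ (c i α) O) (hF : ∀ o w, ContDiffOn ℝ ∞ (F o w) O)
    (hd : ∀ o w i, ∀ x ∈ O, fderiv ℝ (F o w) x (EuclideanSpace.single i 1) = ∑ α, c i α x * F o (α :: w) x)
    (m : ℕ) (w : List A) : ∃ C : ℝ, ∀ (o : Ω) (M : ℝ), 0 ≤ M →
      (∀ w' : List A, w'.length ≤ m → ∀ x ∈ S, |F o (w' ++ w) x| ≤ M) →
      ∀ x ∈ S, ‖iteratedFDeriv ℝ m (F o w) x‖ ≤ C * M := by
  obtain ⟨C, -, h⟩ := word_bound_aux hO hS hSO F c hc hF hd m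
  refine ⟨C, fun o M hM hw x hx => ?_⟩
  rw [← iteratedFDerivWithin_of_isOpen m hO (hSO hx)]
  exact h m le_rfl w o M hM hw x hx

/-- on `ℝⁿ \ 0`: `∂ᵢ = (xᵢ/|x|²) x·∇ + Σ_j (x_j/|x|²)(x_j∂ᵢ - xᵢ∂_j)` -/
theorem pderiv_polar (f : E n → ℝ) {x : E n} (hx : x ≠ 0) (i : Fin n) :
    fderiv ℝ f x (EuclideanSpace.single i 1) = x i / ‖x‖ ^ 2 * fderiv ℝ f x x +
      ∑ j, x j / ‖x‖ ^ 2 * fderiv ℝ f x (gen (EuclideanSpace.single j 1) (EuclideanSpace.single i 1) x) := by
  have hn : ‖x‖ ^ 2 ≠ 0 := pow_ne_zero 2 (norm_ne_zero_iff.2 hx)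
  have h1 : fderiv ℝ f x x = ∑ j, x j * fderiv ℝ f x (EuclideanSpace.single j 1) := by
    conv_lhs => rw [show fderiv ℝ f x x = fderiv ℝ f x (∑ j, x j • EuclideanSpace.single j (1 : ℝ)) by
      rw [lima_single_sum]]
    simp only [map_sum, map_smul, smul_eq_mul]
  have h2 : ‖x‖ ^ 2 = ∑ j, x j ^ 2 := by
    rw [EuclideanSpace.real_norm_sq_eq]
  have h3 : ∀ j, x j / ‖x‖ ^ 2 *
      fderiv ℝ f x (gen (EuclideanSpace.single j 1) (EuclideanSpace.single i 1) x) =
      x j ^ 2 * (fderiv ℝ f x (EuclideanSpace.single i 1) / ‖x‖ ^ 2) -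
        x i / ‖x‖ ^ 2 * (x j * fderiv ℝ f x (EuclideanSpace.single j 1)) := fun j => by
    simp only [gen_apply, EuclideanSpace.inner_single_left, map_one, one_mul, map_sub, map_smul,
      smul_eq_mul]
    ring
  simp only [h3, Finset.sum_sub_distrib, ← Finset.sum_mul, ← Finset.mul_sum, ← h1, ← h2]
  field_simp
  ring

theorem lima_euler (u : W n) {x : E n} (hx : x ≠ 0) : fderiv ℝ u x x = 0 := by
  have h1 : HasDerivAt (fun t : ℝ => t • x) x 1 := by
    simpa using (hasDerivAt_id (1 : ℝ)).smul_const x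
  have h2 : HasFDerivAt u (fderiv ℝ u x) ((1 : ℝ) • x) := by
    rw [one_smul]
    exact (u.differentiableAt hx).hasFDerivAt
  have h3 := h2.comp_hasDerivAt (1 : ℝ) h1
  have h4 : HasDerivAt (u ∘ fun t : ℝ => t • x) 0 1 := by
    refine (hasDerivAt_const (1 : ℝ) (u x)).congr_of_eventuallyEq ?_
    filter_upwards [lt_mem_nhds (zero_lt_one' ℝ)] with t ht
    exact u.homog ht x
  exact h3.unique h4

/-- derivatives of a function in `W n` on the unit sphere are controlled by words in the `L_{ij}` (`word_bound` with alphabet `Fin n × Fin n`, `F u w = Lw w u`,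
Euler `fderiv u x x = 0`) -/
theorem W_deriv_bound (m : ℕ) : ∃ C : ℝ, ∀ (u : W n) (M : ℝ), 0 ≤ M →
    (∀ w : List (Fin n × Fin n), w.length ≤ m → ∀ x : Sp n, |Lw w u x| ≤ M) →
    ∀ x : Sp n, ‖iteratedFDeriv ℝ m u x‖ ≤ C * M := by
  classical
  obtain ⟨C, hC⟩ := word_bound (A := Fin n × Fin n) (Ω := W n) (O := {0}ᶜ) (S := Metric.sphere 0 1)
    isOpen_compl_singleton (isCompact_sphere 0 1) (fun x hx => Sp.ne_zero ⟨x, hx⟩)
    (fun u w => Lw w u) (fun i α x => if α.2 = i then x α.1 / ‖x‖ ^ 2 else 0)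
    (fun i α => by
      split_ifs
      · intro x hx
        have hx' : x ≠ 0 := hx
        exact (ContDiffAt.div (by fun_prop) ((contDiffAt_norm ℝ hx').pow 2)
          (pow_ne_zero 2 (norm_ne_zero_iff.2 hx'))).contDiffWithinAt
      · exact contDiffOn_const)
    (fun u w => (Lw w u).smooth)
    (fun u w i x hx => by
      have hx' : x ≠ 0 := hx
      rw [pderiv_polar _ hx', lima_euler _ hx', mul_zero, zero_add, Fintype.sum_prod_type]
      refine Finset.sum_congr rfl fun j _ => ?_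
      simp only [ite_mul, zero_mul, Finset.sum_ite_eq', Finset.mem_univ, if_true]
      rfl) m []
  exact ⟨C, fun u M hM h x => hC u M hM (fun w hw y hy => by simpa using h w hw ⟨y, hy⟩) x x.2⟩

theorem lima_deriv_fst {Y F : Type*} [NormedAddCommGroup Y] [NormedSpace ℝ Y]
    [NormedAddCommGroup F] [NormedSpace ℝ F] {O : Set (ℝ × Y)} (hO : IsOpen O) {Φ : ℝ × Y → F}
    (hΦ : ContDiffOn ℝ ∞ Φ O) :
    ContDiffOn ℝ ∞ (fun p : ℝ × Y => deriv (fun s => Φ (s, p.2)) p.1) O := by
  refine ((hΦ.fderiv_of_isOpen hO (m := ∞) le_rfl).clm_apply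
    (contDiffOn_const (c := ((1 : ℝ), (0 : Y))))).congr fun p hp => ?_
  have h1 : HasDerivAt (fun s : ℝ => (s, p.2)) ((1 : ℝ), (0 : Y)) p.1 :=
    (hasDerivAt_id p.1).prodMk (hasDerivAt_const p.1 p.2)
  have h2 : HasFDerivAt Φ (fderiv ℝ Φ p) (p.1, p.2) :=
    ((hΦ.contDiffAt (hO.mem_nhds hp)).differentiableAt (by simp)).hasFDerivAt
  exact (h2.comp_hasDerivAt p.1 h1).deriv

/-- iterated derivatives in the first variable of a jointly smooth map are jointly smooth -/
theorem contDiffAt_iteratedDeriv {Y F : Type*} [NormedAddCommGroup Y] [NormedSpace ℝ Y]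
    [NormedAddCommGroup F] [NormedSpace ℝ F] {O : Set (ℝ × Y)} (hO : IsOpen O) {Φ : ℝ × Y → F}
    (hΦ : ContDiffOn ℝ ∞ Φ O) (j : ℕ) :
    ContDiffOn ℝ ∞ (fun p : ℝ × Y => iteratedDeriv j (fun s => Φ (s, p.2)) p.1) O := by
  induction j with
  | zero => simpa using hΦ
  | succ j ih =>
    simp only [iteratedDeriv_succ]
    exact lima_deriv_fst hO ih

end Crest.Agent.R202
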