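import Crest.Agent.R202.Defs
import Crest.Agent.R202.Lima

/-! # Row 202, Lim: uniform derivative bounds and smooth ultralimits -/

set_option autoImplicit false
open scoped ContDiff RealInnerProductSpace
open Set Filter Topology MeasureTheory Crest.GeometryTopology.CoordMetric

noncomputable section
namespace Crest.Agent.R202

variable {n : ℕ}

theorem lim_unif {ι X Y : Type*} [PseudoMetricSpace X] [PseudoMetricSpace Y] {l : Filter ι} [NeBot l]
    {F : ι → X → Y} {g : X → Y} {x : X} {s : Set X} (hs : s ∈ 𝓝 x) {C : ℝ}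
    (hL : ∀ᶠ k in l, ∀ y ∈ s, dist (F k y) (F k x) ≤ C * dist y x)
    (h : ∀ y ∈ s, Tendsto (fun k => F k y) l (𝓝 (g y))) : TendstoUniformlyOnFilter F g l (𝓝 x) := by
  have hx := mem_of_mem_nhds hs
  have hg : ∀ y ∈ s, dist (g y) (g x) ≤ C * dist y x := fun y hy =>
    le_of_tendsto ((h y hy).dist (h x hx)) (hL.mono fun k hk => hk y hy)
  rw [Metric.tendstoUniformlyOnFilter_iff]
  intro ε hε
  have h1 : ∀ᶠ k in l, dist (F k x) (g x) < ε / 3 := Metric.tendsto_nhds.1 (h x hx) _ (by positivity)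
  have h2 : ∀ᶠ y in 𝓝 x, C * dist y x < ε / 3 := by
    have hc : Continuous fun y => C * dist y x := by fun_prop
    exact hc.continuousAt.eventually_lt continuousAt_const (by simpa using hε)
  filter_upwards [(hL.and h1).prod_mk (h2.and hs)] with p hp
  have := dist_triangle4 (g p.2) (g x) (F p.1 x) (F p.1 p.2)
  have a1 := hg p.2 hp.2.2
  have a2 := hp.1.1 p.2 hp.2.2
  rw [dist_comm (g x), dist_comm (F p.1 x) (F p.1 p.2)] at this
  linarith [hp.1.2, hp.2.1]

/-- hypotheses of the ultralimit theorem -/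
structure LimHyp (𝒰 : Ultrafilter ℕ) (O : Set (E n)) {G : Type} [NormedAddCommGroup G]
    [NormedSpace ℝ G] (F : ℕ → E n → G) : Prop where
  sm : ∀ k, ContDiffOn ℝ ∞ (F k) O
  bd : ∀ m, ∀ x ∈ O, ∃ r > 0, ∃ C : ℝ, ∀ᶠ k in 𝒰, ∀ y ∈ Metric.ball x r,
    ‖iteratedFDeriv ℝ m (F k) y‖ ≤ C

section
variable {𝒰 : Ultrafilter ℕ} {O : Set (E n)} {G : Type} [NormedAddCommGroup G] [NormedSpace ℝ G]
  {F : ℕ → E n → G}

theorem LimHyp.deriv (h : LimHyp 𝒰 O F) (hO : IsOpen O) :
    LimHyp 𝒰 O fun k => fderiv ℝ (F k) :=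
  ⟨fun k => (h.sm k).fderiv_of_isOpen hO le_rfl, fun m x hx => by
    simpa only [norm_iteratedFDeriv_fderiv] using h.bd (m + 1) x hx⟩

theorem LimHyp.tendsto [FiniteDimensional ℝ G] (h : LimHyp 𝒰 O F) {x : E n} (hx : x ∈ O) :
    Tendsto (fun k => F k x) 𝒰 (𝓝 (limUnder 𝒰 fun k => F k x)) := by
  have : ProperSpace G := FiniteDimensional.proper_real G
  obtain ⟨r, hr, C, hC⟩ := h.bd 0 x hx
  obtain ⟨a, -, ha⟩ := (isCompact_closedBall (0 : G) C).ultrafilter_le_nhds (𝒰.map fun k => F k x)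
    (le_principal_iff.2 (hC.mono fun k hk => by
      simpa using hk x (Metric.mem_ball_self hr)))
  exact tendsto_nhds_limUnder ⟨a, ha⟩

theorem LimHyp.unif [FiniteDimensional ℝ G] (h : LimHyp 𝒰 O F) (hO : IsOpen O) {x : E n}
    (hx : x ∈ O) :
    TendstoUniformlyOnFilter F (fun y => limUnder 𝒰 fun k => F k y) 𝒰 (𝓝 x) := by
  obtain ⟨r, hr, C, hC⟩ := h.bd 1 x hx
  obtain ⟨r', hr', hs⟩ := Metric.isOpen_iff.1 hO x hx
  have h1 : Metric.ball x (min r r') ⊆ O := (Metric.ball_subset_ball (min_le_right _ _)).trans hs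
  refine lim_unif (Metric.ball_mem_nhds x (lt_min hr hr')) (C := C) (hC.mono fun k hk y hy => ?_)
    fun y hy => h.tendsto (h1 hy)
  rw [dist_eq_norm, dist_eq_norm]
  refine (convex_ball x (min r r')).norm_image_sub_le_of_norm_fderiv_le (𝕜 := ℝ)
    (fun z hz => ((h.sm k).contDiffAt (hO.mem_nhds (h1 hz))).differentiableAt (by simp))
    (fun z hz => ?_) (Metric.mem_ball_self (lt_min hr hr')) hy
  rw [← norm_iteratedFDeriv_one]
  exact hk z (Metric.ball_subset_ball (min_le_left _ _) hz)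

theorem LimHyp.hasFDerivAt [FiniteDimensional ℝ G] (h : LimHyp 𝒰 O F) (hO : IsOpen O) {x : E n}
    (hx : x ∈ O) : HasFDerivAt (fun y => limUnder 𝒰 fun k => F k y)
      (limUnder 𝒰 fun k => fderiv ℝ (F k) x) x := by
  refine hasFDerivAt_of_tendstoUniformlyOnFilter (f := F) ((h.deriv hO).unif hO hx) ?_
    (Filter.mem_of_superset (hO.mem_nhds hx) fun y hy => h.tendsto hy)
  filter_upwards [prod_mem_prod (univ_mem (f := (𝒰 : Filter ℕ))) (hO.mem_nhds hx)] with p hp
  exact (((h.sm p.1).contDiffAt (hO.mem_nhds hp.2)).differentiableAt (by simp)).hasFDerivAt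

end

theorem lim_contDiffOn {𝒰 : Ultrafilter ℕ} {O : Set (E n)} (hO : IsOpen O) (m : ℕ) :
    ∀ {G : Type} [NormedAddCommGroup G] [NormedSpace ℝ G] [FiniteDimensional ℝ G]
      {F : ℕ → E n → G}, LimHyp 𝒰 O F → ContDiffOn ℝ m (fun y => limUnder 𝒰 fun k => F k y) O := by
  induction m with
  | zero =>
    intro G _ _ _ F h
    exact contDiffOn_zero.2 fun x hx => (h.hasFDerivAt hO hx).continuousAt.continuousWithinAt
  | succ m ih =>
    intro G _ _ _ F h
    rw [Nat.cast_succ, contDiffOn_succ_iff_fderiv_of_isOpen hO]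
    exact ⟨fun x hx => (h.hasFDerivAt hO hx).differentiableAt.differentiableWithinAt, by simp,
      (ih (h.deriv hO)).congr fun x hx => (h.hasFDerivAt hO hx).fderiv⟩

/-- **smooth ultralimit.**  Put `g m x = lim_𝒰 iteratedFDeriv m (F k) x` (bounded sequences in a finite-dimensional space converge along an ultrafilter).  On a small ball
the bound for order `m+1` makes the order-`m` derivatives equi-Lipschitz, so the convergence is locally uniform and `hasFDerivAt_of_tendstoLocallyUniformlyOn`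
(or directly: pass to the limit in the Taylor estimate `‖D^mF(y) - D^mF(x) - D^{m+1}F(x)(y-x)‖ ≤ C‖y-x‖²`) shows that `g` is a Taylor series:
`HasFTaylorSeriesUpToOn ∞ (g 0) g O`. -/
theorem ultra_smooth (𝒰 : Ultrafilter ℕ) {O : Set (E n)} (hO : IsOpen O) (F : ℕ → E n → ℝ)
    (hF : ∀ k, ContDiffOn ℝ ∞ (F k) O)
    (hb : ∀ m, ∀ x ∈ O, ∃ r > 0, ∃ C : ℝ, ∀ᶠ k in 𝒰, ∀ y ∈ Metric.ball x r, ‖iteratedFDeriv ℝ m (F k) y‖ ≤ C) :
    ∃ f : E n → ℝ, ContDiffOn ℝ ∞ f O ∧ ∀ x ∈ O,
      Tendsto (fun k => F k x) 𝒰 (𝓝 (f x)) ∧ Tendsto (fun k => fderiv ℝ (F k) x) 𝒰 (𝓝 (fderiv ℝ f x)) ∧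
      Tendsto (fun k => fderiv ℝ (fderiv ℝ (F k)) x) 𝒰 (𝓝 (fderiv ℝ (fderiv ℝ f) x)) := by
  have h : LimHyp 𝒰 O F := ⟨hF, hb⟩
  refine ⟨fun y => limUnder 𝒰 fun k => F k y, contDiffOn_infty.2 fun m => lim_contDiffOn hO m h,
    fun x hx => ⟨h.tendsto hx, ?_, ?_⟩⟩
  · rw [(h.hasFDerivAt hO hx).fderiv]
    exact (h.deriv hO).tendsto hx
  · have e : fderiv ℝ (fun y => limUnder 𝒰 fun k => F k y) =ᶠ[𝓝 x]
        fun y => limUnder 𝒰 fun k => fderiv ℝ (F k) y :=
      Filter.mem_of_superset (hO.mem_nhds hx) fun y hy => (h.hasFDerivAt hO hy).fderiv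
    rw [e.fderiv_eq, ((h.deriv hO).hasFDerivAt hO hx).fderiv]
    exact ((h.deriv hO).deriv hO).tendsto hx

/-- bounded pointwise convergence on the sphere (`tendsto_integral_filter_of_dominated_convergence` needs a countably generated filter; for an ultrafilter use
equicontinuity instead: under a common Lipschitz bound pointwise convergence on the compact sphere is uniform) -/
theorem integ_tendsto (𝒰 : Ultrafilter ℕ) (F : ℕ → CS n) (G : CS n) {C : ℝ}
    (hL : ∀ᶠ k in 𝒰, ∀ x y : Sp n, |F k x - F k y| ≤ C * dist x y)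
    (h : ∀ x, Tendsto (fun k => F k x) 𝒰 (𝓝 (G x))) : Tendsto F 𝒰 (𝓝 G) := by
  rw [ContinuousMap.tendsto_iff_tendstoUniformly,
    ← tendstoLocallyUniformly_iff_tendstoUniformly_of_compactSpace,
    tendstoLocallyUniformly_iff_filter]
  exact fun x => lim_unif (F := fun k x => F k x) univ_mem (C := C)
    (hL.mono fun k hk y _ => hk y x) fun y _ => h y

/-- a derivative bound near the sphere gives a Lipschitz bound on the sphere (points at distance `≤ 1` are joined by a segment in the shell `1/2 ≤ ‖y‖ ≤ 1`; otherwise use the sup bound) -/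
theorem lip_sphere {F : Type*} [NormedAddCommGroup F] [NormedSpace ℝ F] {f : E n → F} {r C : ℝ} (hr : 0 < r)
    (hf : ∀ y : E n, r / 2 ≤ ‖y‖ → ‖y‖ ≤ r → DifferentiableAt ℝ f y ∧ ‖f y‖ ≤ C ∧ ‖fderiv ℝ f y‖ ≤ C)
    (x y : Sp n) : ‖f (r • (x : E n)) - f (r • (y : E n))‖ ≤ (2 + r) * C * dist x y := by
  have hx : ‖(x : E n)‖ = 1 := norm_eq_of_mem_sphere x
  have hy : ‖(y : E n)‖ = 1 := norm_eq_of_mem_sphere y
  have hrx : ‖r • (x : E n)‖ = r := by rw [norm_smul, hx, mul_one, Real.norm_of_nonneg hr.le]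
  have hry : ‖r • (y : E n)‖ = r := by rw [norm_smul, hy, mul_one, Real.norm_of_nonneg hr.le]
  have b1 := (hf _ (by rw [hrx]; linarith) hrx.le).2.1
  have b2 := (hf _ (by rw [hry]; linarith) hry.le).2.1
  have hC : 0 ≤ C := (norm_nonneg _).trans b1
  have hd : 0 ≤ dist x y := dist_nonneg
  rcases le_or_gt (dist x y) 1 with h | h
  · have e : ‖r • (x : E n) - r • (y : E n)‖ = r * dist x y := by
      rw [← smul_sub, norm_smul, Real.norm_of_nonneg hr.le, Subtype.dist_eq, dist_eq_norm]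
    have hs : ∀ z ∈ segment ℝ (r • (y : E n)) (r • (x : E n)), r / 2 ≤ ‖z‖ ∧ ‖z‖ ≤ r := by
      intro z hz
      refine ⟨?_, mem_closedBall_zero_iff.1 ((convex_closedBall (0 : E n) r).segment_subset
        (mem_closedBall_zero_iff.2 hry.le) (mem_closedBall_zero_iff.2 hrx.le) hz)⟩
      · have a1 := dist_add_dist_of_mem_segment hz
        rw [dist_eq_norm, dist_eq_norm, dist_eq_norm, norm_sub_rev (r • (y : E n)) (r • (x : E n)),
          e] at a1
        have a2 := norm_sub_norm_le (r • (y : E n)) z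
        have a3 := norm_sub_norm_le (r • (x : E n)) z
        rw [norm_sub_rev] at a3
        nlinarith
    have := (convex_segment (r • (y : E n)) (r • (x : E n))).norm_image_sub_le_of_norm_fderiv_le
      (𝕜 := ℝ) (fun z hz => (hf z (hs z hz).1 (hs z hz).2).1)
      (fun z hz => (hf z (hs z hz).1 (hs z hz).2).2.2) (left_mem_segment _ _ _)
      (right_mem_segment _ _ _)
    rw [e] at this
    nlinarith [mul_nonneg hC hd]
  · have := norm_sub_le (f (r • (x : E n))) (f (r • (y : E n)))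
    nlinarith [mul_nonneg (mul_nonneg hr.le hC) hd, mul_le_mul_of_nonneg_left h.le hC]

end Crest.Agent.R202
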