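import Crest.Agent.R202.GDefs

/-! # Row 202, Gen1: min-max values, sectors, crossing by the intermediate value theorem

`V` is not complete and not finite-dimensional; eigenspaces and `low q s` are finite-dimensional. -/

set_option autoImplicit false
open scoped RealInnerProductSpace
open Set Filter Topology

noncomputable section
namespace Crest.Agent.R202

variable {V : Type*} [NormedAddCommGroup V] [InnerProductSpace ℝ V]
variable {B : Type*} [NormedAddCommGroup B] [NormedSpace ℝ B]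

/-- eigenvalues of a nonnegative form are nonnegative -/
theorem EigSys.nonneg {q : BF V} (hq : Nice q) {lam : ℕ → ℝ} {φ : ℕ → V} (h : EigSys q lam φ) (i : ℕ) :
    0 ≤ lam i := by
  have h1 := h.eig i (φ i)
  rw [real_inner_self_eq_norm_sq, h.orth.1 i] at h1
  have := hq.nonneg (φ i)
  linarith

/-- eigenspaces for different values are orthogonal -/
theorem eigsp_orth {q : BF V} (hq : Nice q) {s t : ℝ} (hst : s ≠ t) {u w : V} (hu : u ∈ eigsp q s)
    (hw : w ∈ eigsp q t) : ⟪u, w⟫ = 0 := by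
  have h1 := hu w
  have h2 := hw u
  rw [hq.symm, h1, real_inner_comm u w] at h2
  have h3 : (s - t) * ⟪u, w⟫ = 0 := by linarith
  exact (mul_eq_zero.1 h3).resolve_left (sub_ne_zero.2 hst)

theorem g1a_form_sum {q : BF V} {lam : ℕ → ℝ} {φ : ℕ → V} (h : EigSys q lam φ) (T : Finset ℕ)
    (c : ℕ → ℝ) (w : V) :
    q (∑ i ∈ T, c i • φ i) w = ∑ i ∈ T, lam i * (c i * ⟪φ i, w⟫) := by
  rw [map_sum, LinearMap.sum_apply]
  refine Finset.sum_congr rfl fun i _ => ?_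
  rw [map_smul, LinearMap.smul_apply, h.eig i w, smul_eq_mul]
  ring

theorem g1a_inner_sum (φ : ℕ → V) (T : Finset ℕ) (c : ℕ → ℝ) (w : V) :
    ⟪∑ i ∈ T, c i • φ i, w⟫ = ∑ i ∈ T, c i * ⟪φ i, w⟫ := by
  rw [sum_inner]
  exact Finset.sum_congr rfl fun i _ => real_inner_smul_left _ _ _

theorem g1a_decomp {q : BF V} (hq : Nice q) {lam : ℕ → ℝ} {φ : ℕ → V} (h : EigSys q lam φ)
    (u : V) (k : ℕ) :
    ∃ r : V, (∀ j < k, ⟪φ j, r⟫ = 0) ∧ u = ∑ i ∈ Finset.range k, ⟪φ i, u⟫ • φ i + r ∧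
      ‖u‖ ^ 2 = ∑ i ∈ Finset.range k, ⟪φ i, u⟫ ^ 2 + ‖r‖ ^ 2 ∧
      q u u = ∑ i ∈ Finset.range k, lam i * ⟪φ i, u⟫ ^ 2 + q r r := by
  obtain ⟨p, hp⟩ : ∃ p, p = ∑ i ∈ Finset.range k, ⟪φ i, u⟫ • φ i := ⟨_, rfl⟩
  obtain ⟨r, hr⟩ : ∃ r, r = u - p := ⟨_, rfl⟩
  have hu : u = p + r := by rw [hr]; abel
  have h0 : ∀ j < k, ⟪φ j, r⟫ = 0 := fun j hj => by
    rw [hr, inner_sub_right, hp, h.orth.inner_right_sum _ (Finset.mem_range.2 hj), sub_self]
  have hpr : ⟪p, r⟫ = 0 := by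
    rw [hp, g1a_inner_sum]
    exact Finset.sum_eq_zero fun i hi => by rw [h0 i (Finset.mem_range.1 hi), mul_zero]
  have hqpr : q p r = 0 := by
    rw [hp, g1a_form_sum h]
    exact Finset.sum_eq_zero fun i hi => by rw [h0 i (Finset.mem_range.1 hi), mul_zero, mul_zero]
  have hpu : ⟪p, u⟫ = ∑ i ∈ Finset.range k, ⟪φ i, u⟫ ^ 2 := by
    rw [hp, g1a_inner_sum]
    exact Finset.sum_congr rfl fun i _ => by ring
  have hqpu : q p u = ∑ i ∈ Finset.range k, lam i * ⟪φ i, u⟫ ^ 2 := by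
    rw [hp, g1a_form_sum h]
    exact Finset.sum_congr rfl fun i _ => by ring
  refine ⟨r, h0, hp ▸ hu, ?_, ?_⟩
  · have h1 : ⟪u, u⟫ = ⟪p, u⟫ + ⟪r, u⟫ := by rw [← inner_add_left, ← hu]
    have h2 : ⟪r, u⟫ = ⟪r, p⟫ + ⟪r, r⟫ := by rw [← inner_add_right, ← hu]
    rw [← real_inner_self_eq_norm_sq, ← real_inner_self_eq_norm_sq, h1, h2, hpu,
      real_inner_comm p r, hpr, zero_add]
  · have h1 : q u u = q p u + q r u := by rw [← LinearMap.add_apply, ← map_add, ← hu]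
    have h2 : q r u = q r p + q r r := by rw [← map_add, ← hu]
    rw [h1, h2, hqpu, hq.symm r p, hqpr, zero_add]

theorem g1a_le_on_span {q : BF V} {lam : ℕ → ℝ} {φ : ℕ → V} (h : EigSys q lam φ) {S : Set ℕ}
    {t : ℝ} (hS : ∀ i ∈ S, lam i ≤ t) {y : V} (hy : y ∈ Submodule.span ℝ (φ '' S)) :
    q y y ≤ t * ‖y‖ ^ 2 := by
  obtain ⟨l, hl, rfl⟩ := (Finsupp.mem_span_image_iff_linearCombination ℝ).1 hy
  have hl' : ∀ i ∈ l.support, i ∈ S := fun i hi => (Finsupp.mem_supported ℝ l).1 hl hi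
  have he : Finsupp.linearCombination ℝ φ l = ∑ i ∈ l.support, l i • φ i := by
    rw [Finsupp.linearCombination_apply, Finsupp.sum]
  rw [he, ← real_inner_self_eq_norm_sq, g1a_form_sum h, g1a_inner_sum, Finset.mul_sum]
  refine Finset.sum_le_sum fun i hi => ?_
  rw [h.orth.inner_right_sum _ hi]
  exact mul_le_mul_of_nonneg_right (hS i (hl' i hi)) (mul_self_nonneg _)

theorem g1a_exists_k {q : BF V} {lam : ℕ → ℝ} {φ : ℕ → V} (h : EigSys q lam φ) (s : ℝ) :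
    ∃ k, ∀ i, lam i < s ↔ i < k := by
  classical
  have hex : ∃ k, s ≤ lam k := (h.tend.eventually_ge_atTop s).exists
  refine ⟨Nat.find hex, fun i => ⟨fun hi => ?_, fun hi => ?_⟩⟩
  · by_contra hk
    exact absurd ((Nat.find_spec hex).trans (h.mono (not_lt.1 hk))) (not_le.2 hi)
  · exact not_le.1 (Nat.find_min hex hi)

theorem g1a_finrank {q : BF V} {lam : ℕ → ℝ} {φ : ℕ → V} (h : EigSys q lam φ) (k : ℕ) :
    Module.finrank ℝ (Submodule.span ℝ (φ '' {i | i < k})) = k := by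
  have h1 : φ '' {i | i < k} = range (φ ∘ (Fin.val : Fin k → ℕ)) := by
    ext x
    constructor
    · rintro ⟨i, hi, rfl⟩
      exact ⟨⟨i, hi⟩, rfl⟩
    · rintro ⟨i, rfl⟩
      exact ⟨i, i.2, rfl⟩
  rw [h1, finrank_span_eq_card (h.orth.linearIndependent.comp _ Fin.val_injective),
    Fintype.card_fin]

/-- For `u ∈ eigsp q s` subtract its components along `φ i`, `i < k` with `lam k > s`; the rest `r` is orthogonal to these,
`q r r = s‖r‖²` (components with `lam i ≠ s` vanish), so `r = 0` by `compl`. -/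
theorem EigSys.eigsp_eq {q : BF V} (hq : Nice q) {lam : ℕ → ℝ} {φ : ℕ → V} (h : EigSys q lam φ) (s : ℝ) :
    eigsp q s = Submodule.span ℝ (φ '' {i | lam i = s}) := by
  refine le_antisymm (fun u hu => ?_) (Submodule.span_le.2 ?_)
  · obtain ⟨k, hk⟩ : ∃ k, s < lam k := (h.tend.eventually_gt_atTop s).exists
    obtain ⟨r, h0, h1, h2, h3⟩ := g1a_decomp hq h u k
    have hc : ∀ i, lam i ≠ s → ⟪φ i, u⟫ = 0 := fun i hi => eigsp_orth hq hi (h.eig i) hu
    have h4 : ∑ i ∈ Finset.range k, lam i * ⟪φ i, u⟫ ^ 2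
        = s * ∑ i ∈ Finset.range k, ⟪φ i, u⟫ ^ 2 := by
      rw [Finset.mul_sum]
      refine Finset.sum_congr rfl fun i _ => ?_
      by_cases hi : lam i = s
      · rw [hi]
      · rw [hc i hi]; ring
    have h5 := hu u
    rw [real_inner_self_eq_norm_sq] at h5
    have h6 := h.compl k r h0
    have h7 : (lam k - s) * ‖r‖ ^ 2 ≤ 0 := by
      rw [h2, h3, h4] at h5
      linarith
    have h8 : ‖r‖ ^ 2 ≤ 0 := by
      by_contra hn
      exact absurd h7 (not_le.2 (mul_pos (sub_pos.2 hk) (not_le.1 hn)))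
    have h9 : r = 0 := norm_eq_zero.1 (pow_eq_zero_iff two_ne_zero |>.1
      (le_antisymm h8 (sq_nonneg _)))
    rw [h1, h9, add_zero]
    refine Submodule.sum_mem _ fun i _ => ?_
    by_cases hi : lam i = s
    · exact Submodule.smul_mem _ _ (Submodule.subset_span ⟨i, hi, rfl⟩)
    · rw [hc i hi, zero_smul]
      exact Submodule.zero_mem _
  · rintro _ ⟨i, hi, rfl⟩
    have := h.eig i
    rw [show lam i = s from hi] at this
    exact this

theorem EigSys.low_eq {q : BF V} (hq : Nice q) {lam : ℕ → ℝ} {φ : ℕ → V} (h : EigSys q lam φ) (s : ℝ) :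
    low q s = Submodule.span ℝ (φ '' {i | lam i < s}) := by
  refine le_antisymm (iSup_le fun t => ?_) (Submodule.span_le.2 ?_)
  · rw [h.eigsp_eq hq]
    refine Submodule.span_mono (image_mono fun i hi => ?_)
    exact (show lam i = t from hi).trans_lt t.2
  · rintro _ ⟨i, hi, rfl⟩
    exact (le_iSup (fun t : Iio s => eigsp q t) ⟨lam i, hi⟩) (h.eig i)

/-- min-max: `≤` with `Y = span (φ 0..φ i)`, `≥` with a nonzero `y ∈ Y` orthogonal to `φ j`, `j < i`. -/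
theorem EigSys.lamv_eq {q : BF V} (hq : Nice q) {lam : ℕ → ℝ} {φ : ℕ → V} (h : EigSys q lam φ) (i : ℕ) :
    lamv q i = lam i := by
  refine IsLeast.csInf_eq ⟨⟨Submodule.span ℝ (φ '' {j | j < i + 1}), le_top, g1a_finrank h _,
    fun y hy => g1a_le_on_span h (fun j hj => h.mono (Nat.lt_succ_iff.1 hj)) hy⟩, ?_⟩
  rintro s ⟨Y, -, hY, hs⟩
  have : Module.Finite ℝ Y := Module.finite_of_finrank_eq_succ hY
  let f : Y →ₗ[ℝ] (Fin i → ℝ) :=
    LinearMap.pi fun j => (innerₛₗ ℝ (φ j)).comp Y.subtype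
  have hker : LinearMap.ker f ≠ ⊥ := LinearMap.ker_ne_bot_of_finrank_lt (by simp [hY])
  obtain ⟨y, hy, hy0⟩ := (Submodule.ne_bot_iff _).1 hker
  have h1 : ∀ j < i, ⟪φ j, (y : V)⟫ = 0 := fun j hj => congrFun (LinearMap.mem_ker.1 hy) ⟨j, hj⟩
  have h2 := (h.compl i y h1).trans (hs y y.2)
  have h3 : 0 < ‖(y : V)‖ ^ 2 := pow_pos (norm_pos_iff.2 fun h => hy0 (Subtype.ext h)) 2
  exact le_of_mul_le_mul_right h2 h3

theorem Nice.eigSys {q : BF V} (hq : Nice q) : ∃ φ, EigSys q (lamv q) φ := by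
  obtain ⟨lam, φ, h⟩ := hq.eig
  have : lamv q = lam := funext (h.lamv_eq hq)
  exact ⟨φ, this ▸ h⟩

theorem Nice.finite_eigsp {q : BF V} (hq : Nice q) (s : ℝ) : FiniteDimensional ℝ (eigsp q s) := by
  obtain ⟨lam, φ, h⟩ := hq.eig
  obtain ⟨k, hk⟩ := g1a_exists_k h (s + 1)
  rw [h.eigsp_eq hq]
  refine FiniteDimensional.span_of_finite ℝ (((finite_lt_nat k).subset fun i hi => ?_).image φ)
  exact (hk i).1 (by rw [show lam i = s from hi]; linarith)

theorem Nice.finite_low {q : BF V} (hq : Nice q) (s : ℝ) : FiniteDimensional ℝ (low q s) := by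
  obtain ⟨lam, φ, h⟩ := hq.eig
  obtain ⟨k, hk⟩ := g1a_exists_k h s
  rw [h.low_eq hq]
  exact FiniteDimensional.span_of_finite ℝ
    (((finite_lt_nat k).subset fun i hi => (hk i).1 hi).image φ)

theorem Nice.lamv_lt_iff {q : BF V} (hq : Nice q) (s : ℝ) (i : ℕ) :
    lamv q i < s ↔ i < Module.finrank ℝ (low q s) := by
  obtain ⟨lam, φ, h⟩ := hq.eig
  obtain ⟨k, hk⟩ := g1a_exists_k h s
  have h1 : {i | lam i < s} = {i | i < k} := Set.ext hk
  rw [h.low_eq hq, h1, g1a_finrank h, h.lamv_eq hq, hk]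

/-- the form is `≥ s` on the orthogonal complement of `low q s`, and `< s` on `low q s` -/
theorem Nice.le_of_orth_low {q : BF V} (hq : Nice q) (s : ℝ) {w : V} (hw : w ∈ (low q s)ᗮ) :
    s * ‖w‖ ^ 2 ≤ q w w := by
  obtain ⟨lam, φ, h⟩ := hq.eig
  obtain ⟨k, hk⟩ := g1a_exists_k h s
  have h1 : ∀ j < k, ⟪φ j, w⟫ = 0 := fun j hj => by
    refine (Submodule.mem_orthogonal _ _).1 hw _ ?_
    rw [h.low_eq hq]
    exact Submodule.subset_span ⟨j, (hk j).2 hj, rfl⟩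
  have h2 : s ≤ lam k := not_lt.1 fun hl => lt_irrefl k ((hk k).1 hl)
  exact (mul_le_mul_of_nonneg_right h2 (sq_nonneg _)).trans (h.compl k w h1)

theorem Nice.exists_lt_on_low {q : BF V} (hq : Nice q) (s : ℝ) :
    ∃ t < s, ∀ y ∈ low q s, q y y ≤ t * ‖y‖ ^ 2 := by
  obtain ⟨lam, φ, h⟩ := hq.eig
  obtain ⟨k, hk⟩ := g1a_exists_k h s
  obtain ⟨t, ht, ht'⟩ : ∃ t < s, ∀ i, lam i < s → lam i ≤ t := by
    cases k with
    | zero => exact ⟨s - 1, by linarith, fun i hi => absurd ((hk i).1 hi) (Nat.not_lt_zero i)⟩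
    | succ k =>
      exact ⟨lam k, (hk k).2 (Nat.lt_succ_self k),
        fun i hi => h.mono (Nat.lt_succ_iff.1 ((hk i).1 hi))⟩
  refine ⟨t, ht, fun y hy => ?_⟩
  rw [h.low_eq hq] at hy
  exact g1a_le_on_span h ht' hy

end Crest.Agent.R202
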