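import Crest.Agent.R202.GDefs
import Crest.Agent.R202.Gen1a

/-! # Row 202, Gen1: min-max values, sectors, crossing by the intermediate value theorem

`V` is not complete and not finite-dimensional; eigenspaces and `low q s` are finite-dimensional. -/

set_option autoImplicit false
open scoped RealInnerProductSpace
open Set Filter Topology

noncomputable section
namespace Crest.Agent.R202

variable {V : Type*} [NormedAddCommGroup V] [InnerProductSpace ℝ V]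
variable {B : Type*} [NormedAddCommGroup B] [NormedSpace ℝ B]

/-- a subspace of prescribed dimension -/
lemma gen1_sub {Y : Submodule ℝ V} {j : ℕ} (h : j ≤ Module.finrank ℝ Y) :
    ∃ Y' : Submodule ℝ V, Y' ≤ Y ∧ Module.finrank ℝ Y' = j := by
  obtain ⟨f, hf⟩ := exists_linearIndependent_of_le_finrank h
  have hf' : LinearIndependent ℝ (Y.subtype ∘ f) := hf.map' Y.subtype (Submodule.ker_subtype Y)
  refine ⟨Submodule.span ℝ (range (Y.subtype ∘ f)), ?_, by simpa using finrank_span_eq_card hf'⟩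
  rw [Submodule.span_le]
  rintro _ ⟨k, rfl⟩
  exact (f k).2

/-- a form is bounded on a finite-dimensional subspace -/
lemma gen1_bound (q : BF V) (Y : Submodule ℝ V) [FiniteDimensional ℝ Y] :
    ∃ C : ℝ, ∀ y ∈ Y, q y y ≤ C * ‖y‖ ^ 2 := by
  let f : Y →ₗ[ℝ] (Y →L[ℝ] ℝ) :=
    (LinearMap.toContinuousLinearMap : (Y →ₗ[ℝ] ℝ) ≃ₗ[ℝ] (Y →L[ℝ] ℝ)).toLinearMap ∘ₗ
      q.compl₁₂ Y.subtype Y.subtype
  let F : Y →L[ℝ] Y →L[ℝ] ℝ := LinearMap.toContinuousLinearMap f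
  obtain ⟨C, hC⟩ : ∃ C : ℝ, ∀ x z : Y, ‖F x z‖ ≤ C * ‖x‖ * ‖z‖ := ⟨_, F.le_opNorm₂⟩
  refine ⟨C, fun y hy => ?_⟩
  have h := hC ⟨y, hy⟩ ⟨y, hy⟩
  have h1 : F ⟨y, hy⟩ ⟨y, hy⟩ = q y y := rfl
  have h2 : ‖(⟨y, hy⟩ : Y)‖ = ‖y‖ := rfl
  rw [h1, h2, Real.norm_eq_abs] at h
  calc q y y ≤ |q y y| := le_abs_self _
    _ ≤ _ := h
    _ = _ := by ring

lemma gen1_nonempty (q : BF V) {S : Submodule ℝ V} {j : ℕ} (hj : 1 ≤ j)
    (hdim : ∃ Y : Submodule ℝ V, Y ≤ S ∧ Module.finrank ℝ Y = j) :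
    {s : ℝ | ∃ Y : Submodule ℝ V, Y ≤ S ∧ Module.finrank ℝ Y = j ∧
      ∀ y ∈ Y, q y y ≤ s * ‖y‖ ^ 2}.Nonempty := by
  obtain ⟨Y, hY, hYj⟩ := hdim
  have : FiniteDimensional ℝ Y := Module.finite_of_finrank_pos (by omega)
  obtain ⟨C, hC⟩ := gen1_bound q Y
  exact ⟨C, Y, hY, hYj, hC⟩

lemma gen1_bdd {q : BF V} {S : Submodule ℝ V} (hq : ∀ u ∈ S, 0 ≤ q u u) {j : ℕ} (hj : 1 ≤ j) :
    BddBelow {s : ℝ | ∃ Y : Submodule ℝ V, Y ≤ S ∧ Module.finrank ℝ Y = j ∧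
      ∀ y ∈ Y, q y y ≤ s * ‖y‖ ^ 2} := by
  refine ⟨0, ?_⟩
  rintro s ⟨Y, hY, hYj, h⟩
  have hne : Y ≠ ⊥ := by
    rintro rfl
    simp at hYj
    omega
  obtain ⟨y, hy, hy0⟩ := Submodule.exists_mem_ne_zero_of_ne_bot hne
  have h1 := (hq y (hY hy)).trans (h y hy)
  have h2 : 0 < ‖y‖ ^ 2 := by positivity
  exact nonneg_of_mul_nonneg_left h1 h2

/-- `S` symmetric and commuting with `q` maps each (finite-dimensional) eigenspace `E` to itself, so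
`E = ker (S|E) ⊕ S(E)` and `S(E) ⊥ ker S`. -/
theorem sect_ker {q : BF V} (hq : Nice q) (S : V →ₗ[ℝ] V) (hS : ∀ u w, ⟪S u, w⟫ = ⟪u, S w⟫)
    (hc : ∀ u w, q (S u) w = q u (S w)) : Sect q (LinearMap.ker S) := by
  intro s u hu
  have := hq.finite_eigsp s
  have hmap : ∀ x ∈ eigsp q s, S x ∈ eigsp q s := fun x hx w => by
    rw [hc, hx, hS]
  let T : eigsp q s →ₗ[ℝ] eigsp q s := S.restrict hmap
  have hT : T.IsSymmetric := fun x y => hS x y
  obtain ⟨y, hy, z, hz, hyz⟩ :=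
    Submodule.exists_add_mem_mem_orthogonal (K := LinearMap.range T) (⟨u, hu⟩ : eigsp q s)
  rw [hT.orthogonal_range] at hz
  obtain ⟨e, rfl⟩ := hy
  have h1 : u = S e + z := congrArg Subtype.val hyz
  refine ⟨z, ?_, ?_, z.2⟩
  · exact congrArg Subtype.val (LinearMap.mem_ker.1 hz)
  · have : u - z = S e := by rw [h1]; abel
    rw [this, Submodule.mem_orthogonal]
    intro k hk
    rw [← hS, LinearMap.mem_ker.1 hk, inner_zero_left]

theorem Sect.orth {q : BF V} {S : Submodule ℝ V} (h : Sect q S) : Sect q Sᗮ := by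
  intro s u hu
  obtain ⟨u₁, h1, h2, h3⟩ := h s u hu
  refine ⟨u - u₁, h2, ?_, (eigsp q s).sub_mem hu h3⟩
  rw [sub_sub_cancel]
  exact S.le_orthogonal_orthogonal h1

theorem sect_top (q : BF V) : Sect q ⊤ := fun _ u hu => ⟨u, trivial, by simp, hu⟩

/-- elements of `low q s` split along a sector -/
theorem Sect.low_split {q : BF V} {S : Submodule ℝ V} (h : Sect q S) (s : ℝ) {u : V} (hu : u ∈ low q s) :
    ∃ u₁ ∈ low q s ⊓ S, u - u₁ ∈ low q s ⊓ Sᗮ := by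
  refine Submodule.iSup_induction (fun t : Iio s => eigsp q t)
    (motive := fun u => ∃ u₁ ∈ low q s ⊓ S, u - u₁ ∈ low q s ⊓ Sᗮ) hu ?_ ?_ ?_
  · intro t x hx
    obtain ⟨u₁, h1, h2, h3⟩ := h t x hx
    have hle : eigsp q t ≤ low q s := le_iSup (fun t : Iio s => eigsp q t) t
    exact ⟨u₁, ⟨hle h3, h1⟩, hle ((eigsp q t).sub_mem hx h3), h2⟩
  · exact ⟨0, Submodule.zero_mem _, by simp⟩
  · rintro x y ⟨x₁, hx1, hx2⟩ ⟨y₁, hy1, hy2⟩
    refine ⟨x₁ + y₁, Submodule.add_mem _ hx1 hy1, ?_⟩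
    have : x + y - (x₁ + y₁) = (x - x₁) + (y - y₁) := by abel
    rw [this]
    exact Submodule.add_mem _ hx2 hy2

theorem Sect.finrank_low {q : BF V} (hq : Nice q) {S : Submodule ℝ V} (h : Sect q S) (s : ℝ) :
    Module.finrank ℝ (low q s) =
      Module.finrank ℝ (low q s ⊓ S : Submodule ℝ V) + Module.finrank ℝ (low q s ⊓ Sᗮ : Submodule ℝ V) := by
  have := hq.finite_low s
  have : FiniteDimensional ℝ (low q s ⊓ S : Submodule ℝ V) :=
    Submodule.finiteDimensional_of_le inf_le_left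
  have : FiniteDimensional ℝ (low q s ⊓ Sᗮ : Submodule ℝ V) :=
    Submodule.finiteDimensional_of_le inf_le_left
  have h1 : (low q s ⊓ S) ⊔ (low q s ⊓ Sᗮ) = low q s := by
    apply le_antisymm (sup_le inf_le_left inf_le_left)
    intro u hu
    obtain ⟨u₁, h1, h2⟩ := h.low_split s hu
    exact Submodule.mem_sup.2 ⟨u₁, h1, u - u₁, h2, by abel⟩
  have h2 : (low q s ⊓ S) ⊓ (low q s ⊓ Sᗮ) = ⊥ := by
    rw [eq_bot_iff, ← S.inf_orthogonal_eq_bot]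
    exact inf_le_inf inf_le_right inf_le_right
  have h3 := Submodule.finrank_sup_add_finrank_inf_eq (low q s ⊓ S) (low q s ⊓ Sᗮ)
  rw [h1, h2] at h3
  simpa using h3

/-- `←`: a `j`-dimensional subspace of `low q s ⊓ S`; `→`: if `finrank (low ⊓ S) < j`, a test space `Y ≤ S` contains `y ≠ 0`
orthogonal to `low ⊓ S`, hence (`low_split`) to `low q s`. -/
theorem Sect.mu_lt_iff {q : BF V} (hq : Nice q) {S : Submodule ℝ V} (h : Sect q S) {j : ℕ} (hj : 1 ≤ j)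
    (hdim : ∃ Y : Submodule ℝ V, Y ≤ S ∧ Module.finrank ℝ Y = j) (s : ℝ) :
    mu S q j < s ↔ j ≤ Module.finrank ℝ (low q s ⊓ S : Submodule ℝ V) := by
  have := hq.finite_low s
  have : FiniteDimensional ℝ (low q s ⊓ S : Submodule ℝ V) :=
    Submodule.finiteDimensional_of_le inf_le_left
  unfold mu
  rw [csInf_lt_iff (gen1_bdd (fun u _ => hq.nonneg u) hj) (gen1_nonempty q hj hdim)]
  constructor
  · rintro ⟨t, ⟨Y, hYS, hYj, hY⟩, hts⟩
    by_contra hlt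
    push Not at hlt
    have : FiniteDimensional ℝ Y := Module.finite_of_finrank_pos (by omega)
    let F : Y →ₗ[ℝ] (low q s ⊓ S : Submodule ℝ V) :=
      ((low q s ⊓ S : Submodule ℝ V).orthogonalProjectionOnto : V →L[ℝ] _).toLinearMap ∘ₗ Y.subtype
    have hF : LinearMap.ker F ≠ ⊥ := F.ker_ne_bot_of_finrank_lt (by rw [hYj]; exact hlt)
    obtain ⟨y, hy, hy0⟩ := Submodule.exists_mem_ne_zero_of_ne_bot hF
    have hy1 : (y : V) ∈ (low q s ⊓ S : Submodule ℝ V)ᗮ :=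
      Submodule.orthogonalProjectionOnto_eq_zero_iff.1 (LinearMap.mem_ker.1 hy)
    have hy2 : (y : V) ∈ (low q s)ᗮ := by
      rw [Submodule.mem_orthogonal]
      intro u hu
      obtain ⟨u₁, h1, h2⟩ := h.low_split s hu
      have e1 : ⟪u₁, (y : V)⟫ = 0 := (Submodule.mem_orthogonal _ _).1 hy1 u₁ h1
      have e2 : ⟪u - u₁, (y : V)⟫ = 0 := (Submodule.mem_orthogonal' _ _).1 h2.2 y (hYS y.2)
      rw [inner_sub_left, e1, sub_zero] at e2
      exact e2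
    have h3 := hq.le_of_orth_low s hy2
    have h4 := hY y y.2
    have h5 : 0 < ‖(y : V)‖ ^ 2 := by
      have : (y : V) ≠ 0 := fun h0 => hy0 (Subtype.ext h0)
      positivity
    nlinarith
  · intro hle
    obtain ⟨Y, hY, hYj⟩ := gen1_sub hle
    obtain ⟨t, hts, ht⟩ := hq.exists_lt_on_low s
    exact ⟨t, ⟨Y, hY.trans inf_le_right, hYj, fun y hy => ht y (hY hy).1⟩, hts⟩

/-- the sector value is an eigenvalue with an eigenvector in the sector (eigenvalues are discrete: `low q (s+η) = low q s ⊔ eigsp q s`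
for small `η`) -/
theorem Sect.exists_eig {q : BF V} (hq : Nice q) {S : Submodule ℝ V} (h : Sect q S) {j : ℕ} (hj : 1 ≤ j)
    (hdim : ∃ Y : Submodule ℝ V, Y ≤ S ∧ Module.finrank ℝ Y = j) :
    ∃ u ∈ S, u ∈ eigsp q (mu S q j) ∧ u ≠ 0 := by
  set m := mu S q j with hm
  obtain ⟨lam, φ, hE⟩ := hq.eig
  have hex : ∃ i, m < lam i := (hE.tend.eventually (eventually_gt_atTop m)).exists
  classical
  set s' := lam (Nat.find hex) with hs'
  have hms : m < s' := Nat.find_spec hex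
  have hlow : low q s' ≤ low q m ⊔ eigsp q m := by
    rw [hE.low_eq hq, hE.low_eq hq, hE.eigsp_eq hq, ← Submodule.span_union, ← image_union]
    refine Submodule.span_mono (image_mono fun i hi => ?_)
    have h1 : i < Nat.find hex := by
      by_contra hc
      exact absurd (hE.mono (not_lt.1 hc)) (not_le.2 hi)
    have h2 := not_lt.1 (Nat.find_min hex h1)
    exact h2.lt_or_eq
  have h1 : j ≤ Module.finrank ℝ (low q s' ⊓ S : Submodule ℝ V) := (h.mu_lt_iff hq hj hdim s').1 hms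
  have h2 : ¬ j ≤ Module.finrank ℝ (low q m ⊓ S : Submodule ℝ V) := fun h2 =>
    lt_irrefl _ ((h.mu_lt_iff hq hj hdim m).2 h2)
  by_contra hno
  push Not at hno
  apply h2
  have := hq.finite_low m
  have : FiniteDimensional ℝ (low q m ⊓ S : Submodule ℝ V) :=
    Submodule.finiteDimensional_of_le inf_le_left
  refine h1.trans (Submodule.finrank_mono ?_)
  rintro u ⟨hu, huS⟩
  obtain ⟨a, ha, e, he, rfl⟩ := Submodule.mem_sup.1 (hlow hu)
  obtain ⟨a₁, ha1, ha2⟩ := h.low_split m ha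
  obtain ⟨e₁, he1, he2, he3⟩ := h m e he
  have he0 := hno e₁ he1 he3
  rw [he0, sub_zero] at he2
  have h3 : a + e - a₁ ∈ S ⊓ Sᗮ := by
    refine ⟨S.sub_mem huS ha1.2, ?_⟩
    have : a + e - a₁ = (a - a₁) + e := by abel
    rw [this]
    exact Submodule.add_mem _ ha2.2 he2
  rw [S.inf_orthogonal_eq_bot, Submodule.mem_bot, sub_eq_zero] at h3
  rw [h3]
  exact ha1

/-- comparison of forms (no sector property needed) -/
theorem mu_le_of_le {q q' : BF V} (hq : ∀ u, 0 ≤ q u u) {S : Submodule ℝ V} {j : ℕ} (hj : 1 ≤ j)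
    (hdim : ∃ Y : Submodule ℝ V, Y ≤ S ∧ Module.finrank ℝ Y = j) {c : ℝ} (hc : 0 < c)
    (h : ∀ u ∈ S, q u u ≤ c * q' u u) : mu S q j ≤ c * mu S q' j := by
  rw [mul_comm, ← div_le_iff₀ hc]
  refine le_csInf (gen1_nonempty q' hj hdim) ?_
  rintro t ⟨Y, hYS, hYj, hY⟩
  rw [div_le_iff₀ hc]
  refine csInf_le (gen1_bdd (fun u _ => hq u) hj) ⟨Y, hYS, hYj, fun y hy => ?_⟩
  have h1 := h y (hYS hy)
  have h2 := mul_le_mul_of_nonneg_left (hY y hy) hc.le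
  nlinarith

/-- a test space bounds `mu` -/
theorem mu_le_of_test {q : BF V} (hq : ∀ u, 0 ≤ q u u) {S Y : Submodule ℝ V} {j : ℕ} (hj : 1 ≤ j)
    (hY : Y ≤ S) (hYj : j ≤ Module.finrank ℝ Y) {s : ℝ} (h : ∀ y ∈ Y, q y y ≤ s * ‖y‖ ^ 2) :
    mu S q j ≤ s := by
  obtain ⟨Y', hY', hj'⟩ := gen1_sub hYj
  exact csInf_le (gen1_bdd (fun u _ => hq u) hj) ⟨Y', hY'.trans hY, hj', fun y hy => h y (hY' hy)⟩

/-- `a b ≤ (1 + C‖b-b'‖/c) a b'` by `lip` and `comp`; use `mu_le_of_le` both ways. -/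
theorem Fam.continuousOn_mu {a : B → BF V} {da : B → B →ₗ[ℝ] BF V} {ε : ℝ} (hF : Fam a da ε)
    {S : Submodule ℝ V} {j : ℕ} (hj : 1 ≤ j)
    (hdim : ∃ Y : Submodule ℝ V, Y ≤ S ∧ Module.finrank ℝ Y = j) :
    ContinuousOn (fun b => mu S (a b) j) (Metric.ball 0 ε) := by
  obtain ⟨c, C', hc, hcomp⟩ := hF.comp
  obtain ⟨C, hC⟩ := hF.lip
  have h0 : ∀ u, 0 ≤ a 0 u u := (hF.nice 0 (by simpa using hF.pos)).nonneg
  set K := |C| / c with hK
  have hK0 : 0 ≤ K := by positivity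
  have key : ∀ b b', ‖b‖ < ε → ‖b'‖ < ε →
      mu S (a b) j ≤ (1 + K * ‖b - b'‖) * mu S (a b') j := by
    intro b b' hb hb'
    refine mu_le_of_le (hF.nice b hb).nonneg hj hdim (by positivity) fun u _ => ?_
    have h1 := (abs_le.1 (hC b b' hb hb' u u)).2
    rw [Real.mul_self_sqrt (h0 u)] at h1
    have h2 := (hcomp b' hb' u).1
    have h3 : C * ‖b - b'‖ * a 0 u u ≤ K * ‖b - b'‖ * (c * a 0 u u) := by
      have : K * ‖b - b'‖ * (c * a 0 u u) = |C| * ‖b - b'‖ * a 0 u u := by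
        rw [hK]; field_simp
      rw [this]
      exact mul_le_mul_of_nonneg_right (mul_le_mul_of_nonneg_right (le_abs_self C) (norm_nonneg _)) (h0 u)
    have h4 : K * ‖b - b'‖ * (c * a 0 u u) ≤ K * ‖b - b'‖ * a b' u u :=
      mul_le_mul_of_nonneg_left h2 (by positivity)
    nlinarith
  intro b₀ hb₀
  have hb₀' : ‖b₀‖ < ε := by simpa using hb₀
  have hcont : Continuous fun b : B => 1 + K * ‖b - b₀‖ := by fun_prop
  have ht : Tendsto (fun b : B => 1 + K * ‖b - b₀‖) (𝓝[Metric.ball 0 ε] b₀) (𝓝 1) := by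
    have := (hcont.tendsto b₀).mono_left (nhdsWithin_le_nhds (s := Metric.ball 0 ε))
    simpa using this
  have hup : Tendsto (fun b : B => (1 + K * ‖b - b₀‖) * mu S (a b₀) j) (𝓝[Metric.ball 0 ε] b₀)
      (𝓝 (mu S (a b₀) j)) := by
    simpa using ht.mul_const (mu S (a b₀) j)
  have hlo : Tendsto (fun b : B => mu S (a b₀) j / (1 + K * ‖b - b₀‖)) (𝓝[Metric.ball 0 ε] b₀)
      (𝓝 (mu S (a b₀) j)) := by
    have := (tendsto_const_nhds (x := mu S (a b₀) j)).div ht one_ne_zero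
    rw [div_one] at this
    exact this
  refine tendsto_of_tendsto_of_tendsto_of_le_of_le' hlo hup ?_ ?_
  · filter_upwards [self_mem_nhdsWithin] with b hb
    have hb' : ‖b‖ < ε := by simpa using hb
    rw [div_le_iff₀ (by positivity), mul_comm, norm_sub_rev]
    exact key b₀ b hb₀' hb'
  · filter_upwards [self_mem_nhdsWithin] with b hb
    have hb' : ‖b‖ < ε := by simpa using hb
    exact key b b₀ hb' hb₀'

theorem Fam.continuousOn_lamv {a : B → BF V} {da : B → B →ₗ[ℝ] BF V} {ε : ℝ} (hF : Fam a da ε) (i : ℕ) :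
    ContinuousOn (fun b => lamv (a b) i) (Metric.ball 0 ε) := by
  obtain ⟨lam, φ, hE⟩ := (hF.nice 0 (by simpa using hF.pos)).eig
  refine hF.continuousOn_mu (by omega) ⟨Submodule.span ℝ (range fun k : Fin (i + 1) => φ k), le_top, ?_⟩
  have hli : LinearIndependent ℝ fun k : Fin (i + 1) => φ k :=
    hE.orth.linearIndependent.comp (fun k : Fin (i + 1) => (k : ℕ)) Fin.val_injective
  simpa using finrank_span_eq_card hli

/-- If `mu S q j₁ = mu Sᗮ q j₂ = s` with `j₁+j₂ = p+1` then at most `p-1` eigenvalues are `< s` and at least `p+1` are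
`< s'` for every `s' > s` (`mu_lt_iff`, `finrank_low`, `lamv_lt_iff`). -/
theorem cross_of_eq {q : BF V} (hq : Nice q) {S : Submodule ℝ V} (h : Sect q S) {j₁ j₂ p : ℕ}
    (h₁ : 1 ≤ j₁) (h₂ : 1 ≤ j₂) (hp : j₁ + j₂ = p + 1)
    (d₁ : ∃ Y : Submodule ℝ V, Y ≤ S ∧ Module.finrank ℝ Y = j₁)
    (d₂ : ∃ Y : Submodule ℝ V, Y ≤ Sᗮ ∧ Module.finrank ℝ Y = j₂) (he : mu S q j₁ = mu Sᗮ q j₂) :
    lamv q (p - 1) = lamv q p ∧ (∃ u ∈ S, u ∈ eigsp q (lamv q p) ∧ u ≠ 0) ∧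
      ∃ u ∈ Sᗮ, u ∈ eigsp q (lamv q p) ∧ u ≠ 0 := by
  set s := mu S q j₁ with hs
  have a1 : ¬ j₁ ≤ Module.finrank ℝ (low q s ⊓ S : Submodule ℝ V) := fun h2 =>
    lt_irrefl _ ((h.mu_lt_iff hq h₁ d₁ s).2 h2)
  have a2 : ¬ j₂ ≤ Module.finrank ℝ (low q s ⊓ Sᗮ : Submodule ℝ V) := fun h2 => by
    have := (h.orth.mu_lt_iff hq h₂ d₂ s).2 h2
    rw [← he] at this
    exact lt_irrefl _ this
  have b1 : s ≤ lamv q (p - 1) := by
    by_contra hc
    have h3 := (hq.lamv_lt_iff s (p - 1)).1 (not_le.1 hc)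
    rw [h.finrank_low hq s] at h3
    omega
  have b2 : lamv q p ≤ s := by
    refine le_of_forall_gt_imp_ge_of_dense fun s' hs' => le_of_lt ?_
    rw [hq.lamv_lt_iff, h.finrank_low hq s']
    have c1 := (h.mu_lt_iff hq h₁ d₁ s').1 hs'
    have c2 := (h.orth.mu_lt_iff hq h₂ d₂ s').1 (he ▸ hs')
    omega
  obtain ⟨φ, hE⟩ := hq.eigSys
  have b3 : lamv q (p - 1) ≤ lamv q p := hE.mono (Nat.sub_le p 1)
  have e1 : lamv q p = s := le_antisymm b2 (b1.trans b3)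
  refine ⟨le_antisymm b3 (b2.trans b1), ?_, ?_⟩
  · rw [e1]; exact h.exists_eig hq h₁ d₁
  · rw [e1, he]; exact h.orth.exists_eig hq h₂ d₂

/-- crossing along a path -/
theorem Fam.ivt_cross {a : B → BF V} {da : B → B →ₗ[ℝ] BF V} {ε : ℝ} (hF : Fam a da ε)
    (γ : ℝ → B) (hγ : ContinuousOn γ (Icc 0 1)) (hγε : ∀ t ∈ Icc (0 : ℝ) 1, ‖γ t‖ < ε)
    {S : Submodule ℝ V} (hS : ∀ t ∈ Icc (0 : ℝ) 1, Sect (a (γ t)) S) {j₁ j₂ p : ℕ}
    (h₁ : 1 ≤ j₁) (h₂ : 1 ≤ j₂) (hp : j₁ + j₂ = p + 1)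
    (d₁ : ∃ Y : Submodule ℝ V, Y ≤ S ∧ Module.finrank ℝ Y = j₁)
    (d₂ : ∃ Y : Submodule ℝ V, Y ≤ Sᗮ ∧ Module.finrank ℝ Y = j₂)
    (hs : (mu S (a (γ 0)) j₁ - mu Sᗮ (a (γ 0)) j₂) * (mu S (a (γ 1)) j₁ - mu Sᗮ (a (γ 1)) j₂) ≤ 0) :
    ∃ t ∈ Icc (0 : ℝ) 1, lamv (a (γ t)) (p - 1) = lamv (a (γ t)) p ∧
      (∃ u ∈ S, u ∈ eigsp (a (γ t)) (lamv (a (γ t)) p) ∧ u ≠ 0) ∧
      ∃ u ∈ Sᗮ, u ∈ eigsp (a (γ t)) (lamv (a (γ t)) p) ∧ u ≠ 0 := by
  have hmaps : MapsTo γ (Icc 0 1) (Metric.ball 0 ε) := fun t ht => by simpa using hγε t ht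
  have hg : ContinuousOn (fun t => mu S (a (γ t)) j₁ - mu Sᗮ (a (γ t)) j₂) (uIcc 0 1) := by
    rw [uIcc_of_le zero_le_one]
    exact ((hF.continuousOn_mu h₁ d₁).comp hγ hmaps).sub ((hF.continuousOn_mu h₂ d₂).comp hγ hmaps)
  have h0 : (0 : ℝ) ∈ uIcc (mu S (a (γ 0)) j₁ - mu Sᗮ (a (γ 0)) j₂)
      (mu S (a (γ 1)) j₁ - mu Sᗮ (a (γ 1)) j₂) := by
    rw [mem_uIcc]
    rcases mul_nonpos_iff.1 hs with h | h
    · exact Or.inr ⟨h.2, h.1⟩
    · exact Or.inl h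
  obtain ⟨t, ht, hgt⟩ := intermediate_value_uIcc hg h0
  rw [uIcc_of_le zero_le_one] at ht
  exact ⟨t, ht, cross_of_eq (hF.nice _ (hγε t ht)) (hS t ht) h₁ h₂ hp d₁ d₂ (sub_eq_zero.1 hgt)⟩

end Crest.Agent.R202
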