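import Crest.Agent.R202.Sph2
import Crest.Agent.R202.Gen1

/-! # Row 202, Sph4: density of polynomials, the round spectrum -/

set_option autoImplicit false
open scoped ContDiff RealInnerProductSpace
open Set Filter Topology MeasureTheory Crest.GeometryTopology.CoordMetric

noncomputable section
namespace Crest.Agent.R202

variable {n : ℕ}

theorem sph4_abs_integ_le (F : CS n) : |integ n F| ≤ (sig n).real univ * ‖F‖ := by
  rw [integ_apply, mul_comm]
  exact norm_integral_le_of_norm_le_const (Filter.Eventually.of_forall fun x => F.norm_coe_le_norm x)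

/-- the coordinate functions on the sphere -/
def sph4Coord (i : Fin n) : CS n := ⟨fun x => (x : E n) i, by fun_prop⟩

theorem sph4_aeval (p : MvPolynomial (Fin n) ℝ) :
    MvPolynomial.aeval sph4Coord p = res (toW p) := by
  ext x
  rw [res_apply, toW_apply_sphere]
  induction p using MvPolynomial.induction_on with
  | C a => simp
  | add p q hp hq => simp [hp, hq]
  | mul_X p i hp => simp [hp, sph4Coord]

/-- Stone–Weierstrass (`ContinuousMap.exists_mem_subalgebra_near_continuousMap_of_separatesPoints` for the range of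
`MvPolynomial.aeval` of the coordinate functions) -/
theorem poly_dense (F : CS n) {η : ℝ} (hη : 0 < η) : ∃ p : MvPolynomial (Fin n) ℝ, ‖F - res (toW p)‖ < η := by
  have hs : (MvPolynomial.aeval (R := ℝ) (sph4Coord (n := n))).range.SeparatesPoints := by
    intro x y hxy
    have : ∃ i, (x : E n) i ≠ (y : E n) i := by
      by_contra h
      push Not at h
      exact hxy (Subtype.ext (by ext i; exact h i))
    obtain ⟨i, hi⟩ := this
    exact ⟨_, ⟨sph4Coord i, ⟨MvPolynomial.X i, MvPolynomial.aeval_X _ _⟩, rfl⟩, hi⟩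
  obtain ⟨⟨g, p, rfl⟩, hg⟩ :=
    ContinuousMap.exists_mem_subalgebra_near_continuousMap_of_separatesPoints _ hs F η hη
  refine ⟨p, ?_⟩
  rw [norm_sub_rev, ← sph4_aeval]
  exact hg
theorem eq_zero_of_poly {F : CS n} (h : ∀ p : MvPolynomial (Fin n) ℝ, integ n (F * res (toW p)) = 0) :
    F = 0 := by
  have hc : Continuous fun G : CS n => integ n (F * G) := by fun_prop
  have hcl : F ∈ closure (range fun p : MvPolynomial (Fin n) ℝ => res (toW p)) := by
    refine Metric.mem_closure_iff.2 fun η hη => ?_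
    obtain ⟨p, hp⟩ := poly_dense F hη
    exact ⟨_, ⟨p, rfl⟩, by rwa [dist_eq_norm]⟩
  have h0 : integ n (F * F) = 0 := by
    refine (isClosed_eq hc continuous_const).closure_subset_iff.2 ?_ hcl
    rintro _ ⟨p, rfl⟩
    exact h p
  have h1 := integ_eq_zero (F := F * F) (fun x => mul_self_nonneg (F x)) h0
  ext x
  exact mul_self_eq_zero.1 (DFunLike.congr_fun h1 x)
theorem norm_le_sup (u : W n) : ‖u‖ ≤ √((sig n).real univ) * ‖res u‖ := by
  have h0 : 0 ≤ (sig n).real univ := measureReal_nonneg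
  refine abs_le_of_sq_le_sq' ?_ (by positivity) |>.2
  rw [← real_inner_self_eq_norm_sq, inner_W, mul_pow, Real.sq_sqrt h0]
  refine ((le_abs_self _).trans (sph4_abs_integ_le _)).trans
    (mul_le_mul_of_nonneg_left ?_ h0)
  rw [sq]
  exact norm_mul_le _ _

theorem sph4_Lev_le {l M : ℕ} (h : l < M) : Lev n l ≤ Plt n M :=
  (inf_le_left : Lev n l ≤ Plt n (l + 1)).trans (Plt_mono h)

theorem sph4_orth (M : ℕ) (u : W n) {y : W n} (hy : y ∈ Plt n M) : ⟪y, u - prP M u⟫ = 0 :=
  (Submodule.mem_orthogonal _ _).1 ((Plt n M).sub_starProjection_mem_orthogonal u) y hy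

theorem sph4_form_orth (M : ℕ) (u : W n) : form (PiX n) (prP M u) (u - prP M u) = 0 := by
  have h : form (PiX n) (prP M u) = ∑ l ∈ Finset.range M, form (PiX n) (lev l u) := by
    rw [prP_eq_sum, map_sum]
  rw [h, LinearMap.sum_apply]
  refine Finset.sum_eq_zero fun l hl => ?_
  rw [form_Lev (lev_mem l u), sph4_orth M u (sph4_Lev_le (Finset.mem_range.1 hl) (lev_mem l u)),
    mul_zero]

theorem sph4_form_le (M : ℕ) (u : W n) : form (PiX n) (prP M u) (prP M u) ≤ form (PiX n) u u := by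
  have h1 := sph4_form_orth M u
  have h2 := form_PiX_nonneg (u - prP M u)
  have h3 := form_PiX_symm u (prP M u)
  simp only [map_sub, LinearMap.sub_apply] at h1 h2
  linarith

/-- `L²` density from `poly_dense` (the projection is the best approximation, `Plt` increases).  With `Δ₀ = -(1/2)Σ L_{ij}²`,
`r = u - prP M u ⊥ Plt n M`: `gr r ² = ⟪Δ₀ r, r⟫ = ⟪Δ₀ u, r⟫ ≤ ‖Δ₀ u‖‖r‖` as `Δ₀` preserves `Plt n M`. -/
theorem tendsto_prP (u : W n) : Tendsto (fun M => ‖u - prP M u‖) atTop (𝓝 0) ∧
    Tendsto (fun M => gr (u - prP M u)) atTop (𝓝 0) := by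
  have h1 : Tendsto (fun M => ‖u - prP M u‖) atTop (𝓝 0) := by
    refine Metric.tendsto_atTop.2 fun ε hε => ?_
    set c := √((sig n).real univ) with hc
    have hc0 : 0 ≤ c := Real.sqrt_nonneg _
    obtain ⟨p, hp⟩ := poly_dense (res u) (show 0 < ε / (c + 1) by positivity)
    refine ⟨p.totalDegree + 1, fun M hM => ?_⟩
    have h2 : ‖u - prP M u‖ ≤ ‖u - toW p‖ := by
      unfold prP
      rw [Submodule.starProjection_minimal]
      exact ciInf_le ⟨0, by rintro _ ⟨y, rfl⟩; exact norm_nonneg _⟩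
        (⟨toW p, toW_mem_Plt p hM⟩ : Plt n M)
    have h3 := norm_le_sup (u - toW p)
    rw [map_sub, ← hc] at h3
    rw [lt_div_iff₀ (by positivity)] at hp
    rw [Real.dist_eq, sub_zero, abs_of_nonneg (norm_nonneg _)]
    nlinarith [norm_nonneg (res u - res (toW p))]
  refine ⟨h1, ?_⟩
  set D : W n := (-(1 / 2) : ℝ) • ∑ i, ∑ j, Lij i j (Lij i j u) with hD
  have h2 : ∀ r, form (PiX n) u r = ⟪D, r⟫ := by
    intro r
    rw [form_PiX_Lij, hD, real_inner_smul_left, sum_inner, neg_mul, ← mul_neg,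
      ← Finset.sum_neg_distrib]
    congr 1
    refine Finset.sum_congr rfl fun i _ => ?_
    rw [sum_inner, ← Finset.sum_neg_distrib]
    exact Finset.sum_congr rfl fun j _ => by rw [Lij_skew i j (Lij i j u) r, neg_neg]
  have h3 : ∀ M, gr (u - prP M u) ≤ √(‖D‖ * ‖u - prP M u‖) := by
    intro M
    refine Real.sqrt_le_sqrt ?_
    have h4 : form (PiX n) (u - prP M u) (u - prP M u) = ⟪D, u - prP M u⟫ := by
      rw [← h2, LinearMap.map_sub₂, sph4_form_orth, sub_zero]
    rw [h4]
    exact real_inner_le_norm _ _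
  refine squeeze_zero (fun M => Real.sqrt_nonneg _) h3 ?_
  simpa using (h1.const_mul ‖D‖).sqrt

theorem sph4_levOf_spec (hn : 2 ≤ n) (i : ℕ) :
    nl n (levOf n i) ≤ i ∧ i < nl n (levOf n i + 1) := (levOf_spec hn i _).1 rfl

theorem sph4_levOf_lt (hn : 2 ≤ n) (i l : ℕ) : levOf n i < l ↔ i < nl n l := by
  have h := sph4_levOf_spec hn i
  constructor
  · intro hl
    exact h.2.trans_le ((nl_strictMono hn).monotone hl)
  · intro hl
    exact (nl_strictMono hn).lt_iff_lt.1 (h.1.trans_lt hl)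

theorem sph4_levOf_mono (hn : 2 ≤ n) : Monotone (levOf n) := by
  intro i j hij
  by_contra h
  have h1 := (sph4_levOf_lt hn j _).1 (not_le.1 h)
  have h2 := (sph4_levOf_spec hn i).1
  omega

/-- the `k`-th vector of an orthonormal basis of the level `l` -/
def sph4Vec (n l k : ℕ) : W n :=
  if h : k < Module.finrank ℝ (Lev n l) then (stdOrthonormalBasis ℝ (Lev n l) ⟨k, h⟩ : W n) else 0

theorem sph4Vec_mem (l k : ℕ) : sph4Vec n l k ∈ Lev n l := by
  unfold sph4Vec
  split_ifs
  · exact Subtype.property _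
  · exact zero_mem _

theorem sph4Vec_inner {l k k' : ℕ} (hk : k < Module.finrank ℝ (Lev n l))
    (hk' : k' < Module.finrank ℝ (Lev n l)) :
    ⟪sph4Vec n l k, sph4Vec n l k'⟫ = if k = k' then 1 else 0 := by
  unfold sph4Vec
  rw [dif_pos hk, dif_pos hk', ← Submodule.coe_inner,
    orthonormal_iff_ite.1 (stdOrthonormalBasis ℝ (Lev n l)).orthonormal]
  simp only [Fin.mk.injEq]

theorem sph4Vec_orth {l : ℕ} {w : W n}
    (h : ∀ k < Module.finrank ℝ (Lev n l), ⟪sph4Vec n l k, w⟫ = 0) {y : W n} (hy : y ∈ Lev n l) :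
    ⟪y, w⟫ = 0 := by
  have h1 := congrArg (Lev n l).subtype ((stdOrthonormalBasis ℝ (Lev n l)).sum_repr ⟨y, hy⟩)
  rw [map_sum] at h1
  change _ = y at h1
  rw [← h1, sum_inner]
  refine Finset.sum_eq_zero fun k _ => ?_
  have h2 := h k k.2
  unfold sph4Vec at h2
  rw [dif_pos k.2] at h2
  rw [map_smul, real_inner_smul_left]
  exact mul_eq_zero_of_right _ h2

theorem sph4_compl (hn : 2 ≤ n) (l : ℕ) {w : W n} (h : ∀ j < l, ∀ y ∈ Lev n j, ⟪y, w⟫ = 0) :
    ev n l * ‖w‖ ^ 2 ≤ form (PiX n) w w := by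
  have h1 : ∀ M, l ≤ M → ev n l * ‖prP M w‖ ^ 2 ≤ form (PiX n) w w := by
    intro M hM
    refine le_trans ?_ (sph4_form_le M w)
    rw [← gr_sq, gr_sq_Plt (prP_mem M w), norm_sq_eq_sum_lev (prP_mem M w), Finset.mul_sum]
    refine Finset.sum_le_sum fun j _ => ?_
    rcases lt_or_ge j l with hj | hj
    · have h2 : lev j (prP M w) = 0 := by
        refine (Submodule.starProjection_apply_eq_zero_iff (Lev n j)).2
          ((Submodule.mem_orthogonal _ _).2 fun y hy => ?_)
        have h3 := sph4_orth M w (sph4_Lev_le (hj.trans_le hM) hy)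
        rw [inner_sub_right, h j hj y hy] at h3
        linarith
      simp [h2]
    · exact mul_le_mul_of_nonneg_right ((ev_strictMono hn).monotone hj) (sq_nonneg _)
  have h2 : Tendsto (fun M => prP M w) atTop (𝓝 w) := by
    rw [tendsto_iff_norm_sub_tendsto_zero]
    simpa only [norm_sub_rev] using (tendsto_prP w).1
  exact le_of_tendsto ((h2.norm.pow 2).const_mul (ev n l)) (eventually_atTop.2 ⟨l, h1⟩)

/-- concatenate orthonormal bases of the levels: `φ i` = the `(i - nl l)`-th basis vector of `Lev n l`, `l = levOf n i`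
(`levOf_spec`, `nl_succ_eq`).  Complement bound: `w ⊥ Plt n l`, so `gr (prP M w)² = Σ_{j ≥ l} ev j ‖lev j w‖² ≥ ev l ‖prP M w‖²`; let `M → ∞`. -/
theorem round_eigSys (hn : 2 ≤ n) : ∃ φ : ℕ → W n,
    EigSys (form (PiX n)) (fun i => ev n (levOf n i)) φ ∧ ∀ i, φ i ∈ Lev n (levOf n i) := by
  have hk : ∀ i, i - nl n (levOf n i) < Module.finrank ℝ (Lev n (levOf n i)) := by
    intro i
    have h1 := sph4_levOf_spec hn i
    have h2 := nl_succ_eq (n := n) (levOf n i)
    omega
  refine ⟨fun i => sph4Vec n (levOf n i) (i - nl n (levOf n i)), ⟨?_, ?_, ?_, ?_, ?_⟩,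
    fun i => sph4Vec_mem _ _⟩
  · refine orthonormal_iff_ite.2 fun i j => ?_
    by_cases h : levOf n i = levOf n j
    · have h1 := hk i
      have h2 := (sph4_levOf_spec hn i).1
      have h3 := (sph4_levOf_spec hn j).1
      rw [h] at h1 h2 ⊢
      rw [sph4Vec_inner h1 (hk j)]
      exact if_congr (by omega) rfl rfl
    · rw [Lev_orth h (sph4Vec_mem _ _) (sph4Vec_mem _ _), if_neg fun hij => h (by rw [hij])]
  · exact (ev_strictMono hn).monotone.comp (sph4_levOf_mono hn)
  · have h1 : Tendsto (levOf n) atTop atTop :=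
      (sph4_levOf_mono hn).tendsto_atTop_atTop fun l =>
        ⟨nl n l, not_lt.1 fun h => lt_irrefl _ ((sph4_levOf_lt hn _ _).1 h)⟩
    have h2 : Tendsto (ev n) atTop atTop := by
      refine tendsto_atTop_mono' _ ?_ tendsto_natCast_atTop_atTop
      filter_upwards [eventually_ge_atTop 1] with l hl
      have h3 : (1 : ℝ) ≤ l := by exact_mod_cast hl
      have h4 : (2 : ℝ) ≤ n := by exact_mod_cast hn
      unfold ev
      nlinarith
    exact h2.comp h1
  · exact fun i w => form_Lev (sph4Vec_mem _ _) w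
  · intro i w hw
    refine sph4_compl hn _ fun j hj y hy => sph4Vec_orth (fun k hk => ?_) hy
    have h1 := nl_succ_eq (n := n) j
    have h2 : levOf n (nl n j + k) = j := (levOf_spec hn _ _).2 ⟨by omega, by omega⟩
    have h3 : nl n (j + 1) ≤ nl n (levOf n i) := (nl_strictMono hn).monotone hj
    have h4 := (sph4_levOf_spec hn i).1
    have h5 := hw (nl n j + k) (by omega)
    simp only [h2, Nat.add_sub_cancel_left] at h5
    exact h5
theorem round_nice (hn : 2 ≤ n) : Nice (form (PiX n)) := by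
  obtain ⟨φ, h, -⟩ := round_eigSys hn
  exact ⟨form_PiX_symm, form_PiX_nonneg, _, φ, h⟩
theorem round_lamv (hn : 2 ≤ n) (i : ℕ) : lamv (form (PiX n)) i = ev n (levOf n i) := by
  obtain ⟨φ, h, -⟩ := round_eigSys hn
  exact h.lamv_eq (round_nice hn) i
theorem round_low (hn : 2 ≤ n) (l : ℕ) : low (form (PiX n)) (ev n l) = Plt n l := by
  obtain ⟨φ, h, hφ⟩ := round_eigSys hn
  have h1 : {i | ev n (levOf n i) < ev n l} = {i | i < nl n l} := by
    ext i
    exact (ev_strictMono hn).lt_iff_lt.trans (sph4_levOf_lt hn i l)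
  rw [h.low_eq (round_nice hn), h1]
  refine Submodule.eq_of_le_of_finrank_eq (Submodule.span_le.2 ?_) (g1a_finrank h _)
  rintro _ ⟨i, hi, rfl⟩
  exact sph4_Lev_le ((sph4_levOf_lt hn i l).2 hi) (hφ i)
theorem Lev_le_eigsp (l : ℕ) : Lev n l ≤ eigsp (form (PiX n)) (ev n l) := fun _ hu w => form_Lev hu w

end Crest.Agent.R202
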