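import Crest.Agent.R202.Sph3
import Crest.Agent.R202.Sph4
import Crest.Agent.R202.Forms1
import Crest.Agent.R202.Lim

/-! # Row 202, Eig: complete eigen-systems as limits of Galerkin eigenpairs -/

set_option autoImplicit false
open scoped ContDiff RealInnerProductSpace
open Set Filter Topology MeasureTheory Crest.GeometryTopology.CoordMetric

noncomputable section
namespace Crest.Agent.R202

variable {n : ℕ}

/-- sorted eigenbasis of a symmetric operator (`LinearMap.IsSymmetric.eigenvectorBasis`, `eigenvalues_antitone`, reindexed by `Fin.rev`) -/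
theorem exists_eigB {V : Type*} [NormedAddCommGroup V] [InnerProductSpace ℝ V] [FiniteDimensional ℝ V]
    {D : ℕ} (hD : Module.finrank ℝ V = D) (A : V →L[ℝ] V) (hA : ∀ x y, ⟪A x, y⟫ = ⟪x, A y⟫) :
    ∃ (φ : OrthonormalBasis (Fin D) ℝ V) (lam : Fin D → ℝ), EigB A φ lam := by
  have hT : (A : V →ₗ[ℝ] V).IsSymmetric := hA
  refine ⟨(hT.eigenvectorBasis hD).reindex Fin.revPerm, fun i => hT.eigenvalues hD (Fin.rev i),
    fun i j hij => hT.eigenvalues_antitone hD (Fin.rev_le_rev.2 hij), fun i => ?_⟩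
  rw [OrthonormalBasis.reindex_apply]
  exact hT.apply_eigenvectorBasis hD _

theorem eiga_quad {V : Type*} [NormedAddCommGroup V] [InnerProductSpace ℝ V] {D : ℕ}
    {A : V →L[ℝ] V} {φ : OrthonormalBasis (Fin D) ℝ V} {lam : Fin D → ℝ} (h : EigB A φ lam)
    (w : V) : ⟪A w, w⟫ = ∑ j, lam j * ⟪φ j, w⟫ ^ 2 := by
  have h1 : A w = ∑ j, ⟪φ j, w⟫ • lam j • φ j := by
    conv_lhs => rw [← φ.sum_repr' w]
    simp only [map_sum, map_smul, h.2]
  rw [h1, sum_inner]
  refine Finset.sum_congr rfl fun j _ => ?_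
  rw [real_inner_smul_left, real_inner_smul_left]
  ring

/-- finite-dimensional min-max for a sorted eigenbasis -/
theorem EigB.compl {V : Type*} [NormedAddCommGroup V] [InnerProductSpace ℝ V] {D : ℕ} {A : V →L[ℝ] V}
    {φ : OrthonormalBasis (Fin D) ℝ V} {lam : Fin D → ℝ} (h : EigB A φ lam) (i : Fin D) (w : V)
    (hw : ∀ j < i, ⟪φ j, w⟫ = 0) : lam i * ‖w‖ ^ 2 ≤ ⟪A w, w⟫ := by
  rw [eiga_quad h, ← φ.sum_sq_inner_right, Finset.mul_sum]
  refine Finset.sum_le_sum fun j _ => ?_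
  rcases lt_or_ge j i with hj | hj
  · rw [hw j hj]; simp
  · exact mul_le_mul_of_nonneg_right (h.1 hj) (sq_nonneg _)
theorem EigB.le_of_test {V : Type*} [NormedAddCommGroup V] [InnerProductSpace ℝ V] {D : ℕ} {A : V →L[ℝ] V}
    {φ : OrthonormalBasis (Fin D) ℝ V} {lam : Fin D → ℝ} (h : EigB A φ lam) (i : Fin D)
    {Y : Submodule ℝ V} (hY : (i : ℕ) < Module.finrank ℝ Y) {s : ℝ} (hs : ∀ y ∈ Y, ⟪A y, y⟫ ≤ s * ‖y‖ ^ 2) :
    lam i ≤ s := by
  haveI : FiniteDimensional ℝ V := φ.toBasis.finiteDimensional_of_finite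
  let T : Y →ₗ[ℝ] (Fin i → ℝ) := LinearMap.pi fun j =>
    (innerSL ℝ (φ (Fin.castLE i.2.le j))).toLinearMap ∘ₗ Y.subtype
  obtain ⟨y, hy, hy0⟩ := (Submodule.ne_bot_iff _).1
    (T.ker_ne_bot_of_finrank_lt (by simpa using hY))
  have h1 := h.compl i y fun j hj => congrFun (LinearMap.mem_ker.1 hy) ⟨j, hj⟩
  have h2 : 0 < ‖(y : V)‖ ^ 2 := pow_pos (norm_pos_iff.2 fun e => hy0 (Subtype.ext e)) 2
  exact le_of_mul_le_mul_right (h1.trans (hs y y.2)) h2
theorem EigB.exists_test {V : Type*} [NormedAddCommGroup V] [InnerProductSpace ℝ V] {D : ℕ} {A : V →L[ℝ] V}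
    {φ : OrthonormalBasis (Fin D) ℝ V} {lam : Fin D → ℝ} (h : EigB A φ lam) (i : Fin D) :
    ∃ Y : Submodule ℝ V, Module.finrank ℝ Y = i + 1 ∧ ∀ y ∈ Y, ⟪A y, y⟫ ≤ lam i * ‖y‖ ^ 2 := by
  have hi : (i : ℕ) + 1 ≤ D := i.2
  refine ⟨Submodule.span ℝ (Set.range fun j : Fin (i + 1) => φ (Fin.castLE hi j)), ?_,
    fun y hy => ?_⟩
  · rw [finrank_span_eq_card, Fintype.card_fin]
    exact φ.orthonormal.linearIndependent.comp _ (Fin.castLE_injective hi)
  · rw [eiga_quad h, ← φ.sum_sq_inner_right, Finset.mul_sum]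
    refine Finset.sum_le_sum fun j _ => ?_
    rcases le_or_gt j i with hj | hj
    · exact mul_le_mul_of_nonneg_right (h.1 hj) (sq_nonneg _)
    · obtain ⟨c, rfl⟩ := (Submodule.mem_span_range_iff_exists_fun ℝ).1 hy
      have : ⟪φ j, ∑ k : Fin (i + 1), c k • φ (Fin.castLE hi k)⟫ = 0 := by
        rw [inner_sum]
        refine Finset.sum_eq_zero fun k _ => ?_
        rw [real_inner_smul_right, φ.orthonormal.2, mul_zero]
        intro e
        have h1 : (j : ℕ) = k := congrArg Fin.val e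
        have h2 := k.2
        have h3 : (i : ℕ) < j := hj
        omega
      rw [this]; simp

theorem eiga_homog (u : W n) (m : ℕ) {C : ℝ} (h : ∀ x : Sp n, ‖iteratedFDeriv ℝ m u x‖ ≤ C)
    {y : E n} {r : ℝ} (hr : 0 < r) (hy : r ≤ ‖y‖) : ‖iteratedFDeriv ℝ m u y‖ ≤ C * r⁻¹ ^ m := by
  have hy0 : 0 < ‖y‖ := hr.trans_le hy
  have hc : 0 < ‖y‖⁻¹ := inv_pos.2 hy0
  let g : E n ≃L[ℝ] E n := ContinuousLinearEquiv.smulLeft (R₁ := ℝ) (Units.mk0 _ hc.ne')
  have hg : ∀ z, g z = ‖y‖⁻¹ • z := fun _ => rfl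
  have h1 := g.iteratedFDerivWithin_comp_right u uniqueDiffOn_univ (x := y) (mem_univ _) m
  have h2 : (u : E n → ℝ) ∘ g = u := funext fun z => u.homog hc z
  rw [h2, preimage_univ, iteratedFDerivWithin_univ] at h1
  have h3 : ‖(g : E n →L[ℝ] E n)‖ ≤ r⁻¹ := by
    refine ContinuousLinearMap.opNorm_le_bound _ (by positivity) fun z => ?_
    rw [ContinuousLinearEquiv.coe_coe, hg, norm_smul, Real.norm_of_nonneg hc.le]
    gcongr
  have h4 := h ⟨g y, by simp [hg, norm_smul, hy0.ne']⟩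
  rw [h1]
  refine (ContinuousMultilinearMap.norm_compContinuousLinearMap_le _ _).trans ?_
  rw [Finset.prod_const, Finset.card_univ, Fintype.card_fin]
  exact mul_le_mul h4 (pow_le_pow_left₀ (norm_nonneg _) h3 m) (by positivity)
    ((norm_nonneg _).trans h4)

theorem eiga_deriv (hn : 2 ≤ n) (𝒰 : Ultrafilter ℕ) (u : ℕ → W n)
    (hb : ∀ s, ∃ C : ℝ, ∀ᶠ M in 𝒰, u M ∈ Plt n M ∧ sob M s (u M) ≤ C) (m : ℕ) :
    ∃ C : ℝ, 0 ≤ C ∧ ∀ᶠ M in 𝒰, ∀ x : Sp n, ‖iteratedFDeriv ℝ m (u M) x‖ ≤ C := by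
  have h1 : ∀ k, ∃ B : ℝ, 0 ≤ B ∧ ∀ᶠ M in 𝒰, ∀ w : List (Fin n × Fin n), w.length = k →
      ∀ x : Sp n, |Lw w (u M) x| ≤ B := by
    intro k
    obtain ⟨C, hC⟩ := sup_word hn k
    obtain ⟨C', hC'⟩ := hb (k + n + 1)
    refine ⟨|C| * √C', by positivity, hC'.mono fun M hM w hw x => ?_⟩
    exact (hC M _ hM.1 w hw x).trans
      (mul_le_mul (le_abs_self C) (Real.sqrt_le_sqrt hM.2) (Real.sqrt_nonneg _) (abs_nonneg C))
  choose B hB0 hB using h1
  obtain ⟨C, hC⟩ := W_deriv_bound (n := n) m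
  have hS : 0 ≤ ∑ k ∈ Finset.range (m + 1), B k := Finset.sum_nonneg fun k _ => hB0 k
  refine ⟨|C| * ∑ k ∈ Finset.range (m + 1), B k, by positivity, ?_⟩
  filter_upwards [(eventually_all_finset (Finset.range (m + 1))).2 fun k _ => hB k] with M hM x
  refine (hC (u M) _ hS (fun w hw x => ?_) x).trans
    (mul_le_mul_of_nonneg_right (le_abs_self C) hS)
  have hw' : w.length ∈ Finset.range (m + 1) := Finset.mem_range.2 (by omega)
  exact (hM _ hw' w rfl x).trans (Finset.single_le_sum (fun k _ => hB0 k) hw')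

/-- **Rellich–Sobolev.**  `sup_word`, `W_deriv_bound` and homogeneity bound all derivatives locally on `ℝⁿ \ 0`; `ultra_smooth` gives `f`, which is `0`-homogeneous (redefine it at `0`);
`lip_sphere`, `integ_tendsto` give uniform convergence of `res` and `grad i`. -/
theorem rellich (hn : 2 ≤ n) (𝒰 : Ultrafilter ℕ) (u : ℕ → W n)
    (hb : ∀ s, ∃ C : ℝ, ∀ᶠ M in 𝒰, u M ∈ Plt n M ∧ sob M s (u M) ≤ C) :
    ∃ f : W n, Tendsto (fun M => ‖u M - f‖) 𝒰 (𝓝 0) ∧ Tendsto (fun M => gr (u M - f)) 𝒰 (𝓝 0) := by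
  choose C hC0 hC using eiga_deriv hn 𝒰 u hb
  obtain ⟨f, hf, hlim⟩ := ultra_smooth 𝒰 (O := {0}ᶜ) isOpen_compl_singleton (fun M => u M)
    (fun M => (u M).smooth) (fun m x hx => by
      have hx0 : 0 < ‖x‖ / 2 := half_pos (norm_pos_iff.2 hx)
      refine ⟨‖x‖ / 2, hx0, C m * (‖x‖ / 2)⁻¹ ^ m, (hC m).mono fun M hM y hy => ?_⟩
      refine eiga_homog (u M) m hM hx0 ?_
      have h1 := mem_ball_iff_norm.1 hy
      have h2 := norm_sub_norm_le x y
      rw [norm_sub_rev] at h2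
      linarith)
  classical
  let F : W n := W.mk (fun x => if x = 0 then 0 else f x)
    (hf.congr fun x hx => if_neg hx)
    (fun c hc x => by
      by_cases hx : x = 0
      · simp [hx]
      · have hcx : c • x ≠ 0 := smul_ne_zero hc.ne' hx
        simp only [hx, hcx, if_false]
        have h1 := (hlim _ hcx).1
        simp only [W.homog _ hc] at h1
        exact tendsto_nhds_unique h1 (hlim _ hx).1)
    (by simp)
  have hF : ∀ x : Sp n, F x = f x := fun x => if_neg (Sp.ne_zero x)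
  have hF' : ∀ x : Sp n, fderiv ℝ F x = fderiv ℝ f x := fun x => by
    refine Filter.EventuallyEq.fderiv_eq ?_
    filter_upwards [isOpen_compl_singleton.mem_nhds (Sp.ne_zero x)] with y hy
    exact if_neg hy
  set K : ℝ := C 0 + C 1 * 2 + C 2 * 4 with hK
  have hbd : ∀ᶠ M in 𝒰, ∀ y : E n, 1 / 2 ≤ ‖y‖ →
      y ≠ 0 ∧ ‖u M y‖ ≤ K ∧ ‖fderiv ℝ (u M) y‖ ≤ K ∧ ‖fderiv ℝ (fderiv ℝ (u M)) y‖ ≤ K := by
    filter_upwards [hC 0, hC 1, hC 2] with M h0 h1 h2 y hy
    have a0 := eiga_homog (u M) 0 h0 (by norm_num) hy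
    have a1 := eiga_homog (u M) 1 h1 (by norm_num) hy
    have a2 := eiga_homog (u M) 2 h2 (by norm_num) hy
    rw [norm_iteratedFDeriv_zero] at a0
    rw [norm_iteratedFDeriv_one] at a1
    rw [← norm_iteratedFDeriv_fderiv, norm_iteratedFDeriv_one] at a2
    have := hC0 0
    have := hC0 1
    have := hC0 2
    norm_num at a0 a1 a2
    refine ⟨norm_pos_iff.1 (by linarith), ?_, by linarith, by linarith⟩
    rw [Real.norm_eq_abs]; linarith
  have hres : Tendsto (fun M => res (u M)) 𝒰 (𝓝 (res F)) := by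
    refine integ_tendsto 𝒰 _ _ (C := (2 + 1) * K) (hbd.mono fun M hM x y => ?_) fun x => ?_
    · have := lip_sphere (f := u M) one_pos (fun y hy _ =>
        ⟨(u M).differentiableAt (hM y hy).1, (hM y hy).2.1, (hM y hy).2.2.1⟩) x y
      simpa only [one_smul, Real.norm_eq_abs, res_apply] using this
    · simp only [res_apply, hF]
      exact (hlim _ (Sp.ne_zero x)).1
  have hgrad : ∀ i, Tendsto (fun M => grad i (u M)) 𝒰 (𝓝 (grad i F)) := by
    intro i
    refine integ_tendsto 𝒰 _ _ (C := (2 + 1) * K) (hbd.mono fun M hM x y => ?_) fun x => ?_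
    · have := lip_sphere (f := fderiv ℝ (u M)) one_pos (fun y hy _ =>
        ⟨((u M).contDiffAt_fderiv (hM y hy).1).differentiableAt (by simp), (hM y hy).2.2.1,
          (hM y hy).2.2.2⟩) x y
      simp only [one_smul] at this
      refine le_trans ?_ this
      rw [grad_apply, grad_apply, ← ContinuousLinearMap.sub_apply, ← Real.norm_eq_abs]
      refine (ContinuousLinearMap.le_opNorm _ _).trans_eq ?_
      simp
    · simp only [grad_apply, hF']
      exact ((ContinuousLinearMap.apply ℝ ℝ (EuclideanSpace.single i (1 : ℝ) : E n)).continuous.tendsto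
        _).comp (hlim _ (Sp.ne_zero x)).2.1
  refine ⟨F, ?_, ?_⟩
  · refine squeeze_zero (fun M => norm_nonneg _) (fun M => norm_le_sup _) ?_
    have := (tendsto_iff_norm_sub_tendsto_zero.1 hres).const_mul (√((sig n).real univ))
    simpa only [map_sub, mul_zero] using this
  · have h1 : Tendsto (fun M => ∑ i, grad i (u M - F) * grad i (u M - F)) 𝒰
        (𝓝 (∑ _i : Fin n, (0 : CS n) * 0)) := by
      refine tendsto_finsetSum _ fun i _ => ?_
      have := tendsto_sub_nhds_zero_iff.2 (hgrad i)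
      simp only [← map_sub] at this
      exact this.mul this
    have h2 := (((integ n).continuous.tendsto _).comp h1).sqrt
    simp only [mul_zero, Finset.sum_const_zero, map_zero, Real.sqrt_zero] at h2
    refine h2.congr fun M => ?_
    rw [gr, form_PiX]
    rfl

theorem eiga_skew (π : Plane n) (k : ℕ) : ∀ u w : W n,
    ⟪u, (π.L ^ k) w⟫ = (-1) ^ k * ⟪(π.L ^ k) u, w⟫ := by
  induction k with
  | zero => intro u w; simp
  | succ k ih =>
    intro u w
    have h1 : ((π.L ^ (k + 1)) w) = π.L ((π.L ^ k) w) := by rw [pow_succ']; rfl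
    have h2 : ((π.L ^ (k + 1)) u) = (π.L ^ k) (π.L u) := by rw [pow_succ]; rfl
    have h3 := π.L_skew u ((π.L ^ k) w)
    rw [h1, h2, pow_succ]
    linear_combination h3 - ih (π.L u) w

theorem eiga_pow_mem (π : Plane n) {M : ℕ} {u : W n} (h : u ∈ Plt n M) (k : ℕ) :
    (π.L ^ k) u ∈ Plt n M := by
  induction k with
  | zero => exact h
  | succ k ih => rw [pow_succ']; exact Lv_gen_Plt _ _ ih

theorem eiga_norm_pow (π : Plane n) {u : W n} (hu : ‖u‖ = 1) {k : ℕ} {C : ℝ} (hC : 0 ≤ C)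
    (h : ∀ j < k, gr ((π.L ^ j) u) ≤ C) : ‖(π.L ^ k) u‖ ≤ C + 1 := by
  rcases k with _ | k
  · simp only [pow_zero, Module.End.one_apply, hu]; linarith
  · rw [pow_succ']
    exact (π.norm_L_le _).trans ((h k k.lt_succ_self).trans (by linarith))

theorem eiga_gr (hn : 2 ≤ n) {ε : ℝ} (h : Good n ε) {b : BB n} (hb : ‖b‖ < ε) (Λ : ℝ)
    (π : Plane n) (k : ℕ) : ∃ C : ℝ, 0 ≤ C ∧ ∀ (M : ℕ) (φ : PM n M) (lam : ℝ), |lam| ≤ Λ →
      ‖φ‖ = 1 → opA M (HX (iota b)) φ = lam • φ → ∀ j < k, gr ((π.L ^ j) (incl M φ)) ≤ C := by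
  induction k with
  | zero => exact ⟨0, le_rfl, fun _ _ _ _ _ _ j hj => absurd hj (Nat.not_lt_zero j)⟩
  | succ k ih =>
    obtain ⟨C, hC0, hC⟩ := ih
    set K := HX (iota b) with hK
    set B : ℝ := ∑ i ∈ Finset.range k, (k.choose (i + 1) : ℝ) * (n * ‖orbD π (i + 1) K‖ * C)
      with hB
    have hB0 : 0 ≤ B := Finset.sum_nonneg fun i _ => by positivity
    set a : ℝ := |Λ| * (C + 1) ^ 2 with ha
    have ha0 : 0 ≤ a := by positivity
    refine ⟨C + (3 * (a + B) + 1), by positivity, fun M φ lam hlam hφ he j hj => ?_⟩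
    have hC' := hC M φ lam hlam hφ he
    rcases (Nat.lt_succ_iff.1 hj).eq_or_lt with rfl | hj'
    swap
    · exact (hC' j hj').trans (by linarith)
    set u := incl M φ with hu
    have hu1 : ‖u‖ = 1 := by rw [hu, LinearIsometry.norm_map, hφ]
    set w := (π.L ^ j) u with hw
    have hw1 : ‖w‖ ≤ C + 1 := eiga_norm_pow π hu1 hC0 hC'
    have hmem : (π.L ^ j) w ∈ Plt n M := eiga_pow_mem π (eiga_pow_mem π (incl_mem φ) j) j
    have e1 : form K u ((π.L ^ j) w) = lam * ((-1) ^ j * ‖w‖ ^ 2) := by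
      have := inner_opA M K φ (PM.mk _ hmem)
      rw [he, real_inner_smul_left, ← (incl M).inner_map_map, incl_mk, eiga_skew,
        real_inner_self_eq_norm_sq] at this
      exact this.symm
    have e2 := comm_iter π (orbSmooth_HX h hb π) j u w
    rw [e1, Finset.sum_range_succ', mul_left_comm] at e2
    have e3 := mul_left_cancel₀ (pow_ne_zero j (by norm_num : (-1 : ℝ) ≠ 0)) e2
    simp only [Nat.choose_zero_right, Nat.cast_one, one_mul, orbD_zero, Nat.sub_zero] at e3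
    have hg0 : 0 ≤ gr w := Real.sqrt_nonneg _
    have e4 : (1 / 3) * gr w ^ 2 ≤ form K w w := by
      rw [gr_sq]; exact (aB_coer hn h hb w).1
    have e5 : |∑ i ∈ Finset.range j, (j.choose (i + 1) : ℝ) *
        form (orbD π (i + 1) K) ((π.L ^ (j - (i + 1))) u) w| ≤ B * gr w := by
      rw [hB, Finset.sum_mul]
      refine (Finset.abs_sum_le_sum_abs _ _).trans (Finset.sum_le_sum fun i hi => ?_)
      have hi' := Finset.mem_range.1 hi
      rw [abs_mul, Nat.abs_cast, mul_assoc]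
      refine mul_le_mul_of_nonneg_left ((form_le _ _ _).trans ?_) (by positivity)
      rw [mul_assoc _ C]
      exact mul_le_mul_of_nonneg_left
        (mul_le_mul_of_nonneg_right (hC' _ (by omega)) hg0) (by positivity)
    have e6 : lam * ‖w‖ ^ 2 ≤ a :=
      mul_le_mul ((le_abs_self _).trans (hlam.trans (le_abs_self _)))
        (pow_le_pow_left₀ (norm_nonneg _) hw1 2) (by positivity) (abs_nonneg _)
    have e7 : (1 / 3) * gr w ^ 2 ≤ a + B * gr w := by
      have := neg_abs_le (∑ i ∈ Finset.range j, (j.choose (i + 1) : ℝ) *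
        form (orbD π (i + 1) K) ((π.L ^ (j - (i + 1))) u) w)
      linarith
    by_contra hcon
    have h1 : 3 * (a + B) + 1 < gr w := by linarith [not_le.1 hcon]
    nlinarith

/-- uniform bounds for Galerkin eigenfunctions: as in `eig_ana`, testing with `w = L^kφ ∈ Plt n M`:
`e_k²/3 ≤ Λ e_{k-1}² + C e_k Σ_{i<k} e_i`, `e₀² ≤ 3Λ`; then `sob_le_pow`. -/
theorem gal_eig_sob (hn : 2 ≤ n) {ε : ℝ} (h : Good n ε) {b : BB n} (hb : ‖b‖ < ε) (Λ : ℝ) (s : ℕ) :
    ∃ C : ℝ, ∀ (M : ℕ) (φ : PM n M) (lam : ℝ), |lam| ≤ Λ → ‖φ‖ = 1 →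
      opA M (HX (iota b)) φ = lam • φ → sob M s (incl M φ) ≤ C := by
  have h1 : ∀ i j : Fin n, ∃ C : ℝ, ∀ (M : ℕ) (φ : PM n M) (lam : ℝ), |lam| ≤ Λ → ‖φ‖ = 1 →
      opA M (HX (iota b)) φ = lam • φ → ‖(Lij i j ^ s) (incl M φ)‖ ≤ C := by
    intro i j
    by_cases hij : i = j
    · subst hij
      refine ⟨1, fun M φ lam _ hφ _ => ?_⟩
      rcases s with _ | s
      · simp [hφ]
      · simp [Lij_self]
    · obtain ⟨C, hC0, hC⟩ := eiga_gr hn h hb Λ (Plane.coord i j hij) s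
      refine ⟨C + 1, fun M φ lam hlam hφ he => ?_⟩
      rw [Lij_eq i j hij]
      exact eiga_norm_pow _ (by rw [LinearIsometry.norm_map, hφ]) hC0 (hC M φ lam hlam hφ he)
  choose C hC using h1
  obtain ⟨C₀, hC₀⟩ := sob_le_pow hn s
  refine ⟨|C₀| * (1 + ∑ i, ∑ j, C i j ^ 2), fun M φ lam hlam hφ he => ?_⟩
  refine (hC₀ M _ (incl_mem φ)).trans (mul_le_mul (le_abs_self _) ?_ (by positivity) (abs_nonneg _))
  rw [LinearIsometry.norm_map, hφ, one_pow]
  gcongr with i _ j _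
  exact hC i j M φ lam hlam hφ he

end Crest.Agent.R202
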