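import Crest.Agent.R202.Sph3
import Crest.Agent.R202.Sph4
import Crest.Agent.R202.Forms1
import Crest.Agent.R202.Lim
import Crest.Agent.R202.Eiga

/-! # Row 202, Eig: complete eigen-systems as limits of Galerkin eigenpairs -/

set_option autoImplicit false
open scoped ContDiff RealInnerProductSpace
open Set Filter Topology MeasureTheory Crest.GeometryTopology.CoordMetric

noncomputable section
namespace Crest.Agent.R202

variable {n : ℕ}

section Conv
variable {ι : Type*} {𝓕 : Filter ι}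

/-- convergence in both norms -/
def EigCv (𝓕 : Filter ι) (u : ι → W n) (f : W n) : Prop :=
  Tendsto u 𝓕 (𝓝 f) ∧ Tendsto (fun M => gr (u M - f)) 𝓕 (𝓝 0)

theorem eig_gr_nonneg (u : W n) : 0 ≤ gr u := Real.sqrt_nonneg _

theorem EigCv.add {u w : ι → W n} {f g : W n} (hu : EigCv 𝓕 u f) (hw : EigCv 𝓕 w g) :
    EigCv 𝓕 (fun M => u M + w M) (f + g) := by
  refine ⟨hu.1.add hw.1, squeeze_zero (fun M => eig_gr_nonneg _) (fun M => ?_)
    (by simpa using hu.2.add hw.2)⟩
  rw [show u M + w M - (f + g) = (u M - f) + (w M - g) by abel]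
  exact gr_add_le _ _

theorem EigCv.smul {u : ι → W n} {f : W n} {c : ι → ℝ} {a : ℝ} (hc : Tendsto c 𝓕 (𝓝 a))
    (hu : EigCv 𝓕 u f) : EigCv 𝓕 (fun M => c M • u M) (a • f) := by
  have h1 : Tendsto (fun M => |c M| * gr (u M - f) + |c M - a| * gr f) 𝓕 (𝓝 0) := by
    simpa using (hc.abs.mul hu.2).add ((hc.sub_const a).abs.mul_const (gr f))
  refine ⟨hc.smul hu.1, squeeze_zero (fun M => eig_gr_nonneg _) (fun M => ?_) h1⟩
  rw [show c M • u M - a • f = c M • (u M - f) + (c M - a) • f by module, ← gr_smul, ← gr_smul]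
  exact gr_add_le _ _

theorem EigCv.zero : EigCv 𝓕 (fun _ => (0 : W n)) 0 := by
  refine ⟨tendsto_const_nhds, ?_⟩
  have : gr (0 - 0 : W n) = 0 := by simp [gr]
  simp only [this]
  exact tendsto_const_nhds

theorem EigCv.sum {κ : Type*} (s : Finset κ) {u : κ → ι → W n} {f : κ → W n}
    (h : ∀ k ∈ s, EigCv 𝓕 (u k) (f k)) : EigCv 𝓕 (fun M => ∑ k ∈ s, u k M) (∑ k ∈ s, f k) := by
  classical
  induction s using Finset.induction_on with
  | empty => simpa using EigCv.zero
  | insert a s ha ih =>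
    simp only [Finset.sum_insert ha]
    exact (h a (Finset.mem_insert_self _ _)).add
      (ih fun k hk => h k (Finset.mem_insert_of_mem hk))

theorem EigCv.form (K : X n) {u w : ι → W n} {f g : W n} (hu : EigCv 𝓕 u f) (hw : EigCv 𝓕 w g) :
    Tendsto (fun M => form K (u M) (w M)) 𝓕 (𝓝 (form K f g)) := by
  have h0 : ∀ {a c : ι → W n}, Tendsto (fun M => gr (a M) * gr (c M)) 𝓕 (𝓝 0) →
      Tendsto (fun M => R202.form K (a M) (c M)) 𝓕 (𝓝 0) := fun {a c} h => by
    rw [tendsto_zero_iff_abs_tendsto_zero]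
    exact squeeze_zero (fun M => abs_nonneg _) (fun M => form_le K (a M) (c M))
      (by simpa using h.const_mul (n * ‖K‖))
  have h1 := h0 (a := fun M => u M - f) (c := fun M => w M - g) (by simpa using hu.2.mul hw.2)
  have h2 := h0 (a := fun M => u M - f) (c := fun _ => g) (by simpa using hu.2.mul_const (gr g))
  have h3 := h0 (a := fun _ => f) (c := fun M => w M - g) (by simpa using hw.2.const_mul (gr f))
  have h4 := ((h1.add h2).add h3).add_const (R202.form K f g)
  simp only [add_zero, zero_add] at h4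
  refine h4.congr fun M => ?_
  simp only [map_sub, LinearMap.sub_apply]
  ring

end Conv

/-- the Galerkin eigenpairs -/
theorem eig_gal (hn : 2 ≤ n) {ε : ℝ} (h : Good n ε) {b : BB n} (hb : ‖b‖ < ε) :
    ∃ (L : ℕ → ℕ → ℝ) (F : ℕ → ℕ → W n) (Λ : ℕ → ℝ),
      (∀ M i, i < nl n M → F M i ∈ Plt n M ∧
        (∀ w ∈ Plt n M, aB b (F M i) w = L M i * ⟪F M i, w⟫) ∧
        (∀ w ∈ Plt n M, (∀ j < i, ⟪F M j, w⟫ = 0) → L M i * ‖w‖ ^ 2 ≤ aB b w w) ∧
        ev n (levOf n i) / 3 ≤ L M i ∧ (levOf n i < M → L M i ≤ Λ i)) ∧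
      (∀ M i j, i < nl n M → j < nl n M → ⟪F M i, F M j⟫ = if i = j then 1 else 0) ∧
      (∀ M i j, i ≤ j → j < nl n M → L M i ≤ L M j) ∧
      ∀ (Λ' : ℝ) (s : ℕ), ∃ C : ℝ, ∀ M i, i < nl n M → |L M i| ≤ Λ' → sob M s (F M i) ≤ C := by
  set K := HX (iota b) with hK
  have hsym : ∀ (M : ℕ) (x y : PM n M), ⟪opA M K x, y⟫ = ⟪x, opA M K y⟫ := fun M x y => by
    rw [real_inner_comm (opA M K y), inner_opA, inner_opA, form_symm (HX_symm b)]
  choose φ lam hE using fun M => exists_eigB (finrank_PM (n := n) M) (opA M K) (hsym M)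
  refine ⟨fun M i => if h : i < nl n M then lam M ⟨i, h⟩ else 0,
    fun M i => if h : i < nl n M then incl M (φ M ⟨i, h⟩) else 0,
    fun i => ‖opA (levOf n i + 1) K‖, fun M i hi => ?_, fun M i j hi hj => ?_,
    fun M i j hij hj => ?_, fun Λ' s => ?_⟩
  · simp only [dif_pos hi]
    refine ⟨incl_mem _, fun w hw => ?_, fun w hw hw' => ?_, ?_, fun hM => ?_⟩
    · have h1 := inner_opA M K (φ M ⟨i, hi⟩) (PM.mk w hw)
      rw [(hE M).2, real_inner_smul_left, ← (incl M).inner_map_map, incl_mk] at h1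
      exact h1.symm
    · have h1 := (hE M).compl ⟨i, hi⟩ (PM.mk w hw) fun j hj => by
        have h2 := hw' j hj
        rw [dif_pos j.2] at h2
        rw [← (incl M).inner_map_map, incl_mk]
        exact h2
      rw [inner_opA, ← (incl M).norm_map, incl_mk] at h1
      exact h1
    · obtain ⟨Y, hY, hY'⟩ := (hE M).exists_test ⟨i, hi⟩
      have h1 : Module.finrank ℝ (Y.map (incl M).toLinearMap) = i + 1 := by
        rw [← (Y.equivMapOfInjective _ (incl M).injective).finrank_eq, hY]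
      have h2 := mu_le_of_test (q := form (PiX n)) form_PiX_nonneg (S := ⊤)
        (Y := Y.map (incl M).toLinearMap) (j := i + 1) (by omega) le_top h1.ge
        (s := 3 * lam M ⟨i, hi⟩) (by
          rintro _ ⟨y, hy, rfl⟩
          have h3 := hY' y hy
          rw [inner_opA, ← (incl M).norm_map] at h3
          have h4 := (aB_coer hn h hb (incl M y)).1
          change 1 / 3 * form (PiX n) (incl M y) (incl M y) ≤ form K (incl M y) (incl M y) at h4
          change form (PiX n) (incl M y) (incl M y) ≤ 3 * lam M ⟨i, hi⟩ * ‖incl M y‖ ^ 2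
          linarith)
      have h3 := round_lamv hn i
      unfold lamv at h3
      linarith
    · let ι : PM n (levOf n i + 1) →ₗ[ℝ] PM n M := Submodule.inclusion (Plt_mono hM)
      have hι : ∀ x, incl M (ι x) = incl _ x := fun _ => rfl
      have h1 : Module.finrank ℝ (LinearMap.range ι) = nl n (levOf n i + 1) :=
        (LinearMap.finrank_range_of_inj (Submodule.inclusion_injective _)).trans (finrank_PM _)
      refine (hE M).le_of_test ⟨i, hi⟩ (Y := LinearMap.range ι)
        (h1 ▸ ((levOf_spec hn i _).1 rfl).2) ?_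
      rintro _ ⟨x, rfl⟩
      rw [inner_opA, ← (incl M).norm_map, hι, ← inner_opA, (incl _).norm_map]
      calc ⟪opA _ K x, x⟫ ≤ ‖opA _ K x‖ * ‖x‖ := real_inner_le_norm _ _
        _ ≤ ‖opA (levOf n i + 1) K‖ * ‖x‖ * ‖x‖ := by
          gcongr; exact ContinuousLinearMap.le_opNorm _ _
        _ = _ := by ring
  · simp only [dif_pos hi, dif_pos hj]
    rw [(incl M).inner_map_map, orthonormal_iff_ite.1 (φ M).orthonormal]
    simp
  · simp only [dif_pos hj, dif_pos (hij.trans_lt hj)]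
    exact (hE M).1 (show (⟨i, hij.trans_lt hj⟩ : Fin (nl n M)) ≤ ⟨j, hj⟩ from hij)
  · obtain ⟨C, hC⟩ := gal_eig_sob hn h hb Λ' s
    refine ⟨C, fun M i hi hL => ?_⟩
    simp only [dif_pos hi] at hL ⊢
    exact hC M _ _ hL ((φ M).orthonormal.1 _) ((hE M).2 _)

/-- Take `𝒰 = hyperfilter ℕ`, Galerkin eigenpairs `(lam M i, φ M i)` (`exists_eigB`; junk for `i ≥ nl n M`).  `ev(levOf i)/3 ≤ lam M i ≤ 3 ev(levOf i)` for large `M`
(`exists_test`, `le_of_test`, `aB_coer`, `round_lamv`, `mu_le_of_test`).  Limits `lam i`, `φ i` (`rellich`); orthonormality and the eigen-equation against `prP M₀ w`, then `w`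
(`tendsto_prP`, `form_le`); complement bound through `w_M = prP M w - Σ_{j<i}⟪φ M j, w⟫ φ M j → w` in both norms. -/
theorem exists_eigSys (hn : 2 ≤ n) {ε : ℝ} (h : Good n ε) {b : BB n} (hb : ‖b‖ < ε) :
    ∃ lam φ, EigSys (aB b) lam φ := by
  obtain ⟨L, F, Λ, h1, h2, h3, h4⟩ := eig_gal hn h hb
  set 𝒰 : Ultrafilter ℕ := hyperfilter ℕ with h𝒰
  have hU : (𝒰 : Filter ℕ) ≤ atTop := Nat.hyperfilter_le_atTop
  have hev : ∀ i, ∀ᶠ M in (𝒰 : Filter ℕ), levOf n i < M ∧ i < nl n M := fun i => by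
    filter_upwards [hU (eventually_gt_atTop (levOf n i))] with M hM
    exact ⟨hM, ((levOf_spec hn i _).1 rfl).2.trans_le ((nl_strictMono hn).monotone hM)⟩
  have hmem : ∀ i, ∀ᶠ M in (𝒰 : Filter ℕ), L M i ∈ Icc (ev n (levOf n i) / 3) (Λ i) := fun i => by
    filter_upwards [hev i] with M hM
    exact ⟨(h1 M i hM.2).2.2.2.1, (h1 M i hM.2).2.2.2.2 hM.1⟩
  have hlam : ∀ i, ∃ x ∈ Icc (ev n (levOf n i) / 3) (Λ i), Tendsto (fun M => L M i) 𝒰 (𝓝 x) :=
    fun i => isCompact_Icc.ultrafilter_le_nhds (𝒰.map fun M => L M i)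
      (le_principal_iff.2 (hmem i))
  choose lam hlam1 hlam2 using hlam
  have hφ : ∀ i, ∃ f, EigCv 𝒰 (fun M => F M i) f := fun i => by
    obtain ⟨f, hf1, hf2⟩ := rellich hn 𝒰 (fun M => F M i) fun s => by
      obtain ⟨C, hC⟩ := h4 (max |ev n (levOf n i) / 3| |Λ i|) s
      refine ⟨C, ?_⟩
      filter_upwards [hev i, hmem i] with M hM hM'
      exact ⟨(h1 M i hM.2).1, hC M i hM.2 (abs_le_max_abs_abs hM'.1 hM'.2)⟩
    exact ⟨f, tendsto_iff_norm_sub_tendsto_zero.2 hf1, hf2⟩
  choose φ hφ using hφ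
  have hpr : ∀ w : W n, EigCv 𝒰 (fun M => prP M w) w := fun w => by
    obtain ⟨k1, k2⟩ := tendsto_prP w
    refine ⟨tendsto_iff_norm_sub_tendsto_zero.2 ((k1.mono_left hU).congr fun M => norm_sub_rev _ _),
      (k2.mono_left hU).congr fun M => ?_⟩
    rw [show prP M w - w = (-1 : ℝ) • (w - prP M w) by module, gr_smul]
    simp
  refine ⟨lam, φ, ⟨orthonormal_iff_ite.2 fun i j => ?_, fun i j hij => ?_, ?_, fun i w => ?_,
    fun i w hw => ?_⟩⟩
  · refine tendsto_nhds_unique ((hφ i).1.inner (hφ j).1) (tendsto_const_nhds.congr' ?_)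
    filter_upwards [hev i, hev j] with M hi hj
    exact (h2 M i j hi.2 hj.2).symm
  · refine le_of_tendsto_of_tendsto (hlam2 i) (hlam2 j) ?_
    filter_upwards [hev j] with M hj
    exact h3 M i j hij hj.2
  · obtain ⟨ψ, hψ, -⟩ := round_eigSys hn
    exact tendsto_atTop_mono (fun i => (hlam1 i).1) (hψ.tend.atTop_div_const (by norm_num))
  · refine tendsto_nhds_unique ((hφ i).form _ (hpr w))
      (((hlam2 i).mul ((hφ i).1.inner (hpr w).1)).congr' ?_)
    filter_upwards [hev i] with M hi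
    exact ((h1 M i hi.2).2.1 _ (prP_mem M w)).symm
  · have k1 : EigCv 𝒰 (fun M => prP M w +
        ∑ j ∈ Finset.range i, (-⟪F M j, prP M w⟫) • F M j) w := by
      have k2 := (hpr w).add (EigCv.sum (Finset.range i) fun j _ =>
        EigCv.smul ((hφ j).1.inner (𝕜 := ℝ) (hpr w).1).neg (hφ j))
      have k3 : ∑ j ∈ Finset.range i, (-⟪φ j, w⟫) • φ j = 0 :=
        Finset.sum_eq_zero fun j hj => by rw [hw j (Finset.mem_range.1 hj), neg_zero, zero_smul]
      rwa [k3, add_zero] at k2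
    refine le_of_tendsto_of_tendsto ((hlam2 i).mul (k1.1.norm.pow 2)) (k1.form _ k1) ?_
    filter_upwards [hev i] with M hi
    refine (h1 M i hi.2).2.2.1 _ (Submodule.add_mem _ (prP_mem M w) (Submodule.sum_mem _
      fun j hj => Submodule.smul_mem _ _ (h1 M j ((Finset.mem_range.1 hj).trans hi.2)).1))
      fun j hj => ?_
    rw [inner_add_right, inner_sum, Finset.sum_eq_single j]
    · rw [real_inner_smul_right, h2 M j j (hj.trans hi.2) (hj.trans hi.2)]
      simp
    · intro k hk hkj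
      rw [real_inner_smul_right, h2 M j k (hj.trans hi.2) ((Finset.mem_range.1 hk).trans hi.2),
        if_neg hkj.symm, mul_zero]
    · exact fun h => absurd (Finset.mem_range.2 hj) h

theorem fam (hn : 2 ≤ n) {ε : ℝ} (h : Good n ε) : Fam (aB : BB n → BF (W n)) daB ε :=
  fam_of_eig hn h fun _ hb => exists_eigSys hn h hb

end Crest.Agent.R202
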