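import Crest.Agent.R202.Inst

/-! # Row 202, Fam: the limit `M → ∞` of a family of controlled Galerkin solutions -/

set_option autoImplicit false
open scoped ContDiff RealInnerProductSpace
open Set Filter Topology MeasureTheory Crest.GeometryTopology.CoordMetric

noncomputable section
namespace Crest.Agent.R202

variable {n : ℕ}

lemma adm_bcurve {ε Z A ρ : ℝ} (hε : Good n ε) (hA : 0 < A) (hρ : 1 < ρ) {l : ℝ → ℝ} (hl : ContDiff ℝ ∞ l)
    (hl0 : ∀ t ≤ 0, l t = 0) (hZ : ∀ t, -Z ≤ l t) (w e : ℕ → BB n) (hw : (range w).Finite)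
    (he : (range e).Finite)
    (hs : ∀ m, ∀ x ∈ Icc (0 : ℝ) 1, ∀ θ ∈ Icc (-1 : ℝ) 1, ‖pt (w m) (w (m + 1)) (e m) x θ‖ < ε)
    {θ : ℕ → ℝ} (hθ : θ ∈ cube) : Adm ε l (bcurve A ρ w e θ) :=
  ⟨hε, hl, hl0, fun t ht => bcurve_zero hA hρ w e θ (ht.trans (by positivity)),
    (Kf_bounds hε hA hρ hl hZ w e hw he hs).1 θ hθ, bcurve_locFin hA hρ w e θ⟩

lemma isCompact_cube : IsCompact cube := by
  have : cube = Set.pi univ fun _ : ℕ => Icc (-1 : ℝ) 1 := by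
    ext θ; simp [cube, abs_le, Pi.le_def, forall_and]
  rw [this]
  exact isCompact_univ_pi fun _ => isCompact_Icc

lemma cube_ultra (𝒰 : Ultrafilter ℕ) (θ : ℕ → ℕ → ℝ) (hθ : ∀ M, θ M ∈ cube) :
    ∃ θI ∈ cube, Tendsto θ 𝒰 (𝓝 θI) := by
  obtain ⟨θI, hθI, hlim⟩ := isCompact_cube.ultrafilter_le_nhds (𝒰.map θ)
    (by rw [Ultrafilter.coe_map, le_principal_iff]; exact mem_map.2 (univ_mem' hθ))
  exact ⟨θI, hθI, hlim⟩

lemma W.norm_smul_sphere (u : W n) {x : E n} (hx : x ≠ 0) :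
    u x = u ((⟨‖x‖⁻¹ • x, by simp [norm_smul, hx]⟩ : Sp n) : E n) :=
  (u.homog (inv_pos.2 (norm_pos_iff.2 hx)) x).symm

lemma contDiff_eval (p : MvPolynomial (Fin n) ℝ) :
    ContDiff ℝ ∞ (fun y : E n => MvPolynomial.eval (fun i => y i) p) := by
  induction p using MvPolynomial.induction_on with
  | C a => simpa using contDiff_const
  | add p q hp hq => simpa using hp.add hq
  | mul_X p i hp =>
    simp only [map_mul, MvPolynomial.eval_X]
    exact hp.mul (by fun_prop)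

/-- uniform bounds of all derivatives on balls -/
lemma U_bounds (hn : 2 ≤ n) {l : ℝ → ℝ} (hl : ContDiff ℝ ∞ l) (u : ∀ M, ℝ → PM n M) (T : ℕ → ℝ)
    (hT : Tendsto T atTop atTop) (hu : ∀ M, ContDiff ℝ ∞ (u M))
    (hsob : ∀ (s a : ℕ) (T' : ℝ), ∃ C c' : ℝ, ∀ M, T' + c' ≤ T M → ∀ t ∈ Icc (-T') T',
      sob M s (incl M (iteratedDeriv a (u M) t)) ≤ C)
    (U : ℕ → E n → ℝ) (p : ℕ → ℕ → MvPolynomial (Fin n) ℝ)
    (h1 : ∀ M x, x ≠ 0 → U M x = varpi n l (Real.log ‖x‖) * incl M (u M (Real.log ‖x‖)) x)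
    (h2 : ∀ M j, (p M j).IsHomogeneous j ∧ toW (p M j) = lev j (incl M (u M 0)))
    (h3 : ∀ M (x : E n), ‖x‖ < 1 →
      U M x = ∑ j ∈ Finset.range M, MvPolynomial.eval (fun i => x i) (p M j)) (m : ℕ) (R : ℝ) :
    ∃ C : ℝ, ∀ᶠ M in atTop, ∀ x : E n, ‖x‖ ≤ R → ‖iteratedFDeriv ℝ m (U M) x‖ ≤ C := by
  set T' : ℝ := max 1 (Real.log R) with hT'
  have hT'1 : 1 ≤ T' := le_max_left _ _
  choose Cs cs hCs using fun a => hsob (m + n + 1) a T'
  obtain ⟨C₁, hC₁⟩ := poly_deriv_bound hn m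
  obtain ⟨C₂, hC₂⟩ := shell_bound hn hl m T'
  set S : ℝ := ∑ a ∈ Finset.range (m + 1), √(Cs a) with hS
  have hS0 : 0 ≤ S := Finset.sum_nonneg fun _ _ => Real.sqrt_nonneg _
  refine ⟨max (|C₁| * (2 * S)) (C₂ * S), ?_⟩
  have hev : ∀ᶠ M in atTop, ∀ a ∈ Finset.range (m + 1), T' + cs a ≤ T M :=
    (Finset.eventually_all _).2 fun a _ => hT.eventually_ge_atTop _
  filter_upwards [hev] with M hM x hx
  have hSa : ∀ a ≤ m, ∀ t ∈ Icc (-T') T', √(sob M (m + n + 1) (incl M (iteratedDeriv a (u M) t))) ≤ S :=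
    fun a ha t ht => (Real.sqrt_le_sqrt (hCs a M (hM a (Finset.mem_range.2 (by omega))) t ht)).trans
      (Finset.single_le_sum (f := fun a => √(Cs a)) (fun _ _ => Real.sqrt_nonneg _)
        (Finset.mem_range.2 (by omega)))
  by_cases hx1 : ‖x‖ < 1 / 2
  · refine le_trans ?_ (le_max_left _ _)
    have hev : U M =ᶠ[𝓝 x] fun y => ∑ j ∈ Finset.range M, MvPolynomial.eval (fun i => y i) (p M j) := by
      filter_upwards [Metric.isOpen_ball.mem_nhds (show x ∈ Metric.ball (0 : E n) 1 by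
        simp only [mem_ball_zero_iff]; linarith)] with y hy
      exact h3 M y (mem_ball_zero_iff.1 hy)
    rw [(hev.iteratedFDeriv ℝ m).eq_of_nhds, iteratedFDeriv_fun_sum_apply fun j _ =>
      ((contDiff_eval (p M j)).of_le (by exact_mod_cast le_top)).contDiffAt]
    refine (norm_sum_le _ _).trans ?_
    have hb : ∀ j ∈ Finset.range M,
        ‖iteratedFDeriv ℝ m (fun y : E n => MvPolynomial.eval (fun i => y i) (p M j)) x‖ ≤
          |C₁| * ((1 + (j : ℝ)) ^ (m + n) * ‖lev j (incl M (u M 0))‖) := fun j _ => by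
      have := hC₁ j (p M j) (h2 M j).1 (by rw [(h2 M j).2]; exact lev_mem _ _) x (by linarith)
      rw [(h2 M j).2, mul_assoc] at this
      exact this.trans (mul_le_mul_of_nonneg_right (le_abs_self _) (by positivity))
    refine (Finset.sum_le_sum hb).trans ?_
    rw [← Finset.mul_sum]
    refine mul_le_mul_of_nonneg_left ((sum_lev_le _ _ _).trans ?_) (abs_nonneg _)
    have := hSa 0 (Nat.zero_le _) 0 ⟨by linarith, by linarith⟩
    rw [iteratedDeriv_zero] at this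
    linarith
  · refine le_trans ?_ (le_max_right _ _)
    push Not at hx1
    have hx0 : x ≠ 0 := fun h => by rw [h, norm_zero] at hx1; linarith
    refine hC₂ M (u M) (U M) S (hu M) hS0 (h1 M) hSa x hx0 ⟨?_, ?_⟩
    · have : Real.log (1 / 2) ≤ Real.log ‖x‖ := Real.log_le_log (by norm_num) hx1
      have h2 : -1 ≤ Real.log (1 / 2) := by
        rw [one_div, Real.log_inv]; linarith [Real.log_two_lt_d9]
      linarith
    · exact (Real.log_le_log (by linarith) hx).trans (le_max_right _ _)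

/-- uniform convergence on spheres -/
lemma unif_sphere (𝒰 : Ultrafilter ℕ) (U : ℕ → E n → ℝ) (hU : ∀ M, ContDiff ℝ ∞ (U M)) (f : E n → ℝ)
    (hf : Continuous f)
    (hbd : ∀ m R, ∃ C : ℝ, ∀ᶠ M in 𝒰, ∀ x : E n, ‖x‖ ≤ R → ‖iteratedFDeriv ℝ m (U M) x‖ ≤ C)
    (hf2 : ∀ x, Tendsto (fun M => U M x) 𝒰 (𝓝 (f x))) (r : ℝ) (hr : 0 < r) (η : ℝ) (hη : 0 < η) :
    ∀ᶠ M in 𝒰, ∀ x : Sp n, |U M (r • (x : E n)) - f (r • (x : E n))| ≤ η := by
  obtain ⟨C₀, h0⟩ := hbd 0 r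
  obtain ⟨C₁, h1⟩ := hbd 1 r
  have hc : Continuous fun x : Sp n => r • (x : E n) := continuous_subtype_val.const_smul r
  let F : ℕ → CS n := fun M => ⟨fun x => U M (r • (x : E n)), (hU M).continuous.comp hc⟩
  let G : CS n := ⟨fun x => f (r • (x : E n)), hf.comp hc⟩
  have hl : Tendsto F 𝒰 (𝓝 G) := by
    refine integ_tendsto (C := (2 + r) * max C₀ C₁) 𝒰 F G ?_ fun x => hf2 _
    filter_upwards [h0, h1] with M a0 a1 x y
    have := lip_sphere (f := U M) (C := max C₀ C₁) hr (fun y _ hy =>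
      ⟨((hU M).differentiable (by simp)) y,
        by simpa using Or.inl (show |U M y| ≤ C₀ by simpa using a0 y hy),
        by simpa using Or.inr (show ‖fderiv ℝ (U M) y‖ ≤ C₁ by simpa using a1 y hy)⟩) x y
    exact this
  filter_upwards [hl (Metric.closedBall_mem_nhds G hη)] with M hM x
  have : dist (F M) G ≤ η := hM
  exact (ContinuousMap.dist_apply_le_dist x).trans this

/-- independence passes to the limit -/
lemma indep_limit {l : ℝ → ℝ} {A : ℝ} {N : ℕ} (u : ∀ M, Fin N → ℝ → PM n M) (U : ℕ → Fin N → E n → ℝ)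
    (f : Fin N → E n → ℝ) (F : Filter ℕ) [F.NeBot]
    (hU2 : ∀ M j x, x ≠ 0 → U M j x = varpi n l (Real.log ‖x‖) * incl M (u M j (Real.log ‖x‖)) x)
    (hf3 : ∀ j, ∀ r > (0 : ℝ), ∀ η > (0 : ℝ), ∀ᶠ M in F, ∀ x : Sp n,
      |U M j (r • (x : E n)) - f j (r • (x : E n))| ≤ η)
    (hind : ∀ᶠ M in F, ∀ (c : Fin N → ℝ) (j₀ : Fin N), (∀ j < j₀, c j = 0) →
      |c j₀| ≤ ‖∑ j, c j • u M j A‖) : LinearIndependent ℝ f := by
  rw [Fintype.linearIndependent_iff]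
  intro c hc
  by_contra hne
  push Not at hne
  classical
  obtain ⟨j₀, hj₀, hmin⟩ := (Finset.univ.filter fun j => c j ≠ 0).exists_min_image id
    (by obtain ⟨j, hj⟩ := hne; exact ⟨j, by simp [hj]⟩)
  have hc0 : c j₀ ≠ 0 := by simpa using hj₀
  have hlt : ∀ j < j₀, c j = 0 := fun j hj => by
    by_contra h
    exact absurd (hmin j (by simp [h])) (not_le.2 hj)
  obtain ⟨σ, hσe⟩ : ∃ σ : ℝ, σ = √((sig n).real univ) := ⟨_, rfl⟩
  have hσ : 0 ≤ σ := hσe ▸ Real.sqrt_nonneg _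
  obtain ⟨v, hve⟩ : ∃ v : ℝ, v = varpi n l A := ⟨_, rfl⟩
  have hv : 0 < v := hve ▸ Real.exp_pos _
  obtain ⟨Sc, hSe⟩ : ∃ Sc : ℝ, Sc = ∑ j, |c j| := ⟨_, rfl⟩
  have hSc : 0 ≤ Sc := hSe ▸ Finset.sum_nonneg fun _ _ => abs_nonneg _
  have hc0' : 0 < |c j₀| := abs_pos.2 hc0
  obtain ⟨η, hη⟩ : ∃ η : ℝ, η = |c j₀| * v / (2 * (σ * Sc + 1)) := ⟨_, rfl⟩
  have hη0 : 0 < η := by rw [hη]; positivity
  have e1 : ∀ᶠ M in F, ∀ j, ∀ x : Sp n,
      |U M j (Real.exp A • (x : E n)) - f j (Real.exp A • (x : E n))| ≤ η :=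
    eventually_all.2 fun j => hf3 j _ (Real.exp_pos A) η hη0
  obtain ⟨M, hM1, hM2⟩ := (e1.and hind).exists
  have h1 := hM2 c j₀ hlt
  rw [← (incl M).norm_map] at h1
  have h2 := norm_le_sup (incl M (∑ j, c j • u M j A))
  rw [← hσe] at h2
  have h3 : ‖res (incl M (∑ j, c j • u M j A))‖ ≤ Sc * η / v := by
    refine (ContinuousMap.norm_le _ (by positivity)).2 fun x => ?_
    have hx : Real.exp A • (x : E n) ≠ 0 := smul_ne_zero (Real.exp_pos A).ne' (Sp.ne_zero x)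
    have hlog : Real.log ‖Real.exp A • (x : E n)‖ = A := by
      rw [norm_smul, Sp.norm_eq, mul_one, Real.norm_of_nonneg (Real.exp_pos A).le, Real.log_exp]
    have hUj : ∀ j, U M j (Real.exp A • (x : E n)) = v * incl M (u M j A) x := fun j => by
      rw [hU2 M j _ hx, hlog, W.homog _ (Real.exp_pos A), hve]
    have hf0 : ∑ j, c j * f j (Real.exp A • (x : E n)) = 0 := by
      simpa using congrFun hc (Real.exp A • (x : E n))
    have : v * res (incl M (∑ j, c j • u M j A)) x =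
        ∑ j, c j * (U M j (Real.exp A • (x : E n)) - f j (Real.exp A • (x : E n))) := by
      rw [res_apply, map_sum, W.sum_apply]
      simp only [mul_sub, Finset.sum_sub_distrib, hf0, sub_zero, hUj, map_smul,
        W.smul_apply, Finset.mul_sum]
      exact Finset.sum_congr rfl fun j _ => by ring
    rw [Real.norm_eq_abs, le_div_iff₀ hv, mul_comm, ← abs_of_pos hv, ← abs_mul, this, hSe, Finset.sum_mul]
    refine (Finset.abs_sum_le_sum_abs _ _).trans (Finset.sum_le_sum fun j _ => ?_)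
    rw [abs_mul]
    exact mul_le_mul_of_nonneg_left (hM1 j x) (abs_nonneg _)
  have h4 : |c j₀| ≤ σ * (Sc * η / v) := h1.trans (h2.trans (mul_le_mul_of_nonneg_left h3 hσ))
  have h5 : σ * (Sc * η / v) = |c j₀| * (σ * Sc / (2 * (σ * Sc + 1))) := by
    rw [hη]; field_simp
  have h6 : σ * Sc / (2 * (σ * Sc + 1)) < 1 := by
    rw [div_lt_one (by positivity)]; nlinarith [mul_nonneg hσ hSc]
  nlinarith

/-- polynomial growth passes to the limit -/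
lemma growth_limit (hn : 2 ≤ n) {l : ℝ → ℝ} {Z : ℝ} (hZ : ∀ t, -Z ≤ l t) (k : ℕ) (u : ∀ M, ℝ → PM n M)
    (U : ℕ → E n → ℝ) (f : E n → ℝ) (F : Filter ℕ) [F.NeBot] (hF : F ≤ atTop) (T : ℕ → ℝ)
    (hT : Tendsto T atTop atTop)
    (hU2 : ∀ M x, x ≠ 0 → U M x = varpi n l (Real.log ‖x‖) * incl M (u M (Real.log ‖x‖)) x)
    (hf2 : ∀ x, Tendsto (fun M => U M x) F (𝓝 (f x)))
    (hbd : ∃ C : ℝ, ∀ᶠ M in F, ∀ x : E n, ‖x‖ ≤ 1 → ‖iteratedFDeriv ℝ 0 (U M) x‖ ≤ C)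
    (hreg : ∃ C c' : ℝ, ∀ M, ∀ t ≤ T M - c', sob M (0 + n + 1) (incl M (u M t)) ≤
      C * Real.exp (2 * (k + ((n : ℝ) - 2) / 2) * max t 0)) :
    ∃ C : ℝ, ∀ x, |f x| ≤ C * (1 + ‖x‖) ^ k := by
  have hn' : (2 : ℝ) ≤ n := by exact_mod_cast hn
  obtain ⟨κ, hκ⟩ : ∃ κ : ℝ, κ = k + ((n : ℝ) - 2) / 2 := ⟨_, rfl⟩
  rw [← hκ] at hreg
  obtain ⟨C₁, hC₁⟩ := hbd
  obtain ⟨C₂, c₂, hC₂⟩ := hreg
  obtain ⟨C₃, hC₃⟩ := sup_word hn 0
  refine ⟨max |C₁| (|C₃| * √C₂ * Real.exp (((n : ℝ) - 1) * Z / 2)), fun x => ?_⟩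
  have hpow : 1 ≤ (1 + ‖x‖) ^ k := one_le_pow₀ (by linarith [norm_nonneg x])
  refine le_of_tendsto ((continuous_abs.tendsto _).comp (hf2 x)) ?_
  by_cases hx1 : ‖x‖ ≤ 1
  · filter_upwards [hC₁] with M hM
    have := hM x hx1
    rw [norm_iteratedFDeriv_zero, Real.norm_eq_abs] at this
    calc |U M x| ≤ |C₁| * 1 := by rw [mul_one]; exact this.trans (le_abs_self _)
      _ ≤ _ := mul_le_mul (le_max_left _ _) hpow zero_le_one ((abs_nonneg _).trans (le_max_left _ _))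
  · push Not at hx1
    have hx0 : x ≠ 0 := fun h => by rw [h, norm_zero] at hx1; linarith
    obtain ⟨t, ht⟩ : ∃ t, t = Real.log ‖x‖ := ⟨_, rfl⟩
    have ht0 : 0 ≤ t := ht ▸ (Real.log_pos hx1).le
    filter_upwards [hF (hT.eventually_ge_atTop (t + c₂))] with M hM
    have a1 := hC₂ M t (by linarith)
    rw [max_eq_left ht0] at a1
    have a2 := hC₃ M _ (incl_mem (u M t)) [] rfl ⟨‖x‖⁻¹ • x, by simp [norm_smul, hx0]⟩
    have a3 : √(sob M (0 + n + 1) (incl M (u M t))) ≤ √C₂ * Real.exp (κ * t) := by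
      refine (Real.sqrt_le_sqrt a1).trans (le_of_eq ?_)
      rw [Real.sqrt_mul' _ (Real.exp_pos _).le, show 2 * κ * t = κ * t + κ * t by ring, Real.exp_add,
        Real.sqrt_mul_self (Real.exp_pos _).le]
    have a4 : |incl M (u M t) x| ≤ |C₃| * (√C₂ * Real.exp (κ * t)) := by
      rw [W.norm_smul_sphere _ hx0]
      exact a2.trans (mul_le_mul (le_abs_self _) a3 (Real.sqrt_nonneg _) (abs_nonneg _))
    have a5 : varpi n l t * Real.exp (κ * t) ≤ Real.exp (((n : ℝ) - 1) * Z / 2) * (1 + ‖x‖) ^ k := by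
      have : ‖x‖ ^ k = Real.exp (k * t) := by
        rw [ht, Real.exp_nat_mul, Real.exp_log (by linarith)]
      calc varpi n l t * Real.exp (κ * t)
          = Real.exp (-(((n : ℝ) - 1) * l t / 2)) * ‖x‖ ^ k := by
            rw [this, varpi, ← Real.exp_add, ← Real.exp_add, hκ]; congr 1; ring
        _ ≤ _ := mul_le_mul (Real.exp_le_exp.2 (by nlinarith [hZ t]))
            (pow_le_pow_left₀ (norm_nonneg _) (by linarith) k) (by positivity) (Real.exp_pos _).le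
    simp only [Function.comp]
    rw [hU2 M x hx0, ← ht, abs_mul, abs_of_pos (show 0 < varpi n l t from Real.exp_pos _)]
    calc varpi n l t * |incl M (u M t) x| ≤ varpi n l t * (|C₃| * (√C₂ * Real.exp (κ * t))) :=
          mul_le_mul_of_nonneg_left a4 (Real.exp_pos _).le
      _ = |C₃| * √C₂ * (varpi n l t * Real.exp (κ * t)) := by ring
      _ ≤ |C₃| * √C₂ * (Real.exp (((n : ℝ) - 1) * Z / 2) * (1 + ‖x‖) ^ k) :=
          mul_le_mul_of_nonneg_left a5 (by positivity)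
      _ = |C₃| * √C₂ * Real.exp (((n : ℝ) - 1) * Z / 2) * (1 + ‖x‖) ^ k := by ring
      _ ≤ _ := mul_le_mul_of_nonneg_right (le_max_right _ _) (by positivity)

theorem harm_family (hn : 2 ≤ n) {ε Z A ρ : ℝ} (hε : Good n ε) (hA : 0 < A) (hρ : 1 < ρ) {l : ℝ → ℝ}
    (hl : ContDiff ℝ ∞ l) (hl0 : ∀ t ≤ 0, l t = 0) (hZ : ∀ t, -Z ≤ l t ∧ l t ≤ 0)
    (hq0 : ∀ t, 0 ≤ qf n l t) (w e : ℕ → BB n) (hw : (range w).Finite) (he : (range e).Finite)
    (hs : ∀ m, ∀ x ∈ Icc (0 : ℝ) 1, ∀ θ ∈ Icc (-1 : ℝ) 1, ‖pt (w m) (w (m + 1)) (e m) x θ‖ < ε)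
    (N k : ℕ) (θ : ℕ → ℕ → ℝ) (hθ : ∀ M, θ M ∈ cube) (u u' : ∀ M, Fin N → ℝ → PM n M) (T : ℕ → ℝ)
    (hT : Tendsto T atTop atTop)
    (hu : ∀ M j, Sol (BM M l (bcurve A ρ w e (θ M))) (u M j) (u' M j) ∧ RegLev M (u M j 0) (u' M j 0))
    (C₀ : ℝ) (hT0 : ∀ M, 0 ≤ T M)
    (hb : ∀ M j t, 0 ≤ t → t ≤ T M → ‖u M j t‖ ≤ C₀ * Real.exp ((k + ((n : ℝ) - 2) / 2) * t))
    (hind : ∀ᶠ M in atTop, ∀ (c : Fin N → ℝ) (j₀ : Fin N), (∀ j < j₀, c j = 0) →
      |c j₀| ≤ ‖∑ j, c j • u M j A‖) :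
    ∃ θI ∈ cube, ∃ f : Fin N → E n → ℝ, LinearIndependent ℝ f ∧
      ∀ j, IsHarmonicOn (metric l (bcurve A ρ w e θI)) univ (f j) ∧
        ∃ C : ℝ, ∀ x, |f j x| ≤ C * (1 + ‖x‖) ^ k := by
  have hn' : (2 : ℝ) ≤ n := by exact_mod_cast hn
  have hκ0 : 0 ≤ (k : ℝ) + ((n : ℝ) - 2) / 2 := by have : (0 : ℝ) ≤ k := Nat.cast_nonneg k; linarith
  have hadm : ∀ θ' ∈ cube, Adm ε l (bcurve A ρ w e θ') := fun θ' h =>
    adm_bcurve hε hA hρ hl hl0 (fun t => (hZ t).1) w e hw he hs h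
  obtain ⟨-, k1, k2, k3⟩ := Kf_bounds hε hA hρ hl (fun t => (hZ t).1) w e hw he hs
  obtain ⟨𝒰, h𝒰⟩ : ∃ 𝒰 : Ultrafilter ℕ, (𝒰 : Filter ℕ) ≤ atTop := ⟨hyperfilter ℕ, Nat.hyperfilter_le_atTop⟩
  obtain ⟨θI, hθI, hlim'⟩ := cube_ultra 𝒰 θ hθ
  have hbl : ∀ t, Tendsto (fun M => bcurve A ρ w e (θ M) t) 𝒰 (𝓝 (bcurve A ρ w e θI t)) := fun t => by
    have h1 : Continuous fun θ' : ℕ → ℝ => bcurve A ρ w e θ' t :=
      (bcurve_continuous hA hρ w e).comp (f := fun θ' : ℕ → ℝ => (θ', t)) (by fun_prop)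
    exact (h1.tendsto θI).comp hlim'
  have hreg := fun j : Fin N => reg hn (fun M => Kf l (bcurve A ρ w e (θ M))) (qf n l) (1 / 3) (k + ((n : ℝ) - 2) / 2) C₀
    (by norm_num) hκ0 (qf_props hn hl).1 hq0 (fun M => (hadm _ (hθ M)).Kf_smooth)
    (fun M t w' => (hadm _ (hθ M)).Kf_coer hn (fun t => (hZ t).2) t w') (fun M t i => k1 _ (hθ M) t i)
    (fun π j => (k2 π j).imp fun C hC M t => hC _ (hθ M) t)
    (fun π i j T => (k3 π i j T).imp fun C hC M t ht => hC _ (hθ M) t ht)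
    (fun M => u M j) (fun M => u' M j) T (fun M => (hu M j).1)
    (fun M t ht => by
      rcases le_total 0 t with h | h
      · rw [max_eq_left h]; exact hb M j t h ht
      · rw [max_eq_right h]
        exact (sol_neg hn (hadm _ (hθ M)) (hu M j).1 (hu M j).2 h).2.trans (hb M j 0 le_rfl (hT0 M)))
  choose U p hU1 hU2 hU3 hU4 using fun M j => exists_U hn (hadm _ (hθ M)) (hu M j).1 (hu M j).2
  have hbd : ∀ j m R, ∃ C : ℝ, ∀ᶠ M in 𝒰, ∀ x : E n, ‖x‖ ≤ R → ‖iteratedFDeriv ℝ m (U M j) x‖ ≤ C :=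
    fun j m R => (U_bounds hn hl (fun M => u M j) T hT
      (fun M => (Sol.contDiff ((hadm _ (hθ M)).BM_smooth hn M) (hu M j).1).1) (hreg j).2
      (fun M => U M j) (fun M => p M j) (fun M => hU2 M j) (fun M => hU3 M j) (fun M => hU4 M j)
      m R).imp fun C hC => h𝒰 hC
  choose f hf1 hf2 hf3 using fun j => limit_harmonic hn (hadm θI hθI) 𝒰 h𝒰
    (fun M => bcurve A ρ w e (θ M)) hbl (fun M => U M j) (fun M => hU1 M j) (hbd j)
    (fun M t w' hw' => weak_eq hn (hadm _ (hθ M)) (hu M j).1 (hU1 M j) (hU2 M j) t hw')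
  exact ⟨θI, hθI, f, indep_limit u U f 𝒰 hU2 (fun j r hr η hη => unif_sphere 𝒰 (fun M => U M j)
    (fun M => hU1 M j) (f j) (contDiffOn_univ.1 (hf1 j).1).continuous (hbd j) (hf2 j) r hr η hη) (h𝒰 hind), fun j => ⟨hf1 j,
    growth_limit hn (fun t => (hZ t).1) k (fun M => u M j) (fun M => U M j) (f j) 𝒰 h𝒰 T hT
      (fun M => hU2 M j) (hf2 j) (hbd j 0 1) ((hreg j).1 _)⟩⟩

end Crest.Agent.R202
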