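import Crest.Agent.R202.GDefs

/-! # Row 202, Flags: linear algebra helpers (narrow flags depending continuously on a parameter) -/

set_option autoImplicit false
open scoped RealInnerProductSpace
open Set Filter

noncomputable section
namespace Crest.Agent.R202

abbrev VN (N : ℕ) := EuclideanSpace ℝ (Fin N)

variable {N : ℕ}

lemma fl_lo_add_hi (q : ℕ) (x : VN N) : loN q x + hiN q x = ‖x‖ ^ 2 := by
  unfold loN hiN
  rw [← Finset.sum_add_distrib, EuclideanSpace.real_norm_sq_eq]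
  refine Finset.sum_congr rfl fun i _ => ?_
  by_cases h : (i : ℕ) < q
  · simp [h, not_le.2 h]
  · simp [h, not_lt.1 h]

lemma fl_lo_nonneg (q : ℕ) (x : VN N) : 0 ≤ loN q x :=
  Finset.sum_nonneg fun i _ => by split_ifs <;> positivity

lemma fl_hi_nonneg (q : ℕ) (x : VN N) : 0 ≤ hiN q x :=
  Finset.sum_nonneg fun i _ => by split_ifs <;> positivity

lemma fl_lo_le (q : ℕ) (x : VN N) : loN q x ≤ ‖x‖ ^ 2 := by
  have := fl_lo_add_hi q x
  have := fl_hi_nonneg q x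
  linarith

lemma fl_hi_le (q : ℕ) (x : VN N) : hiN q x ≤ ‖x‖ ^ 2 := by
  have := fl_lo_add_hi q x
  have := fl_lo_nonneg q x
  linarith

lemma fl_lo_succ (a : Fin N) (x : VN N) : loN ((a : ℕ) + 1) x = loN a x + x a ^ 2 := by
  unfold loN
  have : x a ^ 2 = ∑ i : Fin N, if i = a then x i ^ 2 else 0 := by simp
  rw [this, ← Finset.sum_add_distrib]
  refine Finset.sum_congr rfl fun i _ => ?_
  by_cases h : i = a
  · subst h; simp
  · have h' : (i : ℕ) ≠ a := fun e => h (Fin.ext e)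
    by_cases h2 : (i : ℕ) < a
    · simp [h, h2, Nat.lt_succ_of_lt h2]
    · have h3 : ¬ (i : ℕ) < a + 1 := by omega
      simp [h, h2, h3]

lemma fl_hi_succ (a : Fin N) (x : VN N) : hiN a x = x a ^ 2 + hiN ((a : ℕ) + 1) x := by
  have h1 := fl_lo_succ a x
  have h2 := fl_lo_add_hi a x
  have h3 := fl_lo_add_hi ((a : ℕ) + 1) x
  linarith

lemma fl_lo_zero (x : VN N) : loN 0 x = 0 := by simp [loN]

lemma fl_hi_top {q : ℕ} (hq : N ≤ q) (x : VN N) : hiN q x = 0 := by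
  refine Finset.sum_eq_zero fun i _ => ?_
  have := i.2
  rw [if_neg (by omega)]

lemma fl_lo_add_le (q : ℕ) (x y : VN N) : loN q (x + y) ≤ 2 * loN q x + 2 * loN q y := by
  unfold loN
  rw [Finset.mul_sum, Finset.mul_sum, ← Finset.sum_add_distrib]
  refine Finset.sum_le_sum fun i _ => ?_
  split_ifs
  · rw [PiLp.add_apply]
    nlinarith [sq_nonneg (x i - y i)]
  · simp

lemma fl_lo_sub_le (q : ℕ) (x y : VN N) : loN q (x - y) ≤ 2 * loN q x + 2 * loN q y := by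
  unfold loN
  rw [Finset.mul_sum, Finset.mul_sum, ← Finset.sum_add_distrib]
  refine Finset.sum_le_sum fun i _ => ?_
  split_ifs
  · rw [PiLp.sub_apply]
    nlinarith [sq_nonneg (x i + y i)]
  · simp

lemma fl_hi_sub_le (q : ℕ) (x y : VN N) : hiN q (x - y) ≤ 2 * hiN q x + 2 * hiN q y := by
  unfold hiN
  rw [Finset.mul_sum, Finset.mul_sum, ← Finset.sum_add_distrib]
  refine Finset.sum_le_sum fun i _ => ?_
  split_ifs
  · rw [PiLp.sub_apply]
    nlinarith [sq_nonneg (x i + y i)]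
  · simp

lemma fl_hi_congr {q : ℕ} {x y : VN N} (h : ∀ i : Fin N, q ≤ (i : ℕ) → x i = y i) :
    hiN q x = hiN q y := by
  refine Finset.sum_congr rfl fun i _ => ?_
  split_ifs with hi
  · rw [h i hi]
  · rfl

lemma fl_hi_eq_zero {q : ℕ} {x : VN N} (h : ∀ i : Fin N, q ≤ (i : ℕ) → x i = 0) :
    hiN q x = 0 := by
  refine Finset.sum_eq_zero fun i _ => ?_
  split_ifs with hi
  · rw [h i hi]; simp
  · rfl

lemma fl_norm_sub_sq_le (x y : VN N) : ‖x - y‖ ^ 2 ≤ 2 * ‖x‖ ^ 2 + 2 * ‖y‖ ^ 2 := by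
  have h := norm_sub_le x y
  have h0 := norm_nonneg (x - y)
  nlinarith [sq_nonneg (‖x‖ - ‖y‖), norm_nonneg x, norm_nonneg y]

lemma fl_eq_zero {x : VN N} {t : ℝ} (ht : t < 1) (h : ‖x‖ ^ 2 ≤ t * ‖x‖ ^ 2) : x = 0 := by
  have h0 : 0 ≤ ‖x‖ ^ 2 := sq_nonneg _
  have : ‖x‖ ^ 2 = 0 := by nlinarith
  simpa using this

/-- continuous solution of a continuous family of nondegenerate linear systems -/
lemma fl_solve {Θ : Type*} [TopologicalSpace Θ] (A : Θ → Fin N → (VN N →L[ℝ] ℝ))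
    (hA : ∀ i, Continuous fun θ => A θ i) (hinj : ∀ θ x, (∀ i, A θ i x = 0) → x = 0)
    (b : Fin N → ℝ) : ∃ X : Θ → VN N, Continuous X ∧ ∀ θ i, A θ i (X θ) = b i := by
  classical
  let M : Θ → Matrix (Fin N) (Fin N) ℝ := fun θ =>
    Matrix.of fun i j => A θ i (EuclideanSpace.single j 1)
  have hM : Continuous M := continuous_matrix fun i j => (hA i).clm_apply continuous_const
  have hmul : ∀ θ (v : Fin N → ℝ) i, A θ i (WithLp.toLp 2 v) = (M θ).mulVec v i := by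
    intro θ v i
    have : (WithLp.toLp 2 v : VN N) = ∑ j, v j • EuclideanSpace.single j (1 : ℝ) := by
      ext k
      simp [Pi.single_apply]
    rw [this, map_sum]
    simp only [map_smul, smul_eq_mul, Matrix.mulVec, dotProduct, M, Matrix.of_apply]
    exact Finset.sum_congr rfl fun j _ => mul_comm _ _
  have hdet : ∀ θ, (M θ).det ≠ 0 := by
    intro θ h
    obtain ⟨v, hv, hv0⟩ := Matrix.exists_mulVec_eq_zero_iff.2 h
    have := hinj θ (WithLp.toLp 2 v) fun i => by rw [hmul, hv0]; rfl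
    exact hv (by simpa using congrArg WithLp.ofLp this)
  refine ⟨fun θ => WithLp.toLp 2 ((M θ).det⁻¹ • (M θ).adjugate.mulVec b), ?_, fun θ i => ?_⟩
  · exact (PiLp.continuous_toLp 2 _).comp
      ((hM.matrix_det.inv₀ hdet).smul (hM.matrix_adjugate.matrix_mulVec continuous_const))
  · rw [hmul, Matrix.mulVec_smul, Matrix.mulVec_mulVec, Matrix.mul_adjugate, Matrix.smul_mulVec,
      Matrix.one_mulVec, smul_smul, inv_mul_cancel₀ (hdet θ), one_smul]

lemma fl_solve' (A : Fin N → (VN N →L[ℝ] ℝ)) (hinj : ∀ x, (∀ i, A i x = 0) → x = 0)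
    (b : Fin N → ℝ) : ∃ X : VN N, ∀ i, A i X = b i := by
  obtain ⟨X, -, hX⟩ := fl_solve (Θ := Unit) (fun _ => A) (fun _ => continuous_const)
    (fun _ => hinj) b
  exact ⟨X (), hX ()⟩

lemma fl_seq {α : Type*} (J : ℕ) (P : ℕ → α → Prop) (R : ℕ → α → α → Prop) (a : α) (h0 : P 0 a)
    (hs : ∀ m < J, ∀ x, P m x → ∃ y, P (m + 1) y ∧ R m x y) :
    ∃ f : ℕ → α, f 0 = a ∧ (∀ m ≤ J, P m (f m)) ∧ ∀ m < J, R m (f m) (f (m + 1)) := by
  have : Nonempty α := ⟨a⟩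
  choose! g hg using hs
  let f : ℕ → α := fun m => Nat.rec a (fun m x => g m x) m
  have hP : ∀ m ≤ J, P m (f m) := by
    intro m
    induction m with
    | zero => exact fun _ => h0
    | succ m ih => exact fun hm => (hg m hm (f m) (ih (by omega))).1
  exact ⟨f, rfl, hP, fun m hm => (hg m hm (f m) (hP m hm.le)).2⟩

/-- the upper flag cut out by a family of functionals -/
def FU (ℓ : Fin N → (VN N →L[ℝ] ℝ)) (q : ℕ) (x : VN N) : Prop :=
  ∀ i : Fin N, (i : ℕ) < q → ℓ i x = 0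
/-- the lower flag cut out by a family of functionals -/
def FS (ℓ : Fin N → (VN N →L[ℝ] ℝ)) (q : ℕ) (x : VN N) : Prop :=
  ∀ i : Fin N, q ≤ (i : ℕ) → ℓ i x = 0

section
variable {ℓ : Fin N → (VN N →L[ℝ] ℝ)} {q q' : ℕ} {x y : VN N}
lemma FU.mono (h : FU ℓ q x) (hq : q' ≤ q) : FU ℓ q' x := fun i hi => h i (by omega)
lemma FS.mono (h : FS ℓ q x) (hq : q ≤ q') : FS ℓ q' x := fun i hi => h i (by omega)
lemma FU.add (h : FU ℓ q x) (h' : FU ℓ q y) : FU ℓ q (x + y) := fun i hi => by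
  rw [map_add, h i hi, h' i hi, add_zero]
lemma FS.add (h : FS ℓ q x) (h' : FS ℓ q y) : FS ℓ q (x + y) := fun i hi => by
  rw [map_add, h i hi, h' i hi, add_zero]
lemma FU.sub (h : FU ℓ q x) (h' : FU ℓ q y) : FU ℓ q (x - y) := fun i hi => by
  rw [map_sub, h i hi, h' i hi, sub_zero]
lemma FS.sub (h : FS ℓ q x) (h' : FS ℓ q y) : FS ℓ q (x - y) := fun i hi => by
  rw [map_sub, h i hi, h' i hi, sub_zero]
lemma FU.smul (h : FU ℓ q x) (s : ℝ) : FU ℓ q (s • x) := fun i hi => by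
  rw [map_smul, h i hi, smul_zero]
lemma FS.smul (h : FS ℓ q x) (s : ℝ) : FS ℓ q (s • x) := fun i hi => by
  rw [map_smul, h i hi, smul_zero]
lemma FU.zero : FU ℓ q 0 := fun i _ => map_zero _
lemma FS.zero : FS ℓ q 0 := fun i _ => map_zero _
end

/-- one step of the cone condition for narrow vectors -/
lemma fl_cone_step {η : ℝ} (hη : 0 < η) (hη' : η ≤ 1 / 1000) {d d' : VN N →L[ℝ] VN N}
    (hinj : Function.Injective d) {q : ℕ} {x : VN N}
    (hx : loN q (d x) ≤ 11 * η * ‖d x‖ ^ 2)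
    (cone : 1 ≤ q → q < N → η * ‖d x‖ ^ 2 < hiN q (d x) → loN q (d' x) ≤ η * ‖d' x‖ ^ 2) :
    loN q (d' x) ≤ η * ‖d' x‖ ^ 2 := by
  by_cases hx0 : x = 0
  · subst hx0
    simp [loN]
  have hd : d x ≠ 0 := fun h => hx0 (hinj (by rw [h, map_zero]))
  have hpos : 0 < ‖d x‖ ^ 2 := by positivity
  have hs := fl_lo_add_hi q (d x)
  rcases Nat.eq_zero_or_pos q with rfl | hq
  · rw [fl_lo_zero]; positivity
  by_cases hN : q < N
  · exact cone hq hN (by nlinarith)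
  · rw [fl_hi_top (not_lt.1 hN)] at hs
    nlinarith

/-- the step of the flag construction -/
lemma fl_step {Θ : Type*} [TopologicalSpace Θ] {η : ℝ} (hη : 0 < η) (hη' : η ≤ 1 / 1000)
    (d d' : Θ → VN N →L[ℝ] VN N) (hd' : Continuous d')
    (hinj : ∀ θ, Function.Injective (d θ)) (hinj' : ∀ θ, Function.Injective (d' θ))
    (sw : Prop) (p : ℕ) (hsw : sw → 1 ≤ p ∧ p < N)
    (cone : ∀ θ q, 1 ≤ q → q < N → ¬(sw ∧ q = p) →
      ∀ x, η * ‖d θ x‖ ^ 2 < hiN q (d θ x) → loN q (d' θ x) ≤ η * ‖d' θ x‖ ^ 2)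
    (ℓ : Θ → Fin N → (VN N →L[ℝ] ℝ)) (hℓ : ∀ i, Continuous fun θ => ℓ θ i)
    (hn : ∀ θ q x, FU (ℓ θ) q x → loN q (d θ x) ≤ 11 * η * ‖d θ x‖ ^ 2) :
    ∃ ℓ' : Θ → Fin N → (VN N →L[ℝ] ℝ), ((∀ i, Continuous fun θ => ℓ' θ i) ∧
      ∀ θ q x, FU (ℓ' θ) q x → loN q (d' θ x) ≤ 11 * η * ‖d' θ x‖ ^ 2) ∧
      ∀ θ q, ¬(sw ∧ q = p) → ∀ x, FU (ℓ' θ) q x ↔ FU (ℓ θ) q x := by
  classical
  have K : ∀ θ q, ¬(sw ∧ q = p) → ∀ x, FU (ℓ θ) q x → loN q (d' θ x) ≤ η * ‖d' θ x‖ ^ 2 :=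
    fun θ q hq x hx => fl_cone_step hη hη' (hinj θ) (hn θ q x hx)
      fun h1 h2 => cone θ q h1 h2 hq x
  have K' : ∀ θ q, ¬(sw ∧ q = p) → ∀ x, FU (ℓ θ) q x →
      loN q (d' θ x) ≤ 11 * η * ‖d' θ x‖ ^ 2 := fun θ q hq x hx => by
    have := K θ q hq x hx
    nlinarith [sq_nonneg ‖d' θ x‖]
  by_cases hs : sw
  swap
  · exact ⟨ℓ, ⟨hℓ, fun θ q x hx => K' θ q (fun h => hs h.1) x hx⟩, fun _ _ _ _ => Iff.rfl⟩
  obtain ⟨hp1, hpN⟩ := hsw hs
  let a : Fin N := ⟨p - 1, by omega⟩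
  let b : Fin N := ⟨p, hpN⟩
  have ha : (a : ℕ) = p - 1 := rfl
  have hb : (b : ℕ) = p := rfl
  have hab : a ≠ b := fun h => by have := congrArg Fin.val h; omega
  -- the vector `X`
  obtain ⟨X, hXc, hX⟩ := fl_solve
    (fun θ i => if (i : ℕ) < p - 1 then ℓ θ i else EuclideanSpace.proj i ∘L d' θ)
    (fun i => by
      split_ifs
      · exact hℓ i
      · exact continuous_const.clm_comp hd')
    (fun θ x hx => by
      have h1 : FU (ℓ θ) (p - 1) x := fun i hi => by simpa [hi] using hx i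
      have h2 : hiN (p - 1) (d' θ x) = 0 := fl_hi_eq_zero fun i hi => by
        simpa [not_lt.2 hi] using hx i
      have h3 := K θ (p - 1) (by omega) x h1
      have h4 := fl_lo_add_hi (p - 1) (d' θ x)
      have h5 : d' θ x = 0 := fl_eq_zero (t := η) (by linarith) (by linarith)
      exact hinj' θ (by rw [h5, map_zero]))
    (Pi.single b 1)
  have hXU : ∀ θ, FU (ℓ θ) (p - 1) (X θ) := fun θ i hi => by
    have hib : i ≠ b := fun h => by have := congrArg Fin.val h; omega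
    simpa [hi, hib] using hX θ i
  have hXco : ∀ θ (i : Fin N), p - 1 ≤ (i : ℕ) → d' θ (X θ) i = if i = b then 1 else 0 :=
    fun θ i hi => by simpa [not_lt.2 hi, Pi.single_apply] using hX θ i
  let α : Θ → ℝ := fun θ => ℓ θ a (X θ)
  let β : Θ → ℝ := fun θ => ℓ θ b (X θ)
  have hα : Continuous α := (hℓ a).clm_apply hXc
  have hβ : Continuous β := (hℓ b).clm_apply hXc
  have hUp : ∀ θ x, FU (ℓ θ) (p - 1) x → ℓ θ a x = 0 → ℓ θ b x = 0 → FU (ℓ θ) (p + 1) x := by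
    intro θ x h1 h2 h3 i hi
    by_cases hia : i = a
    · rw [hia, h2]
    by_cases hib : i = b
    · rw [hib, h3]
    have : (i : ℕ) ≠ p - 1 := fun h => hia (Fin.ext h)
    have : (i : ℕ) ≠ p := fun h => hib (Fin.ext h)
    exact h1 i (by omega)
  have hne : ∀ θ, α θ ^ 2 + β θ ^ 2 ≠ 0 := by
    intro θ h
    have h1 : α θ = 0 := by nlinarith [sq_nonneg (α θ), sq_nonneg (β θ)]
    have h2 : β θ = 0 := by nlinarith [sq_nonneg (α θ), sq_nonneg (β θ)]
    have h3 := K θ (p + 1) (by omega) _ (hUp θ _ (hXU θ) h1 h2)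
    have h4 : hiN (p + 1) (d' θ (X θ)) = 0 := fl_hi_eq_zero fun i hi => by
      rw [hXco θ i (by omega), if_neg fun h => by have := congrArg Fin.val h; omega]
    have h5 := fl_lo_add_hi (p + 1) (d' θ (X θ))
    have h6 : d' θ (X θ) = 0 := fl_eq_zero (t := η) (by linarith) (by linarith)
    have h7 := hXco θ b (by omega)
    rw [h6] at h7
    simp at h7
  let ℓ' : Θ → Fin N → (VN N →L[ℝ] ℝ) := fun θ i =>
    if i = a then β θ • ℓ θ a - α θ • ℓ θ b else if i = b then α θ • ℓ θ a + β θ • ℓ θ b else ℓ θ i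
  have hla : ∀ θ x, ℓ' θ a x = β θ * ℓ θ a x - α θ * ℓ θ b x := fun θ x => by simp [ℓ']
  have hlb : ∀ θ x, ℓ' θ b x = α θ * ℓ θ a x + β θ * ℓ θ b x := fun θ x => by
    simp [ℓ', hab.symm]
  have hlo : ∀ θ i, i ≠ a → i ≠ b → ℓ' θ i = ℓ θ i := fun θ i h1 h2 => by simp [ℓ', h1, h2]
  have hiff : ∀ θ q, q ≠ p → ∀ x, FU (ℓ' θ) q x ↔ FU (ℓ θ) q x := by
    intro θ q hq x
    rcases lt_or_gt_of_ne hq with hq | hq
    · refine forall_congr' fun i => forall_congr' fun hi => ?_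
      rw [hlo θ i (fun h => by have := congrArg Fin.val h; omega)
        (fun h => by have := congrArg Fin.val h; omega)]
    · constructor
      · intro h i hi
        have h1 := h a (by omega)
        have h2 := h b (by omega)
        rw [hla] at h1
        rw [hlb] at h2
        by_cases hia : i = a
        · rw [hia]
          refine (mul_eq_zero.1 ?_).resolve_left (hne θ)
          linear_combination β θ * h1 + α θ * h2
        by_cases hib : i = b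
        · rw [hib]
          refine (mul_eq_zero.1 ?_).resolve_left (hne θ)
          linear_combination (-α θ) * h1 + β θ * h2
        rw [← hlo θ i hia hib]
        exact h i hi
      · intro h i hi
        have h1 := h a (by omega)
        have h2 := h b (by omega)
        by_cases hia : i = a
        · rw [hia, hla, h1, h2]; ring
        by_cases hib : i = b
        · rw [hib, hlb, h1, h2]; ring
        rw [hlo θ i hia hib]
        exact h i hi
  refine ⟨ℓ', ⟨fun i => ?_, fun θ q z hz => ?_⟩, fun θ q hq x => hiff θ q (fun h => hq ⟨hs, h⟩) x⟩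
  · simp only [ℓ']
    split_ifs
    · exact (hβ.smul (hℓ a)).sub (hα.smul (hℓ b))
    · exact (hα.smul (hℓ a)).add (hβ.smul (hℓ b))
    · exact hℓ i
  by_cases hq : q = p
  swap
  · exact K' θ q (fun h => hq h.2) z ((hiff θ q hq z).1 hz)
  subst hq
  have hz1 : FU (ℓ θ) (q - 1) z := (hiff θ (q - 1) (by omega) z).1 (hz.mono (by omega))
  have hz2 := hz a (by omega)
  rw [hla] at hz2
  set s : ℝ := (ℓ θ a z * α θ + ℓ θ b z * β θ) / (α θ ^ 2 + β θ ^ 2) with hs'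
  have hs2 : s * (α θ ^ 2 + β θ ^ 2) = ℓ θ a z * α θ + ℓ θ b z * β θ := by
    rw [hs', div_mul_cancel₀ _ (hne θ)]
  have hv : FU (ℓ θ) (q - 1) (s • X θ) := (hXU θ).smul s
  have hw : FU (ℓ θ) (q + 1) (z - s • X θ) := by
    refine hUp θ _ (hz1.sub hv) ?_ ?_
    · rw [map_sub, map_smul, smul_eq_mul]
      refine (mul_eq_zero.1 ?_).resolve_left (hne θ)
      change (α θ ^ 2 + β θ ^ 2) * (ℓ θ a z - s * α θ) = 0
      linear_combination β θ * hz2 - α θ * hs2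
    · rw [map_sub, map_smul, smul_eq_mul]
      refine (mul_eq_zero.1 ?_).resolve_left (hne θ)
      change (α θ ^ 2 + β θ ^ 2) * (ℓ θ b z - s * β θ) = 0
      linear_combination (-α θ) * hz2 - β θ * hs2
  have k1 := K θ (q - 1) (by omega) _ hv
  have k2 := K θ (q + 1) (by omega) _ hw
  set v := d' θ (s • X θ) with hv'
  set w := d' θ (z - s • X θ) with hw'
  have hzw : d' θ z = w + v := by rw [hw', hv', ← map_add, sub_add_cancel]
  have hvco : ∀ i : Fin N, q - 1 ≤ (i : ℕ) → i ≠ b → v i = 0 := fun i h1 h2 => by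
    rw [hv', map_smul, PiLp.smul_apply, hXco θ i h1, if_neg h2, smul_zero]
  have e1 : loN q v = loN (q - 1) v := by
    have := fl_lo_succ a v
    rw [hvco a (by omega) hab, ha, Nat.sub_add_cancel hp1] at this
    simpa using this
  have e2 : loN q w ≤ loN (q + 1) w := by
    have := fl_lo_succ b w
    rw [hb] at this
    nlinarith [sq_nonneg (w b)]
  have e3 : hiN (q + 1) (d' θ z) = hiN (q + 1) w := fl_hi_congr fun i hi => by
    rw [hzw, PiLp.add_apply, hvco i (by omega) (fun h => by have := congrArg Fin.val h; omega),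
      add_zero]
  have e4 := fl_lo_add_hi (q + 1) w
  have e5 := fl_hi_le (q + 1) (d' θ z)
  have e6 : ‖v‖ ^ 2 ≤ 2 * ‖d' θ z‖ ^ 2 + 2 * ‖w‖ ^ 2 := by
    have : v = d' θ z - w := by rw [hzw]; abel
    rw [this]
    exact fl_norm_sub_sq_le _ _
  have e7 := fl_lo_add_le q w v
  rw [← hzw] at e7
  have e8 : ‖w‖ ^ 2 ≤ 7 / 6 * ‖d' θ z‖ ^ 2 := by nlinarith [sq_nonneg ‖w‖]
  have e9 : η * ‖w‖ ^ 2 ≤ η * (7 / 6 * ‖d' θ z‖ ^ 2) := mul_le_mul_of_nonneg_left e8 hη.le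
  have e10 : η * ‖v‖ ^ 2 ≤ η * (2 * ‖d' θ z‖ ^ 2 + 2 * ‖w‖ ^ 2) :=
    mul_le_mul_of_nonneg_left e6 hη.le
  nlinarith

/-- upper flags, built forwards -/
lemma fl_up {Θ : Type*} [TopologicalSpace Θ] {η : ℝ} (hη : 0 < η) (hη' : η ≤ 1 / 1000) (J : ℕ)
    (d : Θ → ℕ → VN N →L[ℝ] VN N) (hd : ∀ m ≤ J, Continuous fun θ => d θ m)
    (hinj : ∀ θ, ∀ m ≤ J, Function.Injective (d θ m))
    (sw : ℕ → Prop) (pos : ℕ → ℕ) (hsw : ∀ m < J, sw m → 1 ≤ pos m ∧ pos m < N)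
    (cone : ∀ θ, ∀ m < J, ∀ q, 1 ≤ q → q < N → ¬(sw m ∧ q = pos m) →
      ∀ x, η * ‖d θ m x‖ ^ 2 < hiN q (d θ m x) →
        loN q (d θ (m + 1) x) ≤ η * ‖d θ (m + 1) x‖ ^ 2) :
    ∃ ℓ : ℕ → Θ → Fin N → (VN N →L[ℝ] ℝ), (∀ θ i x, ℓ 0 θ i x = d θ 0 x i) ∧
      (∀ m ≤ J, ∀ i, Continuous fun θ => ℓ m θ i) ∧
      (∀ m ≤ J, ∀ θ q x, FU (ℓ m θ) q x → loN q (d θ m x) ≤ 11 * η * ‖d θ m x‖ ^ 2) ∧
      ∀ m < J, ∀ θ q, ¬(sw m ∧ q = pos m) → ∀ x, FU (ℓ (m + 1) θ) q x ↔ FU (ℓ m θ) q x := by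
  obtain ⟨f, f0, fP, fR⟩ := fl_seq J
    (fun m (ℓ : Θ → Fin N → (VN N →L[ℝ] ℝ)) => (∀ i, Continuous fun θ => ℓ θ i) ∧
      ∀ θ q x, FU (ℓ θ) q x → loN q (d θ m x) ≤ 11 * η * ‖d θ m x‖ ^ 2)
    (fun m ℓ ℓ' => ∀ θ q, ¬(sw m ∧ q = pos m) → ∀ x, FU (ℓ' θ) q x ↔ FU (ℓ θ) q x)
    (fun θ i => EuclideanSpace.proj i ∘L d θ 0)
    ⟨fun i => continuous_const.clm_comp (hd 0 (Nat.zero_le _)), fun θ q x hx => by
      have : loN q (d θ 0 x) = 0 := Finset.sum_eq_zero fun i _ => by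
        split_ifs with hi
        · have h : d θ 0 x i = 0 := hx i hi
          rw [h]; simp
        · rfl
      rw [this]; positivity⟩
    (fun m hm ℓ hℓ => fl_step hη hη' (fun θ => d θ m) (fun θ => d θ (m + 1)) (hd (m + 1) hm)
      (fun θ => hinj θ m hm.le) (fun θ => hinj θ (m + 1) hm) (sw m) (pos m) (hsw m hm)
      (fun θ => cone θ m hm) ℓ hℓ.1 hℓ.2)
  exact ⟨f, fun θ i x => by rw [f0]; rfl, fun m hm => (fP m hm).1, fun m hm => (fP m hm).2, fR⟩

/-- reversal of the coordinates -/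
def flRev (N : ℕ) : VN N ≃ₗᵢ[ℝ] VN N := LinearIsometryEquiv.piLpCongrLeft 2 ℝ ℝ Fin.revPerm

lemma flRev_apply (x : VN N) (i : Fin N) : flRev N x i = x i.rev := rfl

lemma fl_lo_rev {q : ℕ} (hq : q ≤ N) (x : VN N) : loN q (flRev N x) = hiN (N - q) x := by
  unfold loN hiN
  rw [← Equiv.sum_comp Fin.revPerm]
  refine Finset.sum_congr rfl fun i _ => ?_
  have := i.2
  simp only [flRev_apply, Fin.revPerm_apply, Fin.rev_rev, Fin.val_rev]
  refine if_congr (by omega) rfl rfl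

lemma fl_hi_rev {q : ℕ} (hq : q ≤ N) (x : VN N) : hiN q (flRev N x) = loN (N - q) x := by
  have h1 := fl_lo_rev hq x
  have h2 := fl_lo_add_hi q (flRev N x)
  have h3 := fl_lo_add_hi (N - q) x
  rw [LinearIsometryEquiv.norm_map] at h2
  linarith

/-- lower flags, built backwards -/
lemma fl_down {Θ : Type*} [TopologicalSpace Θ] {η : ℝ} (hη : 0 < η) (hη' : η ≤ 1 / 1000) (J : ℕ)
    (d : Θ → ℕ → VN N →L[ℝ] VN N) (hd : ∀ m ≤ J, Continuous fun θ => d θ m)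
    (hinj : ∀ θ, ∀ m ≤ J, Function.Injective (d θ m))
    (sw : ℕ → Prop) (pos : ℕ → ℕ) (hsw : ∀ m < J, sw m → 1 ≤ pos m ∧ pos m < N)
    (cone : ∀ θ, ∀ m < J, ∀ q, 1 ≤ q → q < N → ¬(sw m ∧ q = pos m) →
      ∀ x, η * ‖d θ m x‖ ^ 2 < hiN q (d θ m x) →
        loN q (d θ (m + 1) x) ≤ η * ‖d θ (m + 1) x‖ ^ 2) :
    ∃ ℓ : ℕ → Θ → Fin N → (VN N →L[ℝ] ℝ),
      (∀ m ≤ J, ∀ i, Continuous fun θ => ℓ m θ i) ∧
      (∀ m ≤ J, ∀ θ q x, FS (ℓ m θ) q x → hiN q (d θ m x) ≤ 11 * η * ‖d θ m x‖ ^ 2) ∧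
      ∀ m < J, ∀ θ q, ¬(sw m ∧ q = pos m) → ∀ x, FS (ℓ (m + 1) θ) q x ↔ FS (ℓ m θ) q x := by
  let R : VN N →L[ℝ] VN N := (flRev N).toContinuousLinearEquiv.toContinuousLinearMap
  have hR : ∀ x, R x = flRev N x := fun _ => rfl
  obtain ⟨ℓ, -, hc, hn, he⟩ := fl_up hη hη' J (fun θ m => R ∘L d θ (J - m))
    (fun m _ => continuous_const.clm_comp (hd _ (Nat.sub_le _ _)))
    (fun θ m _ => (flRev N).injective.comp (hinj θ _ (Nat.sub_le _ _)))
    (fun m => sw (J - 1 - m)) (fun m => N - pos (J - 1 - m))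
    (fun m hm h => by have := hsw (J - 1 - m) (by omega) h; omega)
    (fun θ m hm q h1 h2 h3 x hx => by
      simp only [ContinuousLinearMap.comp_apply, hR, LinearIsometryEquiv.norm_map,
        fl_lo_rev h2.le, fl_hi_rev h2.le] at hx ⊢
      by_contra hlt
      have e1 : J - (m + 1) = J - 1 - m := by omega
      have e2 : J - m = J - 1 - m + 1 := by omega
      rw [e1] at hlt
      rw [e2] at hx
      have := cone θ (J - 1 - m) (by omega) (N - q) (by omega) (by omega)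
        (fun h => h3 ⟨h.1, by omega⟩) x (not_le.1 hlt)
      linarith)
  have hF : ∀ (L : Fin N → (VN N →L[ℝ] ℝ)) q, q ≤ N → ∀ x,
      FS (fun i => L i.rev) q x ↔ FU L (N - q) x := by
    intro L q hq x
    constructor
    · intro h i hi
      have := h i.rev (by rw [Fin.val_rev]; omega)
      simpa using this
    · intro h i hi
      exact h i.rev (by have := i.2; rw [Fin.val_rev]; omega)
  refine ⟨fun m θ i => ℓ (J - m) θ i.rev, fun m _ i => hc _ (Nat.sub_le _ _) _,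
    fun m hm θ q x hx => ?_, fun m hm θ q hq x => ?_⟩
  · by_cases hq : q ≤ N
    · have := hn (J - m) (Nat.sub_le _ _) θ (N - q) x ((hF _ q hq x).1 hx)
      simp only [ContinuousLinearMap.comp_apply, hR, LinearIsometryEquiv.norm_map,
        fl_lo_rev (Nat.sub_le N q), Nat.sub_sub_self hq, Nat.sub_sub_self hm] at this
      exact this
    · rw [fl_hi_top (by omega)]; positivity
  · by_cases hqN : q ≤ N
    · rw [hF _ q hqN, hF _ q hqN]
      have e1 : J - 1 - (J - (m + 1)) = m := by omega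
      have e2 : J - m = J - (m + 1) + 1 := by omega
      rw [e2]
      refine (he (J - (m + 1)) (by omega) θ (N - q) ?_ x).symm
      rw [e1]
      rintro ⟨h1, h2⟩
      have := hsw m hm h1
      exact hq ⟨h1, by omega⟩
    · constructor <;> intro _ i hi <;> have := i.2 <;> omega

end Crest.Agent.R202
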