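import Crest.Agent.R202.GDefs
import Crest.Agent.R202.FlagsAux
import Crest.Agent.Lib.Brouwer.Basic

/-! # Row 202, Flags: exact swaps by the Poincaré–Miranda theorem -/

set_option autoImplicit false
open scoped RealInnerProductSpace
open Set Filter

noncomputable section
namespace Crest.Agent.R202

/-- Poincaré–Miranda on the first `J` coordinates (`Crest.Agent.Lib.Brouwer.brouwer` on `[-1,1]^J ⊂ (Fin J → ℝ)`
for `θ ↦ clamp (θ - F θ)`, extending `θ` by `0` to `ℕ → ℝ`). -/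
theorem miranda (J : ℕ) (F : (ℕ → ℝ) → ℕ → ℝ) (hF : ∀ m < J, ContinuousOn (fun θ => F θ m) cube)
    (hs : ∀ m < J, ∀ θ ∈ cube, |θ m| = 1 → 0 < θ m * F θ m) :
    ∃ θ ∈ cube, ∀ m < J, F θ m = 0 := by
  classical
  let ex : (Fin J → ℝ) → ℕ → ℝ := fun t m => if h : m < J then t ⟨m, h⟩ else 0
  have hex : Continuous ex := continuous_pi fun m => by
    by_cases h : m < J
    · simpa only [ex, dif_pos h] using continuous_apply _
    · simpa only [ex, dif_neg h] using continuous_const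
  have hmem : ∀ t ∈ Icc (-1 : Fin J → ℝ) 1, ex t ∈ cube := by
    intro t ht m
    by_cases h : m < J
    · simp only [ex, dif_pos h]
      exact abs_le.2 ⟨ht.1 _, ht.2 _⟩
    · simp [ex, dif_neg h]
  obtain ⟨t, ht, hfix⟩ := Crest.Agent.Lib.Brouwer.brouwer (K := Icc (-1 : Fin J → ℝ) 1)
    ⟨0, fun i => by simp, fun i => by simp⟩ isCompact_Icc (convex_Icc _ _)
    (fun t i => max (-1) (min 1 (t i - F (ex t) i)))
    (continuousOn_pi.2 fun i => continuousOn_const.sup (continuousOn_const.inf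
      ((continuous_apply i).continuousOn.sub ((hF i i.2).comp hex.continuousOn hmem))))
    (fun t _ => ⟨fun i => le_max_left _ _, fun i => max_le (by simp) (min_le_left _ _)⟩)
  refine ⟨ex t, hmem t ht, fun m hm => ?_⟩
  have h1 : max (-1) (min 1 (t ⟨m, hm⟩ - F (ex t) m)) = t ⟨m, hm⟩ := congrFun hfix ⟨m, hm⟩
  have h2 := hs m hm (ex t) (hmem t ht)
  have h3 : ex t m = t ⟨m, hm⟩ := by simp only [ex, dif_pos hm]
  rw [h3] at h2
  rcases lt_trichotomy (F (ex t) m) 0 with h | h | h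
  · have h4 : t ⟨m, hm⟩ = 1 := by
      have h5 : min 1 (t ⟨m, hm⟩ - F (ex t) m) ≤ t ⟨m, hm⟩ :=
        (le_max_right _ _).trans h1.le
      have h6 : t ⟨m, hm⟩ ≤ 1 := ht.2 _
      rcases min_le_iff.1 h5 with h7 | h7 <;> linarith
    rw [h4] at h2
    have := h2 abs_one
    linarith
  · exact h
  · have h4 : t ⟨m, hm⟩ = -1 := by
      rcases max_choice (-1) (min 1 (t ⟨m, hm⟩ - F (ex t) m)) with h5 | h5
      · rw [← h1, h5]
      · have h6 := min_le_right 1 (t ⟨m, hm⟩ - F (ex t) m)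
        linarith
    rw [h4] at h2
    have := h2 (by simp)
    linarith

section Tok
variable {N : ℕ} {η : ℝ}

/-- the line `U k ∩ S (k+1)` is a graph over the coordinate `k` -/
lemma fl_line_inj (hη' : η ≤ 1 / 1000) {y : VN N} (k : Fin N)
    (h1 : loN k y ≤ 11 * η * ‖y‖ ^ 2) (h2 : hiN ((k : ℕ) + 1) y ≤ 11 * η * ‖y‖ ^ 2) :
    (1 - 22 * η) * ‖y‖ ^ 2 ≤ y k ^ 2 := by
  have h3 := fl_lo_add_hi ((k : ℕ) + 1) y
  have h4 := fl_lo_succ k y
  linarith

/-- a continuous vector of the line `U k ∩ S (k+1)` with `k`-th coordinate `1` -/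
lemma fl_line {Θ : Type*} [TopologicalSpace Θ] (hη' : η ≤ 1 / 1000)
    (d : Θ → VN N →L[ℝ] VN N) (hd : Continuous d) (hinj : ∀ θ, Function.Injective (d θ))
    (U S : Θ → Fin N → (VN N →L[ℝ] ℝ)) (hU : ∀ i, Continuous fun θ => U θ i)
    (hS : ∀ i, Continuous fun θ => S θ i) (k : Fin N)
    (hnU : ∀ θ x, FU (U θ) k x → loN k (d θ x) ≤ 11 * η * ‖d θ x‖ ^ 2)
    (hnS : ∀ θ x, FS (S θ) ((k : ℕ) + 1) x → hiN ((k : ℕ) + 1) (d θ x) ≤ 11 * η * ‖d θ x‖ ^ 2) :
    ∃ Y : Θ → VN N, Continuous Y ∧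
      ∀ θ, FU (U θ) k (Y θ) ∧ FS (S θ) ((k : ℕ) + 1) (Y θ) ∧ d θ (Y θ) k = 1 := by
  classical
  obtain ⟨Y, hYc, hY⟩ := fl_solve
    (fun θ i => if (i : ℕ) < k then U θ i else if i = k then EuclideanSpace.proj k ∘L d θ
      else S θ i)
    (fun i => by
      split_ifs
      · exact hU i
      · exact continuous_const.clm_comp hd
      · exact hS i)
    (fun θ x hx => by
      have h1 : FU (U θ) k x := fun i hi => by simpa [hi] using hx i
      have h2 : FS (S θ) ((k : ℕ) + 1) x := fun i hi => by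
        have e1 : ¬ (i : ℕ) < k := by omega
        have e2 : i ≠ k := fun h => by have := congrArg Fin.val h; omega
        simpa [e1, e2] using hx i
      have h3 : d θ x k = 0 := by simpa using hx k
      have h4 := fl_line_inj hη' k (hnU θ x h1) (hnS θ x h2)
      rw [h3] at h4
      have h5 : d θ x = 0 := fl_eq_zero (t := 22 * η) (by linarith) (by linarith)
      exact hinj θ (by rw [h5, map_zero]))
    (Pi.single k 1)
  refine ⟨Y, hYc, fun θ => ⟨fun i hi => ?_, fun i hi => ?_, by simpa using hY θ k⟩⟩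
  · have e2 : i ≠ k := fun h => by have := congrArg Fin.val h; omega
    simpa [hi, e2] using hY θ i
  · have e1 : ¬ (i : ℕ) < k := by omega
    have e2 : i ≠ k := fun h => by have := congrArg Fin.val h; omega
    simpa [e1, e2] using hY θ i

/-- splitting a vector of `U (p-1) ∩ S (p+1)` along the two lines -/
lemma fl_split (hη : 0 < η) (hη' : η ≤ 1 / 1000) (d : VN N →L[ℝ] VN N)
    (hinj : Function.Injective d) (U S : Fin N → (VN N →L[ℝ] ℝ)) (p : ℕ) (hp : 1 ≤ p)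
    (hnU : ∀ x, FU U p x → loN p (d x) ≤ 11 * η * ‖d x‖ ^ 2)
    (hnS : ∀ x, FS S p x → hiN p (d x) ≤ 11 * η * ‖d x‖ ^ 2)
    {x : VN N} (h1 : FU U (p - 1) x) (h2 : FS S (p + 1) x) :
    ∃ v v' : VN N, x = v + v' ∧ FU U (p - 1) v ∧ FS S p v ∧ FU U p v' ∧ FS S (p + 1) v' ∧
      ‖d v‖ ≤ 3 * ‖d x‖ ∧ ‖d v'‖ ≤ 3 * ‖d x‖ := by
  obtain ⟨v, hv⟩ := fl_solve' (fun i => if (i : ℕ) < p then U i else S i)
    (fun x hx => by
      have e1 : FU U p x := fun i hi => by simpa [hi] using hx i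
      have e2 : FS S p x := fun i hi => by simpa [not_lt.2 hi] using hx i
      have e3 := hnU x e1
      have e4 := hnS x e2
      have e5 := fl_lo_add_hi p (d x)
      have h5 : d x = 0 := fl_eq_zero (t := 22 * η) (by linarith) (by linarith)
      exact hinj (by rw [h5, map_zero]))
    (fun i => if (i : ℕ) < p then U i x else 0)
  have a1 : ∀ i : Fin N, (i : ℕ) < p → U i v = U i x := fun i hi => by simpa [hi] using hv i
  have a2 : FS S p v := fun i hi => by simpa [not_lt.2 hi] using hv i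
  have a3 : FU U p (x - v) := fun i hi => by rw [map_sub, a1 i hi, sub_self]
  have b1 := hnS v a2
  have b2 := hnU _ a3
  have b3 := fl_lo_add_hi p (d v)
  have b4 := fl_lo_add_hi p (d (x - v))
  have b5 : loN p (d v) ≤ 2 * loN p (d x) + 2 * loN p (d (x - v)) := by
    have := fl_lo_sub_le p (d x) (d (x - v))
    rwa [← map_sub, sub_sub_cancel] at this
  have b6 : hiN p (d (x - v)) ≤ 2 * hiN p (d x) + 2 * hiN p (d v) := by
    have := fl_hi_sub_le p (d x) (d v)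
    rwa [← map_sub] at this
  have b7 := fl_lo_add_hi p (d x)
  have b8 : η * ‖d v‖ ^ 2 ≤ 1 / 1000 * ‖d v‖ ^ 2 := mul_le_mul_of_nonneg_right hη' (sq_nonneg _)
  have b9 : η * ‖d (x - v)‖ ^ 2 ≤ 1 / 1000 * ‖d (x - v)‖ ^ 2 :=
    mul_le_mul_of_nonneg_right hη' (sq_nonneg _)
  have c0 : ‖d v‖ ^ 2 + ‖d (x - v)‖ ^ 2 ≤ (3 * ‖d x‖) ^ 2 := by
    nlinarith [sq_nonneg ‖d v‖, sq_nonneg ‖d (x - v)‖, sq_nonneg ‖d x‖]
  refine ⟨v, x - v, by abel, fun i hi => by rw [a1 i (by omega), h1 i hi], a2, a3,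
    h2.sub (a2.mono (Nat.le_succ _)), ?_, ?_⟩
  · exact (pow_le_pow_iff_left₀ (norm_nonneg _) (by positivity) two_ne_zero).1
      (by nlinarith [sq_nonneg ‖d (x - v)‖])
  · exact (pow_le_pow_iff_left₀ (norm_nonneg _) (by positivity) two_ne_zero).1
      (by nlinarith [sq_nonneg ‖d v‖])

/-- the token induction for a fixed control with exact swaps -/
lemma fl_tokens (hη : 0 < η) (hη' : η ≤ 1 / 1000) (J : ℕ) (d : ℕ → VN N →L[ℝ] VN N)
    (hinj : ∀ m ≤ J, Function.Injective (d m)) (sw : ℕ → Prop) (pos : ℕ → ℕ)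
    (hsw : ∀ m < J, sw m → 1 ≤ pos m ∧ pos m < N)
    (U S : ℕ → Fin N → (VN N →L[ℝ] ℝ))
    (hnU : ∀ m ≤ J, ∀ q x, FU (U m) q x → loN q (d m x) ≤ 11 * η * ‖d m x‖ ^ 2)
    (hnS : ∀ m ≤ J, ∀ q x, FS (S m) q x → hiN q (d m x) ≤ 11 * η * ‖d m x‖ ^ 2)
    (heU : ∀ m < J, ∀ q, ¬(sw m ∧ q = pos m) → ∀ x, FU (U (m + 1)) q x ↔ FU (U m) q x)
    (heS : ∀ m < J, ∀ q, ¬(sw m ∧ q = pos m) → ∀ x, FS (S (m + 1)) q x ↔ FS (S m) q x)
    (hex : ∀ m < J, sw m → ∀ x, FU (U m) (pos m) x → FS (S m) (pos m + 1) x →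
      FS (S (m + 1)) (pos m) x)
    (g : ℕ → ℕ → ℝ) (hg : ∀ m q, 0 ≤ g m q)
    (grow : ∀ m < J, ∀ q, 1 ≤ q → q ≤ N → ¬(sw m ∧ q = pos m) → ∀ x,
      (q < N → η * ‖d (m + 1) x‖ ^ 2 < loN q (d (m + 1) x)) → ‖d (m + 1) x‖ ≤ g m q * ‖d m x‖)
    (Eb : ℕ → ℕ → ℝ) (hE : Rec N sw pos g Eb) (j : Fin N) (y : VN N)
    (h1 : FU (U 0) j y) (h2 : FS (S 0) ((j : ℕ) + 1) y) (h3 : ‖d 0 y‖ ≤ 2) :
    ∀ m ≤ J, ∃ z : ℕ → VN N, y = ∑ k ∈ Finset.range N, z k ∧
      ∀ k < N, FU (U m) k (z k) ∧ FS (S m) (k + 1) (z k) ∧ ‖d m (z k)‖ ≤ Eb m k := by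
  classical
  intro m
  induction m with
  | zero =>
    intro _
    refine ⟨fun k => if k = j then y else 0, by simp, fun k hk => ?_⟩
    have := hE.init k hk
    by_cases h : k = j
    · subst h
      simp only [if_true]
      exact ⟨h1, h2, by linarith⟩
    · simp only [if_neg h]
      exact ⟨FU.zero, FS.zero, by rw [map_zero, norm_zero]; linarith⟩
  | succ m ih =>
    intro hm
    obtain ⟨z, hz, hT⟩ := ih (by omega)
    by_cases hs : sw m
    swap
    · refine ⟨z, hz, fun k hk => ?_⟩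
      obtain ⟨t1, t2, t3⟩ := hT k hk
      have t2' := (heS m hm (k + 1) (fun h => hs h.1) _).2 t2
      refine ⟨(heU m hm k (fun h => hs h.1) _).2 t1, t2', ?_⟩
      refine le_trans ?_ ((mul_le_mul_of_nonneg_left t3 (hg m (k + 1))).trans (hE.stay m hs k hk))
      by_cases h0 : d (m + 1) (z k) = 0
      · rw [h0, norm_zero]
        exact mul_nonneg (hg _ _) (norm_nonneg _)
      refine grow m hm (k + 1) (by omega) hk (fun h => hs h.1) _ fun _ => ?_
      have e1 := hnS (m + 1) hm _ _ t2'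
      have e2 := fl_lo_add_hi (k + 1) (d (m + 1) (z k))
      have e3 : 0 < ‖d (m + 1) (z k)‖ ^ 2 := by positivity
      nlinarith
    obtain ⟨hp1, hpN⟩ := hsw m hm hs
    have hgr : ∀ x, ‖d (m + 1) x‖ ≤ g m N * ‖d m x‖ := fun x =>
      grow m hm N (by omega) le_rfl (by omega) x fun h => absurd h (lt_irrefl _)
    set p := pos m with hp
    obtain ⟨s1, s2, s3⟩ := hT (p - 1) (by omega)
    obtain ⟨r1, r2, r3⟩ := hT p hpN
    rw [Nat.sub_add_cancel hp1] at s2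
    obtain ⟨v, v', e, v1, v2, v3, v4, v5, v6⟩ := fl_split hη hη' (d (m + 1)) (hinj (m + 1) hm)
      (U (m + 1)) (S (m + 1)) p hp1 (hnU (m + 1) hm p) (hnS (m + 1) hm p)
      ((heU m hm (p - 1) (by omega) _).2 s1)
      ((heS m hm (p + 1) (by omega) _).2 (s2.mono (Nat.le_succ _)))
    have n1 : ‖d (m + 1) (z (p - 1))‖ ≤ g m N * Eb m (p - 1) :=
      (hgr _).trans (mul_le_mul_of_nonneg_left s3 (hg _ _))
    have n2 : ‖d (m + 1) (z p)‖ ≤ g m N * Eb m p :=
      (hgr _).trans (mul_le_mul_of_nonneg_left r3 (hg _ _))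
    refine ⟨fun k => z k + (if k = p - 1 then z p - v' else 0) - (if k = p then z p - v' else 0),
      ?_, fun k hk => ?_⟩
    · rw [Finset.sum_sub_distrib, Finset.sum_add_distrib, Finset.sum_ite_eq', Finset.sum_ite_eq',
        if_pos (Finset.mem_range.2 (by omega)), if_pos (Finset.mem_range.2 hpN), ← hz]
      abel
    by_cases k1 : k = p - 1
    · have k2 : k ≠ p := by omega
      have : z k + (if k = p - 1 then z p - v' else 0) - (if k = p then z p - v' else 0) =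
          z p + v := by
        rw [if_pos k1, if_neg k2, k1, e]; abel
      simp only [this]
      rw [k1, Nat.sub_add_cancel hp1]
      refine ⟨((heU m hm (p - 1) (by omega) _).2 (r1.mono (Nat.sub_le _ _))).add v1,
        (hex m hm hs _ r1 r2).add v2, ?_⟩
      rw [map_add]
      have := hE.down m hs
      have := norm_add_le (d (m + 1) (z p)) (d (m + 1) v)
      nlinarith
    by_cases k2 : k = p
    · have : z k + (if k = p - 1 then z p - v' else 0) - (if k = p then z p - v' else 0) = v' := by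
        rw [if_neg k1, if_pos k2, k2]; abel
      simp only [this]
      rw [k2]
      refine ⟨v3, v4, ?_⟩
      have := hE.up m hs
      nlinarith
    · simp only [if_neg k1, if_neg k2, add_zero, sub_zero]
      obtain ⟨t1, t2, t3⟩ := hT k hk
      exact ⟨(heU m hm k (by omega) _).2 t1, (heS m hm (k + 1) (by omega) _).2 t2,
        ((hgr _).trans (mul_le_mul_of_nonneg_left t3 (hg _ _))).trans
          (hE.other m hs k hk k2 (by omega))⟩

end Tok

/-- **Exact swaps.**  Write `x^m = c θ m x`.  Call a subspace `U` *`q`-upper at `m`* if `η‖x^m‖² < hiN q x^m`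
for `0 ≠ x ∈ U`, *`q`-lower at `m`* if `η‖x^m‖² < loN q x^m`; by `cone`, `q`-upper at `m` gives
`loN q x^{m+1} ≤ η‖x^{m+1}‖²` ("narrow", so again upper), and symmetrically backwards for lower.
Flags (depending on `θ`): `U 0 q = {x | x i = 0, i < q}`, `U (m+1) q = U m q` unless `sw m ∧ q = p := pos m`, where
`U (m+1) p = U m (p+1) + ℝ X`, `X ∈ U m (p-1)` the unique vector with `X^{m+1}_p = 1`, `X^{m+1}_i = 0` for
`i = p-1` and `i > p` (narrow subspaces of dimension `N-q` are graphs over the coordinates `≥ q`; `U m 0 = ⊤`,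
`U m N = ⊥`).  It is `p`-upper: for `z = w + sX`, `‖w‖ ≤ ‖z‖/√(1-η)`, `√(loN p z) ≤ √η(‖w‖+‖sX‖)`, so `loN p z ≤ 10η‖z‖²`.
Backwards: `S J q = {x | x^J_i = 0, i ≥ q}`, `S m p = S (m+1) (p-1) + ℝ X'`, `X' ∈ S (m+1) (p+1)` with
`X'^m_{p-1} = 1`, `X'^m_i = 0` for `i = p` and `i < p-1` (this is the first construction for the reversed
indices `i ↦ N-1-i`, `m ↦ J-m`; a common lemma may be used twice).  All families have closed graph over `cube` and constant
dimension; a vector characterised uniquely by closed conditions and bounded is continuous in `θ`.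
At a swap let `Y ∈ U m p ∩ S (m+1) (p+1)` with `Y^m_p = 1`, `Y' ∈ U m (p-1) ∩ S (m+1) p` with `Y'^{m+1}_{p-1} = 1`,
`F m = σ (Y^{m+1}_p - Y^{m+1}_{p-1} Y'^{m+1}_p)` (and `F m = θ m` for non-swaps).  For `|θ m| = 1`, `cone` holds for
the gap `p` too, so `F m` has the sign of `σ Y^{m+1}_p`, given by `sign` (moves `m±1` are not swaps).  `miranda` gives
`F = 0`, i.e. `Y ∈ ℝ Y'` (the difference lies in `U m (p-1) ∩ S (m+1) (p+1)`, where the coordinates `p-1,p` at `m+1`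
are injective).  Tokens `T m k = U m k ∩ S m (k+1)` (lines); `y j ∈ T 0 j` with `y j j = 1`.  By induction on `m`,
`y j = Σ_k z m k` with `z m k ∈ T m k`, `‖(z m k)^m‖ ≤ Eb m k`: `T (m+1) k = T m k` except at a swap, where
`T m p = ℝY = T (m+1) (p-1)` and `z m (p-1) = v + v'`, `v ∈ T (m+1) (p-1)`, `v' ∈ T (m+1) p`, with
`‖v^{m+1}‖, ‖v'^{m+1}‖ ≤ 3‖(z m (p-1))^{m+1}‖` (opposite narrow cones); growth from `grow`. -/
theorem flags (N J : ℕ) (η : ℝ) (hη : 0 < η) (hη' : η ≤ 1 / 1000)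
    (c : (ℕ → ℝ) → ℕ → EuclideanSpace ℝ (Fin N) →L[ℝ] EuclideanSpace ℝ (Fin N))
    (hc0 : ∀ θ ∈ cube, ∀ x, c θ 0 x = x)
    (hcont : ∀ m ≤ J, ContinuousOn (fun θ => c θ m) cube)
    (hinj : ∀ θ ∈ cube, ∀ m ≤ J, Function.Injective (c θ m))
    (sw : ℕ → Prop) (pos : ℕ → ℕ)
    (hsw : ∀ m < J, sw m → 1 ≤ pos m ∧ pos m < N ∧ 1 ≤ m ∧ m + 2 ≤ J ∧ ¬sw (m - 1) ∧ ¬sw (m + 1))
    (cone : ∀ θ ∈ cube, ∀ m < J, ∀ q, 1 ≤ q → q < N → (¬(sw m ∧ q = pos m) ∨ |θ m| = 1) →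
      ∀ x, η * ‖c θ m x‖ ^ 2 < hiN q (c θ m x) → loN q (c θ (m + 1) x) ≤ η * ‖c θ (m + 1) x‖ ^ 2)
    (g : ℕ → ℕ → ℝ) (hg : ∀ m q, 0 ≤ g m q)
    (grow : ∀ θ ∈ cube, ∀ m < J, ∀ q, 1 ≤ q → q ≤ N → ¬(sw m ∧ q = pos m) → ∀ x,
      (q < N → η * ‖c θ (m + 1) x‖ ^ 2 < loN q (c θ (m + 1) x)) →
      ‖c θ (m + 1) x‖ ≤ g m q * ‖c θ m x‖)
    (sign : ∀ m < J, sw m → ∃ σ : ℝ, |σ| = 1 ∧ ∀ θ ∈ cube, |θ m| = 1 → ∀ i : Fin N, (i : ℕ) = pos m →
      ∀ x, η * ‖c θ (m - 1) x‖ ^ 2 < hiN (pos m) (c θ (m - 1) x) →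
        (pos m + 1 < N → η * ‖c θ (m + 2) x‖ ^ 2 < loN (pos m + 1) (c θ (m + 2) x)) →
        0 < σ * θ m * (c θ m x i * c θ (m + 1) x i))
    (Eb : ℕ → ℕ → ℝ) (hE : Rec N sw pos g Eb) :
    ∃ θ ∈ cube, ∃ y : Fin N → EuclideanSpace ℝ (Fin N),
      (∀ j, y j j = 1 ∧ ∀ i < j, y j i = 0) ∧
      ∀ j, ∀ m ≤ J, ‖c θ m (y j)‖ ≤ ∑ k ∈ Finset.range N, Eb m k := by
  classical
  have hdc : ∀ m ≤ J, Continuous fun θ : cube => c θ m := fun m hm =>
    continuousOn_iff_continuous_domRestrict.1 (hcont m hm)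
  have hdi : ∀ θ : cube, ∀ m ≤ J, Function.Injective (c θ m) := fun θ => hinj θ θ.2
  have hsw' : ∀ m < J, sw m → 1 ≤ pos m ∧ pos m < N := fun m hm h =>
    ⟨(hsw m hm h).1, (hsw m hm h).2.1⟩
  obtain ⟨U, hU0, hUc, hnU, heU⟩ := fl_up hη hη' J (fun (θ : cube) m => c θ m) hdc hdi sw pos hsw'
    fun θ m hm q h1 h2 h3 => cone θ θ.2 m hm q h1 h2 (Or.inl h3)
  obtain ⟨S, hSc, hnS, heS⟩ := fl_down hη hη' J (fun (θ : cube) m => c θ m) hdc hdi sw pos hsw'
    fun θ m hm q h1 h2 h3 => cone θ θ.2 m hm q h1 h2 (Or.inl h3)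
  have key : ∀ m, ∃ f : cube → ℝ, m < J → Continuous f ∧
      (∀ θ : cube, |θ.1 m| = 1 → 0 < θ.1 m * f θ) ∧
      ∀ θ : cube, f θ = 0 → sw m → ∀ x, FU (U m θ) (pos m) x → FS (S m θ) (pos m + 1) x →
        FS (S (m + 1) θ) (pos m) x := by
    intro m
    by_cases hm : m < J
    swap
    · exact ⟨0, fun h => absurd h hm⟩
    by_cases hs : sw m
    swap
    · refine ⟨fun θ => θ.1 m, fun _ => ⟨(continuous_apply m).comp continuous_subtype_val,
        fun θ h => ?_, fun _ _ h => absurd h hs⟩⟩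
      have : θ.1 m ≠ 0 := fun h0 => by rw [h0] at h; simp at h
      exact mul_self_pos.2 this
    obtain ⟨hp1, hpN, hm1, hm2, hs1, hs2⟩ := hsw m hm hs
    obtain ⟨σ, hσ, hsg⟩ := sign m hm hs
    set p := pos m with hp
    let a : Fin N := ⟨p - 1, by omega⟩
    let b : Fin N := ⟨p, hpN⟩
    have ha : (a : ℕ) + 1 = p := Nat.sub_add_cancel hp1
    obtain ⟨Y, hYc, hY⟩ := fl_line hη' (fun θ : cube => c θ m) (hdc m hm.le)
      (fun θ => hdi θ m hm.le) (U m) (S m) (hUc m hm.le) (hSc m hm.le) b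
      (fun θ => hnU m hm.le θ _) (fun θ => hnS m hm.le θ _)
    obtain ⟨Y', hYc', hY'⟩ := fl_line hη' (fun θ : cube => c θ (m + 1)) (hdc (m + 1) hm)
      (fun θ => hdi θ (m + 1) hm) (U (m + 1)) (S (m + 1)) (hUc (m + 1) hm) (hSc (m + 1) hm) a
      (fun θ => hnU (m + 1) hm θ _) (fun θ => hnS (m + 1) hm θ _)
    have hco : ∀ (Z : cube → VN N) (i : Fin N), Continuous Z →
        Continuous fun θ : cube => c θ (m + 1) (Z θ) i := fun Z i hZ =>
      (EuclideanSpace.proj i : VN N →L[ℝ] ℝ).continuous.comp ((hdc (m + 1) hm).clm_apply hZ)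
    refine ⟨fun θ => σ * (c θ (m + 1) (Y θ) b - c θ (m + 1) (Y θ) a * c θ (m + 1) (Y' θ) b),
      fun _ => ⟨continuous_const.mul ((hco Y b hYc).sub ((hco Y a hYc).mul (hco Y' b hYc'))),
        fun θ hθ => ?_, fun θ hf _ x x1 x2 => ?_⟩⟩
    · obtain ⟨y1, y2, y3⟩ := hY θ
      obtain ⟨w1, w2, w3⟩ := hY' θ
      change FU (U m θ) p (Y θ) at y1
      change FS (S m θ) (p + 1) (Y θ) at y2
      rw [ha] at w2
      have hY0 : Y θ ≠ 0 := fun h => by rw [h, map_zero] at y3; simp at y3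
      have hpos : ∀ k ≤ J, 0 < ‖c θ k (Y θ)‖ ^ 2 := fun k hk => by
        have : c θ k (Y θ) ≠ 0 := fun h => hY0 (hdi θ k hk (by rw [h, map_zero]))
        positivity
      have y2' : FS (S (m + 1) θ) (p + 1) (Y θ) := (heS m hm θ (p + 1) (by omega) _).2 y2
      have s0 := hsg θ θ.2 hθ b rfl (Y θ)
        (by
          have e1 : FU (U (m - 1) θ) p (Y θ) := by
            refine (heU (m - 1) (by omega) θ p (fun h => hs1 h.1) _).1 ?_
            rwa [Nat.sub_add_cancel hm1]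
          have e2 := hnU (m - 1) (by omega) θ _ _ e1
          have e3 := fl_lo_add_hi p (c θ (m - 1) (Y θ))
          have e4 := hpos (m - 1) (by omega)
          nlinarith)
        (fun _ => by
          have e1 : FS (S (m + 2) θ) (p + 1) (Y θ) :=
            (heS (m + 1) (by omega) θ (p + 1) (fun h => hs2 h.1) _).2 y2'
          have e2 := hnS (m + 2) hm2 θ _ _ e1
          have e3 := fl_lo_add_hi (p + 1) (c θ (m + 2) (Y θ))
          have e4 := hpos (m + 2) hm2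
          nlinarith)
      rw [y3, one_mul] at s0
      have l1 : loN p (c θ (m + 1) (Y θ)) ≤ η * ‖c θ (m + 1) (Y θ)‖ ^ 2 :=
        fl_cone_step hη hη' (hdi θ m hm.le) (hnU m hm.le θ _ _ y1)
          fun h1 h2 => cone θ θ.2 m hm p h1 h2 (Or.inr hθ) _
      have l2 := hnS (m + 1) hm θ _ _ y2'
      have l3 := fl_lo_add_hi (p + 1) (c θ (m + 1) (Y θ))
      have l4 : loN (p + 1) (c θ (m + 1) (Y θ)) = _ := fl_lo_succ b (c θ (m + 1) (Y θ))
      have l5 := fl_lo_succ a (c θ (m + 1) (Y θ))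
      rw [ha] at l5
      have l6 := fl_lo_nonneg a (c θ (m + 1) (Y θ))
      have l7 := hpos (m + 1) hm
      change _ = loN p _ + _ at l4
      have m1 := fl_line_inj hη' a (hnU (m + 1) hm θ _ _ w1) (by
        rw [ha]; exact hnS (m + 1) hm θ _ _ w2)
      have m2 := hnS (m + 1) hm θ _ _ w2
      have m3 : hiN p (c θ (m + 1) (Y' θ)) = _ := fl_hi_succ b (c θ (m + 1) (Y' θ))
      have m4 := fl_hi_nonneg ((b : ℕ) + 1) (c θ (m + 1) (Y' θ))
      rw [w3] at m1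
      set A := c θ (m + 1) (Y θ) b
      set B := c θ (m + 1) (Y θ) a
      set C := c θ (m + 1) (Y' θ) b
      have hC : C ^ 2 ≤ 1 := by nlinarith [sq_nonneg ‖c θ (m + 1) (Y' θ)‖]
      have hB : B ^ 2 < A ^ 2 := by nlinarith
      have hBC : (B * C) ^ 2 < A ^ 2 := by
        rw [mul_pow]
        nlinarith [sq_nonneg B]
      have hε : (σ * θ.1 m) ^ 2 = 1 := by
        rw [mul_pow, ← sq_abs σ, ← sq_abs (θ.1 m), hσ, hθ]; norm_num
      have h9 : (σ * θ.1 m * (B * C)) ^ 2 < (σ * θ.1 m * A) ^ 2 := by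
        rw [mul_pow _ (B * C), mul_pow _ A, hε, one_mul, one_mul]; exact hBC
      have h10 := (abs_lt_of_sq_lt_sq' h9 s0.le).2
      show 0 < θ.1 m * (σ * (A - B * C))
      nlinarith
    · obtain ⟨y1, y2, y3⟩ := hY θ
      obtain ⟨w1, w2, w3⟩ := hY' θ
      change FU (U m θ) p (Y θ) at y1
      change FS (S m θ) (p + 1) (Y θ) at y2
      change FU (U (m + 1) θ) (p - 1) (Y' θ) at w1
      rw [ha] at w2
      have hσ0 : σ ≠ 0 := fun h => by rw [h] at hσ; simp at hσ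
      have hf' := (mul_eq_zero.1 hf).resolve_left hσ0
      -- `Y` is a multiple of `Y'`
      have d1 : FU (U (m + 1) θ) (p - 1) (Y θ - c θ (m + 1) (Y θ) a • Y' θ) :=
        ((heU m hm θ (p - 1) (by omega) _).2 (y1.mono (Nat.sub_le _ _))).sub (w1.smul _)
      have d2 : FS (S (m + 1) θ) (p + 1) (Y θ - c θ (m + 1) (Y θ) a • Y' θ) :=
        ((heS m hm θ (p + 1) (by omega) _).2 y2).sub ((w2.mono (Nat.le_succ _)).smul _)
      have d3 := hnU (m + 1) hm θ _ _ d1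
      have d4 := hnS (m + 1) hm θ _ _ d2
      set D := c θ (m + 1) (Y θ - c θ (m + 1) (Y θ) a • Y' θ) with hD
      have d5 : D a = 0 := by
        rw [hD, map_sub, map_smul, PiLp.sub_apply, PiLp.smul_apply, w3]; simp
      have d6 : D b = 0 := by
        rw [hD, map_sub, map_smul, PiLp.sub_apply, PiLp.smul_apply, smul_eq_mul]; exact hf'
      have d7 := fl_lo_add_hi (p + 1) D
      have d8 : loN (p + 1) D = loN p D + D b ^ 2 := fl_lo_succ b D
      have d9 := fl_lo_succ a D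
      rw [ha, d5] at d9
      change _ = loN (p - 1) D + _ at d9
      rw [d6] at d8
      have d10 : D = 0 := fl_eq_zero (t := 22 * η) (by linarith) (by linarith)
      have d11 : Y θ = c θ (m + 1) (Y θ) a • Y' θ :=
        sub_eq_zero.1 (hdi θ (m + 1) hm (by rw [map_zero]; exact d10))
      have y4 : FS (S (m + 1) θ) p (Y θ) := by rw [d11]; exact w2.smul _
      -- `x` is a multiple of `Y`
      have f1 := fl_line_inj hη' b (hnU m hm.le θ _ _ (x1.sub (y1.smul (c θ m x b))))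
        (hnS m hm.le θ _ _ (x2.sub (y2.smul (c θ m x b))))
      have f2 : c θ m (x - c θ m x b • Y θ) b = 0 := by
        rw [map_sub, map_smul, PiLp.sub_apply, PiLp.smul_apply, y3]; simp
      rw [f2] at f1
      have f3 : c θ m (x - c θ m x b • Y θ) = 0 :=
        fl_eq_zero (t := 22 * η) (by linarith) (by linarith)
      have f4 : x = c θ m x b • Y θ := sub_eq_zero.1 (hdi θ m hm.le (by rw [map_zero]; exact f3))
      rw [f4]
      exact y4.smul _
  choose f hf using key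
  obtain ⟨θ, hθ, h0⟩ := miranda J (fun θ m => if h : θ ∈ cube then f m ⟨θ, h⟩ else 0)
    (fun m hm => by
      rw [continuousOn_iff_continuous_domRestrict]
      convert (hf m hm).1 using 1
      funext θ
      exact dif_pos θ.2)
    (fun m hm θ hθ h => by
      rw [dif_pos hθ]
      exact (hf m hm).2.1 ⟨θ, hθ⟩ h)
  have h0' : ∀ m < J, f m ⟨θ, hθ⟩ = 0 := fun m hm => by
    have := h0 m hm
    rwa [dif_pos hθ] at this
  have hy : ∀ j : Fin N, ∃ y : VN N, FU (U 0 ⟨θ, hθ⟩) j y ∧ FS (S 0 ⟨θ, hθ⟩) ((j : ℕ) + 1) y ∧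
      c θ 0 y j = 1 := fun j => by
    obtain ⟨Y, -, hY⟩ := fl_line hη' (fun θ : cube => c θ 0) (hdc 0 (Nat.zero_le _))
      (fun θ => hdi θ 0 (Nat.zero_le _)) (U 0) (S 0) (hUc 0 (Nat.zero_le _))
      (hSc 0 (Nat.zero_le _)) j
      (fun θ => hnU 0 (Nat.zero_le _) θ _) (fun θ => hnS 0 (Nat.zero_le _) θ _)
    exact ⟨Y ⟨θ, hθ⟩, hY ⟨θ, hθ⟩⟩
  choose y y1 y2 y3 using hy
  refine ⟨θ, hθ, y, fun j => ⟨?_, fun i hi => ?_⟩, fun j m hm => ?_⟩
  · rw [← y3 j, hc0 θ hθ]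
  · have := y1 j i hi
    rw [hU0] at this
    rwa [hc0 θ hθ] at this
  · have n1 := fl_line_inj hη' j (hnU 0 (Nat.zero_le _) ⟨θ, hθ⟩ _ _ (y1 j))
      (hnS 0 (Nat.zero_le _) ⟨θ, hθ⟩ _ _ (y2 j))
    have n2 : ‖c θ 0 (y j)‖ ≤ 2 := by
      refine (pow_le_pow_iff_left₀ (norm_nonneg _) (by positivity) two_ne_zero).1 ?_
      change _ * ‖c θ 0 (y j)‖ ^ 2 ≤ c θ 0 (y j) j ^ 2 at n1
      rw [y3] at n1
      nlinarith [sq_nonneg ‖c θ 0 (y j)‖]
    obtain ⟨z, hz, hT⟩ := fl_tokens hη hη' J (c θ) (hinj θ hθ) sw pos hsw'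
      (fun m => U m ⟨θ, hθ⟩) (fun m => S m ⟨θ, hθ⟩) (fun m hm => hnU m hm ⟨θ, hθ⟩)
      (fun m hm => hnS m hm ⟨θ, hθ⟩) (fun m hm => heU m hm ⟨θ, hθ⟩) (fun m hm => heS m hm ⟨θ, hθ⟩)
      (fun m hm => (hf m hm).2.2 ⟨θ, hθ⟩ (h0' m hm)) g hg (grow θ hθ) Eb hE j (y j) (y1 j) (y2 j)
      n2 m hm
    rw [hz, map_sum]
    exact (norm_sum_le _ _).trans
      (Finset.sum_le_sum fun k hk => (hT k (Finset.mem_range.1 hk)).2.2)

end Crest.Agent.R202
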