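import Crest.Agent.R202.GDefs

/-! # Row 202, Flow: linear ODEs with a parameter -/

set_option autoImplicit false
open scoped RealInnerProductSpace
open Set Filter

noncomputable section
namespace Crest.Agent.R202

theorem flow_gronwall_right {E : Type*} [NormedAddCommGroup E] [NormedSpace ℝ E] {h h' : ℝ → E}
    {ε K η : ℝ} (hK : 0 ≤ K) (hη : 0 ≤ η) (hd : ∀ s ∈ Ioo (-ε) ε, HasDerivAt h (h' s) s)
    (h0 : h 0 = 0) (hb : ∀ s ∈ Ioo (-ε) ε, ‖h' s‖ ≤ K * ‖h s‖ + η) {s : ℝ} (hs0 : 0 ≤ s)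
    (hs : s < ε) : ‖h s‖ ≤ η * gronwallBound 0 K 1 ε := by
  have hsub : ∀ t ∈ Icc 0 s, t ∈ Ioo (-ε) ε := fun t ht =>
    ⟨by linarith [ht.1], lt_of_le_of_lt ht.2 hs⟩
  have h1 := norm_le_gronwallBound_of_norm_deriv_right_le (f := h) (f' := h') (δ := 0) (K := K)
    (ε := η) (a := 0) (b := s)
    (fun t ht => (hd t (hsub t ht)).continuousAt.continuousWithinAt)
    (fun t ht => (hd t (hsub t (Ico_subset_Icc_self ht))).hasDerivWithinAt) (by simp [h0])
    (fun t ht => hb t (hsub t (Ico_subset_Icc_self ht))) s ⟨hs0, le_rfl⟩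
  refine h1.trans ((gronwallBound_mono le_rfl hη hK (by linarith : s - 0 ≤ ε)).trans_eq ?_)
  unfold gronwallBound
  split_ifs <;> ring

theorem flow_gronwall {E : Type*} [NormedAddCommGroup E] [NormedSpace ℝ E] {h h' : ℝ → E}
    {ε K η : ℝ} (hK : 0 ≤ K) (hη : 0 ≤ η) (hd : ∀ s ∈ Ioo (-ε) ε, HasDerivAt h (h' s) s)
    (h0 : h 0 = 0) (hb : ∀ s ∈ Ioo (-ε) ε, ‖h' s‖ ≤ K * ‖h s‖ + η) {s : ℝ}
    (hs : s ∈ Ioo (-ε) ε) : ‖h s‖ ≤ η * gronwallBound 0 K 1 ε := by
  rcases le_total 0 s with hs0 | hs0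
  · exact flow_gronwall_right hK hη hd h0 hb hs0 hs.2
  · have hneg : ∀ t ∈ Ioo (-ε) ε, -t ∈ Ioo (-ε) ε := fun t ht =>
      ⟨by linarith [ht.2], by linarith [ht.1]⟩
    have := flow_gronwall_right (h := fun t => h (-t)) (h' := fun t => -h' (-t)) (ε := ε) hK hη
      (fun t ht => by
        have := (hd (-t) (hneg t ht)).scomp t (hasDerivAt_neg t)
        simpa [Function.comp_def] using this)
      (by simpa using h0) (fun t ht => by simpa using hb (-t) (hneg t ht))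
      (s := -s) (by linarith) (by linarith [hs.1])
    simpa using this

theorem flow_bdd {E : Type*} [NormedAddCommGroup E] {a : ℝ → E} (ha : Continuous a) (T : ℝ) :
    ∃ M : ℝ, 0 ≤ M ∧ ∀ s ∈ Icc (-T) T, ‖a s‖ ≤ M := by
  obtain ⟨M, hM⟩ := isCompact_Icc.exists_bound_of_continuousOn (ha.continuousOn (s := Icc (-T) T))
  exact ⟨max M 0, le_max_right _ _, fun s hs => (hM s hs).trans (le_max_left _ _)⟩

section Picard
variable {E : Type*} [NormedRing E] [NormedAlgebra ℝ E] [CompleteSpace E]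

/-- the terms of the Picard series -/
def flowP (a : ℝ → E) : ℕ → ℝ → E
  | 0 => fun _ => 1
  | k + 1 => fun t => ∫ s in (0 : ℝ)..t, a s * flowP a k s

theorem flowP_continuous {a : ℝ → E} (ha : Continuous a) (k : ℕ) : Continuous (flowP a k) := by
  induction k with
  | zero => exact continuous_const
  | succ k ih =>
    exact continuous_iff_continuousAt.2 fun t =>
      ((ha.mul ih).integral_hasStrictDerivAt 0 t).hasDerivAt.continuousAt

theorem flowP_hasDerivAt {a : ℝ → E} (ha : Continuous a) (k : ℕ) (t : ℝ) :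
    HasDerivAt (flowP a (k + 1)) (a t * flowP a k t) t :=
  ((ha.mul (flowP_continuous ha k)).integral_hasStrictDerivAt 0 t).hasDerivAt

theorem flowP_le {a : ℝ → E} (ha : Continuous a) {T M : ℝ} (hM0 : 0 ≤ M)
    (hM : ∀ s ∈ Icc (-T) T, ‖a s‖ ≤ M) (k : ℕ) : ∀ t ∈ Icc (-T) T,
    ‖flowP a k t‖ ≤ ‖(1 : E)‖ * ((M * |t|) ^ k / k.factorial) := by
  induction k with
  | zero => intro t _; simp [flowP]
  | succ k ih =>
    intro t ht
    have hsub : ∀ s ∈ uIoc 0 t, s ∈ Icc (-T) T := fun s hs => by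
      have h0 : (0 : ℝ) ∈ Icc (-T) T := ⟨by linarith [ht.1, ht.2], by linarith [ht.1, ht.2]⟩
      exact uIcc_subset_Icc h0 ht (uIoc_subset_uIcc hs)
    have hc : Continuous fun s : ℝ => M * ‖(1 : E)‖ * M ^ k / k.factorial * |s - 0| ^ k := by
      fun_prop
    calc ‖flowP a (k + 1) t‖ ≤ ∫ s in uIoc 0 t, ‖a s * flowP a k s‖ :=
          intervalIntegral.norm_integral_le_integral_norm_uIoc
      _ ≤ ∫ s in uIoc 0 t, M * ‖(1 : E)‖ * M ^ k / k.factorial * |s - 0| ^ k := by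
          refine MeasureTheory.setIntegral_mono_on ?_ ?_ measurableSet_uIoc fun s hs => ?_
          · exact intervalIntegrable_iff.1
              ((ha.mul (flowP_continuous ha k)).norm.intervalIntegrable 0 t)
          · exact intervalIntegrable_iff.1 (hc.intervalIntegrable 0 t)
          · refine (norm_mul_le _ _).trans ((mul_le_mul (hM s (hsub s hs)) (ih s (hsub s hs))
              (norm_nonneg _) hM0).trans_eq ?_)
            rw [sub_zero, mul_pow]
            ring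
      _ = _ := by
          rw [MeasureTheory.integral_const_mul, integral_pow_abs_sub_uIoc, sub_zero, mul_pow,
            Nat.factorial_succ]
          push_cast
          field_simp
          ring

theorem flow_picard {a : ℝ → E} (ha : Continuous a) :
    ∃ Φ : ℝ → E, Φ 0 = 1 ∧ ∀ t, HasDerivAt Φ (a t * Φ t) t := by
  refine ⟨fun t => 1 + ∑' k, flowP a (k + 1) t, by simp [flowP], fun t => ?_⟩
  obtain ⟨M, hM0, hM⟩ := flow_bdd ha (|t| + 1)
  have ht : t ∈ Ioo (-(|t| + 1)) (|t| + 1) :=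
    ⟨by linarith [neg_abs_le t], by linarith [le_abs_self t]⟩
  have hs : Summable fun k : ℕ => ‖(1 : E)‖ * ((M * (|t| + 1)) ^ k / k.factorial) :=
    (Real.summable_pow_div_factorial _).mul_left _
  have hb : ∀ k, ∀ y ∈ Ioo (-(|t| + 1)) (|t| + 1),
      ‖flowP a k y‖ ≤ ‖(1 : E)‖ * ((M * (|t| + 1)) ^ k / k.factorial) := fun k y hy => by
    refine (flowP_le ha hM0 hM k y (Ioo_subset_Icc_self hy)).trans ?_
    have : |y| ≤ |t| + 1 := abs_le.2 ⟨hy.1.le, hy.2.le⟩
    gcongr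
  have h1 := hasDerivAt_tsum_of_isPreconnected (hs.mul_left M) isOpen_Ioo isPreconnected_Ioo
    (g := fun k => flowP a (k + 1)) (g' := fun k y => a y * flowP a k y)
    (fun k y _ => flowP_hasDerivAt ha k y)
    (fun k y hy => (norm_mul_le _ _).trans
      (mul_le_mul (hM y (Ioo_subset_Icc_self hy)) (hb k y hy) (norm_nonneg _) hM0))
    (y₀ := 0) ⟨by linarith [abs_nonneg t], by linarith [abs_nonneg t]⟩
    (by simp [flowP]) ht
  have h2 : Summable fun k => flowP a k t := .of_norm_bounded hs fun k => hb k t ht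
  rw [h2.tsum_mul_left, h2.tsum_eq_zero_add] at h1
  exact h1.const_add 1

end Picard

/-- Global fundamental solution of `z' = A(t) z` (both time directions), depending continuously on a parameter.
Existence: Picard series `Φ₀ = 1`, `Φ_{k+1}(t) = ∫₀ᵗ A Φ_k`, `‖Φ_k t‖ ≤ (M|t|)^k/k!` on `[-T,T]` with
`hasDerivAt_tsum`-type lemmas, or Mathlib's Picard–Lindelöf on steps of uniform length; team libraries
`R244.ODE`, `R285.FlowAux` may help.  Continuity in `θ`: Gronwall (`dist_le_of_approx_trajectories_ODE`), using that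
`sup_{τ ∈ [-T,T]} ‖A θ τ - A θ₀ τ‖ → 0` as `θ → θ₀` in `S` (tube lemma, `IsCompact.tendsto…`/
`ContinuousMap.curry`). -/
theorem flow_exists {Θ Z : Type*} [TopologicalSpace Θ] [NormedAddCommGroup Z] [NormedSpace ℝ Z]
    [CompleteSpace Z] (S : Set Θ) (A : Θ → ℝ → Z →L[ℝ] Z)
    (hA : ContinuousOn (fun p : Θ × ℝ => A p.1 p.2) (S ×ˢ univ)) :
    ∃ Φ : Θ → ℝ → Z →L[ℝ] Z, (∀ θ ∈ S, Φ θ 0 = 1 ∧ ∀ t, HasDerivAt (Φ θ) (A θ t * Φ θ t) t) ∧
      ∀ t, ContinuousOn (fun θ => Φ θ t) S := by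
  have hc : ∀ θ ∈ S, Continuous (A θ) := fun θ hθ =>
    hA.comp_continuous (f := fun t => (θ, t)) (by fun_prop) fun t => ⟨hθ, mem_univ _⟩
  choose! Φ h0 hΦ using fun θ hθ => flow_picard (hc θ hθ)
  refine ⟨Φ, fun θ hθ => ⟨h0 θ hθ, hΦ θ hθ⟩, fun t θ₀ hθ₀ => ?_⟩
  set T := |t| + 1 with hT
  have ht : t ∈ Ioo (-T) T := ⟨by linarith [neg_abs_le t], by linarith [le_abs_self t]⟩
  obtain ⟨M, hM0, hM⟩ := flow_bdd (hc θ₀ hθ₀) T
  obtain ⟨C, hC0, hC⟩ := flow_bdd
    (continuous_iff_continuousAt.2 fun s => (hΦ θ₀ hθ₀ s).continuousAt) T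
  set G := gronwallBound 0 (M + 1) 1 T with hG
  refine Metric.tendsto_nhds.2 fun ε hε => ?_
  obtain ⟨η, hη0, hη1, hη⟩ : ∃ η : ℝ, 0 < η ∧ η ≤ 1 ∧ η * C * G < ε := by
    have h1 : Tendsto (fun η : ℝ => η * C * G) (nhds 0) (nhds (0 * C * G)) :=
      Continuous.tendsto (by fun_prop) 0
    rw [zero_mul, zero_mul] at h1
    obtain ⟨η, h2, h3⟩ := (((h1.eventually (gt_mem_nhds hε)).filter_mono nhdsWithin_le_nhds).and
      (Ioc_mem_nhdsGT (zero_lt_one' ℝ))).exists
    exact ⟨η, h3.1, h3.2, h2⟩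
  have h1 : ∀ᶠ θ in nhds θ₀, ∀ s ∈ Icc (-T) T, θ ∈ S → ‖A θ s - A θ₀ s‖ ≤ η := by
    refine isCompact_Icc.eventually_forall_of_forall_eventually fun s _ => ?_
    have h2 : ContinuousWithinAt (fun p : Θ × ℝ => ‖A p.1 p.2 - A θ₀ p.2‖) (S ×ˢ univ) (θ₀, s) :=
      ((hA (θ₀, s) ⟨hθ₀, mem_univ _⟩).sub
        ((hc θ₀ hθ₀).comp continuous_snd).continuousWithinAt).norm
    have h3 := h2.eventually (gt_mem_nhds (show ‖A θ₀ s - A θ₀ s‖ < η by simpa using hη0))
    filter_upwards [eventually_nhdsWithin_iff.1 h3] with p hp hp1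
    exact (hp ⟨hp1, mem_univ _⟩).le
  filter_upwards [h1.filter_mono nhdsWithin_le_nhds, self_mem_nhdsWithin] with θ h2 hθ
  rw [dist_eq_norm]
  refine lt_of_le_of_lt (flow_gronwall (h := fun s => Φ θ s - Φ θ₀ s)
    (h' := fun s => A θ s * Φ θ s - A θ₀ s * Φ θ₀ s) (K := M + 1) (η := η * C) (by positivity)
    (by positivity) (fun s _ => (hΦ θ hθ s).sub (hΦ θ₀ hθ₀ s)) (by simp [h0 θ hθ, h0 θ₀ hθ₀])
    (fun s hs => ?_) ht) hη
  have hs' := Ioo_subset_Icc_self hs
  have h3 := h2 s hs' hθ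
  have h4 : ‖A θ s‖ ≤ M + 1 := by
    have := norm_sub_norm_le (A θ s) (A θ₀ s)
    linarith [hM s hs']
  have e : A θ s * Φ θ s - A θ₀ s * Φ θ₀ s =
      A θ s * (Φ θ s - Φ θ₀ s) + (A θ s - A θ₀ s) * Φ θ₀ s := by
    rw [mul_sub, sub_mul]
    abel
  show ‖A θ s * Φ θ s - A θ₀ s * Φ θ₀ s‖ ≤ _
  rw [e]
  exact (norm_add_le _ _).trans (add_le_add
    ((norm_mul_le _ _).trans (mul_le_mul_of_nonneg_right h4 (norm_nonneg _)))
    ((norm_mul_le _ _).trans (mul_le_mul h3 (hC s hs') (norm_nonneg _) hη0.le)))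

/-- uniqueness for `u'' = B u` with continuous `B` (Gronwall in both time directions,
`ODE_solution_unique_of_mem_Icc` for the first-order system on `V × V`) -/
theorem Sol.unique {V : Type*} [NormedAddCommGroup V] [InnerProductSpace ℝ V]
    {B : ℝ → V →L[ℝ] V} (hB : Continuous B) {u u' w w' : ℝ → V} (hu : Sol B u u') (hw : Sol B w w')
    {t₀ : ℝ} (h : u t₀ = w t₀) (h' : u' t₀ = w' t₀) (t : ℝ) : u t = w t ∧ u' t = w' t := by
  set T := |t - t₀| + 1 with hT
  have ht : t - t₀ ∈ Ioo (-T) T :=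
    ⟨by linarith [neg_abs_le (t - t₀)], by linarith [le_abs_self (t - t₀)]⟩
  obtain ⟨M, hM0, hM⟩ := flow_bdd (a := fun s => B (t₀ + s)) (by fun_prop) T
  have key := flow_gronwall (h := fun s => (u (t₀ + s) - w (t₀ + s), u' (t₀ + s) - w' (t₀ + s)))
    (h' := fun s => (u' (t₀ + s) - w' (t₀ + s), B (t₀ + s) (u (t₀ + s)) - B (t₀ + s) (w (t₀ + s))))
    (K := M + 1) (η := 0) (by positivity) le_rfl
    (fun s _ => (((hu _).1.sub (hw _).1).comp_const_add t₀ s).prodMk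
      (((hu _).2.sub (hw _).2).comp_const_add t₀ s)) (by simp [h, h']) (fun s hs => ?_) ht
  · simp only [zero_mul, norm_le_zero_iff, add_sub_cancel, Prod.mk_eq_zero, sub_eq_zero] at key
    exact key
  · rw [add_zero, ← map_sub, Prod.norm_mk, max_le_iff]
    have h1 := norm_fst_le (u (t₀ + s) - w (t₀ + s), u' (t₀ + s) - w' (t₀ + s))
    have h2 := norm_snd_le (u (t₀ + s) - w (t₀ + s), u' (t₀ + s) - w' (t₀ + s))
    have h3 := norm_nonneg (u (t₀ + s) - w (t₀ + s), u' (t₀ + s) - w' (t₀ + s))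
    have h4 := (B (t₀ + s)).le_of_opNorm_le_of_le (hM s (Ioo_subset_Icc_self hs)) h1
    have h5 := mul_nonneg hM0 h3
    dsimp only at h1 h2 h4
    constructor <;> linarith

/-- a solution with smooth `B` is smooth (bootstrap: `deriv u = u'`, `deriv u' = B u`; induction on the order
for the pair `(u,u')`, `contDiff_succ_iff_deriv`, `contDiff_infty`) -/
theorem Sol.contDiff {V : Type*} [NormedAddCommGroup V] [InnerProductSpace ℝ V]
    {B : ℝ → V →L[ℝ] V} (hB : ContDiff ℝ (⊤ : ℕ∞) B) {u u' : ℝ → V} (hu : Sol B u u') :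
    ContDiff ℝ (⊤ : ℕ∞) u ∧ ContDiff ℝ (⊤ : ℕ∞) u' := by
  have d1 : deriv u = u' := funext fun t => (hu t).1.deriv
  have d2 : deriv u' = fun t => B t (u t) := funext fun t => (hu t).2.deriv
  have key : ∀ k : ℕ, ContDiff ℝ k u ∧ ContDiff ℝ k u' := by
    intro k
    induction k with
    | zero =>
      exact ⟨contDiff_zero.2 (continuous_iff_continuousAt.2 fun t => (hu t).1.continuousAt),
        contDiff_zero.2 (continuous_iff_continuousAt.2 fun t => (hu t).2.continuousAt)⟩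
    | succ k ih =>
      rw [Nat.cast_succ, contDiff_succ_iff_deriv, contDiff_succ_iff_deriv, d1, d2]
      exact ⟨⟨fun t => (hu t).1.differentiableAt, by simp, ih.2⟩,
        fun t => (hu t).2.differentiableAt, by simp, (contDiff_infty.1 hB k).clm_apply ih.1⟩
  exact ⟨contDiff_infty.2 fun k => (key k).1, contDiff_infty.2 fun k => (key k).2⟩

end Crest.Agent.R202
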