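import Crest.Agent.R202.Forms1
import Crest.Agent.R202.Sph4

/-! # Row 202, Forms2: annihilators of the perturbations, the stress identity -/

set_option autoImplicit false
open scoped ContDiff RealInnerProductSpace
open Set Filter Topology MeasureTheory Crest.GeometryTopology.CoordMetric

noncomputable section
namespace Crest.Agent.R202

variable {n : ℕ}

/-- `T H = μ Π` at `x`, for `T = Σ cₐ (∇uₐ ∇wₐᵀ + ∇wₐ ∇uₐᵀ)` -/
def AnnEq (b : BB n) {m : ℕ} (c : Fin m → ℝ) (u w : Fin m → W n) (x : Sp n) (μ : ℝ) : Prop :=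
  ∀ ξ η : Fin n → ℝ,
    ∑ a, c a * ((gv (u a) x ⬝ᵥ ((HX (iota b)).at x).mulVec ξ) * (gv (w a) x ⬝ᵥ η) +
      (gv (w a) x ⬝ᵥ ((HX (iota b)).at x).mulVec ξ) * (gv (u a) x ⬝ᵥ η)) =
    μ * (ξ ⬝ᵥ η - ((fun i => (x : E n) i) ⬝ᵥ ξ) * ((fun i => (x : E n) i) ⬝ᵥ η))

/-- multiplication of a tensor by a polynomial -/
def forms2a_mul (p : MvPolynomial (Fin n) ℝ) (v : BB n) : BB n :=
  BB.mk (fun i j => mulW (toW p) (v.e i j)) (fun i j => mulW_poly ⟨p, rfl⟩ (v.poly i j))
    (fun i j => by rw [v.symm]) fun i x => by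
      simp only [mulW_apply, mul_assoc, ← Finset.mul_sum, v.tang, mul_zero]

theorem forms2a_pt {b : BB n} (hb : DetOK (iota b)) {m : ℕ} (c : Fin m → ℝ) (u w : Fin m → W n)
    (h0 : ∀ v, ∑ a, c a * daB b v (u a) (w a) = 0) (v : BB n) (x : Sp n) :
    ∑ a, c a * ∑ i, ∑ j,
      fderiv ℝ HX (iota b) (iota v) i j x * (gv (u a) x i * gv (w a) x j) = 0 := by
  have h1 : (∑ a, c a • ∑ i, ∑ j,
      fderiv ℝ HX (iota b) (iota v) i j * (grad i (u a) * grad j (w a)) : CS n) = 0 := by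
    refine eq_zero_of_poly fun p => ?_
    rw [← h0 (forms2a_mul p v), Finset.sum_mul, map_sum]
    refine Finset.sum_congr rfl fun a _ => ?_
    rw [smul_mul_assoc, map_smul, smul_eq_mul]
    congr 1
    change _ = integ n _
    congr 1
    ext y
    simp only [ContinuousMap.mul_apply, ContinuousMap.coe_sum, Finset.sum_apply, Finset.sum_mul]
    refine Finset.sum_congr rfl fun i _ => Finset.sum_congr rfl fun j _ => ?_
    have e : (iota (forms2a_mul p v)).at y = toW p y • (iota v).at y := by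
      ext
      rfl
    have e' : iota (forms2a_mul p v) i j y = toW p y * iota v i j y := rfl
    rw [fderiv_HX hb, fderiv_HX hb, e, e', Matrix.mul_smul, Matrix.trace_smul, smul_eq_mul,
      res_apply]
    ring
  have h2 := DFunLike.congr_fun h1 x
  simp only [ContinuousMap.mul_apply, ContinuousMap.coe_sum, Finset.sum_apply,
    ContinuousMap.smul_apply, smul_eq_mul, ContinuousMap.zero_apply] at h2
  exact h2

theorem forms2a_sq (x : Sp n) : ((fun i => (x : E n) i) ⬝ᵥ fun i => (x : E n) i) = 1 := by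
  have := EuclideanSpace.real_norm_sq_eq (x : E n)
  rw [Sp.norm_eq, one_pow] at this
  rw [this]
  exact Finset.sum_congr rfl fun i _ => (sq _).symm

/-- tangential projection of a constant vector -/
def forms2a_vec (ξ : Fin n → ℝ) (i : Fin n) : W n :=
  toW (MvPolynomial.C (ξ i) - (∑ k, MvPolynomial.X k * MvPolynomial.C (ξ k)) * MvPolynomial.X i)

theorem forms2a_vec_sphere (ξ : Fin n → ℝ) (i : Fin n) (x : Sp n) :
    forms2a_vec ξ i x = ξ i - ((fun i => (x : E n) i) ⬝ᵥ ξ) * (x : E n) i := by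
  simp [forms2a_vec, toW_apply_sphere, dotProduct]

theorem forms2a_vec_tang (ξ : Fin n → ℝ) (y : E n) : ∑ j, forms2a_vec ξ j y * y j = 0 := by
  by_cases hy : y = 0
  · simp [hy]
  · have hn : 0 < ‖y‖ := norm_pos_iff.2 hy
    obtain ⟨x, hx⟩ : ∃ x : Sp n, y = ‖y‖ • (x : E n) :=
      ⟨⟨‖y‖⁻¹ • y, by simp [norm_smul, hy]⟩, (smul_inv_smul₀ hn.ne' y).symm⟩
    have h1 : ∑ j, (x : E n) j * (x : E n) j = 1 := forms2a_sq x
    rw [hx]
    simp only [W.homog _ hn, forms2a_vec_sphere, PiLp.smul_apply, smul_eq_mul, mul_left_comm _ ‖y‖,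
      ← Finset.mul_sum, sub_mul, Finset.sum_sub_distrib, mul_assoc, h1]
    rw [mul_one, dotProduct_comm]
    exact mul_eq_zero_of_right _ (sub_self _)

/-- the symmetric product of two tangential projections -/
def forms2a_ten (ξ η : Fin n → ℝ) : BB n :=
  BB.mk (fun i j => mulW (forms2a_vec ξ i) (forms2a_vec η j) +
      mulW (forms2a_vec η i) (forms2a_vec ξ j))
    (fun i j => (Poly n).add_mem (mulW_poly ⟨_, rfl⟩ ⟨_, rfl⟩) (mulW_poly ⟨_, rfl⟩ ⟨_, rfl⟩))
    (fun i j => W.ext fun x => by simp only [W.add_apply, mulW_apply]; ring) fun i x => by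
      simp only [W.add_apply, mulW_apply, add_mul, Finset.sum_add_distrib, mul_assoc,
        ← Finset.mul_sum, forms2a_vec_tang, mul_zero, add_zero]

theorem forms2a_tr {N : Matrix (Fin n) (Fin n) ℝ} (hN : N.det ≠ 0) (hs : N.transpose = N)
    (a b : Fin n → ℝ) :
    (N⁻¹ * (Matrix.vecMulVec (N.mulVec a) b + Matrix.vecMulVec b (N.mulVec a))).trace =
      2 * (a ⬝ᵥ b) := by
  rw [Matrix.mul_add, Matrix.trace_add, Matrix.mul_vecMulVec, Matrix.mul_vecMulVec,
    Matrix.trace_vecMulVec, Matrix.trace_vecMulVec, Matrix.mulVec_mulVec,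
    Matrix.nonsing_inv_mul _ hN.isUnit, Matrix.one_mulVec, Matrix.dotProduct_mulVec,
    ← Matrix.mulVec_transpose, hs, Matrix.mulVec_mulVec, Matrix.mul_nonsing_inv _ hN.isUnit,
    Matrix.one_mulVec, dotProduct_comm b, two_mul]

theorem forms2a_symm (b : BB n) (x : Sp n) :
    ((HX (iota b)).at x).transpose = (HX (iota b)).at x := by
  ext i j
  exact DFunLike.congr_fun (HX_symm b j i) x

theorem forms2a_dot {A : Matrix (Fin n) (Fin n) ℝ} (hs : A.transpose = A) (y z : Fin n → ℝ) :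
    y ⬝ᵥ A.mulVec z = z ⬝ᵥ A.mulVec y := by
  rw [Matrix.dotProduct_mulVec, ← Matrix.mulVec_transpose, hs, dotProduct_comm]

/-- Test with `v = p · Π (E_{kl} + E_{lk}) Π ∈ BB n` (`p` a polynomial; entries `toW (p · (…))`).  By `fderiv_HX` the hypothesis reads
`∫ p ω (T : v₀ - (1/(n-1)) tr((1+β)⁻¹ v₀) · T:(Π+β)) = 0`, `v₀ = Π(E_{kl}+E_{lk})Π`, with a continuous factor; `eq_zero_of_poly` makes it pointwise.
As `T` is symmetric and tangential (`grad_tang`), `T = κ Π (1+β)⁻¹ Π`; `(1+β)⁻¹` is symmetric and commutes with `Π` (`β x = 0`), so `T H = κ ω Π`. -/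
theorem ann (hn : 2 ≤ n) {ε : ℝ} (h : Good n ε) {b : BB n} (hb : ‖b‖ < ε) {m : ℕ} (c : Fin m → ℝ)
    (u w : Fin m → W n) (h0 : ∀ v, ∑ a, c a * daB b v (u a) (w a) = 0) (x : Sp n) :
    ∃ μ, AnnEq b c u w x μ := by
  have hd := h.detOK hb
  set y : Fin n → ℝ := fun i => (x : E n) i with hy
  set β := (iota b).at x with hβ
  have hω : 0 < om β := Real.rpow_pos_of_pos (lt_of_lt_of_le (by norm_num) (le_max_right _ _)) _
  have hdet : (1 + β).det ≠ 0 := by
    have := (abs_lt.1 (hd x)).1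
    exact ne_of_gt (by linarith)
  have hs : (1 + β).transpose = 1 + β := by
    rw [Matrix.transpose_add, Matrix.transpose_one]
    congr 1
    ext i j
    exact DFunLike.congr_fun (b.symm j i) (x : E n)
  have hβy : β.mulVec y = 0 := funext fun i => b.tang i x
  have hyy : y ⬝ᵥ y = 1 := forms2a_sq x
  have hg : ∀ u : W n, gv u x ⬝ᵥ y = 0 := fun u => grad_tang u x
  refine ⟨1 / ((n : ℝ) - 1) * (2 * om β) * ∑ a, c a * ∑ i, ∑ j,
    (PiX n i j x + iota b i j x) * (gv (u a) x i * gv (w a) x j), fun ξ η => ?_⟩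
  set A := ((HX (iota b)).at x).mulVec ξ with hA
  have hA1 : A = (1 + β).mulVec (om β • (ξ - (y ⬝ᵥ ξ) • y)) := by
    have e : (HX (iota b)).at x = om β • (1 - Matrix.vecMulVec y y + β) := by
      ext i j
      simp only [X.at, Matrix.of_apply, HX_apply, Matrix.smul_apply, Matrix.add_apply,
        Matrix.sub_apply, Matrix.one_apply, Matrix.vecMulVec_apply, smul_eq_mul]
      rfl
    rw [hA, e, Matrix.smul_mulVec, Matrix.mulVec_smul, Matrix.add_mulVec, Matrix.sub_mulVec,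
      Matrix.add_mulVec, Matrix.one_mulVec, Matrix.one_mulVec, Matrix.mulVec_sub,
      Matrix.mulVec_smul, hβy, smul_zero, sub_zero, Matrix.vecMulVec_mulVec, op_smul_eq_smul]
  have hA2 : y ⬝ᵥ A = 0 := by
    rw [hA, forms2a_dot (forms2a_symm b x), HX_tang, dotProduct_zero]
  set B := η - (y ⬝ᵥ η) • y with hB
  have hv : ∀ i j, iota (forms2a_ten A η) i j x = A i * B j + B i * A j := fun i j => by
    change forms2a_vec A i x * forms2a_vec η j x + forms2a_vec η i x * forms2a_vec A j x = _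
    simp only [forms2a_vec_sphere, ← hy, hA2, zero_mul, sub_zero]
    rfl
  have hv' : (iota (forms2a_ten A η)).at x = Matrix.vecMulVec A B + Matrix.vecMulVec B A := by
    ext i j
    exact hv i j
  have htr : ((1 + β)⁻¹ * (iota (forms2a_ten A η)).at x).trace =
      2 * om β * (ξ ⬝ᵥ η - (y ⬝ᵥ ξ) * (y ⬝ᵥ η)) := by
    rw [hv', hA1, forms2a_tr hdet hs, hB]
    simp only [smul_dotProduct, sub_dotProduct, dotProduct_sub, dotProduct_smul, smul_eq_mul, hyy,
      dotProduct_comm ξ y]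
    ring
  have hgB : ∀ u : W n, gv u x ⬝ᵥ η = gv u x ⬝ᵥ B := fun u => by
    rw [hB, dotProduct_sub, dotProduct_smul, hg, smul_zero, sub_zero]
  have key := forms2a_pt hd c u w h0 (forms2a_ten A η) x
  simp only [fderiv_HX hd, ← hβ, htr, hv] at key
  refine mul_left_cancel₀ hω.ne' (eq_of_sub_eq_zero (Eq.trans ?_ key))
  have e1 : ∀ g g' : Fin n → ℝ, (g ⬝ᵥ A) * (g' ⬝ᵥ B) = ∑ i, ∑ j, A i * B j * (g i * g' j) :=
    fun g g' => by
      simp only [dotProduct, Finset.sum_mul_sum]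
      exact Finset.sum_congr rfl fun i _ => Finset.sum_congr rfl fun j _ => by ring
  have e2 : ∀ g g' : Fin n → ℝ, (g' ⬝ᵥ A) * (g ⬝ᵥ B) = ∑ i, ∑ j, B i * A j * (g i * g' j) :=
    fun g g' => by
      rw [mul_comm]
      simp only [dotProduct, Finset.sum_mul_sum]
      exact Finset.sum_congr rfl fun i _ => Finset.sum_congr rfl fun j _ => by ring
  simp only [hgB, e1 (gv (u _) x), e2 (gv (u _) x)]
  generalize ξ ⬝ᵥ η - (y ⬝ᵥ ξ) * (y ⬝ᵥ η) = t
  simp only [Finset.mul_sum, Finset.sum_mul, ← Finset.sum_add_distrib, ← Finset.sum_sub_distrib]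
  refine Finset.sum_congr rfl fun a _ => Finset.sum_congr rfl fun i _ =>
    Finset.sum_congr rfl fun j _ => ?_
  ring

/-- trace -/
theorem AnnEq.trace {b : BB n} {m : ℕ} {c : Fin m → ℝ} {u w : Fin m → W n} {x : Sp n} {μ : ℝ}
    (h : AnnEq b c u w x μ) :
    2 * ∑ a, c a * (gv (u a) x ⬝ᵥ ((HX (iota b)).at x).mulVec (gv (w a) x)) = μ * ((n : ℝ) - 1) := by
  have h1 := Finset.sum_congr rfl fun i (_ : i ∈ Finset.univ) => h (Pi.single i 1) (Pi.single i 1)
  have e : ∀ y z : Fin n → ℝ, ∑ i, (y ⬝ᵥ ((HX (iota b)).at x).mulVec (Pi.single i 1)) *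
      z i = z ⬝ᵥ ((HX (iota b)).at x).mulVec y := fun y z => by
    simp only [forms2a_dot (forms2a_symm b x) y, single_one_dotProduct]
    exact dotProduct_comm _ _
  rw [Finset.sum_comm, ← Finset.mul_sum] at h1
  simp only [← Finset.mul_sum, Finset.sum_add_distrib, e, single_one_dotProduct,
    dotProduct_single_one, Pi.single_eq_same, Finset.sum_sub_distrib, Finset.sum_const,
    Finset.card_univ, Fintype.card_fin, nsmul_eq_mul, mul_one] at h1
  have h2 : ∑ i, (x : E n) i * (x : E n) i = 1 := forms2a_sq x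
  rw [h2] at h1
  rw [← h1, Finset.mul_sum]
  refine Finset.sum_congr rfl fun a _ => ?_
  rw [forms2a_dot (forms2a_symm b x) (gv (w a) x)]
  ring

/-- rank: if all gradients lie in the span of `k < n - 1` vectors, take `ξ = η ≠ 0` orthogonal to them and to `x` -/
theorem AnnEq.zero {b : BB n} {m : ℕ} {c : Fin m → ℝ} {u w : Fin m → W n} {x : Sp n} {μ : ℝ}
    (h : AnnEq b c u w x μ) {k : ℕ} (hk : k + 1 < n) (z : Fin k → Fin n → ℝ)
    (hz : ∀ a, gv (u a) x ∈ Submodule.span ℝ (range z) ∧ gv (w a) x ∈ Submodule.span ℝ (range z)) :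
    μ = 0 := by
  obtain ⟨ξ, h1, h2⟩ := (Submodule.ne_bot_iff _).1 (LinearMap.ker_ne_bot_of_finrank_lt
    (f := (Matrix.of (Fin.cons (fun i => (x : E n) i) z : Fin (k + 1) → Fin n → ℝ)).mulVecLin)
    (by simpa using hk))
  have h3 : ((fun i => (x : E n) i) ⬝ᵥ ξ) = 0 := congrFun h1 0
  have h4 : ∀ y ∈ Submodule.span ℝ (range z), y ⬝ᵥ ξ = 0 := fun y hy => by
    induction hy using Submodule.span_induction with
    | mem _ h => obtain ⟨j, rfl⟩ := h; exact congrFun h1 j.succ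
    | zero => exact zero_dotProduct _
    | add _ _ _ _ h h' => rw [add_dotProduct, h, h', add_zero]
    | smul _ _ _ h => rw [smul_dotProduct, h, smul_zero]
  have h5 := h ξ ξ
  simp only [h3, h4 _ (hz _).1, h4 _ (hz _).2, mul_zero, add_zero, Finset.sum_const_zero,
    sub_zero] at h5
  exact (mul_eq_zero.1 h5.symm).resolve_right fun h6 => h2 (dotProduct_self_eq_zero.1 h6)

end Crest.Agent.R202
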