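import Crest.Agent.R202.Forms1
import Crest.Agent.R202.Sph4
import Crest.Agent.R202.Forms2a

/-! # Row 202, Forms2: annihilators of the perturbations, the stress identity -/

set_option autoImplicit false
open scoped ContDiff RealInnerProductSpace
open Set Filter Topology MeasureTheory Crest.GeometryTopology.CoordMetric

noncomputable section
namespace Crest.Agent.R202

variable {n : ℕ}

/-- Jacobi's formula at the identity -/
theorem forms2_jacobi {A : ℝ → Matrix (Fin n) (Fin n) ℝ} {A' : Matrix (Fin n) (Fin n) ℝ}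
    (h0 : A 0 = 1) (h : ∀ i j, HasDerivAt (fun s => A s i j) (A' i j) 0) :
    HasDerivAt (fun s => (A s).det) A'.trace 0 := by
  classical
  have h1 : HasDerivAt (fun s => ∑ σ : Equiv.Perm (Fin n),
      ((Equiv.Perm.sign σ : ℤ) : ℝ) * ∏ i, A s (σ i) i)
      (∑ σ : Equiv.Perm (Fin n), ((Equiv.Perm.sign σ : ℤ) : ℝ) *
        ∑ k, (∏ i ∈ Finset.univ.erase k, A 0 (σ i) i) • A' (σ k) k) 0 :=
    HasDerivAt.fun_sum fun σ _ =>
      (HasDerivAt.fun_finsetProd fun i _ => h (σ i) i).const_mul _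
  have h2 : (fun s => (A s).det) = fun s => ∑ σ : Equiv.Perm (Fin n),
      ((Equiv.Perm.sign σ : ℤ) : ℝ) * ∏ i, A s (σ i) i := funext fun s => Matrix.det_apply' _
  rw [h2]
  convert h1 using 1
  rw [Finset.sum_eq_single (1 : Equiv.Perm (Fin n))]
  · simp [h0, Matrix.trace]
  · intro σ _ hσ
    rw [Finset.sum_eq_zero, mul_zero]
    intro k _
    have : ∃ i, i ≠ k ∧ σ i ≠ i := by
      by_contra hc
      push Not at hc
      apply hσ
      ext i
      by_cases hi : i = k
      · subst hi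
        by_cases h3 : σ i = i
        · simp [h3]
        · exact absurd (σ.injective (hc _ h3)) h3
      · simp [hc i hi]
    obtain ⟨i, hi, hi'⟩ := this
    rw [Finset.prod_eq_zero (i := i) (by simp [hi]) (by rw [h0, Matrix.one_apply_ne hi']),
      zero_smul]
  · simp

/-- the integrand of `form` -/
def forms2Q (K : X n) (u w : W n) : CS n := ∑ i, ∑ j, K i j * (grad i u * grad j w)

theorem forms2Q_apply (K : X n) (u w : W n) (x : Sp n) :
    forms2Q K u w x = gv u x ⬝ᵥ (K.at x).mulVec (gv w x) := by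
  simp only [forms2Q, ContinuousMap.coe_sum, Finset.sum_apply, ContinuousMap.mul_apply,
    dotProduct, Matrix.mulVec, X.at, gv, Matrix.of_apply, Finset.mul_sum]
  refine Finset.sum_congr rfl fun i _ => Finset.sum_congr rfl fun j _ => ?_
  ring

theorem forms2Q_apply' (K : X n) (u w : W n) (x : Sp n) :
    forms2Q K u w x = ∑ i, ∑ j, K i j x * (grad i u x * grad j w x) := by
  simp only [forms2Q, ContinuousMap.coe_sum, Finset.sum_apply, ContinuousMap.mul_apply]

theorem forms2Q_symm {K : X n} (hK : ∀ i j, K i j = K j i) (u w : W n) :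
    forms2Q K u w = forms2Q K w u := by
  unfold forms2Q
  rw [Finset.sum_comm]
  refine Finset.sum_congr rfl fun i _ => Finset.sum_congr rfl fun j _ => ?_
  rw [hK j i, mul_comm (grad j u)]

theorem forms2Q_mulW (K : X n) (u φ ψ : W n) :
    forms2Q K u (mulW φ ψ) = res ψ * forms2Q K u φ + res φ * forms2Q K u ψ := by
  simp only [forms2Q, grad_mulW, Finset.mul_sum, ← Finset.sum_add_distrib]
  refine Finset.sum_congr rfl fun i _ => Finset.sum_congr rfl fun j _ => ?_
  ring

theorem forms2_gv_act (g : E n ≃ₗᵢ[ℝ] E n) (u : W n) (x : Sp n) :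
    gv (act g u) x = (Matrix.of (ent g)).transpose.mulVec (gv u (sphMap g x)) := by
  funext i
  simp only [gv, grad_act, Matrix.mulVec, dotProduct, Matrix.transpose_apply, Matrix.of_apply]

theorem forms2Q_act (g : E n ≃ₗᵢ[ℝ] E n) (K : X n) (u w : W n) (x : Sp n) :
    forms2Q (actX g K) (act g u) (act g w) x = forms2Q K u w (sphMap g x) := by
  have h1 : Matrix.of (ent g) * (Matrix.of (ent g)).transpose = 1 :=
    mul_eq_one_comm.1 (ent_orth g)
  rw [forms2Q_apply, forms2Q_apply, actX_at, forms2_gv_act, forms2_gv_act, Matrix.mulVec_mulVec,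
    Matrix.mul_assoc, Matrix.mul_assoc, h1, Matrix.mul_one, ← Matrix.mulVec_mulVec,
    Matrix.dotProduct_mulVec, Matrix.vecMul_transpose, Matrix.mulVec_mulVec, h1,
    Matrix.one_mulVec]

theorem forms2_ent_mulVec (g : E n ≃ₗᵢ[ℝ] E n) (y : E n) :
    (Matrix.of (ent g)).mulVec (fun i => y i) = fun i => g y i := by
  funext k
  have hy : y = ∑ i, y i • EuclideanSpace.single i (1 : ℝ) := by
    ext j
    simp [Pi.single_apply]
  conv_rhs => rw [hy]
  simp [Matrix.mulVec, dotProduct, ent, mul_comm]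

theorem forms2_entry_deriv (π : Plane n) {K K₁ : X n}
    (h : HasDerivAt (fun s => actX (rot π s) K) K₁ 0) (i j : Fin n) (x : Sp n) :
    HasDerivAt (fun s => actX (rot π s) K i j x) (K₁ i j x) 0 := by
  have h1 : HasDerivAt (fun s => actX (rot π s) K i j) (K₁ i j) 0 :=
    hasDerivAt_pi.1 (hasDerivAt_pi.1 h i) j
  exact (ContinuousMap.evalCLM ℝ x).hasFDerivAt.comp_hasDerivAt 0 h1

/-- weighted commutator identity -/
theorem forms2_comm (π : Plane n) {K K₁ : X n}
    (h : HasDerivAt (fun s => actX (rot π s) K) K₁ 0) (φ u w : W n) :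
    integ n (res (π.L φ) * forms2Q K u w +
      res φ * (forms2Q K₁ u w + forms2Q K (π.L u) w + forms2Q K u (π.L w))) = 0 := by
  refine integ_orbit π (res φ * forms2Q K u w) _ fun x => ?_
  have e1 : (fun s => (res φ * forms2Q K u w) (sphMap (rot π s) x)) = fun s =>
      φ (rot π s x) * ∑ i, ∑ j, actX (rot π s) K i j x *
        (grad i (act (rot π s) u) x * grad j (act (rot π s) w) x) := by
    funext s
    rw [ContinuousMap.mul_apply, ← forms2Q_act, forms2Q_apply']
    rfl
  rw [e1]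
  have h2 := (hasDerivAt_orbit π φ x).fun_mul (HasDerivAt.fun_sum (u := Finset.univ) fun i _ =>
    HasDerivAt.fun_sum (u := Finset.univ) fun j _ => (forms2_entry_deriv π h i j x).fun_mul
      ((hasDerivAt_grad_orbit π u i x).fun_mul (hasDerivAt_grad_orbit π w j x)))
  refine h2.congr_deriv (Eq.symm ?_)
  have a1 : ∀ v : W n, act (rot π 0) v = v := fun v => by
    ext y
    rw [act_apply, rot_zero]
    rfl
  have a2 : rot π 0 x = x := by rw [rot_zero]; rfl
  have a3 : actX (rot π 0) K = K := by rw [rot_zero, actX_refl]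
  simp only [a1, a2, a3, ContinuousMap.add_apply, ContinuousMap.mul_apply, res_apply,
    forms2Q_apply', ← Finset.sum_add_distrib]
  congr 2
  refine Finset.sum_congr rfl fun i _ => Finset.sum_congr rfl fun j _ => ?_
  ring

theorem forms2_symm (π : Plane n) {K K₁ : X n}
    (h : HasDerivAt (fun s => actX (rot π s) K) K₁ 0) (hK : ∀ i j, K i j = K j i) (i j : Fin n) :
    K₁ i j = K₁ j i := by
  ext x
  refine (forms2_entry_deriv π h i j x).unique ?_
  refine (forms2_entry_deriv π h j i x).congr_of_eventuallyEq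
    (Filter.Eventually.of_forall fun s => ?_)
  beta_reduce
  rw [actX_apply, actX_apply, Finset.sum_comm]
  refine Finset.sum_congr rfl fun k _ => Finset.sum_congr rfl fun l _ => ?_
  rw [hK l k]
  ring

theorem forms2_tang (π : Plane n) {K K₁ : X n}
    (h : HasDerivAt (fun s => actX (rot π s) K) K₁ 0)
    (hK : ∀ x : Sp n, (K.at x).mulVec (fun i => (x : E n) i) = 0) (x : Sp n) :
    (K₁.at x).mulVec (fun i => (x : E n) i) = 0 := by
  funext i
  have h1 : HasDerivAt (fun s => ∑ j, actX (rot π s) K i j x * (x : E n) j)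
      (∑ j, K₁ i j x * (x : E n) j) 0 :=
    HasDerivAt.fun_sum fun j _ => (forms2_entry_deriv π h i j x).mul_const _
  have h2 : (fun s => ∑ j, actX (rot π s) K i j x * (x : E n) j) = fun _ => 0 := by
    funext s
    have : ((actX (rot π s) K).at x).mulVec (fun i => (x : E n) i) = 0 := by
      rw [actX_at, ← Matrix.mulVec_mulVec, ← Matrix.mulVec_mulVec, forms2_ent_mulVec]
      have := hK (sphMap (rot π s) x)
      rw [sphMap_coe] at this
      rw [this, Matrix.mulVec_zero]
    exact congrFun this i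
  rw [h2] at h1
  exact h1.unique (hasDerivAt_const _ _)

theorem forms2_trace (π : Plane n) {K K₁ : X n}
    (h : HasDerivAt (fun s => actX (rot π s) K) K₁ 0)
    (hK : ∀ x : Sp n, (K.at x +
      Matrix.vecMulVec (fun i => (x : E n) i) (fun i => (x : E n) i)).det = 1) (x : Sp n) :
    ((K.at x + Matrix.vecMulVec (fun i => (x : E n) i) (fun i => (x : E n) i))⁻¹ *
      K₁.at x).trace = 0 := by
  set P : Matrix (Fin n) (Fin n) ℝ :=
    Matrix.vecMulVec (fun i => (x : E n) i) (fun i => (x : E n) i) with hP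
  set N := (K.at x + P)⁻¹ with hN
  have hu : IsUnit (K.at x + P).det := by rw [hK x]; exact isUnit_one
  have h1 : HasDerivAt (fun s => (N * ((actX (rot π s) K).at x + P)).det)
      (N * K₁.at x).trace 0 := by
    refine forms2_jacobi ?_ fun i j => ?_
    · rw [rot_zero, actX_refl, hN, Matrix.nonsing_inv_mul _ hu]
    · simp only [Matrix.mul_apply, Matrix.add_apply, X.at, Matrix.of_apply]
      exact HasDerivAt.fun_sum fun k _ =>
        ((forms2_entry_deriv π h k j x).add_const _).const_mul _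
  have h2 : (fun s => (N * ((actX (rot π s) K).at x + P)).det) = fun _ => N.det := by
    funext s
    set G := Matrix.of (ent (rot π s)) with hG
    have e0 : G.transpose * G = 1 := ent_orth _
    have e1 : G.transpose.mulVec (fun i => rot π s x i) = fun i => (x : E n) i := by
      rw [← forms2_ent_mulVec, Matrix.mulVec_mulVec, e0, Matrix.one_mulVec]
    have e2 : P = G.transpose * Matrix.vecMulVec (fun i => rot π s x i) (fun i => rot π s x i) * G := by
      rw [Matrix.mul_vecMulVec, Matrix.vecMulVec_mul, ← Matrix.mulVec_transpose, e1]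
    have e3 := hK (sphMap (rot π s) x)
    rw [sphMap_coe] at e3
    have e4 : G.transpose.det * G.det = 1 := by rw [← Matrix.det_mul, e0, Matrix.det_one]
    rw [Matrix.det_mul, actX_at, e2, ← hG, ← Matrix.add_mul, ← Matrix.mul_add, Matrix.det_mul,
      Matrix.det_mul, e3, mul_one, e4, mul_one]
  rw [h2] at h1
  exact h1.unique (hasDerivAt_const _ _)

theorem forms2_gv_tang (u : W n) (x : Sp n) : gv u x ⬝ᵥ (fun i => (x : E n) i) = 0 :=
  grad_tang u x

/-- the `H₁` term vanishes -/
theorem forms2_H1 (hn : 2 ≤ n) {ε : ℝ} (h : Good n ε) {b : BB n} (hb : ‖b‖ < ε) {m : ℕ}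
    {c : Fin m → ℝ} {u w : Fin m → W n} {x : Sp n} {μ : ℝ} (hA : AnnEq b c u w x μ)
    (π : Plane n) {K₁ : X n} (hK : HasDerivAt (fun s => actX (rot π s) (HX (iota b))) K₁ 0) :
    ∑ a, c a * forms2Q K₁ (u a) (w a) x = 0 := by
  set v : Fin n → ℝ := fun i => (x : E n) i with hv
  set H := (HX (iota b)).at x with hH
  set M := H + Matrix.vecMulVec v v with hM
  set N := M⁻¹ with hN
  have hu : IsUnit M.det := by rw [det_HX hn h hb x]; exact isUnit_one
  have hMN : M * N = 1 := Matrix.mul_nonsing_inv _ hu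
  have htr : (N * K₁.at x).trace = 0 := forms2_trace π hK (det_HX hn h hb) x
  have htan : (K₁.at x).mulVec v = 0 := forms2_tang π hK (HX_tang b) x
  have hs := forms2_symm π hK (HX_symm b)
  have key : ∀ (z : W n) (i : Fin n), gv z x ⬝ᵥ H.mulVec (N.mulVec (Pi.single i 1)) = gv z x i := by
    intro z i
    have e1 : H = M - Matrix.vecMulVec v v := by rw [hM]; abel
    rw [e1, Matrix.sub_mulVec, Matrix.mulVec_mulVec, hMN, Matrix.one_mulVec, dotProduct_sub,
      Matrix.vecMulVec_mulVec, dotProduct_single, mul_one]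
    have := forms2_gv_tang z x
    simp [← hv] at this
    simp [this]
  have h1 : ∀ i, ∑ a, c a * (gv (u a) x i * (K₁.at x).mulVec (gv (w a) x) i +
      gv (w a) x i * (K₁.at x).mulVec (gv (u a) x) i) = μ * (K₁.at x * N) i i := by
    intro i
    have := hA (N.mulVec (Pi.single i 1)) (K₁.at x i)
    rw [← hH, ← hv] at this
    simp only [key] at this
    have e2 : v ⬝ᵥ K₁.at x i = 0 := by
      rw [dotProduct_comm]
      exact congrFun htan i
    rw [e2, mul_zero, sub_zero] at this
    have e3 : ∀ z : Fin n → ℝ, z ⬝ᵥ K₁.at x i = (K₁.at x).mulVec z i := fun z =>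
      dotProduct_comm _ _
    simp only [e3] at this
    rw [this, Matrix.mulVec_mulVec, Matrix.mulVec_single_one]
    rfl
  have h2 : ∑ i, ∑ a, c a * (gv (u a) x i * (K₁.at x).mulVec (gv (w a) x) i +
      gv (w a) x i * (K₁.at x).mulVec (gv (u a) x) i) = 0 := by
    simp only [h1]
    rw [← Finset.mul_sum]
    have : ∑ i, (K₁.at x * N) i i = 0 := by
      rw [Matrix.trace_mul_comm] at htr
      exact htr
    rw [this, mul_zero]
  rw [Finset.sum_comm] at h2
  have h3 : ∀ a, ∑ i, c a * (gv (u a) x i * (K₁.at x).mulVec (gv (w a) x) i +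
      gv (w a) x i * (K₁.at x).mulVec (gv (u a) x) i) = 2 * (c a * forms2Q K₁ (u a) (w a) x) := by
    intro a
    rw [← Finset.mul_sum, Finset.sum_add_distrib]
    have b1 := forms2Q_apply K₁ (u a) (w a) x
    have b2 := forms2Q_apply K₁ (w a) (u a) x
    rw [forms2Q_symm hs (w a)] at b2
    unfold dotProduct at b1 b2
    rw [← b1, ← b2]
    ring
  simp only [h3] at h2
  rw [← Finset.mul_sum] at h2
  linarith

/-- **stress identity.**  For a plane `π` (`L = π.L`, `H₁ = orbD π 1 H`) and `φ ∈ W n` add the eigen-equations of `uₐ` tested with `φ · L wₐ` and of `wₐ` tested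
with `φ · L uₐ`:  `λₐ ∫ φ L(uₐwₐ) = ∫ φ [H(∇uₐ,∇Lwₐ) + H(∇Luₐ,∇wₐ)] + ∫ [Lwₐ H(∇uₐ,∇φ) + Luₐ H(∇wₐ,∇φ)]`.
`integ_orbit` for `F = φ H(∇uₐ,∇wₐ)` gives `∫ φ[…] = -∫ Lφ · H(∇uₐ,∇wₐ) - ∫ φ H₁(∇uₐ,∇wₐ)`.  Sum with `cₐ`: `AnnEq` with `ξ = ∇φ`, `η = Ξx` gives `μ Lφ` for the last bracket,
`AnnEq.trace` gives `Σ cₐ H(∇uₐ,∇wₐ) = (n-1)μ/2`, and `2Σ cₐ H₁(∇uₐ,∇wₐ) = μ tr((H+xxᵀ)⁻¹H₁) = 0`: take `ξ = (H+xxᵀ)⁻¹eᵢ` in `AnnEq`, `H₁ x = 0`, and
`s ↦ det((R_s•H)(x) + xxᵀ) = 1` (`det_HX`, `actX_at`, Jacobi).  So `∫ φ L(q) = (1 - (n-1)/2)∫ μ Lφ = 0`, `q = Σ cₐλₐuₐwₐ ∈ W n`; hence all `L_{ij} q = 0`,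
`gr q = 0` (`form_PiX_Lij`), `eq_const_of_gr`. -/
theorem stress (hn : 2 ≤ n) {ε : ℝ} (h : Good n ε) {b : BB n} (hb : ‖b‖ < ε) {m : ℕ} (c lam : Fin m → ℝ)
    (u w : Fin m → W n) (hu : ∀ a, u a ∈ eigsp (aB b) (lam a)) (hw : ∀ a, w a ∈ eigsp (aB b) (lam a))
    (hA : ∀ x, ∃ μ, AnnEq b c u w x μ ∧ (n = 3 ∨ μ = 0)) :
    ∃ C : ℝ, ∀ x : Sp n, ∑ a, c a * lam a * (u a x * w a x) = C := by
  set H := HX (iota b) with hH
  set q : W n := ∑ a, (c a * lam a) • mulW (u a) (w a) with hq
  have hL : ∀ (π : Plane n) (φ : W n), ⟪φ, π.L q⟫ = 0 := by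
    intro π φ
    have hK : HasDerivAt (fun s => actX (rot π s) H) (orbD π 1 H) 0 := by
      simpa [orbD_zero] using hasDerivAt_orbD π (orbSmooth_HX h hb π) 0
    have h1 : ∀ a, lam a * ⟪φ, π.L (mulW (u a) (w a))⟫ =
        integ n (res (π.L (w a)) * forms2Q H (u a) φ + res (π.L (u a)) * forms2Q H (w a) φ -
          res (π.L φ) * forms2Q H (u a) (w a) - res φ * forms2Q (orbD π 1 H) (u a) (w a)) := by
      intro a
      have e1 : integ n (forms2Q H (u a) (mulW φ (π.L (w a)))) =
          lam a * ⟪u a, mulW φ (π.L (w a))⟫ := hu a _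
      have e2 : integ n (forms2Q H (w a) (mulW φ (π.L (u a)))) =
          lam a * ⟪w a, mulW φ (π.L (u a))⟫ := hw a _
      have e3 := forms2_comm π hK φ (u a) (w a)
      have e4 : ⟪φ, π.L (mulW (u a) (w a))⟫ =
          ⟪u a, mulW φ (π.L (w a))⟫ + ⟪w a, mulW φ (π.L (u a))⟫ := by
        rw [inner_W, inner_W, inner_W, ← map_add]
        congr 1
        ext x
        have := Lv_mulW π.gen (u a) (w a)
        change π.L _ = mulW (π.L _) _ + mulW _ (π.L _) at this
        rw [this]
        simp only [ContinuousMap.mul_apply, ContinuousMap.add_apply, res_apply, W.add_apply,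
          mulW_apply]
        ring
      rw [forms2Q_mulW] at e1 e2
      rw [forms2Q_symm (HX_symm b) (w a) (π.L (u a))] at e2
      rw [e4, mul_add, ← e1, ← e2, ← map_add, ← sub_zero (integ n _), ← e3, ← map_sub]
      congr 1
      ring
    have h2 : ⟪φ, π.L q⟫ = ∑ a, c a * (lam a * ⟪φ, π.L (mulW (u a) (w a))⟫) := by
      rw [hq, map_sum, inner_sum]
      refine Finset.sum_congr rfl fun a _ => ?_
      rw [map_smul, real_inner_smul_right, mul_assoc]
    rw [h2]
    simp only [h1]
    have h3 : ∑ a, c a • (res (π.L (w a)) * forms2Q H (u a) φ +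
        res (π.L (u a)) * forms2Q H (w a) φ -
          res (π.L φ) * forms2Q H (u a) (w a) - res φ * forms2Q (orbD π 1 H) (u a) (w a)) = 0 := by
      ext x
      obtain ⟨μ, hμ, hμ'⟩ := hA x
      have b1 := forms2_H1 hn h hb hμ π hK
      have b2 := hμ.trace
      have b3 := hμ (gv φ x) (fun i => π.gen x i)
      have b4 : ∀ z : W n, gv z x ⬝ᵥ (fun i => π.gen x i) = π.L z x := fun z =>
        (Lv_sphere π.gen z x).symm
      rw [dotProduct_comm (fun i => (x : E n) i) (gv φ x), forms2_gv_tang] at b3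
      simp only [b4, ← forms2Q_apply] at b2 b3
      have b5 : μ * (1 - ((n : ℝ) - 1) / 2) = 0 := by
        rcases hμ' with rfl | rfl
        · norm_num
        · simp
      simp only [ContinuousMap.coe_sum, Finset.sum_apply, ContinuousMap.smul_apply,
        ContinuousMap.sub_apply, ContinuousMap.add_apply, ContinuousMap.mul_apply, res_apply,
        smul_eq_mul, ContinuousMap.zero_apply]
      have b6 : ∀ a, c a * (π.L (w a) x * forms2Q H (u a) φ x + π.L (u a) x * forms2Q H (w a) φ x -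
          π.L φ x * forms2Q H (u a) (w a) x - φ x * forms2Q (orbD π 1 H) (u a) (w a) x) =
          c a * (forms2Q H (u a) φ x * π.L (w a) x + forms2Q H (w a) φ x * π.L (u a) x) -
          π.L φ x * (c a * forms2Q H (u a) (w a) x) -
          φ x * (c a * forms2Q (orbD π 1 H) (u a) (w a) x) := fun a => by ring
      simp only [b6]
      rw [Finset.sum_sub_distrib, Finset.sum_sub_distrib, ← Finset.mul_sum, ← Finset.mul_sum, b1,
        b3]
      linear_combination (π.L φ x) * b5 - (π.L φ x / 2) * b2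
    have h4 := congrArg (integ n) h3
    rw [map_sum, map_zero] at h4
    simpa only [map_smul, smul_eq_mul] using h4
  have h0 : ∀ i j, Lij i j q = 0 := by
    intro i j
    by_cases hij : i = j
    · rw [hij, Lij_self]; rfl
    · rw [Lij_eq i j hij]
      exact inner_self_eq_zero.1 (hL _ _)
  have hg : gr q = 0 := by
    rw [gr, form_PiX_Lij]
    simp [h0]
  obtain ⟨C, hC⟩ := eq_const_of_gr hn hg
  refine ⟨C, fun x => ?_⟩
  have := congrArg (fun z : W n => z x) hC
  simpa [hq, W.sum_apply] using this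

end Crest.Agent.R202
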