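import Crest.Agent.R202.Gen1

/-! # Row 202, Gen2: Davis–Kahan and the cluster lemma -/

set_option autoImplicit false
open scoped RealInnerProductSpace
open Set Filter Topology

noncomputable section
namespace Crest.Agent.R202

variable {V : Type*} [NormedAddCommGroup V] [InnerProductSpace ℝ V]
variable {B : Type*} [NormedAddCommGroup B] [NormedSpace ℝ B]

theorem g2a_inner {k : ℕ} {φ : Fin k → V} (ho : Orthonormal ℝ φ) {h : V}
    (hh : ∀ i, ⟪φ i, h⟫ = 0) (d d' : Fin k → ℝ) :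
    ⟪∑ i, d i • φ i + h, ∑ i, d' i • φ i + h⟫ = ∑ i, d i * d' i + ‖h‖ ^ 2 := by
  have h1 : ∀ j, ⟪φ j, ∑ i, d' i • φ i + h⟫ = d' j := fun j => by
    rw [inner_add_right, hh, add_zero, ho.inner_right_fintype]
  have h2 : ⟪h, ∑ i, d' i • φ i⟫ = 0 := by
    rw [inner_sum]
    exact Finset.sum_eq_zero fun i _ => by
      rw [real_inner_smul_right, real_inner_comm, hh, mul_zero]
  rw [inner_add_left, sum_inner, inner_add_right h, h2, zero_add, real_inner_self_eq_norm_sq]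
  congr 1
  exact Finset.sum_congr rfl fun i _ => by rw [real_inner_smul_left, h1]

theorem g2a_form {q : BF V} (hsymm : ∀ u w, q u w = q w u) {k : ℕ} {φ : Fin k → V}
    {lam : Fin k → ℝ} (ho : Orthonormal ℝ φ) (he : ∀ i, φ i ∈ eigsp q (lam i)) {h : V}
    (hh : ∀ i, ⟪φ i, h⟫ = 0) (d d' : Fin k → ℝ) :
    q (∑ i, d i • φ i + h) (∑ i, d' i • φ i + h) = ∑ i, lam i * (d i * d' i) + q h h := by
  have h1 : ∀ j, ⟪φ j, ∑ i, d' i • φ i + h⟫ = d' j := fun j => by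
    rw [inner_add_right, hh, add_zero, ho.inner_right_fintype]
  have h2 : q h (∑ i, d' i • φ i) = 0 := by
    rw [map_sum]
    exact Finset.sum_eq_zero fun i _ => by
      rw [map_smul, hsymm, he i h, hh, mul_zero, smul_zero]
  rw [map_add q, LinearMap.add_apply, map_add (q h), h2, zero_add, map_sum q,
    LinearMap.sum_apply]
  congr 1
  refine Finset.sum_congr rfl fun i _ => ?_
  rw [map_smul, LinearMap.smul_apply, he i, h1, smul_eq_mul]
  ring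

/-- **Davis–Kahan.**  With `cᵢ = ⟪φ i,u⟫`, `h = u - Σ cᵢ φ i`, test with `y = h + Σ_{i ∉ I} sign(lam i - s) cᵢ φ i`:
`q u y - s⟪u,y⟫ = Σ_{i∉I} |lam i - s| cᵢ² + q h h - s‖h‖² ≥ γ/(1+s+γ) (‖r‖² + q r r)` and `‖y‖²+q y y = ‖r‖²+q r r`. -/
theorem dk {q : BF V} (hsymm : ∀ u w, q u w = q w u) (hnn : ∀ u, 0 ≤ q u u) {k : ℕ} (φ : Fin k → V)
    (lam : Fin k → ℝ) (ho : Orthonormal ℝ φ) (he : ∀ i, φ i ∈ eigsp q (lam i)) {Λ s γ δ : ℝ}
    (hΛ : ∀ w, (∀ i, ⟪φ i, w⟫ = 0) → Λ * ‖w‖ ^ 2 ≤ q w w) (hs : 0 ≤ s) (hγ : 0 < γ) (hδ : 0 ≤ δ)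
    (I : Finset (Fin k)) (hI : ∀ i ∉ I, γ ≤ |lam i - s|) (hsΛ : s + γ ≤ Λ) (u : V)
    (hu : ∀ w, |q u w - s * ⟪u, w⟫| ≤ δ * √(‖w‖ ^ 2 + q w w)) :
    ‖u - ∑ i ∈ I, ⟪φ i, u⟫ • φ i‖ ^ 2 +
        q (u - ∑ i ∈ I, ⟪φ i, u⟫ • φ i) (u - ∑ i ∈ I, ⟪φ i, u⟫ • φ i) ≤
      ((1 + s + γ) / γ * δ) ^ 2 := by
  classical
  obtain ⟨c, hc⟩ : ∃ c : Fin k → ℝ, c = fun i => ⟪φ i, u⟫ := ⟨_, rfl⟩
  have hc' : ∀ i, ⟪φ i, u⟫ = c i := fun i => by rw [hc]
  simp only [hc']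
  obtain ⟨h, hh⟩ : ∃ h, h = u - ∑ i, c i • φ i := ⟨_, rfl⟩
  have hu' : u = ∑ i, c i • φ i + h := by rw [hh]; abel
  have h0 : ∀ i, ⟪φ i, h⟫ = 0 := fun i => by
    rw [hh, inner_sub_right, ho.inner_right_fintype, hc', sub_self]
  let d : Fin k → ℝ := fun i => if i ∈ I then 0 else c i
  let e : Fin k → ℝ := fun i => if s ≤ lam i then d i else -d i
  have hr : u - ∑ i ∈ I, c i • φ i = ∑ i, d i • φ i + h := by
    have h1 : ∑ i ∈ I, c i • φ i = ∑ i, (if i ∈ I then c i else 0) • φ i := by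
      simp only [ite_smul, zero_smul]
      rw [Finset.sum_ite_mem, Finset.univ_inter]
    rw [h1, sub_eq_iff_eq_add, add_right_comm, ← Finset.sum_add_distrib]
    refine hu'.trans ?_
    congr 1
    refine Finset.sum_congr rfl fun i _ => ?_
    rw [← add_smul]
    congr 1
    simp only [d]
    split_ifs <;> simp
  have hee : ∀ i, e i * e i = d i * d i := fun i => by
    simp only [e]
    split_ifs <;> ring
  have hN : ‖∑ i, e i • φ i + h‖ ^ 2 + q (∑ i, e i • φ i + h) (∑ i, e i • φ i + h)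
      = ‖∑ i, d i • φ i + h‖ ^ 2 + q (∑ i, d i • φ i + h) (∑ i, d i • φ i + h) := by
    rw [← real_inner_self_eq_norm_sq (∑ i, e i • φ i + h),
      ← real_inner_self_eq_norm_sq (∑ i, d i • φ i + h), g2a_inner ho h0, g2a_inner ho h0,
      g2a_form hsymm ho he h0, g2a_form hsymm ho he h0]
    simp only [hee]
  have hy := hu (∑ i, e i • φ i + h)
  rw [hN] at hy
  rw [hr]
  obtain ⟨N, hNd⟩ : ∃ N, N = ‖∑ i, d i • φ i + h‖ ^ 2 +
    q (∑ i, d i • φ i + h) (∑ i, d i • φ i + h) := ⟨_, rfl⟩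
  rw [← hNd] at hy ⊢
  have hN0 : 0 ≤ N := by rw [hNd]; exact add_nonneg (sq_nonneg _) (hnn _)
  have hkey : γ * N ≤ (1 + s + γ) *
      (q u (∑ i, e i • φ i + h) - s * ⟪u, ∑ i, e i • φ i + h⟫) := by
    have e1 : q u (∑ i, e i • φ i + h) = ∑ i, lam i * (c i * e i) + q h h := by
      rw [← g2a_form hsymm ho he h0, ← hu']
    have e2 : ⟪u, ∑ i, e i • φ i + h⟫ = ∑ i, c i * e i + ‖h‖ ^ 2 := by
      rw [← g2a_inner ho h0, ← hu']
    rw [e1, e2, hNd, ← real_inner_self_eq_norm_sq (∑ i, d i • φ i + h), g2a_inner ho h0,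
      g2a_form hsymm ho he h0]
    have t1 : ∑ i, γ * (d i * d i + lam i * (d i * d i))
        ≤ ∑ i, (1 + s + γ) * (lam i * (c i * e i) - s * (c i * e i)) := by
      refine Finset.sum_le_sum fun i _ => ?_
      by_cases hi : i ∈ I
      · simp [d, e, hi]
      · have h1 := hI i hi
        have h2 := mul_self_nonneg (c i)
        by_cases hl : s ≤ lam i
        · simp only [d, e, if_neg hi, if_pos hl]
          rw [abs_of_nonneg (sub_nonneg.2 hl)] at h1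
          have : 0 ≤ (1 + s) * (lam i - s - γ) := mul_nonneg (by linarith) (by linarith)
          nlinarith [mul_nonneg this h2]
        · simp only [d, e, if_neg hi, if_neg hl]
          rw [abs_of_neg (sub_neg.2 (not_le.1 hl))] at h1
          have : 0 ≤ (1 + s + γ) * (s - lam i) - γ * (1 + lam i) := by
            nlinarith [mul_le_mul_of_nonneg_left h1 (show 0 ≤ 1 + s + γ by linarith)]
          nlinarith [mul_nonneg this h2]
    have t2 : 0 ≤ (1 + s) * (q h h - (s + γ) * ‖h‖ ^ 2) := by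
      refine mul_nonneg (by linarith) ?_
      have := hΛ h h0
      have := mul_le_mul_of_nonneg_right hsΛ (sq_nonneg ‖h‖)
      linarith
    rw [← Finset.mul_sum, ← Finset.mul_sum, Finset.sum_add_distrib, Finset.sum_sub_distrib,
      ← Finset.mul_sum] at t1
    nlinarith
  have h3 : γ * N ≤ (1 + s + γ) * (δ * √N) :=
    hkey.trans (mul_le_mul_of_nonneg_left ((le_abs_self _).trans hy) (by linarith))
  have h4 : √N ≤ (1 + s + γ) / γ * δ := by
    rcases (Real.sqrt_nonneg N).eq_or_lt with h5 | h5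
    · rw [← h5]; positivity
    · rw [div_mul_eq_mul_div, le_div_iff₀ hγ]
      refine le_of_mul_le_mul_right ?_ h5
      have := Real.mul_self_sqrt hN0
      nlinarith
  calc N = √N ^ 2 := (Real.sq_sqrt hN0).symm
    _ ≤ _ := pow_le_pow_left₀ (Real.sqrt_nonneg N) h4 2

/-- the span of the eigenspaces of the eigenvalues number `i₁, …, i₂-1` -/
def clus (q : BF V) (i₁ i₂ : ℕ) : Submodule ℝ V := ⨆ i : Ico i₁ i₂, eigsp q (lamv q i)

/-- `[i₁,i₂)` is a full cluster of `q` with value `s` -/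
structure IsClus (q : BF V) (i₁ i₂ : ℕ) (s : ℝ) : Prop where
  lt : i₁ < i₂
  lo : i₁ = 0 ∨ Gap q i₁
  hi : Gap q i₂
  val : ∀ i ∈ Ico i₁ i₂, lamv q i = s

/-- every index lies in a full cluster, whose length is the multiplicity -/
theorem Nice.exists_isClus {q : BF V} (hq : Nice q) (i : ℕ) :
    ∃ i₁ i₂, i₁ ≤ i ∧ i < i₂ ∧ IsClus q i₁ i₂ (lamv q i) := by
  classical
  obtain ⟨φ, h⟩ := hq.eigSys
  obtain ⟨i₁, h₁⟩ := g1a_exists_k h (lamv q i)
  obtain ⟨i₂, h₂⟩ : ∃ k, ∀ j, lamv q j ≤ lamv q i ↔ j < k := by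
    have hex : ∃ k, lamv q i < lamv q k := (h.tend.eventually_gt_atTop _).exists
    refine ⟨Nat.find hex, fun j => ⟨fun hj => ?_, fun hj => ?_⟩⟩
    · by_contra hk
      exact absurd ((Nat.find_spec hex).trans_le (h.mono (not_lt.1 hk))) (not_lt.2 hj)
    · exact not_lt.1 (Nat.find_min hex hj)
  have a1 : i₁ ≤ i := not_lt.1 fun hi => lt_irrefl _ ((h₁ i).2 hi)
  have a2 : i < i₂ := (h₂ i).1 le_rfl
  refine ⟨i₁, i₂, a1, a2, a1.trans_lt a2, ?_, ?_, fun j hj => ?_⟩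
  · rcases Nat.eq_zero_or_pos i₁ with h0 | h0
    · exact Or.inl h0
    · exact Or.inr (((h₁ (i₁ - 1)).2 (by omega)).trans_le
        (not_lt.1 fun hl => lt_irrefl _ ((h₁ i₁).1 hl)))
  · exact ((h₂ (i₂ - 1)).2 (by omega)).trans_lt (not_le.1 fun hl => lt_irrefl _ ((h₂ i₂).1 hl))
  · exact le_antisymm ((h₂ j).2 hj.2) (not_lt.1 fun hl => absurd ((h₁ j).1 hl) (not_lt.2 hj.1))

theorem g2a_setOf_eq {q : BF V} (hq : Nice q) {i₁ i₂ : ℕ} {s : ℝ} (h : IsClus q i₁ i₂ s) :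
    {i | lamv q i = s} = Ico i₁ i₂ := by
  obtain ⟨φ, hφ⟩ := hq.eigSys
  have hlt := h.lt
  ext i
  refine ⟨fun hi => ⟨?_, ?_⟩, h.val i⟩
  · by_contra hn
    rcases h.lo with h0 | h0
    · omega
    · have h1 : lamv q i ≤ lamv q (i₁ - 1) := hφ.mono (by omega)
      have h2 := h.val i₁ ⟨le_rfl, hlt⟩
      have h3 : lamv q (i₁ - 1) < lamv q i₁ := h0
      have h4 : lamv q i = s := hi
      linarith
  · by_contra hn
    have h1 : lamv q i₂ ≤ lamv q i := hφ.mono (by omega)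
    have h2 := h.val (i₂ - 1) ⟨by omega, by omega⟩
    have h3 : lamv q (i₂ - 1) < lamv q i₂ := h.hi
    have h4 : lamv q i = s := hi
    linarith

theorem IsClus.finrank {q : BF V} (hq : Nice q) {i₁ i₂ : ℕ} {s : ℝ} (h : IsClus q i₁ i₂ s) :
    Module.finrank ℝ (eigsp q s) = i₂ - i₁ := by
  obtain ⟨φ, hφ⟩ := hq.eigSys
  rw [hφ.eigsp_eq hq, g2a_setOf_eq hq h, Set.image_eq_range]
  have := finrank_span_eq_card
    (hφ.orth.linearIndependent.comp (Subtype.val : Ico i₁ i₂ → ℕ) Subtype.val_injective)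
  refine this.trans ?_
  simp

/-- (P) makes the derivative of the degeneracy function onto: a functional `c₁ L₁ + c₂ L₂` is
`R · da(φ̃₁, φ̃₂)` for the rotated pair `φ̃₁ = cos α φ₁ + sin α φ₂`, `φ̃₂ = -sin α φ₁ + cos α φ₂` with
`(c₁, c₂) = R (cos 2α, (sin 2α)/2)`. -/
theorem HypP.surj {a : B → BF V} {da : B → B →ₗ[ℝ] BF V} {ε : ℝ} (hF : Fam a da ε)
    (hP : HypP a da ε) {z : B} (hz : ‖z‖ < ε) {s : ℝ} {φ₁ φ₂ : V}
    (h₁ : φ₁ ∈ eigsp (a z) s) (h₂ : φ₂ ∈ eigsp (a z) s) (n₁ : ‖φ₁‖ = 1) (n₂ : ‖φ₂‖ = 1)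
    (o : ⟪φ₁, φ₂⟫ = 0) (y : ℝ × ℝ) :
    ∃ v, (da z v φ₁ φ₂, da z v φ₂ φ₂ - da z v φ₁ φ₁) = y := by
  let L : B →ₗ[ℝ] ℝ × ℝ :=
    { toFun := fun v => (da z v φ₁ φ₂, da z v φ₂ φ₂ - da z v φ₁ φ₁)
      map_add' := fun v w => by
        ext
        · simp
        · simp only [map_add, LinearMap.add_apply, Prod.snd_add]; ring
      map_smul' := fun c v => by
        ext
        · simp
        · simp only [map_smul, LinearMap.smul_apply, Prod.smul_snd, smul_eq_mul,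
            RingHom.id_apply]
          ring }
  suffices hL : LinearMap.range L = ⊤ from LinearMap.range_eq_top.1 hL y
  by_contra hne
  obtain ⟨f, hf0, hf⟩ := Submodule.exists_le_ker_of_lt_top _ (lt_top_iff_ne_top.2 hne)
  have hfx : ∀ x : ℝ × ℝ, f x = x.1 * f (1, 0) + x.2 * f (0, 1) := fun x => by
    have : x = x.1 • ((1, 0) : ℝ × ℝ) + x.2 • ((0, 1) : ℝ × ℝ) := by ext <;> simp
    conv_lhs => rw [this]
    rw [map_add, map_smul, map_smul, smul_eq_mul, smul_eq_mul]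
  obtain ⟨ζ, hζ⟩ := IsAlgClosed.exists_pow_nat_eq
    (⟨f (1, 0), 2 * f (0, 1)⟩ : ℂ) (n := 2) two_pos
  have hre : ζ.re ^ 2 - ζ.im ^ 2 = f (1, 0) := by
    have := congrArg Complex.re hζ
    simp only [sq, Complex.mul_re] at this
    simpa [sq] using this
  have him : ζ.re * ζ.im = f (0, 1) := by
    have := congrArg Complex.im hζ
    simp only [sq, Complex.mul_im] at this
    linarith
  have hpos : 0 < ζ.re ^ 2 + ζ.im ^ 2 := by
    by_contra hn
    have h1 : ζ.re = 0 := by nlinarith [sq_nonneg ζ.re, sq_nonneg ζ.im]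
    have h2 : ζ.im = 0 := by nlinarith [sq_nonneg ζ.re, sq_nonneg ζ.im]
    refine hf0 (LinearMap.ext fun x => ?_)
    rw [hfx, ← hre, ← him, h1, h2]
    simp
  obtain ⟨ρ, hρ0, hρ⟩ : ∃ ρ : ℝ, 0 < ρ ∧ ρ ^ 2 * (ζ.re ^ 2 + ζ.im ^ 2) = 1 := by
    refine ⟨(√(ζ.re ^ 2 + ζ.im ^ 2))⁻¹, inv_pos.2 (Real.sqrt_pos.2 hpos), ?_⟩
    rw [inv_pow, Real.sq_sqrt hpos.le, inv_mul_cancel₀ hpos.ne']
  have i11 : ⟪φ₁, φ₁⟫ = 1 := by rw [real_inner_self_eq_norm_sq, n₁]; norm_num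
  have i22 : ⟪φ₂, φ₂⟫ = 1 := by rw [real_inner_self_eq_norm_sq, n₂]; norm_num
  have i21 : ⟪φ₂, φ₁⟫ = 0 := by rw [real_inner_comm, o]
  have hnorm : ∀ x y : ℝ, x ^ 2 + y ^ 2 = 1 → ‖x • φ₁ + y • φ₂‖ = 1 := fun x y hxy => by
    have : ‖x • φ₁ + y • φ₂‖ ^ 2 = 1 := by
      rw [← real_inner_self_eq_norm_sq]
      simp only [inner_add_left, inner_add_right, real_inner_smul_left, real_inner_smul_right,
        i11, i22, i21, o]
      linarith
    exact (pow_eq_one_iff_of_nonneg (norm_nonneg _) two_ne_zero).1 this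
  obtain ⟨v, hv⟩ := hP z hz s ((ρ * ζ.re) • φ₁ + (ρ * ζ.im) • φ₂)
    (Submodule.add_mem _ (Submodule.smul_mem _ _ h₁) (Submodule.smul_mem _ _ h₂))
    ((-(ρ * ζ.im)) • φ₁ + (ρ * ζ.re) • φ₂)
    (Submodule.add_mem _ (Submodule.smul_mem _ _ h₁) (Submodule.smul_mem _ _ h₂))
    (hnorm _ _ (by linarith)) (hnorm _ _ (by linarith)) (by
      simp only [inner_add_left, inner_add_right, real_inner_smul_left, real_inner_smul_right,
        i11, i22, i21, o]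
      ring)
  apply hv
  have h0 : f (L v) = 0 := hf ⟨v, rfl⟩
  rw [hfx, ← hre, ← him] at h0
  change da z v φ₁ φ₂ * _ + (da z v φ₂ φ₂ - da z v φ₁ φ₁) * _ = 0 at h0
  simp only [map_add, map_smul, LinearMap.add_apply, LinearMap.smul_apply, smul_eq_mul,
    hF.dsymm z hz v φ₂ φ₁]
  linear_combination ρ ^ 2 * h0

end Crest.Agent.R202
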