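import Crest.Agent.R202.Gen1
import Crest.Agent.R202.Gen2a

/-! # Row 202, Gen2Aux: spectral projections of a cluster, the energy seminorm -/

set_option autoImplicit false
open scoped RealInnerProductSpace
open Set Filter Topology

noncomputable section
namespace Crest.Agent.R202

variable {V : Type*} [NormedAddCommGroup V] [InnerProductSpace ℝ V]
variable {B : Type*} [NormedAddCommGroup B] [NormedSpace ℝ B]

/-- the orthogonal projection onto the span of the `φ i`, `i ∈ I` -/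
def gen2Pr (φ : ℕ → V) (I : Finset ℕ) : V →ₗ[ℝ] V := ∑ i ∈ I, (innerₛₗ ℝ (φ i)).smulRight (φ i)

theorem gen2Pr_apply (φ : ℕ → V) (I : Finset ℕ) (u : V) :
    gen2Pr φ I u = ∑ i ∈ I, ⟪φ i, u⟫ • φ i := by
  simp [gen2Pr, LinearMap.sum_apply]

theorem gen2Pr_symm (φ : ℕ → V) (I : Finset ℕ) (u w : V) :
    ⟪gen2Pr φ I u, w⟫ = ⟪u, gen2Pr φ I w⟫ := by
  rw [gen2Pr_apply, gen2Pr_apply, sum_inner, inner_sum]
  refine Finset.sum_congr rfl fun i _ => ?_
  rw [real_inner_smul_left, real_inner_smul_right, real_inner_comm (φ i) u, mul_comm]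

theorem gen2Pr_mem (φ : ℕ → V) (I : Finset ℕ) (u : V) :
    gen2Pr φ I u ∈ Submodule.span ℝ (φ '' (I : Set ℕ)) := by
  rw [gen2Pr_apply]
  exact Submodule.sum_mem _ fun i hi =>
    Submodule.smul_mem _ _ (Submodule.subset_span ⟨i, hi, rfl⟩)

theorem gen2Pr_of_mem {φ : ℕ → V} (ho : Orthonormal ℝ φ) (I : Finset ℕ) {y : V}
    (hy : y ∈ Submodule.span ℝ (φ '' (I : Set ℕ))) : gen2Pr φ I y = y := by
  classical
  induction hy using Submodule.span_induction with
  | mem x hx =>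
    obtain ⟨i, hi, rfl⟩ := hx
    rw [gen2Pr_apply, Finset.sum_eq_single i]
    · rw [real_inner_self_eq_norm_sq, ho.1 i]; simp
    · intro j _ hj
      rw [ho.2 hj, zero_smul]
    · intro h; exact absurd hi h
  | zero => exact map_zero _
  | add x y _ _ hx hy => rw [map_add, hx, hy]
  | smul c x _ hx => rw [map_smul, hx]

theorem gen2_le_of_sq {x K : ℝ} (hx : 0 ≤ x) (hK : 0 ≤ K) (h : x ^ 2 ≤ K * x) : x ≤ K := by
  by_contra hcon
  rw [not_le] at hcon
  nlinarith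

theorem gen2Pr_norm_le {φ : ℕ → V} (ho : Orthonormal ℝ φ) (I : Finset ℕ) (u : V) :
    ‖gen2Pr φ I u‖ ≤ ‖u‖ := by
  refine gen2_le_of_sq (norm_nonneg _) (norm_nonneg _) ?_
  rw [← real_inner_self_eq_norm_sq, gen2Pr_symm, gen2Pr_of_mem ho I (gen2Pr_mem φ I u)]
  exact real_inner_le_norm _ _

theorem gen2_abs_inner_le {φ : ℕ → V} (ho : Orthonormal ℝ φ) (i : ℕ) (u : V) :
    |⟪φ i, u⟫| ≤ ‖u‖ := by
  have := abs_real_inner_le_norm (φ i) u
  rwa [ho.1 i, one_mul] at this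

theorem gen2_Q {q : BF V} {lam : ℕ → ℝ} {φ : ℕ → V} (h : EigSys q lam φ) (I : Finset ℕ)
    {s δ : ℝ} (hδ : ∀ i ∈ I, |lam i - s| ≤ δ) {y : V}
    (hy : y ∈ Submodule.span ℝ (φ '' (I : Set ℕ))) (w : V) :
    |q y w - s * ⟪y, w⟫| ≤ I.card * δ * ‖y‖ * ‖w‖ := by
  have h1 : q y w - s * ⟪y, w⟫ = ∑ i ∈ I, (lam i - s) * ⟪φ i, y⟫ * ⟪φ i, w⟫ := by
    conv_lhs => rw [← gen2Pr_of_mem h.orth I hy, gen2Pr_apply]
    rw [map_sum, LinearMap.sum_apply, sum_inner, Finset.mul_sum, ← Finset.sum_sub_distrib]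
    refine Finset.sum_congr rfl fun i _ => ?_
    rw [map_smul, LinearMap.smul_apply, real_inner_smul_left, h.eig i w, smul_eq_mul]
    ring
  rw [h1]
  refine (Finset.abs_sum_le_sum_abs _ _).trans ?_
  have h2 : ∀ i ∈ I, |(lam i - s) * ⟪φ i, y⟫ * ⟪φ i, w⟫| ≤ δ * ‖y‖ * ‖w‖ := by
    intro i hi
    have h0 : 0 ≤ δ := (abs_nonneg _).trans (hδ i hi)
    rw [abs_mul, abs_mul]
    exact mul_le_mul (mul_le_mul (hδ i hi) (gen2_abs_inner_le h.orth i y) (abs_nonneg _) h0)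
      (gen2_abs_inner_le h.orth i w) (abs_nonneg _) (mul_nonneg h0 (norm_nonneg _))
  refine (Finset.sum_le_card_nsmul _ _ _ h2).trans (le_of_eq ?_)
  rw [nsmul_eq_mul]; ring

theorem gen2_cs {q : BF V} (hq : Nice q) (u w : V) : |q u w| ≤ √(q u u) * √(q w w) := by
  rw [← Real.sqrt_mul (hq.nonneg u)]
  refine Real.abs_le_sqrt ?_
  have := LinearMap.BilinForm.apply_mul_apply_le_of_forall_zero_le q hq.nonneg u w
  rw [hq.symm w u] at this
  rw [sq]; exact this

/-- the seminorm `‖u‖ + √(q u u)` -/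
def gen2Sn {q : BF V} (hq : Nice q) : Seminorm ℝ V :=
  Seminorm.of (fun u => ‖u‖ + √(q u u))
    (fun x y => by
      have h1 := norm_add_le x y
      have h2 : √(q (x + y) (x + y)) ≤ √(q x x) + √(q y y) := by
        rw [Real.sqrt_le_left (by positivity)]
        have h3 := (le_abs_self _).trans (gen2_cs hq x y)
        have h4 := Real.sq_sqrt (hq.nonneg x)
        have h5 := Real.sq_sqrt (hq.nonneg y)
        simp only [map_add, LinearMap.add_apply, hq.symm y x]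
        nlinarith
      linarith)
    (fun c x => by
      have h1 : q (c • x) (c • x) = c ^ 2 * q x x := by
        simp only [map_smul, LinearMap.smul_apply, smul_eq_mul]; ring
      rw [h1, Real.sqrt_mul (sq_nonneg c), Real.sqrt_sq_eq_abs, norm_smul, Real.norm_eq_abs]
      ring)

theorem gen2Sn_apply {q : BF V} (hq : Nice q) (u : V) : gen2Sn hq u = ‖u‖ + √(q u u) := rfl

theorem gen2Sn_norm_le {q : BF V} (hq : Nice q) (u : V) : ‖u‖ ≤ gen2Sn hq u := by
  rw [gen2Sn_apply]; linarith [Real.sqrt_nonneg (q u u)]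

theorem gen2Sn_sqrt_le {q : BF V} (hq : Nice q) (u : V) : √(q u u) ≤ gen2Sn hq u := by
  rw [gen2Sn_apply]; linarith [norm_nonneg u]

theorem gen2_seminorm_sum_le (p : Seminorm ℝ V) {ι : Type*} (I : Finset ι) (f : ι → V) :
    p (∑ i ∈ I, f i) ≤ ∑ i ∈ I, p (f i) := by
  classical
  induction I using Finset.induction_on with
  | empty => simp
  | insert a s ha ih =>
    rw [Finset.sum_insert ha, Finset.sum_insert ha]
    exact (map_add_le_add p _ _).trans (by linarith)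

/-- the cluster `[i₁, i₂)` lies within `γ` of `s` and the other eigenvalues are `2 γ` away -/
structure Gen2Near (q : BF V) (i₁ i₂ : ℕ) (s γ : ℝ) : Prop where
  nice : Nice q
  mid : ∀ i ∈ Finset.Ico i₁ i₂, |lamv q i - s| ≤ γ
  hi : s + 2 * γ ≤ lamv q i₂
  lo : ∀ i < i₁, lamv q i ≤ s - 2 * γ

theorem Gen2Near.gap {q : BF V} {i₁ i₂ : ℕ} {s γ : ℝ} (h : Gen2Near q i₁ i₂ s γ) (hγ : 0 < γ)
    (hlt : i₁ < i₂) : (i₁ = 0 ∨ Gap q i₁) ∧ Gap q i₂ := by
  constructor
  · rcases Nat.eq_zero_or_pos i₁ with h0 | h0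
    · exact Or.inl h0
    · right
      have h1 := h.lo (i₁ - 1) (by omega)
      have h2 := abs_le.mp (h.mid i₁ (Finset.mem_Ico.mpr ⟨le_rfl, hlt⟩))
      unfold Gap
      linarith [h2.1]
  · have h1 := h.hi
    have h2 := abs_le.mp (h.mid (i₂ - 1) (Finset.mem_Ico.mpr ⟨by omega, by omega⟩))
    unfold Gap
    linarith [h2.2]

theorem Gen2Near.clus_eq {q : BF V} {i₁ i₂ : ℕ} {s γ : ℝ} (h : Gen2Near q i₁ i₂ s γ) (hγ : 0 < γ)
    {φ : ℕ → V} (hφ : EigSys q (lamv q) φ) :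
    clus q i₁ i₂ = Submodule.span ℝ (φ '' (Finset.Ico i₁ i₂ : Finset ℕ)) := by
  apply le_antisymm
  · refine iSup_le fun i => ?_
    rw [hφ.eigsp_eq h.nice]
    refine Submodule.span_mono (image_mono fun j hj => ?_)
    have hj' : lamv q j = lamv q i := hj
    have h2 := abs_le.mp (h.mid i (Finset.mem_Ico.mpr i.2))
    rw [Finset.mem_coe, Finset.mem_Ico]
    constructor
    · by_contra hc
      have := h.lo j (by omega)
      linarith [h2.1]
    · by_contra hc
      have h3 := hφ.mono (show i₂ ≤ j by omega)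
      have := h.hi
      linarith [h2.2]
  · rw [Submodule.span_le]
    rintro _ ⟨i, hi, rfl⟩
    have hi' : i ∈ Ico i₁ i₂ := Finset.mem_Ico.mp hi
    exact (le_iSup (fun i : Ico i₁ i₂ => eigsp q (lamv q i)) ⟨i, hi'⟩ :) (hφ.eig i)

theorem gen2_finrank_span {φ : ℕ → V} (ho : Orthonormal ℝ φ) (I : Finset ℕ) :
    Module.finrank ℝ (Submodule.span ℝ (φ '' (I : Set ℕ))) = I.card := by
  have h1 : LinearIndependent ℝ (fun i : I => φ i) :=
    ho.linearIndependent.comp _ Subtype.val_injective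
  have h2 := finrank_span_eq_card h1
  rw [Fintype.card_coe] at h2
  rw [← h2, image_eq_range]
  rfl

/-- Davis-Kahan for one approximate eigenvector -/
theorem Gen2Near.dk {q : BF V} {i₁ i₂ : ℕ} {s γ : ℝ} (h : Gen2Near q i₁ i₂ s γ) (hγ : 0 < γ)
    {φ : ℕ → V} (hφ : EigSys q (lamv q) φ) {t δ : ℝ} (ht0 : 0 ≤ t) (ht : |t - s| ≤ γ) (hδ : 0 ≤ δ)
    (u : V) (hu : ∀ w, |q u w - t * ⟪u, w⟫| ≤ δ * √(‖w‖ ^ 2 + q w w)) :
    ‖u - gen2Pr φ (Finset.Ico i₁ i₂) u‖ ^ 2 +
        q (u - gen2Pr φ (Finset.Ico i₁ i₂) u) (u - gen2Pr φ (Finset.Ico i₁ i₂) u) ≤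
      ((1 + s + 2 * γ) / γ * δ) ^ 2 := by
  have ht' := abs_le.mp ht
  have key := R202.dk h.nice.symm h.nice.nonneg (k := i₂) (fun i => φ i) (fun i => lamv q i)
    (hφ.orth.comp _ Fin.val_injective) (fun i => hφ.eig i) (Λ := lamv q i₂) (s := t) (γ := γ)
    (δ := δ) (fun w hw => hφ.compl i₂ w fun j hj => hw ⟨j, hj⟩) ht0 hγ hδ
    (Finset.univ.filter fun i : Fin i₂ => i₁ ≤ (i : ℕ))
    (fun i hi => by
      have h1 : (i : ℕ) < i₁ := by simpa using hi
      have h2 := h.lo i h1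
      exact le_abs.mpr (Or.inr (by linarith [ht'.1])))
    (by linarith [h.hi, ht'.2]) u hu
  have hsum : ∑ i ∈ Finset.univ.filter (fun i : Fin i₂ => i₁ ≤ (i : ℕ)), ⟪φ i, u⟫ • φ i
      = gen2Pr φ (Finset.Ico i₁ i₂) u := by
    rw [gen2Pr_apply, Finset.sum_filter,
      Fin.sum_univ_eq_sum_range (fun i => if i₁ ≤ i then ⟪φ i, u⟫ • φ i else 0) i₂,
      ← Finset.sum_filter]
    congr 1
    ext i
    simp [and_comm]
  rw [hsum] at key
  refine key.trans (pow_le_pow_left₀ (by positivity) ?_ 2)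
  exact mul_le_mul_of_nonneg_right (div_le_div_of_nonneg_right (by linarith [ht'.2]) hγ.le) hδ

/-- a strictly differentiable function vanishing at `z` times a Lipschitz function -/
theorem gen2_strict_mul {f g : B → ℝ} {L : B →L[ℝ] ℝ} {z : B} {r K : ℝ} (hr : 0 < r)
    (hf : HasStrictFDerivAt f L z) (hz : f z = 0)
    (hg : ∀ b ∈ Metric.ball z r, ∀ b' ∈ Metric.ball z r, |g b - g b'| ≤ K * ‖b - b'‖) :
    HasStrictFDerivAt (fun b => f b * g b) (g z • L) z := by
  have hball : Metric.ball z r ∈ 𝓝 z := Metric.ball_mem_nhds z hr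
  have hfst : Tendsto (fun p : B × B => p.1) (𝓝 (z, z)) (𝓝 z) := continuous_fst.tendsto _
  have hsnd : Tendsto (fun p : B × B => p.2) (𝓝 (z, z)) (𝓝 z) := continuous_snd.tendsto _
  have hgc : Tendsto (fun b => g b - g z) (𝓝 z) (𝓝 0) := by
    refine squeeze_zero_norm' (a := fun b => K * ‖b - z‖) ?_ ?_
    · filter_upwards [hball] with b hb
      exact hg b hb z (Metric.mem_ball_self hr)
    · have : Tendsto (fun b => K * ‖b - z‖) (𝓝 z) (𝓝 (K * ‖z - z‖)) :=
        (by fun_prop : Continuous fun b => K * ‖b - z‖).tendsto z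
      simpa using this
  have hgc' : Tendsto g (𝓝 z) (𝓝 (g z)) := by
    have := hgc.add_const (g z)
    simpa using this
  rw [hasStrictFDerivAt_iff_isLittleO] at hf ⊢
  have h1 : (fun p : B × B => (f p.1 - f p.2 - L (p.1 - p.2)) * g p.1) =o[𝓝 (z, z)]
      fun p : B × B => p.1 - p.2 := by
    have := hf.norm_right.mul_isBigO ((hgc'.comp hfst).isBigO_one ℝ)
    simpa using this
  have h2 : (fun p : B × B => L (p.1 - p.2) * (g p.1 - g z)) =o[𝓝 (z, z)]
      fun p : B × B => p.1 - p.2 := by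
    have := (L.isBigO_comp (fun p : B × B => p.1 - p.2) (𝓝 (z, z))).norm_right.mul_isLittleO
      ((Asymptotics.isLittleO_one_iff ℝ).mpr (hgc.comp hfst))
    simpa using this
  have h3 : (fun p : B × B => f p.2 * (g p.1 - g p.2)) =o[𝓝 (z, z)]
      fun p : B × B => p.1 - p.2 := by
    have hf0 : Tendsto f (𝓝 z) (𝓝 0) := by
      rw [← hz]
      exact (hasStrictFDerivAt_iff_isLittleO.mpr hf).continuousAt
    have h4 : (fun p : B × B => g p.1 - g p.2) =O[𝓝 (z, z)] fun p : B × B => ‖p.1 - p.2‖ := by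
      refine Asymptotics.IsBigO.of_bound K ?_
      filter_upwards [hfst hball, hsnd hball] with p h1 h2
      simpa using hg _ h1 _ h2
    have := ((Asymptotics.isLittleO_one_iff ℝ).mpr (hf0.comp hsnd)).mul_isBigO h4
    simpa using this
  refine ((h1.add h2).add h3).congr_left fun p => ?_
  simp only [ContinuousLinearMap.smul_apply, smul_eq_mul]
  ring

end Crest.Agent.R202
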