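import Crest.Agent.R202.Gen1
import Crest.Agent.R202.Gen2a
import Crest.Agent.R202.Gen2Aux

/-! # Row 202, Gen2: Davis–Kahan and the cluster lemma -/

set_option autoImplicit false
open scoped RealInnerProductSpace
open Set Filter Topology

noncomputable section
namespace Crest.Agent.R202

variable {V : Type*} [NormedAddCommGroup V] [InnerProductSpace ℝ V]
variable {B : Type*} [NormedAddCommGroup B] [NormedSpace ℝ B]

theorem gen2_nice0 {a : B → BF V} {da : B → B →ₗ[ℝ] BF V} {ε : ℝ} (hF : Fam a da ε) :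
    Nice (a 0) := hF.nice 0 (by simpa using hF.pos)

theorem gen2_mid {a : B → BF V} {da : B → B →ₗ[ℝ] BF V} {ε : ℝ} (hF : Fam a da ε) {z : B}
    (hz : ‖z‖ < ε) {i₁ i₂ : ℕ} {s : ℝ} (hc : IsClus (a z) i₁ i₂ s) {δ : ℝ} (hδ : 0 < δ) :
    ∀ᶠ b in 𝓝 z, ∀ i ∈ Finset.Ico i₁ i₂, |lamv (a b) i - s| ≤ δ := by
  rw [Filter.eventually_all_finset]
  intro i hi
  have h1 : Tendsto (fun b => lamv (a b) i) (𝓝 z) (𝓝 (lamv (a z) i)) :=
    (hF.continuousOn_lamv i).continuousAt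
      (Metric.isOpen_ball.mem_nhds (mem_ball_zero_iff.mpr hz))
  have h2 := Metric.tendsto_nhds.mp h1 δ hδ
  rw [hc.val i (Finset.mem_Ico.mp hi)] at h2
  filter_upwards [h2] with b hb
  rw [Real.dist_eq] at hb
  exact hb.le

theorem gen2_near {a : B → BF V} {da : B → B →ₗ[ℝ] BF V} {ε : ℝ} (hF : Fam a da ε) {z : B}
    (hz : ‖z‖ < ε) {i₁ i₂ : ℕ} {s : ℝ} (hc : IsClus (a z) i₁ i₂ s) :
    ∃ γ : ℝ, 0 < γ ∧ ∀ᶠ b in 𝓝 z, ‖b‖ < ε ∧ Gen2Near (a b) i₁ i₂ s γ := by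
  have hlt := hc.lt
  obtain ⟨φ, hφ⟩ := (hF.nice z hz).eigSys
  have hball : ∀ᶠ b in 𝓝 z, ‖b‖ < ε := by
    filter_upwards [Metric.isOpen_ball.mem_nhds (mem_ball_zero_iff.mpr hz)] with b hb
    exact mem_ball_zero_iff.mp hb
  have hcont : ∀ i, ContinuousAt (fun b => lamv (a b) i) z := fun i =>
    (hF.continuousOn_lamv i).continuousAt
      (Metric.isOpen_ball.mem_nhds (mem_ball_zero_iff.mpr hz))
  have h2 : s < lamv (a z) i₂ := by
    have h := hc.hi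
    unfold Gap at h
    rwa [hc.val (i₂ - 1) ⟨by omega, by omega⟩] at h
  obtain ⟨g, hg, h1⟩ : ∃ g : ℝ, 0 < g ∧ ∀ i < i₁, lamv (a z) i ≤ s - g := by
    rcases hc.lo with h | h
    · exact ⟨1, one_pos, fun i hi => by omega⟩
    · unfold Gap at h
      rw [hc.val i₁ ⟨le_rfl, hlt⟩] at h
      refine ⟨s - lamv (a z) (i₁ - 1), by linarith, fun i hi => ?_⟩
      have := hφ.mono (show i ≤ i₁ - 1 by omega)
      linarith
  have hγ : 0 < min g (lamv (a z) i₂ - s) / 3 := by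
    have : 0 < min g (lamv (a z) i₂ - s) := lt_min hg (by linarith)
    linarith
  have hm1 := min_le_left g (lamv (a z) i₂ - s)
  have hm2 := min_le_right g (lamv (a z) i₂ - s)
  refine ⟨_, hγ, ?_⟩
  set γ := min g (lamv (a z) i₂ - s) / 3 with hγdef
  have e1 : ∀ᶠ b in 𝓝 z, s + 2 * γ < lamv (a b) i₂ :=
    (hcont i₂).eventually (lt_mem_nhds (by linarith))
  have e2 : ∀ᶠ b in 𝓝 z, ∀ i ∈ Finset.range i₁, lamv (a b) i < s - 2 * γ := by
    rw [Filter.eventually_all_finset]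
    intro i hi
    exact (hcont i).eventually (gt_mem_nhds (by linarith [h1 i (Finset.mem_range.mp hi)]))
  filter_upwards [hball, gen2_mid hF hz hc hγ, e1, e2] with b hb h3 h4 h5
  exact ⟨hb, hF.nice b hb, h3, h4.le, fun i hi => (h5 i (Finset.mem_range.mpr hi)).le⟩

theorem gen2_sqrt_le {x y c : ℝ} (hc : 0 < c) (h : c * x ≤ y) : √x ≤ √y / √c := by
  rw [← Real.sqrt_div' _ hc.le]
  exact Real.sqrt_le_sqrt ((le_div_iff₀' hc).mpr h)

theorem gen2_lip {a : B → BF V} {da : B → B →ₗ[ℝ] BF V} {ε : ℝ} (hF : Fam a da ε)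
    {i₁ i₂ : ℕ} {s γ : ℝ} (hs : 0 ≤ s) (hγ : 0 < γ) (φ : B → ℕ → V)
    (hφ : ∀ b, ‖b‖ < ε → EigSys (a b) (lamv (a b)) (φ b)) :
    ∃ K₂ C₁ : ℝ, 0 ≤ K₂ ∧ 0 ≤ C₁ ∧
      (∀ b, ‖b‖ < ε → Gen2Near (a b) i₁ i₂ s γ → ∀ u,
        gen2Sn (gen2_nice0 hF) (gen2Pr (φ b) (Finset.Ico i₁ i₂) u) ≤ K₂ * ‖u‖) ∧
      ∀ b b', ‖b‖ < ε → ‖b'‖ < ε → Gen2Near (a b) i₁ i₂ s γ → Gen2Near (a b') i₁ i₂ s γ → ∀ u,
        gen2Sn (gen2_nice0 hF) (gen2Pr (φ b) (Finset.Ico i₁ i₂) u -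
          gen2Pr (φ b') (Finset.Ico i₁ i₂) u) ≤ C₁ * ‖b - b'‖ * ‖u‖ := by
  obtain ⟨c, Cc, hc, hcomp⟩ := hF.comp
  obtain ⟨CL, hlip⟩ := hF.lip
  set I := Finset.Ico i₁ i₂ with hI
  set p := gen2Sn (gen2_nice0 hF) with hp
  have hsc : 0 < √c := Real.sqrt_pos.mpr hc
  -- energy bound on the cluster
  set K₂ : ℝ := 1 + √(s + I.card * γ) / √c with hK₂
  have hK₂0 : 0 ≤ K₂ := by positivity
  have hA : ∀ b, ‖b‖ < ε → Gen2Near (a b) i₁ i₂ s γ →
      ∀ y ∈ Submodule.span ℝ (φ b '' (I : Set ℕ)), p y ≤ K₂ * ‖y‖ := by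
    intro b hb hn y hy
    have h1 := (le_abs_self _).trans (gen2_Q (hφ b hb) I hn.mid hy y)
    rw [real_inner_self_eq_norm_sq] at h1
    have h2 : c * a 0 y y ≤ (s + I.card * γ) * ‖y‖ ^ 2 := by nlinarith [(hcomp b hb y).1]
    have h3 := gen2_sqrt_le hc h2
    rw [Real.sqrt_mul (by positivity), Real.sqrt_sq (norm_nonneg _)] at h3
    rw [hp, gen2Sn_apply, hK₂, add_mul, one_mul, div_mul_eq_mul_div]
    linarith
  -- Davis-Kahan
  set K₀ : ℝ := (1 + 1 / √c) * ((1 + s + 2 * γ) / γ * (|CL| * K₂ / √c)) with hK₀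
  have hK₀0 : 0 ≤ K₀ := by positivity
  have hB : ∀ b b', ‖b‖ < ε → ‖b'‖ < ε → Gen2Near (a b) i₁ i₂ s γ → Gen2Near (a b') i₁ i₂ s γ →
      ∀ i ∈ I, p (φ b' i - gen2Pr (φ b) I (φ b' i)) ≤ K₀ * ‖b - b'‖ := by
    intro b b' hb hb' hn hn' i hi
    have h0 : √(a 0 (φ b' i) (φ b' i)) ≤ K₂ := by
      have := hA b' hb' hn' (φ b' i) (Submodule.subset_span ⟨i, hi, rfl⟩)
      rw [(hφ b' hb').orth.1 i, mul_one] at this
      exact (gen2Sn_sqrt_le _ _).trans this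
    have key := hn.dk hγ (hφ b hb) (t := lamv (a b') i) (δ := |CL| * K₂ / √c * ‖b - b'‖)
      ((hφ b' hb').nonneg hn'.nice i) (hn'.mid i hi) (by positivity) (φ b' i) (fun w => by
        rw [← (hφ b' hb').eig i w]
        refine (hlip b b' hb hb' _ w).trans ?_
        have h1 : √(a 0 w w) ≤ √(‖w‖ ^ 2 + a b w w) / √c :=
          gen2_sqrt_le hc (by nlinarith [(hcomp b hb w).1, sq_nonneg ‖w‖])
        have h2 : √(a 0 (φ b' i) (φ b' i)) * √(a 0 w w) ≤ K₂ * (√(‖w‖ ^ 2 + a b w w) / √c) :=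
          mul_le_mul h0 h1 (Real.sqrt_nonneg _) hK₂0
        calc CL * ‖b - b'‖ * (√(a 0 (φ b' i) (φ b' i)) * √(a 0 w w))
            ≤ |CL| * ‖b - b'‖ * (K₂ * (√(‖w‖ ^ 2 + a b w w) / √c)) :=
              mul_le_mul (mul_le_mul_of_nonneg_right (le_abs_self _) (norm_nonneg _)) h2
                (by positivity) (by positivity)
          _ = _ := by ring)
    set r := φ b' i - gen2Pr (φ b) I (φ b' i) with hr
    set D := (1 + s + 2 * γ) / γ * (|CL| * K₂ / √c * ‖b - b'‖) with hD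
    have hD0 : 0 ≤ D := by positivity
    have h1 : ‖r‖ ≤ D :=
      le_of_sq_le_sq (by linarith [hn.nice.nonneg r]) hD0
    have h2 : √(a 0 r r) ≤ D / √c := by
      have := gen2_sqrt_le hc (x := a 0 r r) (y := D ^ 2)
        (by nlinarith [(hcomp b hb r).1, sq_nonneg ‖r‖])
      rwa [Real.sqrt_sq hD0] at this
    rw [hp, gen2Sn_apply]
    calc ‖r‖ + √(a 0 r r) ≤ D + D / √c := add_le_add h1 h2
      _ = _ := by rw [hD, hK₀]; ring
  set K : ℝ := I.card * K₀ with hK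
  have hK0 : 0 ≤ K := by positivity
  have hC : ∀ b b', ‖b‖ < ε → ‖b'‖ < ε → Gen2Near (a b) i₁ i₂ s γ → Gen2Near (a b') i₁ i₂ s γ →
      ∀ u, p (gen2Pr (φ b') I u - gen2Pr (φ b) I (gen2Pr (φ b') I u)) ≤ K * ‖b - b'‖ * ‖u‖ := by
    intro b b' hb hb' hn hn' u
    have h1 : gen2Pr (φ b') I u - gen2Pr (φ b) I (gen2Pr (φ b') I u)
        = ∑ i ∈ I, ⟪φ b' i, u⟫ • (φ b' i - gen2Pr (φ b) I (φ b' i)) := by
      rw [gen2Pr_apply (φ b') I u, map_sum, ← Finset.sum_sub_distrib]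
      refine Finset.sum_congr rfl fun i _ => ?_
      rw [map_smul, smul_sub]
    rw [h1]
    refine (gen2_seminorm_sum_le p I _).trans ?_
    have h2 : ∀ i ∈ I, p (⟪φ b' i, u⟫ • (φ b' i - gen2Pr (φ b) I (φ b' i)))
        ≤ ‖u‖ * (K₀ * ‖b - b'‖) := by
      intro i hi
      rw [map_smul_eq_mul, Real.norm_eq_abs]
      exact mul_le_mul (gen2_abs_inner_le (hφ b' hb').orth i u) (hB b b' hb hb' hn hn' i hi)
        (apply_nonneg _ _) (norm_nonneg _)
    refine (Finset.sum_le_card_nsmul _ _ _ h2).trans (le_of_eq ?_)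
    rw [nsmul_eq_mul, hK]; ring
  have hD : ∀ b b', ‖b‖ < ε → ‖b'‖ < ε → Gen2Near (a b) i₁ i₂ s γ → Gen2Near (a b') i₁ i₂ s γ →
      ∀ u, ‖gen2Pr (φ b) I (u - gen2Pr (φ b') I u)‖ ≤ K * ‖b - b'‖ * ‖u‖ := by
    intro b b' hb hb' hn hn' u
    set y := gen2Pr (φ b) I (u - gen2Pr (φ b') I u) with hy
    have h1 : gen2Pr (φ b) I y = y := gen2Pr_of_mem (hφ b hb).orth I (gen2Pr_mem _ _ _)
    have h2 : ‖y‖ ^ 2 = ⟪u, y - gen2Pr (φ b') I y⟫ := by
      rw [← real_inner_self_eq_norm_sq]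
      conv_lhs => enter [2]; rw [hy]
      rw [gen2Pr_symm, h1, inner_sub_left, inner_sub_right, gen2Pr_symm]
    have h3 := (gen2Sn_norm_le _ _).trans (hC b' b hb' hb hn' hn y)
    rw [h1, norm_sub_rev b' b] at h3
    refine gen2_le_of_sq (norm_nonneg _) (by positivity) ?_
    rw [h2]
    refine (real_inner_le_norm _ _).trans ?_
    have := mul_le_mul_of_nonneg_left h3 (norm_nonneg u)
    linarith
  refine ⟨K₂, K₂ * K + K, hK₂0, by positivity, fun b hb hn u => ?_,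
    fun b b' hb hb' hn hn' u => ?_⟩
  · exact (hA b hb hn _ (gen2Pr_mem _ _ _)).trans
      (mul_le_mul_of_nonneg_left (gen2Pr_norm_le (hφ b hb).orth I u) hK₂0)
  · have h1 : gen2Pr (φ b) I u - gen2Pr (φ b') I u = gen2Pr (φ b) I (u - gen2Pr (φ b') I u) -
        (gen2Pr (φ b') I u - gen2Pr (φ b) I (gen2Pr (φ b') I u)) := by
      rw [map_sub]; abel
    rw [h1]
    refine (map_sub_le_add p _ _).trans ?_
    have h2 := (hA b hb hn _ (gen2Pr_mem _ _ _)).trans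
      (mul_le_mul_of_nonneg_left (hD b b' hb hb' hn hn' u) hK₂0)
    have h3 := hC b b' hb hb' hn hn' u
    linarith

/-- **Cluster lemma.**  `P b u = Σ_{i ∈ [i₁,i₂)} ⟪φ_b i, u⟫ φ_b i` for an eigen-system `φ_b` of `a b` (`Nice.eigSys`), the
orthogonal projection onto `clus (a b) i₁ i₂`.  By continuity of `lamv` the two gaps stay open with a margin `γ` near `z` and the
cluster values stay within `δ(r) → 0` of `s`.  `dk` for `a b` applied to an eigenvector `u'` of `a b'` in the cluster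
(`|a b u' w - λ'⟪u',w⟫| = |(a b - a b') u' w| ≤ C‖b-b'‖…`) gives `‖(1-P b) P b' u‖_E ≤ C‖b-b'‖‖u‖`; by adjointness
`‖P b (1 - P b') u‖ ≤ C‖b-b'‖‖u‖`, and on `clus (a b)` the energy norm is bounded by the `L²` norm; so
`P b u - P b' u = P b (1-P b') u - (1-P b) P b' u` is `O(‖b-b'‖)` in the energy norm.  `P b` is injective on
`eigsp (a z) s`, which has the dimension of `clus (a b)`.  Strict differentiability: with `Q_b = a b - s⟪,⟫`, `u = P b φ`,
`u' = P b' φ`, `w, w'` for `ψ`: `Q_b(u,w) - Q_{b'}(u',w') = (a b - a b')(u',w') + Q_b(u-u',w) + Q_b(u-u',w'-w) + Q_b(u,w-w')`,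
where `|Q_b(u,y)| ≤ δ‖u‖‖y‖` for `u ∈ clus (a b)`; `hF.strict`, `hF.dbd`. -/
theorem Fam.cluster {a : B → BF V} {da : B → B →ₗ[ℝ] BF V} {ε : ℝ} (hF : Fam a da ε) {z : B}
    (hz : ‖z‖ < ε) {i₁ i₂ : ℕ} {s : ℝ} (hc : IsClus (a z) i₁ i₂ s) :
    ∃ (r C : ℝ) (P : B → V →ₗ[ℝ] V), 0 < r ∧ (∀ b ∈ Metric.ball z r, ‖b‖ < ε) ∧
      (∀ b ∈ Metric.ball z r, (i₁ = 0 ∨ Gap (a b) i₁) ∧ Gap (a b) i₂) ∧
      (∀ b ∈ Metric.ball z r, Module.finrank ℝ (clus (a b) i₁ i₂) = i₂ - i₁) ∧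
      (∀ b ∈ Metric.ball z r, ∀ u, P b u ∈ clus (a b) i₁ i₂) ∧
      (∀ b ∈ Metric.ball z r, ∀ y ∈ clus (a b) i₁ i₂, ∃ u ∈ eigsp (a z) s, P b u = y) ∧
      (∀ u ∈ eigsp (a z) s, P z u = u) ∧
      (∀ b ∈ Metric.ball z r, ∀ b' ∈ Metric.ball z r, ∀ u, ‖P b u - P b' u‖ ≤ C * ‖b - b'‖ * ‖u‖) ∧
      ∀ φ ∈ eigsp (a z) s, ∀ ψ ∈ eigsp (a z) s, ∃ L : B →L[ℝ] ℝ, (∀ v, L v = da z v φ ψ) ∧
        HasStrictFDerivAt (fun b => a b (P b φ) (P b ψ) - s * ⟪P b φ, P b ψ⟫) L z := by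
  classical
  have hφex : ∀ b : B, ∃ φ : ℕ → V, ‖b‖ < ε → EigSys (a b) (lamv (a b)) φ := by
    intro b
    by_cases hb : ‖b‖ < ε
    · obtain ⟨φ, h⟩ := (hF.nice b hb).eigSys
      exact ⟨φ, fun _ => h⟩
    · exact ⟨fun _ => 0, fun h => absurd h hb⟩
  choose φ hφ using hφex
  have hlt := hc.lt
  have hsval : lamv (a z) i₁ = s := hc.val i₁ ⟨le_rfl, hlt⟩
  have hs : 0 ≤ s := hsval ▸ (hφ z hz).nonneg (hF.nice z hz) i₁
  obtain ⟨γ, hγ, hnear⟩ := gen2_near hF hz hc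
  obtain ⟨K₂, C₁, hK₂, hC₁, hA, hL⟩ := gen2_lip hF (i₁ := i₁) (i₂ := i₂) hs hγ φ hφ
  obtain ⟨r₀, hr₀, hball⟩ := Metric.eventually_nhds_iff_ball.mp hnear
  set I := Finset.Ico i₁ i₂ with hI
  set p := gen2Sn (gen2_nice0 hF) with hp
  set P : B → V →ₗ[ℝ] V := fun b => gen2Pr (φ b) I with hP
  set r := min r₀ (1 / (C₁ + 1)) with hr
  have hr0 : 0 < r := lt_min hr₀ (by positivity)
  have hN : ∀ b ∈ Metric.ball z r, ‖b‖ < ε ∧ Gen2Near (a b) i₁ i₂ s γ := fun b hb =>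
    hball b (Metric.ball_subset_ball (min_le_left _ _) hb)
  have hzb : z ∈ Metric.ball z r := Metric.mem_ball_self hr0
  have hclus : ∀ b ∈ Metric.ball z r, clus (a b) i₁ i₂ = Submodule.span ℝ (φ b '' (I : Set ℕ)) :=
    fun b hb => (hN b hb).2.clus_eq hγ (hφ b (hN b hb).1)
  have hfin : ∀ b ∈ Metric.ball z r, Module.finrank ℝ (clus (a b) i₁ i₂) = i₂ - i₁ := by
    intro b hb
    rw [hclus b hb, gen2_finrank_span (hφ b (hN b hb).1).orth, hI, Nat.card_Ico]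
  have hmem : ∀ b ∈ Metric.ball z r, ∀ u, P b u ∈ clus (a b) i₁ i₂ := by
    intro b hb u
    rw [hclus b hb]
    exact gen2Pr_mem _ _ _
  have hPz : ∀ u ∈ eigsp (a z) s, P z u = u := by
    intro u hu
    refine gen2Pr_of_mem (hφ z hz).orth I ?_
    rw [← hclus z hzb]
    rw [← hsval] at hu
    exact (le_iSup (fun i : Ico i₁ i₂ => eigsp (a z) (lamv (a z) i)) ⟨i₁, le_rfl, hlt⟩ :) hu
  have hA' : ∀ b ∈ Metric.ball z r, ∀ u, p (P b u) ≤ K₂ * ‖u‖ := fun b hb u =>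
    hA b (hN b hb).1 (hN b hb).2 u
  have hL' : ∀ b ∈ Metric.ball z r, ∀ b' ∈ Metric.ball z r, ∀ u,
      p (P b u - P b' u) ≤ C₁ * ‖b - b'‖ * ‖u‖ := fun b hb b' hb' u =>
    hL b b' (hN b hb).1 (hN b' hb').1 (hN b hb).2 (hN b' hb').2 u
  have hLn : ∀ b ∈ Metric.ball z r, ∀ b' ∈ Metric.ball z r, ∀ u,
      ‖P b u - P b' u‖ ≤ C₁ * ‖b - b'‖ * ‖u‖ := fun b hb b' hb' u =>
    (gen2Sn_norm_le _ _).trans (hL' b hb b' hb' u)
  refine ⟨r, C₁, P, hr0, fun b hb => (hN b hb).1, fun b hb => (hN b hb).2.gap hγ hlt, hfin, hmem,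
    ?_, hPz, hLn, ?_⟩
  · intro b hb y hy
    haveI : FiniteDimensional ℝ (eigsp (a z) s) := (hF.nice z hz).finite_eigsp s
    haveI : FiniteDimensional ℝ (clus (a b) i₁ i₂) := by
      rw [hclus b hb]
      exact FiniteDimensional.span_of_finite ℝ (I.finite_toSet.image _)
    let T : eigsp (a z) s →ₗ[ℝ] clus (a b) i₁ i₂ :=
      ((P b).domRestrict (eigsp (a z) s)).codRestrict _ fun u => hmem b hb u
    have hinj : Function.Injective T := by
      rw [injective_iff_map_eq_zero]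
      intro u hu
      have h1 : P b u = 0 := congrArg Subtype.val hu
      have h2 := hLn b hb z hzb u
      rw [h1, hPz u u.2, zero_sub, norm_neg] at h2
      have h3 : ‖b - z‖ < 1 / (C₁ + 1) := by
        rw [← dist_eq_norm]
        exact lt_of_lt_of_le (Metric.mem_ball.mp hb) (min_le_right _ _)
      rw [lt_div_iff₀ (by positivity)] at h3
      have h4 : C₁ * ‖b - z‖ < 1 := by nlinarith [norm_nonneg (b - z)]
      have h5 : ‖(u : V)‖ = 0 := by
        by_contra h6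
        have h7 : 0 < ‖(u : V)‖ := lt_of_le_of_ne (norm_nonneg _) (Ne.symm h6)
        nlinarith
      exact Subtype.ext (norm_eq_zero.mp h5)
    have hsurj := (LinearMap.injective_iff_surjective_of_finrank_eq_finrank
      ((hc.finrank (hF.nice z hz)).trans (hfin b hb).symm)).mp hinj
    obtain ⟨u, hu⟩ := hsurj ⟨y, hy⟩
    exact ⟨u, u.2, congrArg Subtype.val hu⟩
  · intro x hx y hy
    obtain ⟨D₀, hD₀⟩ := hF.dbd z hz
    obtain ⟨c, Cc, hc0, hcomp⟩ := hF.comp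
    set D := |D₀| with hDdef
    have hD0 : 0 ≤ D := abs_nonneg _
    have hD : ∀ v u w, |da z v u w| ≤ D * ‖v‖ * (p u * p w) := fun v u w =>
      (hD₀ v u w).trans (mul_le_mul (mul_le_mul_of_nonneg_right (le_abs_self _) (norm_nonneg _))
        (mul_le_mul (gen2Sn_sqrt_le _ _) (gen2Sn_sqrt_le _ _) (Real.sqrt_nonneg _)
          (apply_nonneg _ _)) (by positivity) (by positivity))
    set M := |Cc| + s with hM
    have hM0 : 0 ≤ M := by positivity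
    have hQ : ∀ b, ‖b‖ < ε → ∀ u w, |a b u w - s * ⟪u, w⟫| ≤ M * (p u * p w) := by
      intro b hb u w
      have h1 : ∀ u, √(a b u u) ≤ √|Cc| * p u := by
        intro u
        have h2 : a b u u ≤ |Cc| * a 0 u u := (hcomp b hb u).2.trans
          (mul_le_mul_of_nonneg_right (le_abs_self _) ((gen2_nice0 hF).nonneg u))
        refine (Real.sqrt_le_sqrt h2).trans ?_
        rw [Real.sqrt_mul (abs_nonneg _)]
        exact mul_le_mul_of_nonneg_left (gen2Sn_sqrt_le _ _) (Real.sqrt_nonneg _)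
      have h2 : |a b u w| ≤ |Cc| * (p u * p w) := by
        refine (gen2_cs (hF.nice b hb) u w).trans ((mul_le_mul (h1 u) (h1 w) (Real.sqrt_nonneg _)
          (mul_nonneg (Real.sqrt_nonneg _) (apply_nonneg _ _))).trans (le_of_eq ?_))
        have h3 := Real.mul_self_sqrt (abs_nonneg Cc)
        linear_combination (p u * p w) * h3
      have h3 : |s * ⟪u, w⟫| ≤ s * (p u * p w) := by
        rw [abs_mul, abs_of_nonneg hs]
        exact mul_le_mul_of_nonneg_left ((abs_real_inner_le_norm u w).trans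
          (mul_le_mul (gen2Sn_norm_le _ _) (gen2Sn_norm_le _ _) (norm_nonneg _)
            (apply_nonneg _ _))) hs
      refine (abs_sub _ _).trans ?_
      rw [hM]; linarith
    let L₀ : B →ₗ[ℝ] ℝ :=
      { toFun := fun v => da z v x y
        map_add' := fun v v' => by simp
        map_smul' := fun c v => by simp }
    refine ⟨L₀.mkContinuous (D * (p x * p y)) fun v => ?_, fun v => rfl, ?_⟩
    · exact (hD v x y).trans (le_of_eq (by ring))
    rw [hasStrictFDerivAt_iff_isLittleO, Asymptotics.isLittleO_iff]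
    intro κ hκ
    set n : ℝ := (I.card : ℝ) with hn
    have hn0 : 0 ≤ n := Nat.cast_nonneg _
    set A : ℝ := ‖x‖ * ‖y‖ * (2 * n * C₁ + 2 * M * C₁ ^ 2 + K₂ ^ 2 + 2 * D * C₁ * K₂) with hAdef
    have hA0 : 0 ≤ A := by positivity
    set t : ℝ := κ / (A + 1) with ht
    have ht0 : 0 < t := by positivity
    obtain ⟨δ, hδ, hstr⟩ := hF.strict z hz t ht0
    have hev : ∀ᶠ b in 𝓝 z, b ∈ Metric.ball z r ∧ ‖b - z‖ < δ ∧ ‖b - z‖ < t ∧
        ∀ i ∈ I, |lamv (a b) i - s| ≤ t := by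
      filter_upwards [Metric.ball_mem_nhds z hr0, Metric.ball_mem_nhds z hδ,
        Metric.ball_mem_nhds z ht0, gen2_mid hF hz hc ht0] with b h1 h2 h3 h4
      exact ⟨h1, mem_ball_iff_norm.mp h2, mem_ball_iff_norm.mp h3, h4⟩
    have hfst : Tendsto (fun q : B × B => q.1) (𝓝 (z, z)) (𝓝 z) := continuous_fst.tendsto _
    have hsnd : Tendsto (fun q : B × B => q.2) (𝓝 (z, z)) (𝓝 z) := continuous_snd.tendsto _
    filter_upwards [hfst.eventually hev, hsnd.eventually hev]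
    rintro ⟨b, b'⟩ ⟨hb, hbδ, hbt, hbm⟩ ⟨hb', hbδ', hbt', -⟩
    simp only at hb hbδ hbt hbm hb' hbδ' hbt' ⊢
    have hbε := (hN b hb).1
    have hsy := (hF.nice b hbε).symm
    set u := P b x with hu
    set u' := P b' x with hu'
    set w := P b y with hw
    set w' := P b' y with hw'
    set d := ‖b - b'‖ with hd
    have hd0 : 0 ≤ d := norm_nonneg _
    have hdt : d ≤ 2 * t := by
      have : ‖b - b'‖ ≤ ‖b - z‖ + ‖z - b'‖ := norm_sub_le_norm_sub_add_norm_sub b z b'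
      rw [norm_sub_rev z b'] at this
      linarith
    have hx0 := norm_nonneg x
    have hy0 := norm_nonneg y
    have hid : a b u w - s * ⟪u, w⟫ - (a b' u' w' - s * ⟪u', w'⟫) - da z (b - b') x y
        = (a b u (w - w') - s * ⟪u, w - w'⟫) + (a b w (u - u') - s * ⟪w, u - u'⟫)
          - (a b (u - u') (w - w') - s * ⟪u - u', w - w'⟫)
          + (a b u' w' - a b' u' w' - da z (b - b') u' w')
          + da z (b - b') (u' - x) w' + da z (b - b') x (w' - y) := by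
      simp only [map_sub, LinearMap.sub_apply, inner_sub_left, inner_sub_right]
      rw [hsy w u, hsy w u', real_inner_comm u w, real_inner_comm u' w]
      ring
    have hun : ‖u‖ ≤ ‖x‖ := gen2Pr_norm_le (hφ b hbε).orth I x
    have hwn : ‖w‖ ≤ ‖y‖ := gen2Pr_norm_le (hφ b hbε).orth I y
    have e1 : |a b u (w - w') - s * ⟪u, w - w'⟫| ≤ n * t * ‖x‖ * (C₁ * d * ‖y‖) :=
      (gen2_Q (hφ b hbε) I hbm (gen2Pr_mem _ _ _) _).trans
        (mul_le_mul (mul_le_mul_of_nonneg_left hun (by positivity)) (hLn b hb b' hb' y)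
          (norm_nonneg _) (by positivity))
    have e2 : |a b w (u - u') - s * ⟪w, u - u'⟫| ≤ n * t * ‖y‖ * (C₁ * d * ‖x‖) :=
      (gen2_Q (hφ b hbε) I hbm (gen2Pr_mem _ _ _) _).trans
        (mul_le_mul (mul_le_mul_of_nonneg_left hwn (by positivity)) (hLn b hb b' hb' x)
          (norm_nonneg _) (by positivity))
    have e3 : |a b (u - u') (w - w') - s * ⟪u - u', w - w'⟫|
        ≤ M * ((C₁ * d * ‖x‖) * (C₁ * (2 * t) * ‖y‖)) := by
      refine (hQ b hbε _ _).trans (mul_le_mul_of_nonneg_left (mul_le_mul (hL' b hb b' hb' x)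
        ((hL' b hb b' hb' y).trans ?_) (apply_nonneg _ _) (by positivity)) hM0)
      exact mul_le_mul_of_nonneg_right (mul_le_mul_of_nonneg_left hdt hC₁) hy0
    have e4 : |a b u' w' - a b' u' w' - da z (b - b') u' w'|
        ≤ t * d * ((K₂ * ‖x‖) * (K₂ * ‖y‖)) :=
      (hstr b b' hbδ hbδ' u' w').trans (mul_le_mul_of_nonneg_left
        (mul_le_mul ((gen2Sn_sqrt_le _ _).trans (hA' b' hb' x))
          ((gen2Sn_sqrt_le _ _).trans (hA' b' hb' y)) (Real.sqrt_nonneg _) (by positivity))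
        (by positivity))
    have hdev : ∀ v ∈ eigsp (a z) s, p (P b' v - v) ≤ C₁ * t * ‖v‖ := by
      intro v hv
      have h1 := hL' b' hb' z hzb v
      rw [hPz v hv] at h1
      exact h1.trans (mul_le_mul_of_nonneg_right (mul_le_mul_of_nonneg_left hbt'.le hC₁)
        (norm_nonneg _))
    have hpx : p x ≤ K₂ * ‖x‖ := by
      have h1 := hA' z hzb x
      rwa [hPz x hx] at h1
    have e5 : |da z (b - b') (u' - x) w'| ≤ D * d * ((C₁ * t * ‖x‖) * (K₂ * ‖y‖)) :=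
      (hD _ _ _).trans (mul_le_mul_of_nonneg_left
        (mul_le_mul (hdev x hx) (hA' b' hb' y) (apply_nonneg _ _) (by positivity)) (by positivity))
    have e6 : |da z (b - b') x (w' - y)| ≤ D * d * ((K₂ * ‖x‖) * (C₁ * t * ‖y‖)) :=
      (hD _ _ _).trans (mul_le_mul_of_nonneg_left
        (mul_le_mul hpx (hdev y hy) (apply_nonneg _ _) (by positivity)) (by positivity))
    have htot : |a b u w - s * ⟪u, w⟫ - (a b' u' w' - s * ⟪u', w'⟫) - da z (b - b') x y|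
        ≤ A * t * d := by
      have hsum : n * t * ‖x‖ * (C₁ * d * ‖y‖) + n * t * ‖y‖ * (C₁ * d * ‖x‖)
          + M * ((C₁ * d * ‖x‖) * (C₁ * (2 * t) * ‖y‖)) + t * d * ((K₂ * ‖x‖) * (K₂ * ‖y‖))
          + D * d * ((C₁ * t * ‖x‖) * (K₂ * ‖y‖)) + D * d * ((K₂ * ‖x‖) * (C₁ * t * ‖y‖))
          = A * t * d := by rw [hAdef]; ring
      rw [hid, ← hsum, abs_le]
      have f1 := abs_le.mp e1
      have f2 := abs_le.mp e2
      have f3 := abs_le.mp e3
      have f4 := abs_le.mp e4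
      have f5 := abs_le.mp e5
      have f6 := abs_le.mp e6
      constructor <;> linarith [f1.1, f1.2, f2.1, f2.2, f3.1, f3.2, f4.1, f4.2, f5.1, f5.2,
        f6.1, f6.2]
    have hAt : A * t ≤ κ := by
      rw [ht, mul_div_assoc', div_le_iff₀ (by positivity)]
      nlinarith
    exact htot.trans (mul_le_mul_of_nonneg_right hAt hd0)

/-- **Degeneracy function.**  With `N_{ij}(b) = Q_b(P b φᵢ, P b φⱼ)`, `G_{ij}(b) = ⟪P b φᵢ, P b φⱼ⟫` (Lipschitz near `z`,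
`G(z) = 1`, `N(z) = 0`) put `F = (N₁₂G₁₁ - N₁₁G₁₂, N₂₂G₁₁ - N₁₁G₂₂)`; a product of a strictly differentiable function vanishing at `z`
with a Lipschitz function is strictly differentiable.  If the cluster is degenerate at `b`, `N = (λ_b - s) G`.  Conversely for a double
cluster `F b = 0` gives `N = κ G`, so `a b = (s+κ)⟪,⟫` on the plane `clus (a b)` spanned by `P b φ₁, P b φ₂`. -/
theorem Fam.degF {a : B → BF V} {da : B → B →ₗ[ℝ] BF V} {ε : ℝ} (hF : Fam a da ε) {z : B}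
    (hz : ‖z‖ < ε) {i₁ i₂ : ℕ} {s : ℝ} (hc : IsClus (a z) i₁ i₂ s) {φ₁ φ₂ : V}
    (h₁ : φ₁ ∈ eigsp (a z) s) (h₂ : φ₂ ∈ eigsp (a z) s) (n₁ : ‖φ₁‖ = 1) (n₂ : ‖φ₂‖ = 1)
    (o : ⟪φ₁, φ₂⟫ = 0) :
    ∃ (F : B → ℝ × ℝ) (L : B →L[ℝ] ℝ × ℝ),
      (∀ v, L v = (da z v φ₁ φ₂, da z v φ₂ φ₂ - da z v φ₁ φ₁)) ∧ HasStrictFDerivAt F L z ∧ F z = 0 ∧
      ∀ᶠ b in 𝓝 z, (lamv (a b) i₁ = lamv (a b) (i₂ - 1) → F b = 0) ∧
        (i₂ = i₁ + 2 → F b = 0 → lamv (a b) i₁ = lamv (a b) (i₁ + 1)) := by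
  obtain ⟨r, C, P, hr, hε, -, -, hmem, hsurj, hPz, hlip, hder⟩ := hF.cluster hz hc
  have hlt := hc.lt
  obtain ⟨L₁₁, hL₁₁, d₁₁⟩ := hder φ₁ h₁ φ₁ h₁
  obtain ⟨L₁₂, hL₁₂, d₁₂⟩ := hder φ₁ h₁ φ₂ h₂
  obtain ⟨L₂₂, hL₂₂, d₂₂⟩ := hder φ₂ h₂ φ₂ h₂
  have hzb : z ∈ Metric.ball z r := Metric.mem_ball_self hr
  have hC : ∀ b ∈ Metric.ball z r, |C| * ‖b - z‖ ≤ |C| * r := fun b hb =>
    mul_le_mul_of_nonneg_left (mem_ball_iff_norm.mp hb).le (abs_nonneg _)
  have hlip' : ∀ b ∈ Metric.ball z r, ∀ b' ∈ Metric.ball z r, ∀ u, ‖u‖ = 1 →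
      ‖P b u - P b' u‖ ≤ |C| * ‖b - b'‖ := by
    intro b hb b' hb' u hu
    have := hlip b hb b' hb' u
    rw [hu, mul_one] at this
    exact this.trans (mul_le_mul_of_nonneg_right (le_abs_self _) (norm_nonneg _))
  have hbd : ∀ b ∈ Metric.ball z r, ∀ u ∈ eigsp (a z) s, ‖u‖ = 1 → ‖P b u‖ ≤ 1 + |C| * r := by
    intro b hb u hu hn
    have h1 := hlip' b hb z hzb u hn
    rw [hPz u hu] at h1
    have h2 := norm_le_norm_add_norm_sub' (P b u) u
    linarith [hC b hb]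
  have hG : ∀ u ∈ eigsp (a z) s, ‖u‖ = 1 → ∀ w ∈ eigsp (a z) s, ‖w‖ = 1 →
      ∀ b ∈ Metric.ball z r, ∀ b' ∈ Metric.ball z r,
        |⟪P b u, P b w⟫ - ⟪P b' u, P b' w⟫| ≤ 2 * (|C| * (1 + |C| * r)) * ‖b - b'‖ := by
    intro u hu nu w hw nw b hb b' hb'
    have h1 : ⟪P b u, P b w⟫ - ⟪P b' u, P b' w⟫
        = ⟪P b u - P b' u, P b w⟫ + ⟪P b' u, P b w - P b' w⟫ := by
      rw [inner_sub_left, inner_sub_right]; ring
    have h0 : 0 ≤ |C| * ‖b - b'‖ := by positivity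
    have h2 := (abs_real_inner_le_norm _ _).trans
      (mul_le_mul (hlip' b hb b' hb' u nu) (hbd b hb w hw nw) (norm_nonneg _) h0)
    have h3 := (abs_real_inner_le_norm _ _).trans
      (mul_le_mul (hbd b' hb' u hu nu) (hlip' b hb b' hb' w nw) (norm_nonneg _) (by positivity))
    rw [h1]
    refine (abs_add_le _ _).trans ?_
    linarith
  have hN0 : ∀ u ∈ eigsp (a z) s, ∀ w ∈ eigsp (a z) s,
      a z (P z u) (P z w) - s * ⟪P z u, P z w⟫ = 0 := by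
    intro u hu w hw
    rw [hPz u hu, hPz w hw, hu w, sub_self]
  have g11 : ⟪P z φ₁, P z φ₁⟫ = 1 := by
    rw [hPz φ₁ h₁, real_inner_self_eq_norm_sq, n₁]; norm_num
  have g22 : ⟪P z φ₂, P z φ₂⟫ = 1 := by
    rw [hPz φ₂ h₂, real_inner_self_eq_norm_sq, n₂]; norm_num
  have g12 : ⟪P z φ₁, P z φ₂⟫ = 0 := by rw [hPz φ₁ h₁, hPz φ₂ h₂, o]
  have m1 := gen2_strict_mul (g := fun b => ⟪P b φ₁, P b φ₁⟫) hr d₁₂ (hN0 _ h₁ _ h₂)
    (hG _ h₁ n₁ _ h₁ n₁)
  have m2 := gen2_strict_mul (g := fun b => ⟪P b φ₁, P b φ₂⟫) hr d₁₁ (hN0 _ h₁ _ h₁)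
    (hG _ h₁ n₁ _ h₂ n₂)
  have m3 := gen2_strict_mul (g := fun b => ⟪P b φ₁, P b φ₁⟫) hr d₂₂ (hN0 _ h₂ _ h₂)
    (hG _ h₁ n₁ _ h₁ n₁)
  have m4 := gen2_strict_mul (g := fun b => ⟪P b φ₂, P b φ₂⟫) hr d₁₁ (hN0 _ h₁ _ h₁)
    (hG _ h₂ n₂ _ h₂ n₂)
  refine ⟨_, _, ?_, (m1.fun_sub m2).prodMk (m3.fun_sub m4), ?_, ?_⟩
  · intro v
    rw [g11, g22, g12]
    simp [hL₁₁, hL₁₂, hL₂₂]
  · simp only [hN0 _ h₁ _ h₂, hN0 _ h₁ _ h₁, hN0 _ h₂ _ h₂, zero_mul, sub_self]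
    rfl
  · have hsm : 0 < 1 / (2 * (|C| * (1 + |C| * r)) + 1) := by positivity
    filter_upwards [Metric.ball_mem_nhds z hr, Metric.ball_mem_nhds z hsm] with b hb hb2
    have hnb := hF.nice b (hε b hb)
    obtain ⟨ψ, hψ⟩ := hnb.eigSys
    constructor
    · intro heq
      have hle : clus (a b) i₁ i₂ ≤ eigsp (a b) (lamv (a b) i₁) := by
        refine iSup_le fun i => ?_
        have h3 : lamv (a b) i = lamv (a b) i₁ := by
          have h4 := hψ.mono i.2.1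
          have h5 := hψ.mono (show (i : ℕ) ≤ i₂ - 1 from Nat.le_sub_one_of_lt i.2.2)
          linarith
        rw [h3]
      have hval : ∀ u w, a b (P b u) (P b w) = lamv (a b) i₁ * ⟪P b u, P b w⟫ := fun u w =>
        hle (hmem b hb u) _
      simp only [hval, Prod.mk_eq_zero]
      constructor <;> ring
    · intro hi hF0
      rw [Prod.mk_eq_zero] at hF0
      obtain ⟨e1, e2⟩ := hF0
      have hg : ⟪P b φ₁, P b φ₁⟫ ≠ 0 := by
        intro h0
        have h3 := hG _ h₁ n₁ _ h₁ n₁ b hb z hzb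
        rw [h0, g11] at h3
        have h4 := mem_ball_iff_norm.mp hb2
        rw [lt_div_iff₀ (by positivity)] at h4
        norm_num at h3
        nlinarith [norm_nonneg (b - z)]
      set G₁₁ := ⟪P b φ₁, P b φ₁⟫ with hG₁₁
      set κ := a b (P b φ₁) (P b φ₁) / G₁₁ with hκ
      have k11 : a b (P b φ₁) (P b φ₁) = κ * G₁₁ := by rw [hκ]; field_simp
      have k12 : a b (P b φ₁) (P b φ₂) = κ * ⟪P b φ₁, P b φ₂⟫ := by
        apply mul_right_cancel₀ hg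
        rw [k11] at e1
        linear_combination e1
      have k22 : a b (P b φ₂) (P b φ₂) = κ * ⟪P b φ₂, P b φ₂⟫ := by
        apply mul_right_cancel₀ hg
        rw [k11] at e2
        linear_combination e2
      haveI : FiniteDimensional ℝ (eigsp (a z) s) := (hF.nice z hz).finite_eigsp s
      have hon : Orthonormal ℝ ![φ₁, φ₂] := by
        refine ⟨fun i => ?_, fun i j hij => ?_⟩
        · fin_cases i
          · exact n₁
          · exact n₂
        · fin_cases i <;> fin_cases j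
          · exact absurd rfl hij
          · exact o
          · exact (real_inner_comm _ _).trans o
          · exact absurd rfl hij
      have hspan : Submodule.span ℝ (range ![φ₁, φ₂]) = eigsp (a z) s := by
        refine Submodule.eq_of_le_of_finrank_eq ?_ ?_
        · rw [Submodule.span_le]
          rintro _ ⟨i, rfl⟩
          fin_cases i
          · exact h₁
          · exact h₂
        · rw [finrank_span_eq_card hon.linearIndependent, hc.finrank (hF.nice z hz), hi]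
          simp
      have hall : ∀ y ∈ clus (a b) i₁ i₂, a b y y = κ * ⟪y, y⟫ := by
        intro y hy
        obtain ⟨u, hu, rfl⟩ := hsurj b hb y hy
        rw [← hspan, Matrix.range_cons, Matrix.range_cons, Matrix.range_empty, union_empty,
          singleton_union, Submodule.mem_span_pair] at hu
        obtain ⟨c₁, c₂, rfl⟩ := hu
        simp only [map_add, map_smul, LinearMap.add_apply, LinearMap.smul_apply, smul_eq_mul,
          inner_add_left, inner_add_right, real_inner_smul_left, real_inner_smul_right]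
        rw [hnb.symm (P b φ₂) (P b φ₁), real_inner_comm (P b φ₁) (P b φ₂), k11, k12, k22]
        ring
      have hlam : ∀ i, i₁ ≤ i → i < i₂ → lamv (a b) i = κ := by
        intro i h3 h4
        have h5 := hall (ψ i)
          ((le_iSup (fun i : Ico i₁ i₂ => eigsp (a b) (lamv (a b) i)) ⟨i, h3, h4⟩ :) (hψ.eig i))
        rw [hψ.eig i (ψ i), real_inner_self_eq_norm_sq, hψ.orth.1 i] at h5
        simpa using h5
      rw [hlam i₁ le_rfl hlt, hlam (i₁ + 1) (by omega) (by omega)]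

end Crest.Agent.R202
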