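import Crest.Agent.R202.Eig
import Crest.Agent.R202.Gen2

/-! # Row 202, Gal: valid moves stay valid for the Galerkin operators -/

set_option autoImplicit false
open scoped ContDiff RealInnerProductSpace
open Set Filter Topology MeasureTheory Crest.GeometryTopology.CoordMetric

noncomputable section
namespace Crest.Agent.R202

variable {n : ℕ}

theorem gal_cpt {Y α : Type*} [TopologicalSpace Y] {K : Set Y} (hK : IsCompact K) {l : Filter α}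
    {P : α → Y → Prop} (h : ∀ y ∈ K, ∀ᶠ z : α × Y in l ×ˢ 𝓝 y, P z.1 z.2) :
    ∀ᶠ a in l, ∀ y ∈ K, P a y := by
  have h1 : {z : α × Y | P z.1 z.2} ∈ l ×ˢ 𝓝ˢ K := hK.mem_prod_nhdsSet_of_forall h
  have h2 : ∀ᶠ z : α × Y in l ×ˢ 𝓝ˢ K, P z.1 z.2 := h1
  filter_upwards [h2.curry] with a ha y hy
  exact subset_of_mem_nhdsSet ha hy

theorem gal_quad {ι α : Type*} [Fintype ι] [DecidableEq ι] {l : Filter α} (T : α → ι → ι → ℝ)
    (d : ι → ℝ) {m : ℝ} (hm : 0 < m) (hd : ∀ k, m ≤ d k)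
    (hT : ∀ k k', Tendsto (fun a => T a k k') l (𝓝 (if k = k' then d k else 0))) :
    ∀ᶠ a in l, ∀ c : ι → ℝ, m / 2 * ∑ k, c k ^ 2 ≤ ∑ k, ∑ k', c k * c k' * T a k k' := by
  set δ : ℝ := m / (2 * (Fintype.card ι + 1)) with hδ
  have hδ0 : 0 < δ := by positivity
  have h1 : ∀ᶠ a in l, ∀ k k', |T a k k' - (if k = k' then d k else 0)| ≤ δ := by
    refine eventually_all.2 fun k => eventually_all.2 fun k' => ?_
    filter_upwards [Metric.tendsto_nhds.1 (hT k k') δ hδ0] with a ha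
    exact (Real.dist_eq _ _ ▸ ha).le
  filter_upwards [h1] with a ha c
  have h2 : ∀ k k', (if k = k' then m * c k ^ 2 else 0) - δ / 2 * c k ^ 2 - δ / 2 * c k' ^ 2 ≤
      c k * c k' * T a k k' := by
    intro k k'
    have h3 : |c k * c k' * (T a k k' - (if k = k' then d k else 0))| ≤
        δ / 2 * c k ^ 2 + δ / 2 * c k' ^ 2 := by
      rw [abs_mul]
      have h4 : |c k * c k'| ≤ (c k ^ 2 + c k' ^ 2) / 2 :=
        abs_le.2 ⟨by nlinarith [sq_nonneg (c k + c k')], by nlinarith [sq_nonneg (c k - c k')]⟩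
      calc _ ≤ (c k ^ 2 + c k' ^ 2) / 2 * δ :=
            mul_le_mul h4 (ha k k') (abs_nonneg _) (by positivity)
        _ = _ := by ring
    have h5 := (abs_le.1 h3).1
    split_ifs at h5 ⊢ with hk
    · subst hk
      have := mul_le_mul_of_nonneg_right (hd k) (sq_nonneg (c k))
      nlinarith
    · nlinarith
  refine le_trans ?_ (Finset.sum_le_sum fun k _ => Finset.sum_le_sum fun k' _ => h2 k k')
  simp only [Finset.sum_sub_distrib, Finset.sum_ite_eq, Finset.mem_univ, if_true,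
    Finset.sum_const, Finset.card_univ, nsmul_eq_mul, ← Finset.mul_sum]
  have hS : 0 ≤ ∑ k, c k ^ 2 := Finset.sum_nonneg fun k _ => sq_nonneg _
  have h6 : (Fintype.card ι : ℝ) * δ ≤ m / 2 := by
    rw [hδ, ← mul_div_assoc, div_le_div_iff₀ (by positivity) (by norm_num)]
    nlinarith
  nlinarith [mul_le_mul_of_nonneg_right h6 hS]

theorem gal_sign {V : Type*} [NormedAddCommGroup V] [NormedSpace ℝ V] {x ψ : V} {c ρ : ℝ}
    (hx : ‖x‖ = 1) (hψ : ‖ψ‖ = 1) (h : ‖ψ - c • x‖ ≤ ρ) : ‖x - ψ‖ ≤ 2 * ρ ∨ ‖x + ψ‖ ≤ 2 * ρ := by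
  have h1 : |1 - (|c|)| ≤ ρ := by
    have := abs_norm_sub_norm_le ψ (c • x)
    rw [norm_smul, hx, hψ, mul_one, Real.norm_eq_abs] at this
    exact this.trans h
  rcases le_total 0 c with hc | hc
  · left
    rw [abs_of_nonneg hc] at h1
    have e : x - ψ = (1 - c) • x - (ψ - c • x) := by module
    rw [e]
    refine (norm_sub_le _ _).trans ?_
    rw [norm_smul, hx, mul_one, Real.norm_eq_abs]
    linarith
  · right
    rw [abs_of_nonpos hc] at h1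
    have e : x + ψ = (1 - -c) • x + (ψ - c • x) := by module
    rw [e]
    refine (norm_add_le _ _).trans ?_
    rw [norm_smul, hx, mul_one, Real.norm_eq_abs]
    linarith

theorem gal_gr_nonneg (u : W n) : 0 ≤ gr u := Real.sqrt_nonneg _

theorem gal_gr_prP (M : ℕ) (u : W n) : gr (prP M u) ≤ gr u + gr (u - prP M u) := by
  have e : prP M u = u + (-1 : ℝ) • (u - prP M u) := by module
  have := gr_add_le u ((-1 : ℝ) • (u - prP M u))
  rw [← e, gr_smul, abs_neg, abs_one, one_mul] at this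
  exact this

theorem gal_tendsto_prP (u : W n) : Tendsto (fun M => prP M u) atTop (𝓝 u) := by
  rw [tendsto_iff_norm_sub_tendsto_zero]
  simp_rw [norm_sub_rev _ u]
  exact (tendsto_prP u).1

theorem gal_dual {ε : ℝ} (h : Good n ε) {b : BB n} (hb : ‖b‖ < ε) (u : W n) :
    ∃ e : BB n × ℕ → ℝ, Tendsto e (𝓝 b ×ˢ atTop) (𝓝 0) ∧
      ∀ p w, |aB p.1 (prP p.2 u) w - aB b u w| ≤ e p * gr w := by
  have hc : ContinuousAt (fun b' : BB n => HX (iota b')) b :=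
    ContinuousAt.comp (f := fun b' : BB n => iota b') (analyticAt_HX (h.detOK hb)).continuousAt
      iota.continuous.continuousAt
  have h1 : Tendsto (fun p : BB n × ℕ => ‖HX (iota p.1) - HX (iota b)‖) (𝓝 b ×ˢ atTop) (𝓝 0) :=
    (tendsto_iff_norm_sub_tendsto_zero.1 hc.tendsto).comp tendsto_fst
  have h2 : Tendsto (fun p : BB n × ℕ => gr (u - prP p.2 u)) (𝓝 b ×ˢ atTop) (𝓝 0) :=
    (tendsto_prP u).2.comp tendsto_snd
  refine ⟨fun p => n * ‖HX (iota p.1) - HX (iota b)‖ * (gr u + gr (u - prP p.2 u)) +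
    n * ‖HX (iota b)‖ * gr (u - prP p.2 u), ?_, fun p w => ?_⟩
  · have := ((h1.const_mul (n : ℝ)).mul (h2.const_add (gr u))).add
      (h2.const_mul (n * ‖HX (iota b)‖))
    simpa using this
  · have e : aB p.1 (prP p.2 u) w - aB b u w =
        form (HX (iota p.1) - HX (iota b)) (prP p.2 u) w - form (HX (iota b)) (u - prP p.2 u) w := by
      rw [← formK_apply, map_sub, formK_apply, formK_apply, map_sub, LinearMap.sub_apply]
      unfold aB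
      ring
    rw [e]
    refine (abs_sub _ _).trans ?_
    have a1 := form_le (HX (iota p.1) - HX (iota b)) (prP p.2 u) w
    have a2 := form_le (HX (iota b)) (u - prP p.2 u) w
    have a3 : n * ‖HX (iota p.1) - HX (iota b)‖ * (gr (prP p.2 u) * gr w) ≤
        n * ‖HX (iota p.1) - HX (iota b)‖ * ((gr u + gr (u - prP p.2 u)) * gr w) :=
      mul_le_mul_of_nonneg_left
        (mul_le_mul_of_nonneg_right (gal_gr_prP _ _) (gal_gr_nonneg w)) (by positivity)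
    nlinarith

theorem gal_small {ε : ℝ} {b : BB n} (hb : ‖b‖ < ε) :
    ∀ᶠ p : BB n × ℕ in 𝓝 b ×ˢ atTop, ‖p.1‖ < ε :=
  tendsto_fst.eventually ((continuous_norm.tendsto b).eventually (gt_mem_nhds hb))

theorem gal_lower (hn : 2 ≤ n) {ε : ℝ} (h : Good n ε) {b : BB n} (hb : ‖b‖ < ε) {M : ℕ}
    {φ : OrthonormalBasis (Fin (nl n M)) ℝ (PM n M)} {lam : Fin (nl n M) → ℝ}
    (hE : EigB (opA M (HX (iota b))) φ lam) (j : Fin (nl n M)) : lamv (aB b) j ≤ lam j := by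
  obtain ⟨Y, hY, hYs⟩ := hE.exists_test j
  refine mu_le_of_test ((fam hn h).nice b hb).nonneg (Y := Y.map (incl M).toLinearMap)
    (Nat.succ_le_succ (Nat.zero_le _)) le_top ?_ ?_
  · rw [← (Submodule.equivMapOfInjective _ (incl M).injective Y).finrank_eq, hY]
  · rintro _ ⟨y, hy, rfl⟩
    have := hYs y hy
    rw [inner_opA] at this
    change aB b (incl M y) (incl M y) ≤ lam j * ‖incl M y‖ ^ 2
    rw [LinearIsometry.norm_map]
    exact this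

/-- eigenvalues: `lamv (aB b') i ≤ lam i` always (`exists_test`, `mu_le_of_test`); upper bound by the test space `prP M (span (φ 0..φ i))` (`tendsto_prP`, `Fam.lip`). -/
theorem gal_val (hn : 2 ≤ n) {ε : ℝ} (h : Good n ε) {b : BB n} (hb : ‖b‖ < ε) (i : ℕ) {η : ℝ} (hη : 0 < η) :
    ∀ᶠ p : BB n × ℕ in 𝓝 b ×ˢ atTop, ∀ (φ : OrthonormalBasis (Fin (nl n p.2)) ℝ (PM n p.2))
      (lam : Fin (nl n p.2) → ℝ), EigB (opA p.2 (HX (iota p.1))) φ lam →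
      ∀ j : Fin (nl n p.2), (j : ℕ) = i → |lam j - lamv (aB b) i| ≤ η := by
  have hF := fam hn h
  obtain ⟨φ₀, hφ₀⟩ := (hF.nice b hb).eigSys
  have hlow : ∀ᶠ p : BB n × ℕ in 𝓝 b ×ˢ atTop, lamv (aB b) i - η < lamv (aB p.1) i := by
    have hc : ContinuousAt (fun b => lamv (aB b) i) b :=
      (hF.continuousOn_lamv i).continuousAt
        (Metric.isOpen_ball.mem_nhds (mem_ball_zero_iff.2 hb))
    exact tendsto_fst.eventually (hc.tendsto.eventually (lt_mem_nhds (by linarith)))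
  have hG : ∀ k k' : Fin (i + 1), Tendsto (fun p : BB n × ℕ => ⟪φ₀ k, prP p.2 (φ₀ k')⟫)
      (𝓝 b ×ˢ atTop) (𝓝 (if k = k' then 1 else 0)) := by
    intro k k'
    have e : (if k = k' then 1 else 0 : ℝ) = ⟪φ₀ k, φ₀ k'⟫ := by
      rw [orthonormal_iff_ite.1 hφ₀.orth]
      simp [Fin.ext_iff]
    rw [e]
    exact tendsto_const_nhds.inner ((gal_tendsto_prP _).comp tendsto_snd)
  have hN : ∀ k k' : Fin (i + 1),
      Tendsto (fun p : BB n × ℕ => aB p.1 (prP p.2 (φ₀ k)) (prP p.2 (φ₀ k')))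
      (𝓝 b ×ˢ atTop) (𝓝 (lamv (aB b) k * if k = k' then 1 else 0)) := by
    intro k k'
    obtain ⟨e, he, hle⟩ := gal_dual h hb (φ₀ k)
    have h2 : Tendsto (fun p : BB n × ℕ => gr (φ₀ k' - prP p.2 (φ₀ k'))) (𝓝 b ×ˢ atTop) (𝓝 0) :=
      (tendsto_prP _).2.comp tendsto_snd
    have h3 : Tendsto (fun p : BB n × ℕ => |e p| * (gr (φ₀ k') + gr (φ₀ k' - prP p.2 (φ₀ k'))))
        (𝓝 b ×ˢ atTop) (𝓝 0) := by
      simpa using he.abs.mul (h2.const_add (gr (φ₀ k')))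
    have h4 : Tendsto (fun p : BB n × ℕ => aB p.1 (prP p.2 (φ₀ k)) (prP p.2 (φ₀ k')) -
        aB b (φ₀ k) (prP p.2 (φ₀ k'))) (𝓝 b ×ˢ atTop) (𝓝 0) := by
      refine squeeze_zero_norm (fun p => ?_) h3
      exact (hle p _).trans (mul_le_mul (le_abs_self _) (gal_gr_prP _ _) (gal_gr_nonneg _)
        (abs_nonneg _))
    have h5 := h4.add ((hG k k').const_mul (lamv (aB b) k))
    rw [zero_add] at h5
    refine h5.congr fun p => ?_
    rw [hφ₀.eig k]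
    ring
  have hQ1 := gal_quad (fun (p : BB n × ℕ) (k k' : Fin (i + 1)) => ⟪φ₀ k, prP p.2 (φ₀ k')⟫)
    (fun _ => 1) one_pos (fun _ => le_rfl) hG
  have hQ2 := gal_quad (fun (p : BB n × ℕ) (k k' : Fin (i + 1)) =>
      (lamv (aB b) i + η) * ⟪φ₀ k, prP p.2 (φ₀ k')⟫ - aB p.1 (prP p.2 (φ₀ k)) (prP p.2 (φ₀ k')))
    (fun k => lamv (aB b) i + η - lamv (aB b) k) hη
    (fun k => by have := hφ₀.mono (Nat.lt_succ_iff.1 k.2); linarith)
    (fun k k' => by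
      have := ((hG k k').const_mul (lamv (aB b) i + η)).sub (hN k k')
      convert this using 2
      split_ifs <;> ring)
  filter_upwards [hlow, hQ1, hQ2, gal_small hb] with p h1 h2 h3 h4 φ lam hE j hj
  have h5 := gal_lower hn h h4 hE j
  rw [hj] at h5
  refine abs_le.2 ⟨by linarith, ?_⟩
  let v : Fin (i + 1) → PM n p.2 := fun k => toPM p.2 (φ₀ k)
  have hin : ∀ c : Fin (i + 1) → ℝ, ‖∑ k, c k • v k‖ ^ 2 =
      ∑ k, ∑ k', c k * c k' * ⟪φ₀ k, prP p.2 (φ₀ k')⟫ := by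
    intro c
    rw [← real_inner_self_eq_norm_sq, sum_inner]
    refine Finset.sum_congr rfl fun k _ => ?_
    rw [inner_sum]
    refine Finset.sum_congr rfl fun k' _ => ?_
    rw [real_inner_smul_left, real_inner_smul_right, real_inner_comm, inner_toPM, incl_toPM,
      real_inner_comm, mul_assoc]
  have hli : LinearIndependent ℝ v := by
    refine Fintype.linearIndependent_iff.2 fun c hc k => ?_
    have h6 := h2 c
    rw [← hin, hc, norm_zero] at h6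
    have h7 : c k ^ 2 ≤ ∑ k, c k ^ 2 :=
      Finset.single_le_sum (f := fun k => c k ^ 2) (fun _ _ => sq_nonneg _) (Finset.mem_univ k)
    exact pow_eq_zero_iff (two_ne_zero) |>.1 (le_antisymm (by nlinarith) (sq_nonneg _))
  have h8 := hE.le_of_test j (Y := Submodule.span ℝ (Set.range v)) (s := lamv (aB b) i + η)
    (by rw [finrank_span_eq_card hli, Fintype.card_fin]; omega) ?_
  · linarith
  intro y hy
  obtain ⟨c, rfl⟩ := (Submodule.mem_span_range_iff_exists_fun ℝ).1 hy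
  have h9 : ⟪opA p.2 (HX (iota p.1)) (∑ k, c k • v k), ∑ k, c k • v k⟫ =
      ∑ k, ∑ k', c k * c k' * aB p.1 (prP p.2 (φ₀ k)) (prP p.2 (φ₀ k')) := by
    rw [map_sum, sum_inner]
    refine Finset.sum_congr rfl fun k _ => ?_
    rw [inner_sum]
    refine Finset.sum_congr rfl fun k' _ => ?_
    rw [map_smul, real_inner_smul_left, real_inner_smul_right, inner_opA, mul_assoc]
    rfl
  have h10 := h3 c
  have hS : 0 ≤ η / 2 * ∑ k, c k ^ 2 :=
    mul_nonneg (by linarith) (Finset.sum_nonneg fun k _ => sq_nonneg _)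
  rw [h9, hin, ← sub_nonneg, Finset.mul_sum, ← Finset.sum_sub_distrib]
  refine (hS.trans h10).trans (le_of_eq (Finset.sum_congr rfl fun k _ => ?_))
  rw [Finset.mul_sum, ← Finset.sum_sub_distrib]
  exact Finset.sum_congr rfl fun k' _ => by ring

/-- eigenvectors of a simple eigenvalue: `toPM M ψ` is an approximate eigenvector of the form `(x,y) ↦ aB b' (incl x) (incl y)` on `PM n M`; `dk` with all `nl n M` eigenvectors
(`Λ` arbitrary), `I = {j}`, gaps from `gal_val`. -/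
theorem gal_vec (hn : 2 ≤ n) {ε : ℝ} (h : Good n ε) {b : BB n} (hb : ‖b‖ < ε) {i : ℕ} (hi : 1 ≤ i)
    (g₁ : Gap (aB b) i) (g₂ : Gap (aB b) (i + 1)) {ψ : W n} (hψ : ψ ∈ eigsp (aB b) (lamv (aB b) i))
    (hψ1 : ‖ψ‖ = 1) {η : ℝ} (hη : 0 < η) :
    ∀ᶠ p : BB n × ℕ in 𝓝 b ×ˢ atTop, ∀ (φ : OrthonormalBasis (Fin (nl n p.2)) ℝ (PM n p.2))
      (lam : Fin (nl n p.2) → ℝ), EigB (opA p.2 (HX (iota p.1))) φ lam →
      ∀ j : Fin (nl n p.2), (j : ℕ) = i → ‖incl p.2 (φ j) - ψ‖ ≤ η ∨ ‖incl p.2 (φ j) + ψ‖ ≤ η := by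
  have hF := fam hn h
  obtain ⟨φ₀, hφ₀⟩ := (hF.nice b hb).eigSys
  have hs : 0 ≤ lamv (aB b) i := hφ₀.nonneg (hF.nice b hb) i
  unfold Gap at g₁ g₂
  rw [Nat.add_sub_cancel] at g₂
  set s := lamv (aB b) i with hsdef
  obtain ⟨γ, hγ, hγ1, hγ2⟩ : ∃ γ > 0, lamv (aB b) (i - 1) + 2 * γ ≤ s ∧
      s + 2 * γ ≤ lamv (aB b) (i + 1) :=
    ⟨min (s - lamv (aB b) (i - 1)) (lamv (aB b) (i + 1) - s) / 2,
      half_pos (lt_min (by linarith) (by linarith)),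
      by linarith [min_le_left (s - lamv (aB b) (i - 1)) (lamv (aB b) (i + 1) - s)],
      by linarith [min_le_right (s - lamv (aB b) (i - 1)) (lamv (aB b) (i + 1) - s)]⟩
  set δ : ℝ := η / 4 * (γ / (1 + s + γ)) with hδ
  have hδ0 : 0 < δ := by positivity
  have hδ1 : (1 + s + γ) / γ * δ = η / 4 := by rw [hδ]; field_simp
  obtain ⟨e, he, hle⟩ := gal_dual h hb ψ
  have h1 : ∀ᶠ p : BB n × ℕ in 𝓝 b ×ˢ atTop, e p < δ / 2 :=
    he.eventually (gt_mem_nhds (by linarith))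
  have h2 : ∀ᶠ p : BB n × ℕ in 𝓝 b ×ˢ atTop, ‖ψ - prP p.2 ψ‖ < η / 4 :=
    ((tendsto_prP ψ).1.comp tendsto_snd).eventually (gt_mem_nhds (by linarith))
  filter_upwards [h1, h2, gal_small hb, gal_val hn h hb (i - 1) hγ, gal_val hn h hb (i + 1) hγ]
    with p h1 h2 h3 h4 h5 φ lam hE j hj
  have hN := hF.nice p.1 h3
  let q : BF (PM n p.2) := (aB p.1).compl₁₂ (incl p.2).toLinearMap (incl p.2).toLinearMap
  have hq : ∀ x y, q x y = aB p.1 (incl p.2 x) (incl p.2 y) := fun _ _ => rfl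
  have key := dk (q := q) (fun u w => hN.symm _ _) (fun u => hN.nonneg _) φ lam φ.orthonormal
    (fun k w => by
      rw [hq, aB, ← inner_opA, hE.2 k, real_inner_smul_left])
    (Λ := s + γ) (s := s) (γ := γ) (δ := δ)
    (fun w hw => by
      have : w = 0 := by
        rw [← φ.sum_repr' w]
        exact Finset.sum_eq_zero fun k _ => by rw [hw k, zero_smul]
      subst this
      simp)
    hs hγ hδ0.le {j}
    (fun k hk => by
      rw [Finset.mem_singleton] at hk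
      rcases lt_or_gt_of_ne hk with hk | hk
      · have hk' : (k : ℕ) < j := hk
        have a1 := abs_le.1 (h4 φ lam hE ⟨i - 1, by omega⟩ rfl)
        have a2 : lam k ≤ lam ⟨i - 1, by omega⟩ := hE.1 (by change (k : ℕ) ≤ i - 1; omega)
        exact le_abs.2 (Or.inr (by linarith [a1.2]))
      · have hk' : (j : ℕ) < k := hk
        have a1 := abs_le.1 (h5 φ lam hE ⟨i + 1, by omega⟩ rfl)
        have a2 : lam ⟨i + 1, by omega⟩ ≤ lam k := hE.1 (by change i + 1 ≤ (k : ℕ); omega)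
        exact le_abs.2 (Or.inl (by linarith [a1.1])))
    le_rfl (toPM p.2 ψ)
    (fun w => by
      rw [real_inner_comm, inner_toPM, real_inner_comm, ← hψ, hq, incl_toPM]
      refine (hle p _).trans ?_
      have a1 : gr (incl p.2 w) ≤ 2 * √(‖w‖ ^ 2 + q w w) := by
        have a2 := (aB_coer hn h h3 (incl p.2 w)).1
        have a3 : 0 ≤ q w w := hN.nonneg _
        have a4 := Real.sq_sqrt (add_nonneg (sq_nonneg ‖w‖) a3)
        refine (pow_le_pow_iff_left₀ (gal_gr_nonneg _) (by positivity) two_ne_zero).1 ?_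
        rw [mul_pow, a4, gr_sq, hq]
        rw [hq] at a3
        nlinarith [sq_nonneg ‖w‖]
      have a5 := gal_gr_nonneg (incl p.2 w)
      nlinarith)
  rw [Finset.sum_singleton, hδ1] at key
  have a6 : ‖toPM p.2 ψ - ⟪φ j, toPM p.2 ψ⟫ • φ j‖ ≤ η / 4 := by
    have := hN.nonneg (incl p.2 (toPM p.2 ψ - ⟪φ j, toPM p.2 ψ⟫ • φ j))
    rw [← hq] at this
    exact (pow_le_pow_iff_left₀ (norm_nonneg _) (by linarith) two_ne_zero).1 (by linarith)
  have a7 : ‖ψ - ⟪φ j, toPM p.2 ψ⟫ • incl p.2 (φ j)‖ ≤ η / 2 := by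
    rw [← (incl p.2).norm_map, map_sub, map_smul, incl_toPM] at a6
    have := norm_sub_le_norm_sub_add_norm_sub ψ (prP p.2 ψ) (⟪φ j, toPM p.2 ψ⟫ • incl p.2 (φ j))
    linarith
  have a8 := gal_sign (by rw [(incl p.2).norm_map, φ.orthonormal.1 j]) hψ1 a7
  rwa [show 2 * (η / 2) = η by ring] at a8

/-- the Galerkin form of `MoveOK` -/
structure GalOK (M N : ℕ) (μ : ℝ) (w w' e : BB n) (s s' se : ℕ → ℝ) (sw : Prop) (p : ℕ)
    (ψ : ℝ → W n) : Prop where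
  dim : N ≤ nl n M
  gap : ∀ x ∈ Icc (0 : ℝ) 1, ∀ θ ∈ Icc (-1 : ℝ) 1,
    ∀ (φ : OrthonormalBasis (Fin (nl n M)) ℝ (PM n M)) (lam : Fin (nl n M) → ℝ),
    EigB (opA M (HX (iota (pt w w' e x θ)))) φ lam → ∀ q, 1 ≤ q → q ≤ N → (¬(sw ∧ q = p) ∨ |θ| = 1) →
    ∀ i : Fin (nl n M), ((i : ℕ) < q → lam i ≤ pt (s q) (s' q) (se q) x θ - μ) ∧
      (q ≤ (i : ℕ) → pt (s q) (s' q) (se q) x θ + μ ≤ lam i)
  sgn : sw → ∀ x ∈ Icc (0 : ℝ) 1, ∀ θ, |θ| = 1 →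
    ∀ (φ : OrthonormalBasis (Fin (nl n M)) ℝ (PM n M)) (lam : Fin (nl n M) → ℝ),
    EigB (opA M (HX (iota (pt w w' e x θ)))) φ lam → ∀ i : Fin (nl n M), (i : ℕ) = p →
    1 / 4 ≤ |⟪incl M (φ i), ψ θ⟫|
  ent : sw → ∀ (φ : OrthonormalBasis (Fin (nl n M)) ℝ (PM n M)) (lam : Fin (nl n M) → ℝ),
    EigB (opA M (HX (iota w))) φ lam → ∀ i : Fin (nl n M), (i : ℕ) = p →
    0 < ⟪incl M (φ i), ψ 1⟫ * ⟪incl M (φ i), ψ (-1)⟫
  ext : sw → ∀ (φ : OrthonormalBasis (Fin (nl n M)) ℝ (PM n M)) (lam : Fin (nl n M) → ℝ),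
    EigB (opA M (HX (iota w'))) φ lam → ∀ i : Fin (nl n M), (i : ℕ) = p →
    ⟪incl M (φ i), ψ 1⟫ * ⟪incl M (φ i), ψ (-1)⟫ < 0

theorem GalOK.mono {M N : ℕ} {μ μ' : ℝ} {w w' e : BB n} {s s' se : ℕ → ℝ} {sw : Prop} {p : ℕ}
    {ψ : ℝ → W n} (h : GalOK M N μ w w' e s s' se sw p ψ) (hμ : μ' ≤ μ) :
    GalOK M N μ' w w' e s s' se sw p ψ := by
  refine ⟨h.dim, fun x hx θ hθ φ lam hE q h1 h2 h3 i => ?_, h.sgn, h.ent, h.ext⟩
  have := h.gap x hx θ hθ φ lam hE q h1 h2 h3 i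
  exact ⟨fun hi => by linarith [this.1 hi], fun hi => by linarith [this.2 hi]⟩

theorem gal_near (hn : 2 ≤ n) {ε : ℝ} (h : Good n ε) {N : ℕ} {w w' e : BB n} {s s' se : ℕ → ℝ}
    {sw : Prop} {p : ℕ} {ψ : ℝ → W n}
    (hm : MoveOK (aB : BB n → BF (W n)) ε N w w' e s s' se sw p ψ) (hsw : sw) {x θ : ℝ}
    (hx : x ∈ Icc (0 : ℝ) 1) (hθ : |θ| = 1) {b : BB n} (hb : pt w w' e x θ = b) :
    ∀ᶠ r : BB n × ℕ in 𝓝 b ×ˢ atTop, ∀ (φ : OrthonormalBasis (Fin (nl n r.2)) ℝ (PM n r.2))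
      (lam : Fin (nl n r.2) → ℝ), EigB (opA r.2 (HX (iota r.1))) φ lam →
      ∀ j : Fin (nl n r.2), (j : ℕ) = p → ∃ ψ₁ ∈ eigsp (aB b) (lamv (aB b) p), ‖ψ₁‖ = 1 ∧
        ∀ θ', |⟪incl r.2 (φ j), ψ θ'⟫ - ⟪ψ₁, ψ θ'⟫| ≤ 1 / 8 := by
  subst hb
  have hθ' : θ ∈ Icc (-1 : ℝ) 1 := abs_le.1 hθ.le
  have hb := hm.mem x hx θ hθ'
  obtain ⟨hp1, hpN⟩ := hm.rng hsw
  have g1 := hm.gap x hx θ hθ' p hp1 hpN.le (Or.inr hθ)
  have g2 := hm.gap x hx θ hθ' (p + 1) (by omega) hpN (Or.inr hθ)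
  obtain ⟨φ₀, hφ₀⟩ := ((fam hn h).nice _ hb).eigSys
  have hclose : ∀ {u v : W n}, ‖u - v‖ ≤ 1 / 16 → ∀ θ', |⟪u, ψ θ'⟫ - ⟪v, ψ θ'⟫| ≤ 1 / 8 := by
    intro u v huv θ'
    rw [← inner_sub_left]
    refine (abs_real_inner_le_norm _ _).trans ?_
    have := mul_le_mul huv (hm.nrm hsw θ') (norm_nonneg _) (by norm_num)
    linarith
  filter_upwards [gal_vec hn h hb hp1 (g1.1.trans g1.2) (g2.1.trans g2.2) (hφ₀.eig p)
    (hφ₀.orth.1 p) (by norm_num : (0 : ℝ) < 1 / 16)] with r hr φ lam hE j hj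
  rcases hr φ lam hE j hj with h1 | h1
  · exact ⟨φ₀ p, hφ₀.eig p, hφ₀.orth.1 p, hclose h1⟩
  · refine ⟨-φ₀ p, neg_mem (hφ₀.eig p), by rw [norm_neg, hφ₀.orth.1 p], hclose ?_⟩
    rwa [sub_neg_eq_add]

theorem gal_prod {a a' x x' : ℝ} (ha : 1 / 2 ≤ |a|) (ha' : 1 / 2 ≤ |a'|) (hx : |x - a| ≤ 1 / 8)
    (hx' : |x' - a'| ≤ 1 / 8) : 0 < (x * x') * (a * a') := by
  have aux : ∀ {a x : ℝ}, 1 / 2 ≤ |a| → |x - a| ≤ 1 / 8 → 0 < x * a := by
    intro a x ha hx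
    have h1 := abs_le.1 hx
    rcases le_abs.1 ha with h | h
    · exact mul_pos (by linarith [h1.1]) (by linarith)
    · exact mul_pos_of_neg_of_neg (by linarith [h1.2]) (by linarith)
  have := mul_pos (aux ha hx) (aux ha' hx')
  linarith [show x * a * (x' * a') = (x * x') * (a * a') by ring]

theorem gal_pt_cont {B : Type*} [NormedAddCommGroup B] [NormedSpace ℝ B] (w w' e : B) :
    Continuous fun y : ℝ × ℝ => pt w w' e y.1 y.2 := by
  unfold pt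
  fun_prop

/-- compactness of the parameter sets `[0,1] × [-1,1]`, `[0,1] × {±1}` (uniform margin `3μ` by `Fam.continuousOn_lamv`; `IsCompact.eventually_forall_of_forall_eventually`),
`gal_val` for `i = q-1, q` with monotonicity of `lam`, `gal_vec` with `η = 1/16`. -/
theorem gal (hn : 2 ≤ n) {ε : ℝ} (h : Good n ε) {N : ℕ} {w w' e : BB n} {s s' se : ℕ → ℝ} {sw : Prop}
    {p : ℕ} {ψ : ℝ → W n} (hm : MoveOK (aB : BB n → BF (W n)) ε N w w' e s s' se sw p ψ) :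
    ∃ μ > 0, ∀ᶠ M in atTop, GalOK M N μ w w' e s s' se sw p ψ := by
  have hdim : ∀ᶠ M in atTop, N ≤ nl n M := by
    filter_upwards [eventually_ge_atTop N] with M hM
    exact hM.trans ((nl_strictMono hn).id_le M)
  -- the gaps
  have hgap : ∀ q ∈ Finset.Icc 1 N, ∀ᶠ a : ℝ × ℕ in 𝓝 0 ×ˢ atTop,
      ∀ y ∈ (Icc (0 : ℝ) 1 ×ˢ Icc (-1 : ℝ) 1) ∩ {y : ℝ × ℝ | ¬(sw ∧ q = p) ∨ |y.2| = 1},
      ∀ (φ : OrthonormalBasis (Fin (nl n a.2)) ℝ (PM n a.2)) (lam : Fin (nl n a.2) → ℝ),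
      EigB (opA a.2 (HX (iota (pt w w' e y.1 y.2)))) φ lam →
      ∀ i : Fin (nl n a.2), ((i : ℕ) < q → lam i ≤ pt (s q) (s' q) (se q) y.1 y.2 - a.1) ∧
        (q ≤ (i : ℕ) → pt (s q) (s' q) (se q) y.1 y.2 + a.1 ≤ lam i) := by
    intro q hq
    obtain ⟨hq1, hqN⟩ := Finset.mem_Icc.1 hq
    refine gal_cpt ((isCompact_Icc.prod isCompact_Icc).inter_right ?_) ?_
    · by_cases hc : sw ∧ q = p
      · simp only [hc, and_self, not_true, false_or]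
        exact isClosed_eq (by fun_prop) continuous_const
      · simp only [hc, not_false_iff, true_or]
        exact isClosed_univ
    rintro y₀ ⟨⟨hx, hθ⟩, hc⟩
    have hb := hm.mem _ hx _ hθ
    obtain ⟨g1, g2⟩ := hm.gap _ hx _ hθ q hq1 hqN hc
    set b := pt w w' e y₀.1 y₀.2 with hbdef
    set t := pt (s q) (s' q) (se q) y₀.1 y₀.2 with htdef
    obtain ⟨m, hm0, hm1, hm2⟩ : ∃ m > 0, lamv (aB b) (q - 1) + 3 * m ≤ t ∧
        t + 3 * m ≤ lamv (aB b) q :=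
      ⟨min (t - lamv (aB b) (q - 1)) (lamv (aB b) q - t) / 3,
        div_pos (lt_min (by linarith) (by linarith)) (by norm_num),
        by linarith [min_le_left (t - lamv (aB b) (q - 1)) (lamv (aB b) q - t)],
        by linarith [min_le_right (t - lamv (aB b) (q - 1)) (lamv (aB b) q - t)]⟩
    have hT : Tendsto (fun z : (ℝ × ℕ) × (ℝ × ℝ) => (pt w w' e z.2.1 z.2.2, z.1.2))
        ((𝓝 0 ×ˢ atTop) ×ˢ 𝓝 y₀) (𝓝 b ×ˢ atTop) :=
      (((gal_pt_cont w w' e).tendsto y₀).comp tendsto_snd).prodMk (tendsto_snd.comp tendsto_fst)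
    have hμ : ∀ᶠ z : (ℝ × ℕ) × (ℝ × ℝ) in (𝓝 0 ×ˢ atTop) ×ˢ 𝓝 y₀, z.1.1 < m :=
      (tendsto_fst.comp tendsto_fst).eventually (gt_mem_nhds hm0)
    have ht : ∀ᶠ z : (ℝ × ℕ) × (ℝ × ℝ) in (𝓝 0 ×ˢ atTop) ×ˢ 𝓝 y₀,
        dist (pt (s q) (s' q) (se q) z.2.1 z.2.2) t < m :=
      Metric.tendsto_nhds.1 (((gal_pt_cont (s q) (s' q) (se q)).tendsto y₀).comp tendsto_snd) m hm0
    filter_upwards [hT.eventually (gal_val hn h hb (q - 1) hm0),
      hT.eventually (gal_val hn h hb q hm0), hμ, ht,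
      (tendsto_snd.comp tendsto_fst).eventually hdim] with z h1 h2 h3 h4 h5 φ lam hE i
    have h4' := abs_lt.1 (Real.dist_eq _ _ ▸ h4)
    have h5' : N ≤ nl n z.1.2 := h5
    refine ⟨fun hi => ?_, fun hi => ?_⟩
    · have a1 := abs_le.1 (h1 φ lam hE ⟨q - 1, by change q - 1 < nl n z.1.2; omega⟩ rfl)
      have a2 : lam i ≤ lam ⟨q - 1, by omega⟩ := hE.1 (by change (i : ℕ) ≤ q - 1; omega)
      linarith [a1.2, h4'.1]
    · have a0 := i.2
      have a1 := abs_le.1 (h2 φ lam hE ⟨q, by change q < nl n z.1.2; omega⟩ rfl)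
      have a2 : lam ⟨q, by omega⟩ ≤ lam i := hE.1 (by change q ≤ (i : ℕ); omega)
      linarith [a1.1, h4'.2]
  have hgap' := ((Finset.Icc 1 N).eventually_all.2 hgap).curry
  obtain ⟨μ, hμ1, hμ0⟩ :=
    ((hgap'.filter_mono (nhdsWithin_le_nhds (s := Ioi 0))).and self_mem_nhdsWithin).exists
  refine ⟨μ, hμ0, ?_⟩
  by_cases hsw : sw
  swap
  · filter_upwards [hdim, hμ1] with M h1 h2
    exact ⟨h1, fun x hx θ hθ φ lam hE q hq1 hqN hc =>
      h2 q (Finset.mem_Icc.2 ⟨hq1, hqN⟩) (x, θ) ⟨⟨hx, hθ⟩, hc⟩ φ lam hE,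
      fun h => (hsw h).elim, fun h => (hsw h).elim, fun h => (hsw h).elim⟩
  have hsgn : ∀ θ : ℝ, |θ| = 1 → ∀ᶠ M in atTop, ∀ x ∈ Icc (0 : ℝ) 1,
      ∀ (φ : OrthonormalBasis (Fin (nl n M)) ℝ (PM n M)) (lam : Fin (nl n M) → ℝ),
      EigB (opA M (HX (iota (pt w w' e x θ)))) φ lam → ∀ i : Fin (nl n M), (i : ℕ) = p →
      1 / 4 ≤ |⟪incl M (φ i), ψ θ⟫| := by
    intro θ hθ
    refine gal_cpt isCompact_Icc fun x₀ hx₀ => ?_
    have hc : Continuous fun x : ℝ => pt w w' e x θ := by unfold pt; fun_prop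
    have hT : Tendsto (fun z : ℕ × ℝ => (pt w w' e z.2 θ, z.1)) (atTop ×ˢ 𝓝 x₀)
        (𝓝 (pt w w' e x₀ θ) ×ˢ atTop) :=
      ((hc.tendsto x₀).comp tendsto_snd).prodMk tendsto_fst
    filter_upwards [hT.eventually (gal_near hn h hm hsw hx₀ hθ rfl)] with z hz φ lam hE i hi
    obtain ⟨ψ₁, h1, h2, h3⟩ := hz φ lam hE i hi
    have a1 := hm.sgn hsw x₀ hx₀ θ hθ ψ₁ h1 h2
    have a2 := abs_sub_abs_le_abs_sub ⟪ψ₁, ψ θ⟫ ⟪incl z.1 (φ i), ψ θ⟫
    have a3 := h3 θ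
    rw [abs_sub_comm] at a3
    change |⟪ψ₁, ψ θ⟫ - ⟪incl z.1 (φ i), ψ θ⟫| ≤ 1 / 8 at a3
    linarith
  have h01 : (0 : ℝ) ∈ Icc (0 : ℝ) 1 := ⟨le_rfl, zero_le_one⟩
  have h11 : (1 : ℝ) ∈ Icc (0 : ℝ) 1 := ⟨zero_le_one, le_rfl⟩
  have hn1 : |(-1 : ℝ)| = 1 := by norm_num
  have e0 : ∀ θ, pt w w' e 0 θ = w := fun θ => by simp [pt]
  have e1 : ∀ θ, pt w w' e 1 θ = w' := fun θ => by simp [pt]
  filter_upwards [hdim, hμ1, hsgn 1 abs_one, hsgn (-1) hn1,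
    (gal_near hn h hm hsw h01 abs_one (e0 1)).curry.self_of_nhds,
    (gal_near hn h hm hsw h11 abs_one (e1 1)).curry.self_of_nhds] with M h1 h2 h3 h4 h5 h6
  refine ⟨h1, fun x hx θ hθ φ lam hE q hq1 hqN hc =>
      h2 q (Finset.mem_Icc.2 ⟨hq1, hqN⟩) (x, θ) ⟨⟨hx, hθ⟩, hc⟩ φ lam hE,
      fun _ x hx θ hθ => ?_, fun _ φ lam hE i hi => ?_, fun _ φ lam hE i hi => ?_⟩
  · rcases (abs_eq zero_le_one).1 hθ with rfl | rfl
    · exact h3 x hx
    · exact h4 x hx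
  · obtain ⟨ψ₁, a1, a2, a3⟩ := h5 φ lam hE i hi
    have b1 := hm.sgn hsw 0 h01 1 abs_one ψ₁ (by rwa [e0]) a2
    have b2 := hm.sgn hsw 0 h01 (-1) hn1 ψ₁ (by rwa [e0]) a2
    exact (mul_pos_iff_of_pos_right (hm.ent hsw ψ₁ a1 a2)).1 (gal_prod b1 b2 (a3 1) (a3 (-1)))
  · obtain ⟨ψ₁, a1, a2, a3⟩ := h6 φ lam hE i hi
    have b1 := hm.sgn hsw 1 h11 1 abs_one ψ₁ (by rwa [e1]) a2
    have b2 := hm.sgn hsw 1 h11 (-1) hn1 ψ₁ (by rwa [e1]) a2
    exact neg_of_mul_pos_left (gal_prod b1 b2 (a3 1) (a3 (-1))) (hm.ext hsw ψ₁ a1 a2).le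

end Crest.Agent.R202
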