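import Crest.Agent.R202.Gen2

/-! # Row 202, Gen3: simple spectrum is dense and connected; polygons -/

set_option autoImplicit false
open scoped RealInnerProductSpace
open Set Filter Topology

noncomputable section
namespace Crest.Agent.R202

variable {V : Type*} [NormedAddCommGroup V] [InnerProductSpace ℝ V]
variable {B : Type*} [NormedAddCommGroup B] [NormedSpace ℝ B]

/-- the local step at a point of `Z` -/
theorem gen3a_local {O Z : Set B} (hO : IsOpen O) {z : B} (hz : z ∈ O) {F : B → ℝ × ℝ}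
    {L : B →L[ℝ] ℝ × ℝ} (hF : HasStrictFDerivAt F L z) (hL : Function.Surjective L) (h0 : F z = 0)
    (hZ : ∀ᶠ b in 𝓝 z, b ∈ Z → F b = 0) :
    z ∈ closure (O \ Z) ∧ ∃ p, ∀ᶠ x in 𝓝 z, x ∉ Z →
      ∃ S ⊆ O \ Z, IsPreconnected S ∧ x ∈ S ∧ p ∈ S := by
  obtain ⟨e₁, he₁⟩ := hL (1, 0)
  obtain ⟨e₂, he₂⟩ := hL (0, 1)
  set K : ℝ := ‖e₁‖ + ‖e₂‖ + 1 with hK
  have hK0 : 0 < K := by positivity
  have hc : (0 : ℝ) < 1 / (8 * K) := by positivity
  have h1 := (hasStrictFDerivAt_iff_isLittleO.1 hF).def hc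
  rw [nhds_prod_eq] at h1
  obtain ⟨pa, hpa, pb, hpb, h1⟩ := Filter.eventually_prod_iff.1 h1
  obtain ⟨r, hr, hball⟩ := Metric.eventually_nhds_iff_ball.1
    (hpa.and (hpb.and (hZ.and (hO.mem_nhds hz))))
  have hest : ∀ x ∈ Metric.ball z r, ∀ y ∈ Metric.ball z r,
      ‖F x - F y - L (x - y)‖ ≤ 1 / (8 * K) * ‖x - y‖ :=
    fun x hx y hy => h1 (hball x hx).1 (hball y hy).2.1
  have hgood : ∀ x ∈ Metric.ball z r, F x ≠ 0 → x ∈ O \ Z :=
    fun x hx hne => ⟨(hball x hx).2.2.2, fun h => hne ((hball x hx).2.2.1 h)⟩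
  -- a line in the direction `e₁` meets a level set at most once
  have hA : ∀ (x : B) (s t : ℝ), x + s • e₁ ∈ Metric.ball z r → x + t • e₁ ∈ Metric.ball z r →
      F (x + s • e₁) = F (x + t • e₁) → s = t := by
    intro x s t hs ht he
    have h2 := hest _ hs _ ht
    have e : x + s • e₁ - (x + t • e₁) = (s - t) • e₁ := by rw [sub_smul]; abel
    rw [he, sub_self, zero_sub, norm_neg, e, map_smul, he₁, norm_smul, norm_smul] at h2
    have e1 : ‖((1, 0) : ℝ × ℝ)‖ = 1 := by simp [Prod.norm_def]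
    rw [e1, mul_one] at h2
    have h3 : 1 / (8 * K) * ‖e₁‖ ≤ 1 / 8 := by
      rw [div_mul_eq_mul_div, one_mul, div_le_div_iff₀ (by positivity) (by norm_num)]
      linarith [norm_nonneg e₂]
    have h4 : ‖s - t‖ ≤ 0 := by nlinarith [norm_nonneg (s - t)]
    exact sub_eq_zero.1 (norm_le_zero_iff.1 h4)
  set ρ : ℝ := r / (2 * K) with hρ
  have hρ0 : 0 < ρ := by positivity
  have hρK : ρ * K < r := by
    rw [hρ, div_mul_eq_mul_div, div_lt_iff₀ (by positivity)]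
    nlinarith [mul_pos hr hK0]
  set δ : ℝ := ρ / (8 * (‖L‖ + 1)) with hδ
  have hδ0 : 0 < δ := by positivity
  have hδL : (‖L‖ + 1) * δ = ρ / 8 := by rw [hδ]; field_simp
  have hδρ : δ ≤ ρ := by nlinarith [norm_nonneg L]
  have hnorm : ∀ (u : B) (a b : ℝ), ‖u‖ ≤ δ → |a| ≤ ρ → |b| ≤ ρ →
      ‖u + a • e₁ + b • e₂‖ ≤ ρ * K := by
    intro u a b hu ha hb
    calc ‖u + a • e₁ + b • e₂‖ ≤ ‖u‖ + ‖a • e₁‖ + ‖b • e₂‖ := norm_add₃_le
      _ = ‖u‖ + |a| * ‖e₁‖ + |b| * ‖e₂‖ := by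
          rw [norm_smul, norm_smul, Real.norm_eq_abs, Real.norm_eq_abs]
      _ ≤ ρ + ρ * ‖e₁‖ + ρ * ‖e₂‖ := by gcongr; exact hu.trans hδρ
      _ = ρ * K := by rw [hK]; ring
  have hmem : ∀ (u : B) (a b : ℝ), ‖u‖ ≤ δ → |a| ≤ ρ → |b| ≤ ρ →
      z + (u + a • e₁ + b • e₂) ∈ Metric.ball z r := by
    intro u a b hu ha hb
    rw [Metric.mem_ball, dist_eq_norm, add_sub_cancel_left]
    exact (hnorm u a b hu ha hb).trans_lt hρK
  have hB : ∀ (u : B) (a b : ℝ), ‖u‖ ≤ δ → |a| ≤ ρ → |b| ≤ ρ → ρ ≤ |a| + |b| →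
      z + (u + a • e₁ + b • e₂) ∈ O \ Z := by
    intro u a b hu ha hb hab
    refine hgood _ (hmem u a b hu ha hb) fun he => ?_
    have h2 := hest _ (hmem u a b hu ha hb) z (Metric.mem_ball_self hr)
    rw [he, h0, sub_self, zero_sub, norm_neg, add_sub_cancel_left] at h2
    have h3 : 1 / (8 * K) * ‖u + a • e₁ + b • e₂‖ ≤ ρ / 8 := by
      calc _ ≤ 1 / (8 * K) * (ρ * K) := mul_le_mul_of_nonneg_left (hnorm u a b hu ha hb) hc.le
        _ = ρ / 8 := by field_simp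
    have h4 : ((a, b) : ℝ × ℝ) = L (u + a • e₁ + b • e₂) - L u := by
      rw [map_add, map_add, map_smul, map_smul, he₁, he₂]
      ext <;> simp
    have h5 : ‖L u‖ ≤ ρ / 8 := by
      calc ‖L u‖ ≤ ‖L‖ * ‖u‖ := L.le_opNorm u
        _ ≤ (‖L‖ + 1) * δ := by gcongr; linarith
        _ = ρ / 8 := hδL
    have h6 : ‖((a, b) : ℝ × ℝ)‖ ≤ ρ / 4 := by
      rw [h4]
      linarith [norm_sub_le (L (u + a • e₁ + b • e₂)) (L u)]
    have h7 : |a| ≤ ‖((a, b) : ℝ × ℝ)‖ := norm_fst_le ((a, b) : ℝ × ℝ)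
    have h8 : |b| ≤ ‖((a, b) : ℝ × ℝ)‖ := norm_snd_le ((a, b) : ℝ × ℝ)
    linarith
  have hline : ∀ x : B, ‖x - z‖ ≤ δ → ∀ t : ℝ, |t| ≤ ρ → x + t • e₁ ∈ Metric.ball z r := by
    intro x hx t ht
    have := hmem (x - z) t 0 hx ht (by simpa using hρ0.le)
    simpa [← add_assoc] using this
  constructor
  · have h2 : Tendsto (fun t : ℝ => z + t • e₁) (𝓝[>] 0) (𝓝 z) := by
      have : Tendsto (fun t : ℝ => z + t • e₁) (𝓝 0) (𝓝 (z + (0 : ℝ) • e₁)) :=
        (by fun_prop : Continuous fun t : ℝ => z + t • e₁).tendsto 0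
      rw [zero_smul, add_zero] at this
      exact this.mono_left nhdsWithin_le_nhds
    refine mem_closure_of_tendsto h2 ?_
    filter_upwards [Ioo_mem_nhdsGT hρ0] with t ht
    have hz0 : ‖z - z‖ ≤ δ := by simpa using hδ0.le
    have h3 := hline z hz0 t (by rw [abs_of_pos ht.1]; exact ht.2.le)
    refine hgood _ h3 fun he => ht.1.ne' (hA z t 0 h3 (hline z hz0 0 (by simpa using hρ0.le)) ?_)
    rw [he, zero_smul, add_zero, h0]
  · refine ⟨z + ρ • e₂, ?_⟩
    filter_upwards [Metric.closedBall_mem_nhds z hδ0] with x hx hxZ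
    rw [Metric.mem_closedBall, dist_eq_norm] at hx
    obtain ⟨σ, hσ, hav⟩ : ∃ σ : ℝ, |σ| = ρ ∧ ∀ t ∈ Ioc (0 : ℝ) 1, F (x + (t * σ) • e₁) ≠ 0 := by
      by_contra hcon
      push Not at hcon
      obtain ⟨s, hs, es⟩ := hcon ρ (abs_of_pos hρ0)
      obtain ⟨t, ht, et⟩ := hcon (-ρ) (by rw [abs_neg, abs_of_pos hρ0])
      have h2 := hA x (s * ρ) (t * -ρ)
        (hline x hx _ (by
          rw [abs_mul, abs_of_pos hs.1, abs_of_pos hρ0]; nlinarith [hs.2]))
        (hline x hx _ (by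
          rw [abs_mul, abs_neg, abs_of_pos ht.1, abs_of_pos hρ0]; nlinarith [ht.2]))
        (es.trans et.symm)
      nlinarith [mul_pos hs.1 hρ0, mul_pos ht.1 hρ0]
    refine ⟨segment ℝ x (x + σ • e₁) ∪ segment ℝ (x + σ • e₁) (z + ρ • e₂), union_subset ?_ ?_,
      IsPreconnected.union (x + σ • e₁) (right_mem_segment _ _ _) (left_mem_segment _ _ _)
        (convex_segment _ _).isPreconnected (convex_segment _ _).isPreconnected,
      Or.inl (left_mem_segment _ _ _), Or.inr (right_mem_segment _ _ _)⟩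
    · rw [segment_eq_image']
      rintro _ ⟨t, ht, rfl⟩
      dsimp only
      rw [add_sub_cancel_left, smul_smul]
      have h3 := hline x hx (t * σ) (by
        rw [abs_mul, abs_of_nonneg ht.1, hσ]; nlinarith [ht.2])
      rcases ht.1.eq_or_lt with rfl | ht0
      · simp only [zero_mul, zero_smul, add_zero] at h3 ⊢
        exact ⟨(hball x h3).2.2.2, hxZ⟩
      · exact hgood _ h3 (hav t ⟨ht0, ht.2⟩)
    · rintro _ ⟨a, b, ha, hb, hab, rfl⟩
      have e : a • (x + σ • e₁) + b • (z + ρ • e₂) =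
          z + (a • (x - z) + (a * σ) • e₁ + (b * ρ) • e₂) := by
        obtain rfl : b = 1 - a := by linarith
        module
      have e1 : |a * σ| = a * ρ := by rw [abs_mul, abs_of_nonneg ha, hσ]
      have e2 : |b * ρ| = b * ρ := abs_of_nonneg (mul_nonneg hb hρ0.le)
      rw [e]
      refine hB _ _ _ ?_ (by rw [e1]; nlinarith) (by rw [e2]; nlinarith) ?_
      · rw [norm_smul, Real.norm_of_nonneg ha]
        nlinarith [norm_nonneg (x - z)]
      · rw [e1, e2, ← add_mul, hab, one_mul]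

/-- **Removing a codimension-two set.**  Local step at `z ∈ Z`: pick `e₁, e₂` with `L e₁ = (1,0)`, `L e₂ = (0,1)` and a ball
where `‖F x - F y - L (x-y)‖ ≤ c‖x-y‖` with `c (‖e₁‖+‖e₂‖)` small.  A line in the direction `e₁` meets `F⁻¹ 0` at most once, so from
`x ∉ Z` close to `z` (distance `< δ ≪ ρ`) one of the segments `x ± [0,ρ] e₁` avoids `Z`; the convex sets `ball z δ + ρ e₁`,
`ball z δ - ρ e₁` avoid `Z` and are joined by the segments through `z + ρ e₂`.  So every point of `O` has arbitrarily small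
neighbourhoods `U` such that `U \ Z` lies in one preconnected subset of `O \ Z`, and `O \ Z` is dense in `O`.  Global step: if
`O \ Z ⊆ u ∪ v` (disjoint on it), the points of `O` having a neighbourhood `U` with `U \ Z ⊆ u` (resp. `v`) form two disjoint open sets covering `O`. -/
theorem removal {O Z : Set B} (hO : IsOpen O) (hc : IsPreconnected O) (hZ : IsOpen (O \ Z))
    (h : ∀ z ∈ O ∩ Z, ∃ (F : B → ℝ × ℝ) (L : B →L[ℝ] ℝ × ℝ), HasStrictFDerivAt F L z ∧
      Function.Surjective L ∧ F z = 0 ∧ ∀ᶠ b in 𝓝 z, b ∈ Z → F b = 0) :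
    IsPreconnected (O \ Z) ∧ O ⊆ closure (O \ Z) := by
  let J : B → B → Prop := fun a b => ∃ S ⊆ O \ Z, IsPreconnected S ∧ a ∈ S ∧ b ∈ S
  have Jsymm : ∀ {a b}, J a b → J b a := fun ⟨S, h1, h2, h3, h4⟩ => ⟨S, h1, h2, h4, h3⟩
  have Jtrans : ∀ {a b c}, J a b → J b c → J a c :=
    fun ⟨S, h1, h2, h3, h4⟩ ⟨T, k1, k2, k3, k4⟩ =>
      ⟨S ∪ T, union_subset h1 k1, h2.union _ h4 k3 k2, Or.inl h3, Or.inr k4⟩
  have hloc : ∀ z ∈ O, z ∈ closure (O \ Z) ∧ ∃ p, ∀ᶠ x in 𝓝 z, x ∉ Z → J x p := by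
    intro z hz
    by_cases hzZ : z ∈ Z
    · obtain ⟨F, L, h1, h2, h3, h4⟩ := h z ⟨hz, hzZ⟩
      exact gen3a_local hO hz h1 h2 h3 h4
    · refine ⟨subset_closure ⟨hz, hzZ⟩, z, ?_⟩
      obtain ⟨ε, hε, hb⟩ := Metric.isOpen_iff.1 hZ z ⟨hz, hzZ⟩
      filter_upwards [Metric.ball_mem_nhds z hε] with x hx _
      exact ⟨_, hb, (convex_ball z ε).isPreconnected, hx, Metric.mem_ball_self hε⟩
  refine ⟨isPreconnected_of_forall_pair fun x hx y hy => ?_, fun z hz => (hloc z hz).1⟩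
  let A : B → B → Prop := fun x p => ∀ᶠ w in 𝓝 x, w ∉ Z → J w p
  have hJ : ∀ x ∈ O, ∀ p q, A x p → A x q → J p q := by
    intro x hx p q hp hq
    obtain ⟨w, ⟨h1, h2⟩, hw⟩ := mem_closure_iff_nhds.1 (hloc x hx).1 _ (hp.and hq)
    exact Jtrans (Jsymm (h1 hw.2)) (h2 hw.2)
  have hA : ∀ {x p q}, A x p → J p q → A x q := fun hp hq =>
    hp.mono fun w hw hw' => Jtrans (hw hw') hq
  have key : ∀ p, A x p → A y p := by
    refine hc.induction₂' (fun x y => ∀ p, A x p → A y p) (fun x hx => ?_)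
      (fun a b c _ _ _ h1 h2 p hp => h2 p (h1 p hp)) hx.1 hy.1
    obtain ⟨p₀, hp₀⟩ := (hloc x hx).2
    filter_upwards [self_mem_nhdsWithin, nhdsWithin_le_nhds hp₀.eventually_nhds] with y hy hy₀
    exact ⟨fun p hp => hA hy₀ (hJ x hx _ _ hp₀ hp), fun p hp => hA hp₀ (hJ y hy _ _ hy₀ hp)⟩
  obtain ⟨p₀, hp₀⟩ := (hloc x hx.1).2
  obtain ⟨S, h1, h2, h3, h4⟩ :=
    Jtrans (hp₀.self_of_nhds hx.2) (Jsymm ((key p₀ hp₀).self_of_nhds hy.2))
  exact ⟨S, h1, h3, h4, h2⟩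

/-- open preconnected sets are polygonally connected (`IsPreconnected.induction₂'`; polygons concatenate) -/
theorem polygon {O : Set B} (hO : IsOpen O) (hc : IsPreconnected O) {x y : B} (hx : x ∈ O) (hy : y ∈ O) :
    ∃ (k : ℕ) (v : ℕ → B), 1 ≤ k ∧ v 0 = x ∧ v k = y ∧ ∀ m < k, segment ℝ (v m) (v (m + 1)) ⊆ O := by
  refine hc.induction₂' (fun x y => ∃ (k : ℕ) (v : ℕ → B), 1 ≤ k ∧ v 0 = x ∧ v k = y ∧
    ∀ m < k, segment ℝ (v m) (v (m + 1)) ⊆ O) (fun x hx => ?_) ?_ hx hy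
  · obtain ⟨ε, hε, hb⟩ := Metric.isOpen_iff.1 hO x hx
    filter_upwards [nhdsWithin_le_nhds (Metric.ball_mem_nhds x hε)] with y hy
    have hx' := Metric.mem_ball_self (x := x) hε
    constructor
    · refine ⟨1, fun m => if m = 0 then x else y, le_rfl, by simp, by simp, fun m hm => ?_⟩
      obtain rfl : m = 0 := by omega
      simpa using ((convex_ball x ε).segment_subset hx' hy).trans hb
    · refine ⟨1, fun m => if m = 0 then y else x, le_rfl, by simp, by simp, fun m hm => ?_⟩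
      obtain rfl : m = 0 := by omega
      simpa using ((convex_ball x ε).segment_subset hy hx').trans hb
  · rintro a b c - - - ⟨k, v, hk, rfl, rfl, hv⟩ ⟨l, w, hl, hw0, rfl, hw⟩
    refine ⟨k + l, fun m => if m ≤ k then v m else w (m - k), by omega, by simp, ?_, fun m hm => ?_⟩
    · simp only [if_neg (show ¬ k + l ≤ k by omega), Nat.add_sub_cancel_left]
    · by_cases h1 : m + 1 ≤ k
      · simp only [if_pos h1, if_pos (show m ≤ k by omega)]
        exact hv m (by omega)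
      · have e : (if m ≤ k then v m else w (m - k)) = w (m - k) := by
          split_ifs with h2
          · obtain rfl : m = k := by omega
            rw [Nat.sub_self, hw0]
          · rfl
        simp only [if_neg h1, e, show m + 1 - k = m - k + 1 by omega]
        exact hw _ (by omega)

end Crest.Agent.R202
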