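import Crest.Agent.R202.Gen2
import Crest.Agent.R202.Gen3a

/-! # Row 202, Gen3: simple spectrum is dense and connected; polygons -/

set_option autoImplicit false
open scoped RealInnerProductSpace
open Set Filter Topology

noncomputable section
namespace Crest.Agent.R202

variable {V : Type*} [NormedAddCommGroup V] [InnerProductSpace ℝ V]
variable {B : Type*} [NormedAddCommGroup B] [NormedSpace ℝ B]

theorem gen3_dim {q : BF V} (hq : Nice q) (j : ℕ) :
    ∃ Y : Submodule ℝ V, Y ≤ ⊤ ∧ Module.finrank ℝ Y = j := by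
  obtain ⟨φ, h⟩ := hq.eigSys
  refine ⟨Submodule.span ℝ (range fun i : Fin j => φ i), le_top, ?_⟩
  exact (finrank_span_eq_card (h.orth.comp (fun i : Fin j => (i : ℕ))
    Fin.val_injective).linearIndependent).trans (Fintype.card_fin j)

theorem gen3_ev {a : B → BF V} {da : B → B →ₗ[ℝ] BF V} {ε : ℝ} (hF : Fam a da ε) {z : B}
    (hz : ‖z‖ < ε) {i j : ℕ} (h : lamv (a z) i < lamv (a z) j) :
    ∀ᶠ b in 𝓝 z, lamv (a b) i < lamv (a b) j := by
  have hn := Metric.isOpen_ball.mem_nhds (mem_ball_zero_iff.2 hz)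
  exact ((hF.continuousOn_lamv i).continuousAt hn).eventually_lt
    ((hF.continuousOn_lamv j).continuousAt hn) h

theorem gen3_bound {a : B → BF V} {da : B → B →ₗ[ℝ] BF V} {ε : ℝ} (hF : Fam a da ε) (N : ℕ) :
    ∃ M, ∀ b, ‖b‖ < ε → ∀ q, lamv (a b) q ≤ lamv (a b) N → q < M := by
  obtain ⟨c, C, hc, h⟩ := hF.comp
  have h0 := hF.nice 0 (by simpa using hF.pos)
  obtain ⟨φ, hφ⟩ := h0.eigSys
  obtain ⟨M, hM⟩ := eventually_atTop.1
    (hφ.tend.eventually_gt_atTop (c⁻¹ * ((|C| + 1) * lamv (a 0) N)))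
  refine ⟨M, fun b hb q hq => lt_of_not_ge fun hMq => (hM q hMq).not_ge ?_⟩
  have h1 : lamv (a 0) q ≤ c⁻¹ * lamv (a b) q :=
    mu_le_of_le h0.nonneg (Nat.le_add_left _ _) (gen3_dim h0 _) (inv_pos.2 hc) fun u _ =>
      (le_inv_mul_iff₀ hc).2 (h b hb u).1
  have h2 : lamv (a b) N ≤ (|C| + 1) * lamv (a 0) N :=
    mu_le_of_le (hF.nice b hb).nonneg (Nat.le_add_left _ _) (gen3_dim h0 _) (by positivity)
      fun u _ => (h b hb u).2.trans
        (mul_le_mul_of_nonneg_right (by linarith [le_abs_self C]) (h0.nonneg u))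
  exact h1.trans (mul_le_mul_of_nonneg_left (hq.trans h2) (inv_pos.2 hc).le)

/-- Let `def b` = number of `q ∈ [1,N]` with the gap `q` closed, `O_k = {‖b‖ < ε, def b ≤ k}` (open: open gaps stay open,
`continuousOn_lamv`).  `O_N` is the ball.  Pass from `O_k` to `O_{k-1}` (`k ≥ 1`) with `removal`, `Z = {def = k}`: at `z ∈ Z` choose a
closed gap `q₀` and the full cluster `[i₁,i₂) ∋ q₀-1, q₀` of `a z`.  Nearby points of `Z` have the same closed gaps in `[1,N]`.
If `i₂ - 1 ≤ N` this means that the cluster stays degenerate and `degF` (with `HypP.surj`) applies.  To avoid clusters cut by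
`N`, prove the statement for an `N' ≥ N` LOCALLY adapted: it suffices to treat `N` replaced by any `N' ≥ N` on small balls.
Precisely: (a) for each `z` in the ball there are `N' ≥ N` with the gap `N'+1` open at `z` and a ball `U ∋ z` where it stays open;
on `U` the induction works for the defect counted on `[1,N']` (clusters meeting `[0,N']` end at `i₂ ≤ N'+1`), so `U ∩ Simple N'` is
preconnected and dense in `U`, hence so is `U ∩ Simple N` (squeezed between it and its closure,
`IsPreconnected.subset_closure`); (b) globalise as in the global step of `removal`. -/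
theorem Fam.simple {a : B → BF V} {da : B → B →ₗ[ℝ] BF V} {ε : ℝ} (hF : Fam a da ε)
    (hP : HypP a da ε) (N : ℕ) :
    IsOpen (Simple a ε N) ∧ IsPreconnected (Simple a ε N) ∧
      Metric.ball (0 : B) ε ⊆ closure (Simple a ε N) := by
  classical
  obtain ⟨M, hM⟩ := gen3_bound hF N
  have hball : ∀ z : B, ‖z‖ < ε → ∀ᶠ b in 𝓝 z, ‖b‖ < ε := fun z hz =>
    continuous_norm.continuousAt.eventually_lt continuousAt_const hz
  have hmono : ∀ b, ‖b‖ < ε → Monotone (lamv (a b)) := fun b hb =>
    (hF.nice b hb).eigSys.elim fun _ h => h.mono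
  let C : B → Finset ℕ := fun b => (Finset.range M).filter fun q =>
    1 ≤ q ∧ ¬Gap (a b) q ∧ lamv (a b) q ≤ lamv (a b) N
  have hC : ∀ b, ‖b‖ < ε → ∀ q, q ∈ C b ↔ 1 ≤ q ∧ ¬Gap (a b) q ∧ lamv (a b) q ≤ lamv (a b) N :=
    fun b hb q => by
      simp only [C, Finset.mem_filter, Finset.mem_range, and_iff_right_iff_imp]
      exact fun h => hM b hb q h.2.2
  have hloc : ∀ z, ‖z‖ < ε → ∀ᶠ b in 𝓝 z, C b ⊆ C z := fun z hz => by
    have : ∀ᶠ b in 𝓝 z, ∀ q ∈ Finset.range M, q ∈ C b → q ∈ C z := by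
      refine (Finset.eventually_all _).2 fun q _ => ?_
      by_cases h1 : Gap (a z) q
      · filter_upwards [gen3_ev hF hz h1] with b hb h
        exact absurd hb (Finset.mem_filter.1 h).2.2.1
      by_cases h2 : lamv (a z) N < lamv (a z) q
      · filter_upwards [gen3_ev hF hz h2] with b hb h
        exact absurd hb (Finset.mem_filter.1 h).2.2.2.not_gt
      · exact .of_forall fun b h => (hC z hz q).2 ⟨(Finset.mem_filter.1 h).2.1, h1, not_lt.1 h2⟩
    filter_upwards [this] with b hb q hq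
    exact hb q (Finset.mem_filter.1 hq).1 hq
  let O : ℕ → Set B := fun k => {b | ‖b‖ < ε ∧ (C b).card ≤ k}
  have hO : ∀ k, IsOpen (O k) := fun k => isOpen_iff_mem_nhds.2 fun z hz => by
    filter_upwards [hball z hz.1, hloc z hz.1] with b h1 h2
    exact ⟨h1, (Finset.card_le_card h2).trans hz.2⟩
  have key : ∀ j k, M ≤ k + j → IsPreconnected (O k) ∧ Metric.ball (0 : B) ε ⊆ closure (O k) := by
    intro j
    induction j with
    | zero =>
      intro k hk
      have : O k = Metric.ball 0 ε := by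
        ext b
        simp only [O, mem_ofPred_eq, mem_ball_zero_iff, and_iff_left_iff_imp]
        exact fun _ => (Finset.card_filter_le _ _).trans ((Finset.card_range M).trans_le hk)
      rw [this]
      exact ⟨(convex_ball _ _).isPreconnected, subset_closure⟩
    | succ j ih =>
      intro k hk
      obtain ⟨h1, h2⟩ := ih (k + 1) (by omega)
      have e : O (k + 1) \ {b | (C b).card = k + 1} = O k := by
        ext b
        simp only [O, Set.mem_sdiff, mem_ofPred_eq]
        constructor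
        · exact fun h => ⟨h.1.1, by omega⟩
        · exact fun h => ⟨⟨h.1, by omega⟩, by omega⟩
      have := removal (Z := {b | (C b).card = k + 1}) (hO _) h1 (e ▸ hO k) ?_
      · rw [e] at this
        exact ⟨this.1, h2.trans (closure_minimal this.2 isClosed_closure)⟩
      rintro z ⟨⟨hz, -⟩, hzk : (C z).card = k + 1⟩
      obtain ⟨q, hq⟩ := Finset.card_pos.1 (show 0 < (C z).card by omega)
      obtain ⟨q1, q2, q3⟩ := (hC z hz q).1 hq
      obtain ⟨i₁, i₂, -, -, hc⟩ := (hF.nice z hz).exists_isClus q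
      obtain ⟨φ, hφ⟩ := (hF.nice z hz).eigSys
      have e1 : lamv (a z) (q - 1) = lamv (a z) q :=
        le_antisymm (hφ.mono (Nat.sub_le _ _)) (not_lt.1 q2)
      have o := hφ.orth.2 (show q - 1 ≠ q by omega)
      obtain ⟨F, L, hL, hd, h0, hev⟩ :=
        hF.degF hz hc (e1 ▸ hφ.eig (q - 1)) (hφ.eig q) (hφ.orth.1 _) (hφ.orth.1 _) o
      refine ⟨F, L, hd, fun y => ?_, h0, ?_⟩
      · obtain ⟨v, hv⟩ :=
          hP.surj hF hz (e1 ▸ hφ.eig (q - 1)) (hφ.eig q) (hφ.orth.1 _) (hφ.orth.1 _) o y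
        exact ⟨v, (hL v).trans hv⟩
      filter_upwards [hev, hball z hz, hloc z hz] with b hb1 hb2 hb3 (hb4 : (C b).card = k + 1)
      have hCb : C b = C z := Finset.eq_of_subset_of_card_le hb3 (by omega)
      have : ∀ n, i₁ ≤ n → n < i₂ → lamv (a b) i₁ = lamv (a b) n := by
        intro n hn
        induction n, hn using Nat.le_induction with
        | base => exact fun _ => rfl
        | succ n hn ih =>
          intro hn2
          have v1 := hc.val n ⟨hn, by omega⟩
          have v2 := hc.val (n + 1) ⟨by omega, hn2⟩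
          have : n + 1 ∈ C b := hCb ▸ (hC z hz _).2 ⟨by omega, fun h : lamv (a z) n < _ =>
            h.ne (v1.trans v2.symm), v2 ▸ q3⟩
          exact (ih (by omega)).trans (le_antisymm (hmono b hb2 n.le_succ)
            (not_lt.1 ((hC b hb2 _).1 this).2.1))
      have hlt := hc.lt
      exact hb1.1 (this _ (by omega) (by omega))
  obtain ⟨h1, h2⟩ := key M 0 (by omega)
  have hsub : O 0 ⊆ Simple a ε N := fun b hb => ⟨hb.1, fun q q1 q2 => by
    by_contra h
    have := Finset.card_pos.2 ⟨q, (hC b hb.1 q).2 ⟨q1, h, hmono b hb.1 q2⟩⟩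
    exact this.not_ge hb.2⟩
  refine ⟨isOpen_iff_mem_nhds.2 fun z hz => ?_,
    h1.subset_closure hsub fun b hb => h2 (mem_ball_zero_iff.2 hb.1), h2.trans (closure_mono hsub)⟩
  have : ∀ᶠ b in 𝓝 z, ∀ q ∈ Finset.Icc 1 N, Gap (a b) q :=
    (Finset.eventually_all _).2 fun q hq =>
      gen3_ev hF hz.1 (hz.2 q (Finset.mem_Icc.1 hq).1 (Finset.mem_Icc.1 hq).2)
  filter_upwards [hball z hz.1, this] with b hb1 hb2
  exact ⟨hb1, fun q q1 q2 => hb2 q (Finset.mem_Icc.2 ⟨q1, q2⟩)⟩

end Crest.Agent.R202
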