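import Mathlib

/-! # Row 202, Gen4a auxiliary: strict separation of two families of pure states -/

set_option autoImplicit false
open scoped RealInnerProductSpace
open Set

noncomputable section
namespace Crest.Agent.R202

/-- Carathéodory: the convex hull of a compact set in finite dimension is compact. -/
theorem g4_isCompact_convexHull {H : Type*} [NormedAddCommGroup H] [NormedSpace ℝ H]
    [FiniteDimensional ℝ H] {K : Set H} (hK : IsCompact K) : IsCompact (convexHull ℝ K) := by
  classical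
  rcases K.eq_empty_or_nonempty with rfl | ⟨x₀, hx₀⟩
  · simp
  set n := Module.finrank ℝ H + 1 with hn
  have hc : IsCompact (stdSimplex ℝ (Fin n) ×ˢ (Set.pi univ fun _ : Fin n => K)) :=
    (isCompact_stdSimplex ℝ (Fin n)).prod (isCompact_univ_pi fun _ => hK)
  have hcont : Continuous (fun z : (Fin n → ℝ) × (Fin n → H) => ∑ i, z.1 i • z.2 i) := by
    fun_prop
  convert hc.image hcont using 1
  ext x
  constructor
  · intro hx
    obtain ⟨ι, _, z, w, hz, hai, hw0, hw1, rfl⟩ := eq_pos_convex_span_of_mem_convexHull hx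
    have hcard : Fintype.card ι ≤ Fintype.card (Fin n) := by
      rw [Fintype.card_fin]
      exact hai.card_le_finrank_succ.trans (Nat.succ_le_succ (Submodule.finrank_le _))
    obtain ⟨e⟩ := Function.Embedding.nonempty_of_card_le hcard
    have key : ∀ (F : Fin n → ℝ) (G : ι → ℝ),
        (∀ i, F (e i) = G i) → (∀ j, (¬ ∃ i, e i = j) → F j = 0) → ∑ j, F j = ∑ i, G i := by
      intro F G h1 h2
      rw [← Finset.sum_subset (Finset.subset_univ (Finset.univ.map e))
        (fun j _ hj => h2 j (by simpa using hj)), Finset.sum_map]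
      exact Finset.sum_congr rfl fun i _ => h1 i
    have key' : ∀ (F : Fin n → H) (G : ι → H),
        (∀ i, F (e i) = G i) → (∀ j, (¬ ∃ i, e i = j) → F j = 0) → ∑ j, F j = ∑ i, G i := by
      intro F G h1 h2
      rw [← Finset.sum_subset (Finset.subset_univ (Finset.univ.map e))
        (fun j _ hj => h2 j (by simpa using hj)), Finset.sum_map]
      exact Finset.sum_congr rfl fun i _ => h1 i
    refine ⟨(Function.extend e w 0, Function.extend e z (fun _ => x₀)), ⟨⟨fun j => ?_, ?_⟩,
      fun j _ => ?_⟩, ?_⟩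
    · by_cases hj : ∃ i, e i = j
      · obtain ⟨i, rfl⟩ := hj
        simp only [e.injective.extend_apply]
        exact (hw0 i).le
      · simp only [Function.extend_apply' _ _ _ hj, Pi.zero_apply, le_refl]
    · rw [← hw1]
      exact key _ _ (fun i => e.injective.extend_apply _ _ i)
        (fun j hj => by simp only [Function.extend_apply' _ _ _ hj, Pi.zero_apply])
    · by_cases hj : ∃ i, e i = j
      · obtain ⟨i, rfl⟩ := hj
        simp only [e.injective.extend_apply]
        exact hz ⟨i, rfl⟩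
      · simp only [Function.extend_apply' _ _ _ hj]
        exact hx₀
    · exact key' _ _ (fun i => by simp only [e.injective.extend_apply])
        (fun j hj => by simp only [Function.extend_apply' _ _ _ hj, Pi.zero_apply, zero_smul])
  · rintro ⟨⟨α, y⟩, ⟨⟨h0, h1⟩, hy⟩, rfl⟩
    exact (convex_convexHull ℝ K).sum_mem (fun i _ => h0 i) h1
      (fun i _ => subset_convexHull ℝ K (hy i (mem_univ i)))

/-- abstract strict separation -/
theorem g4_sep_abs {H B : Type*} [NormedAddCommGroup H] [InnerProductSpace ℝ H]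
    [FiniteDimensional ℝ H] [AddCommGroup B] [Module ℝ B] (A : B →ₗ[ℝ] H) {K : Set H}
    (hK : IsCompact K) (h : ∀ x ∈ convexHull ℝ K, ∃ v, ⟪x, A v⟫ ≠ 0) :
    ∃ (v : B) (c : ℝ), 0 < c ∧ ∀ x ∈ K, c ≤ ⟪x, A v⟫ := by
  have hdisj : Disjoint (convexHull ℝ K) ((LinearMap.range A)ᗮ : Submodule ℝ H) := by
    rw [Set.disjoint_left]
    intro x hx hx'
    obtain ⟨v, hv⟩ := h x hx
    exact hv (((LinearMap.range A).mem_orthogonal' x).1 hx' _ ⟨v, rfl⟩)
  obtain ⟨f, u, w, h1, h2, h3⟩ := geometric_hahn_banach_compact_closed (convex_convexHull ℝ K)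
    (g4_isCompact_convexHull hK) (LinearMap.range A)ᗮ.convex
    (LinearMap.range A).isClosed_orthogonal hdisj
  have hw : w < 0 := by simpa using h3 0 (Submodule.zero_mem _)
  have hf0 : ∀ b ∈ (LinearMap.range A)ᗮ, f b = 0 := by
    intro b hb
    by_contra hne
    have := h3 ((w / f b) • b) (Submodule.smul_mem _ _ hb)
    rw [map_smul, smul_eq_mul, div_mul_cancel₀ _ hne] at this
    exact lt_irrefl _ this
  have hy : ∀ x, ⟪(InnerProductSpace.toDual ℝ H).symm f, x⟫ = f x := fun x =>
    InnerProductSpace.toDual_symm_apply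
  have hmem : (InnerProductSpace.toDual ℝ H).symm f ∈ LinearMap.range A := by
    rw [← (LinearMap.range A).orthogonal_orthogonal, Submodule.mem_orthogonal']
    intro b hb
    rw [hy, hf0 b hb]
  obtain ⟨v₀, hv₀⟩ := hmem
  refine ⟨-v₀, -u, by linarith, fun x hx => ?_⟩
  have := h1 x (subset_convexHull ℝ K hx)
  rw [map_neg, inner_neg_right, hv₀, real_inner_comm, hy]
  linarith

/-- strict separation of the pure states of two subspaces -/
theorem g4_sep_forms {E B : Type*} [NormedAddCommGroup E] [InnerProductSpace ℝ E]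
    [FiniteDimensional ℝ E] [AddCommGroup B] [Module ℝ B] (T : B →ₗ[ℝ] E →ₗ[ℝ] E →ₗ[ℝ] ℝ)
    (P M : Submodule ℝ E)
    (hX : ∀ (m : ℕ) (u g : Fin m → E), (∀ k, u k ∈ P) → (∀ k, g k ∈ M) →
      (∀ v, ∑ k, T v (u k) (u k) = ∑ k, T v (g k) (g k)) → ∀ k, g k = 0) :
    ∃ (v : B) (c : ℝ), 0 < c ∧ ∀ u ∈ P, ‖u‖ = 1 → ∀ g ∈ M, ‖g‖ = 1 → c ≤ T v u u - T v g g := by
  classical
  let bs := stdOrthonormalBasis ℝ E
  let A : B →ₗ[ℝ] EuclideanSpace ℝ (Fin (Module.finrank ℝ E) × Fin (Module.finrank ℝ E)) :=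
    { toFun := fun v => WithLp.toLp 2 fun ij => T v (bs ij.1) (bs ij.2)
      map_add' := fun v w => by ext ij; simp
      map_smul' := fun c v => by ext ij; simp }
  let ψ : E → EuclideanSpace ℝ (Fin (Module.finrank ℝ E) × Fin (Module.finrank ℝ E)) :=
    fun u => WithLp.toLp 2 fun ij => ⟪bs ij.1, u⟫ * ⟪bs ij.2, u⟫
  have hψc : Continuous ψ := by
    refine (PiLp.continuous_toLp 2 _).comp (continuous_pi fun ij => ?_)
    fun_prop
  have hψ : ∀ u v, ⟪ψ u, A v⟫ = T v u u := by
    intro u v
    conv_rhs => rw [← bs.sum_repr' u]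
    simp only [PiLp.inner_apply, ψ, A, LinearMap.coe_mk, AddHom.coe_mk, map_sum, map_smul,
      LinearMap.sum_apply, LinearMap.smul_apply, smul_eq_mul, Fintype.sum_prod_type,
      Finset.mul_sum]
    rw [Finset.sum_comm]
    refine Finset.sum_congr rfl fun i _ => Finset.sum_congr rfl fun j _ => ?_
    simp only [RCLike.inner_apply, conj_trivial]
    ring
  have hcP : ∀ Q : Submodule ℝ E, IsCompact ((Q : Set E) ∩ Metric.sphere 0 1) := fun Q =>
    (isCompact_sphere (0 : E) 1).inter_left Q.closed_of_finiteDimensional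
  have hK : IsCompact ((fun p : E × E => ψ p.1 - ψ p.2) ''
      (((P : Set E) ∩ Metric.sphere 0 1) ×ˢ ((M : Set E) ∩ Metric.sphere 0 1))) :=
    ((hcP P).prod (hcP M)).image ((hψc.comp continuous_fst).sub (hψc.comp continuous_snd))
  obtain ⟨v, c, hc, hv⟩ := g4_sep_abs A hK (fun x hx => by
    by_contra hcon
    push Not at hcon
    obtain ⟨ι, _, w, z, hw0, hw1, hz, rfl⟩ := mem_convexHull_iff_exists_fintype.1 hx
    choose p hp hpz using hz
    let e := Fintype.equivFin ι
    have hg := hX (Fintype.card ι) (fun k => √(w (e.symm k)) • (p (e.symm k)).1)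
      (fun k => √(w (e.symm k)) • (p (e.symm k)).2)
      (fun k => P.smul_mem _ (hp _).1.1) (fun k => M.smul_mem _ (hp _).2.1) (fun v => by
        have h0 := hcon v
        rw [sum_inner] at h0
        rw [← sub_eq_zero, ← Finset.sum_sub_distrib, ← h0]
        refine (Fintype.sum_equiv e _ _ fun i => ?_).symm
        simp only [Equiv.symm_apply_apply, map_smul, LinearMap.smul_apply, smul_eq_mul]
        rw [← hpz i, real_inner_smul_left, inner_sub_left, hψ, hψ, ← mul_assoc, ← mul_assoc,
          Real.mul_self_sqrt (hw0 i)]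
        ring)
    have hw : ∀ i, w i = 0 := fun i => by
      have h1 := hg (e i)
      simp only [Equiv.symm_apply_apply] at h1
      have h2 : ‖(p i).2‖ = 1 := by simpa using (hp i).2.2
      rcases smul_eq_zero.1 h1 with h | h
      · exact le_antisymm (Real.sqrt_eq_zero'.1 h) (hw0 i)
      · rw [h, norm_zero] at h2
        exact absurd h2 zero_ne_one
    simp [hw] at hw1)
  refine ⟨v, c, hc, fun u hu hu1 g hg hg1 => ?_⟩
  have := hv _ ⟨(u, g), ⟨⟨hu, by simpa using hu1⟩, ⟨hg, by simpa using hg1⟩⟩, rfl⟩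
  rwa [inner_sub_left, hψ, hψ] at this

end Crest.Agent.R202
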