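import Crest.Agent.R202.Gen2
import Crest.Agent.R202.Gen4aAux

/-! # Row 202, Gen4: reduction to an exactly double eigenvalue -/

set_option autoImplicit false
open scoped RealInnerProductSpace
open Set Filter Topology

noncomputable section
namespace Crest.Agent.R202

variable {V : Type*} [NormedAddCommGroup V] [InnerProductSpace ℝ V]
variable {B : Type*} [NormedAddCommGroup B] [NormedSpace ℝ B]

/-- parity sectors -/
theorem SymData.even_orth {a : B → BF V} {da : B → B →ₗ[ℝ] BF V} {ε : ℝ} {σ : V →ₗ[ℝ] V}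
    {σB : B →ₗ[ℝ] B} (hσ : SymData a da ε σ σB) (u : V) :
    u ∈ (LinearMap.ker (LinearMap.id - σ))ᗮ ↔ σ u = -u := by
  have hsym : ∀ x y, ⟪σ x, y⟫ = ⟪x, σ y⟫ := fun x y => by
    rw [← hσ.iso x (σ y), hσ.invol]
  rw [Submodule.mem_orthogonal]
  constructor
  · intro h
    have h1 : u + σ u ∈ LinearMap.ker (LinearMap.id - σ) := by
      simp [LinearMap.mem_ker, hσ.invol, add_comm]
    have h2 := h _ h1
    have h3 : ⟪u + σ u, σ u⟫ = 0 := by
      rw [← hsym, map_add, hσ.invol, add_comm]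
      exact h2
    have h4 : ⟪u + σ u, u + σ u⟫ = 0 := by rw [inner_add_right, h2, h3, add_zero]
    rw [inner_self_eq_zero] at h4
    exact eq_neg_of_add_eq_zero_right h4
  · intro h w hw
    have h1 : σ w = w := by
      have : w - σ w = 0 := by simpa [LinearMap.mem_ker] using hw
      exact (sub_eq_zero.1 this).symm
    have h2 := hσ.iso w u
    rw [h1, h, inner_neg_right] at h2
    linarith
theorem SymData.sect {a : B → BF V} {da : B → B →ₗ[ℝ] BF V} {ε : ℝ} (hF : Fam a da ε) {σ : V →ₗ[ℝ] V}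
    {σB : B →ₗ[ℝ] B} (hσ : SymData a da ε σ σB) {b : B} (hb : ‖b‖ < ε) (hs : σB b = b) :
    Sect (a b) (LinearMap.ker (LinearMap.id - σ)) := by
  refine sect_ker (hF.nice b hb) _ (fun u w => ?_) (fun u w => ?_)
  · have : ⟪σ u, w⟫ = ⟪u, σ w⟫ := by rw [← hσ.iso u (σ w), hσ.invol]
    simp only [LinearMap.sub_apply, LinearMap.id_apply, inner_sub_left, inner_sub_right, this]
  · have : a b (σ u) w = a b u (σ w) := by rw [← hσ.comm b hb hs u (σ w), hσ.invol]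
    simp only [LinearMap.sub_apply, LinearMap.id_apply, map_sub, this]

/-- **Separation.**  Let `E⁺, E⁻` be the even and odd parts of `eigsp (a z) s` (finite-dimensional, both nonzero), with orthonormal
bases.  In the Euclidean space `𝕄` of pairs of matrices let `W` be the range of `v ↦ (da z v on E⁺, da z v on E⁻)` and `D` the compact convex set
of `(ρ⁺, -ρ⁻)` with `ρ^±` positive semidefinite of trace `1` (or convex hulls of the `y yᵀ`).  `HypX` says `D ∩ Wᗮ = ∅`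
(write `ρ = Σ y_k y_kᵀ`, pad the two families with zeros to a common length).  `geometric_hahn_banach_compact_closed`
(or the nearest point of the projection of `D` to `W`) gives `v₀` with `da v₀ u u - da v₀ g g ≥ c > 0` for unit `u ∈ E⁺`, `g ∈ E⁻`;
symmetrise `v = (v₀ + σB v₀)/2` (`dcomm`), `m = sup_{g} da v g g + c/2`. -/
theorem separate {a : B → BF V} {da : B → B →ₗ[ℝ] BF V} {ε : ℝ} (hF : Fam a da ε) {σ : V →ₗ[ℝ] V}
    {σB : B →ₗ[ℝ] B} (hσ : SymData a da ε σ σB) (hX : HypX a da ε σ σB) {z : B} (hz : ‖z‖ < ε)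
    (hs : σB z = z) (s : ℝ) (he : ∃ u ∈ eigsp (a z) s, u ≠ 0 ∧ σ u = u)
    (ho : ∃ u ∈ eigsp (a z) s, u ≠ 0 ∧ σ u = -u) :
    ∃ (v : B) (m c : ℝ), σB v = v ∧ 0 < c ∧
      (∀ u ∈ eigsp (a z) s, σ u = u → (m + c) * ‖u‖ ^ 2 ≤ da z v u u) ∧
      ∀ u ∈ eigsp (a z) s, σ u = -u → da z v u u ≤ (m - c) * ‖u‖ ^ 2 := by
  have : FiniteDimensional ℝ (eigsp (a z) s) := (hF.nice z hz).finite_eigsp s
  let T : B →ₗ[ℝ] eigsp (a z) s →ₗ[ℝ] eigsp (a z) s →ₗ[ℝ] ℝ :=
    { toFun := fun v => (da z v).compl₁₂ (eigsp (a z) s).subtype (eigsp (a z) s).subtype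
      map_add' := fun v w => by ext x y; simp
      map_smul' := fun c v => by ext x y; simp }
  have hT : ∀ v (x y : eigsp (a z) s), T v x y = da z v x y := fun _ _ _ => rfl
  let P : Submodule ℝ (eigsp (a z) s) :=
    (LinearMap.ker (σ - LinearMap.id)).comap (eigsp (a z) s).subtype
  let M : Submodule ℝ (eigsp (a z) s) :=
    (LinearMap.ker (σ + LinearMap.id)).comap (eigsp (a z) s).subtype
  have hP : ∀ x : eigsp (a z) s, x ∈ P ↔ σ x = x := fun x => by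
    simp [P, LinearMap.mem_ker, sub_eq_zero]
  have hM : ∀ x : eigsp (a z) s, x ∈ M ↔ σ x = -x := fun x => by
    simp [M, LinearMap.mem_ker, add_eq_zero_iff_eq_neg]
  obtain ⟨v₀, c, hc, hv₀⟩ := g4_sep_forms T P M (fun m u g hu hg h k =>
    Subtype.ext (hX z hz hs s m (fun k => u k) (fun k => g k) (fun k => ⟨(u k).2, (hP _).1 (hu k)⟩)
      (fun k => ⟨(g k).2, (hM _).1 (hg k)⟩) h k))
  have hsep : ∀ u ∈ eigsp (a z) s, σ u = u → ‖u‖ = 1 → ∀ g ∈ eigsp (a z) s, σ g = -g → ‖g‖ = 1 →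
      c ≤ da z v₀ u u - da z v₀ g g := fun u hu hu' hu1 g hg hg' hg1 =>
    hv₀ ⟨u, hu⟩ ((hP _).2 hu') hu1 ⟨g, hg⟩ ((hM _).2 hg') hg1
  have hnrm : ∀ u : V, u ≠ 0 → ‖(‖u‖⁻¹ : ℝ) • u‖ = 1 := fun u hu => by
    rw [norm_smul, norm_inv, norm_norm, inv_mul_cancel₀ (norm_ne_zero_iff.2 hu)]
  have hsc : ∀ u : V, u ≠ 0 →
      da z v₀ u u = da z v₀ ((‖u‖⁻¹ : ℝ) • u) ((‖u‖⁻¹ : ℝ) • u) * ‖u‖ ^ 2 := fun u hu => by
    have := norm_ne_zero_iff.2 hu
    simp only [map_smul, LinearMap.smul_apply, smul_eq_mul]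
    field_simp
  obtain ⟨u₀, hu₀, hu₀', hu₀''⟩ := he
  obtain ⟨g₀, hg₀, hg₀', hg₀''⟩ := ho
  let S : Set ℝ := {t | ∃ g ∈ eigsp (a z) s, σ g = -g ∧ ‖g‖ = 1 ∧ da z v₀ g g = t}
  have hSne : S.Nonempty := ⟨_, (‖g₀‖⁻¹ : ℝ) • g₀, Submodule.smul_mem _ _ hg₀,
    by rw [map_smul, hg₀'', smul_neg], hnrm g₀ hg₀', rfl⟩
  have hSub : ∀ u ∈ eigsp (a z) s, σ u = u → ‖u‖ = 1 → ∀ t ∈ S, t ≤ da z v₀ u u - c := by
    rintro u hu hu' hu1 t ⟨g, hg, hg', hg1, rfl⟩
    have := hsep u hu hu' hu1 g hg hg' hg1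
    linarith
  have hSbd : BddAbove S := ⟨_, hSub _ (Submodule.smul_mem _ (‖u₀‖⁻¹ : ℝ) hu₀)
    (by rw [map_smul, hu₀'']) (hnrm u₀ hu₀')⟩
  have hsymv : ∀ u, (σ u = u ∨ σ u = -u) →
      da z ((1 / 2 : ℝ) • (v₀ + σB v₀)) u u = da z v₀ u u := fun u hu => by
    have h1 : da z (σB v₀) u u = da z v₀ u u := by
      rw [hσ.dcomm z hz hs]
      rcases hu with h | h
      · rw [h]
      · rw [h]; simp
    simp only [map_smul, map_add, LinearMap.smul_apply, LinearMap.add_apply, smul_eq_mul, h1]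
    ring
  refine ⟨(1 / 2 : ℝ) • (v₀ + σB v₀), sSup S + c / 2, c / 2, ?_, by linarith, fun u hu hu' => ?_,
    fun g hg hg' => ?_⟩
  · rw [map_smul, map_add, hσ.involB, add_comm]
  · rw [hsymv u (Or.inl hu')]
    by_cases h0 : u = 0
    · simp [h0]
    · rw [hsc u h0]
      refine mul_le_mul_of_nonneg_right ?_ (sq_nonneg _)
      have := csSup_le hSne (hSub _ (Submodule.smul_mem _ (‖u‖⁻¹ : ℝ) hu)
        (by rw [map_smul, hu']) (hnrm u h0))
      linarith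
  · rw [hsymv g (Or.inr hg')]
    by_cases h0 : g = 0
    · simp [h0]
    · rw [hsc g h0]
      refine mul_le_mul_of_nonneg_right ?_ (sq_nonneg _)
      have := le_csSup hSbd ⟨(‖g‖⁻¹ : ℝ) • g, Submodule.smul_mem _ _ hg,
        by rw [map_smul, hg', smul_neg], hnrm g h0, rfl⟩
      linarith

end Crest.Agent.R202
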