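import Crest.Agent.R202.Gen2
import Crest.Agent.R202.Gen4a

/-! # Row 202, Gen4: reduction to an exactly double eigenvalue -/

set_option autoImplicit false
open scoped RealInnerProductSpace
open Set Filter Topology

noncomputable section
namespace Crest.Agent.R202

variable {V : Type*} [NormedAddCommGroup V] [InnerProductSpace ℝ V]
variable {B : Type*} [NormedAddCommGroup B] [NormedSpace ℝ B]

theorem gen4b_orth {q : BF V} (hq : Nice q) {s : ℝ} {u r : V} (hu : u ∈ eigsp q s)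
    (hr : r ∈ low q s) : ⟪u, r⟫ = 0 := by
  have : low q s ≤ (ℝ ∙ u)ᗮ := iSup_le fun t w hw =>
    Submodule.mem_orthogonal_singleton_iff_inner_right.2 (eigsp_orth hq (ne_of_gt t.2) hu hw)
  exact Submodule.mem_orthogonal_singleton_iff_inner_right.1 (this hr)

theorem gen4b_small {K g : ℝ} (hK : 0 ≤ K) (hg : 0 < g) : ∀ᶠ δ in 𝓝[>] (0 : ℝ), δ * K ≤ g := by
  have h : 0 < g / (K + 1) := by positivity
  filter_upwards [Ioo_mem_nhdsGT h] with δ hδ
  have h1 := hδ.2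
  rw [lt_div_iff₀ (by positivity)] at h1
  nlinarith [hδ.1]

/-- first-order expansion of the form on `u + r`, `u` in the eigenspace, `r ⊥ u` -/
theorem gen4b_exp {a : B → BF V} {da : B → B →ₗ[ℝ] BF V} {ε : ℝ} (hF : Fam a da ε) {z : B}
    (hz : ‖z‖ < ε) (v : B) (s : ℝ) {c : ℝ} (hc : 0 < c) :
    ∃ M : ℝ, 0 ≤ M ∧ ∀ᶠ δ in 𝓝[>] (0 : ℝ), ‖z + δ • v‖ < ε ∧
      ∀ u r, u ∈ eigsp (a z) s → ⟪u, r⟫ = 0 →
        |a (z + δ • v) (u + r) (u + r) - (s * ‖u‖ ^ 2 + a z r r) - δ * da z v u u| ≤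
          δ * (c * ‖u‖ ^ 2 + M * a z r r) := by
  have hq := hF.nice z hz
  have hq0 := hF.nice 0 (by simpa using hF.pos)
  obtain ⟨c0, C0, hc0, hcomp⟩ := hF.comp
  obtain ⟨C1, hC1⟩ := hF.dbd z hz
  set C : ℝ := |C1| * ‖v‖ / c0 with hC
  have hC0 : 0 ≤ C := by positivity
  have hD : ∀ τ : ℝ, 0 < τ → ∀ u w, 2 * |da z v u w| ≤ C * (τ * a z u u + a z w w / τ) := by
    intro τ hτ u w
    have h1 := hC1 v u w
    have h2 : 2 * (√(a 0 u u) * √(a 0 w w)) ≤ τ * a 0 u u + a 0 w w / τ := by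
      have e1 := Real.sq_sqrt (hq0.nonneg u)
      have e2 := Real.sq_sqrt (hq0.nonneg w)
      set x := √(a 0 u u)
      set y := √(a 0 w w)
      rw [← e1, ← e2]
      have : τ * x ^ 2 + y ^ 2 / τ - 2 * (x * y) = (τ * x - y) ^ 2 / τ := by field_simp; ring
      have h3 : 0 ≤ (τ * x - y) ^ 2 / τ := by positivity
      linarith
    have h3 : τ * a 0 u u + a 0 w w / τ ≤ (τ * a z u u + a z w w / τ) / c0 := by
      rw [le_div_iff₀ hc0]
      have e1 := mul_le_mul_of_nonneg_left (hcomp z hz u).1 hτ.le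
      have e2 := div_le_div_of_nonneg_right (hcomp z hz w).1 hτ.le
      have e3 : c0 * a 0 w w / τ = a 0 w w / τ * c0 := by ring
      nlinarith
    have h4 : C1 * ‖v‖ * (√(a 0 u u) * √(a 0 w w)) ≤ |C1| * ‖v‖ * (√(a 0 u u) * √(a 0 w w)) := by
      gcongr
      exact le_abs_self _
    calc 2 * |da z v u w| ≤ |C1| * ‖v‖ * (2 * (√(a 0 u u) * √(a 0 w w))) := by linarith
      _ ≤ |C1| * ‖v‖ * ((τ * a z u u + a z w w / τ) / c0) := by
          gcongr
          exact h2.trans h3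
      _ = _ := by rw [hC]; ring
  set τ : ℝ := c / (2 * (C + 1) * (|s| + 1)) with hτ
  have hτ0 : 0 < τ := by positivity
  have hτ1 : (C + 1) * τ * |s| ≤ c := by
    have e : (C + 1) * τ * (|s| + 1) = c / 2 := by rw [hτ]; field_simp
    nlinarith [mul_pos (show 0 < C + 1 by linarith) hτ0]
  obtain ⟨δ0, hδ0, hst⟩ := hF.strict z hz (τ * c0 / (‖v‖ + 1)) (by positivity)
  refine ⟨C / τ + C + τ, by positivity, ?_⟩
  filter_upwards [gen4b_small (norm_nonneg v) (half_pos hδ0),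
    gen4b_small (norm_nonneg v) (half_pos (sub_pos.2 hz)), self_mem_nhdsWithin] with δ h1 h2 h3
  have hδ : 0 < δ := h3
  have hn : ‖δ • v‖ = δ * ‖v‖ := by rw [norm_smul, Real.norm_of_nonneg hδ.le]
  refine ⟨?_, fun u r hu ho => ?_⟩
  · have := norm_add_le z (δ • v)
    linarith
  have e1 := hst (z + δ • v) z (by rw [add_sub_cancel_left, hn]; linarith) (by simpa using hδ0)
    (u + r) (u + r)
  rw [add_sub_cancel_left, hn, Real.mul_self_sqrt (hq0.nonneg _), map_smul] at e1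
  have huu : a z u u = s * ‖u‖ ^ 2 := by rw [hu u, real_inner_self_eq_norm_sq]
  have hur : a z u r = 0 := by rw [hu r, ho, mul_zero]
  have e2 : a z (u + r) (u + r) = s * ‖u‖ ^ 2 + a z r r := by
    simp only [map_add, LinearMap.add_apply]
    rw [hq.symm r u, huu, hur]
    ring
  have e3 : (δ • da z v) (u + r) (u + r) =
      δ * (da z v u u + 2 * da z v u r + da z v r r) := by
    simp only [map_add, LinearMap.add_apply, LinearMap.smul_apply, smul_eq_mul]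
    rw [hF.dsymm z hz v r u]
    ring
  have e4 : τ * c0 / (‖v‖ + 1) * (δ * ‖v‖) * a 0 (u + r) (u + r) ≤
      δ * τ * (s * ‖u‖ ^ 2 + a z r r) := by
    have f1 : ‖v‖ / (‖v‖ + 1) ≤ 1 := by
      rw [div_le_one (by positivity)]; linarith
    have f2 := (hcomp z hz (u + r)).1
    have f3 := hq0.nonneg (u + r)
    calc _ = δ * τ * (‖v‖ / (‖v‖ + 1) * (c0 * a 0 (u + r) (u + r))) := by ring
      _ ≤ δ * τ * (1 * a z (u + r) (u + r)) := by gcongr
      _ = _ := by rw [e2, one_mul]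
  rw [e2, e3] at e1
  have e5 := hD τ hτ0 u r
  have e6 := hD 1 one_pos r r
  rw [huu] at e5
  have hr0 := hq.nonneg r
  have e7 : (C + 1) * τ * (s * ‖u‖ ^ 2) ≤ c * ‖u‖ ^ 2 := by
    have f1 : (C + 1) * τ * s ≤ (C + 1) * τ * |s| :=
      mul_le_mul_of_nonneg_left (le_abs_self s) (by positivity)
    nlinarith [sq_nonneg ‖u‖]
  have e8 : |δ * (2 * da z v u r + da z v r r)| ≤
      δ * (C * (τ * (s * ‖u‖ ^ 2) + a z r r / τ) + C * a z r r) := by
    rw [abs_mul, abs_of_pos hδ]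
    refine mul_le_mul_of_nonneg_left ((abs_add_le _ _).trans ?_) hδ.le
    rw [abs_mul, abs_two]
    rw [div_one] at e6
    linarith
  have e9 := abs_add_le (a (z + δ • v) (u + r) (u + r) - (s * ‖u‖ ^ 2 + a z r r) -
    δ * (da z v u u + 2 * da z v u r + da z v r r)) (δ * (2 * da z v u r + da z v r r))
  have e10 : a (z + δ • v) (u + r) (u + r) - (s * ‖u‖ ^ 2 + a z r r) -
      δ * (da z v u u + 2 * da z v u r + da z v r r) + δ * (2 * da z v u r + da z v r r) =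
      a (z + δ • v) (u + r) (u + r) - (s * ‖u‖ ^ 2 + a z r r) - δ * da z v u u := by ring
  rw [e10] at e9
  have e11 : δ * τ * (s * ‖u‖ ^ 2 + a z r r) +
      δ * (C * (τ * (s * ‖u‖ ^ 2) + a z r r / τ) + C * a z r r) =
      δ * ((C + 1) * τ * (s * ‖u‖ ^ 2) + (C / τ + C + τ) * a z r r) := by ring
  have e12 := mul_le_mul_of_nonneg_left e7 hδ.le
  nlinarith

theorem gen4b_above {q : BF V} (hq : Nice q) (s : ℝ) :
    ∃ s', s < s' ∧ low q s' ≤ low q s ⊔ eigsp q s := by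
  classical
  obtain ⟨lam, φ, h⟩ := hq.eig
  have hex : ∃ i, s < lam i := (h.tend.eventually (eventually_gt_atTop s)).exists
  refine ⟨lam (Nat.find hex), Nat.find_spec hex, ?_⟩
  rw [h.low_eq hq, h.low_eq hq, h.eigsp_eq hq, ← Submodule.span_union, ← image_union]
  refine Submodule.span_mono (image_mono fun i hi => ?_)
  have : lam i ≤ s := by
    by_contra hcon
    exact absurd (h.mono (Nat.find_min' hex (not_le.1 hcon))) (not_le.2 hi)
  exact this.lt_or_eq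

theorem gen4b_bdd0 {W : Type*} [NormedAddCommGroup W] [NormedSpace ℝ W] [FiniteDimensional ℝ W]
    (q : W →ₗ[ℝ] W →ₗ[ℝ] ℝ) : ∃ s : ℝ, ∀ y, q y y ≤ s * ‖y‖ ^ 2 := by
  refine ⟨‖q.toContinuousBilinearMap‖, fun y => ?_⟩
  have h := q.toContinuousBilinearMap.le_opNorm₂ y y
  rw [LinearMap.toContinuousBilinearMap_apply, Real.norm_eq_abs] at h
  nlinarith [le_abs_self (q y y)]

theorem gen4b_bdd (q : BF V) (Y : Submodule ℝ V) [FiniteDimensional ℝ Y] :
    ∃ s : ℝ, ∀ y ∈ Y, q y y ≤ s * ‖y‖ ^ 2 := by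
  obtain ⟨s, hs⟩ := gen4b_bdd0 (W := Y) (q.domRestrict₁₂ Y Y)
  exact ⟨s, fun y hy => hs ⟨y, hy⟩⟩

theorem gen4b_exists_orth (W Y : Submodule ℝ V) [FiniteDimensional ℝ W]
    (h : Module.finrank ℝ W < Module.finrank ℝ Y) : ∃ y ∈ Y, y ≠ 0 ∧ y ∈ Wᗮ := by
  have : FiniteDimensional ℝ Y := Module.finite_of_finrank_pos (by omega)
  have h1 := LinearMap.ker_ne_bot_of_finrank_lt
    (f := (W.orthogonalProjectionOnto : V →ₗ[ℝ] W).domRestrict Y) h
  obtain ⟨y, hy, hy0⟩ := Submodule.exists_mem_ne_zero_of_ne_bot h1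
  exact ⟨y, y.2, fun h0 => hy0 (Subtype.ext h0),
    Submodule.orthogonalProjectionOnto_eq_zero_iff.1 (LinearMap.mem_ker.1 hy)⟩

/-- first-order upper bound: test space `T = (low ⊓ S) ⊔ (eigsp ⊓ S)` (a subspace of dimension `j`); for `y = y₀ + y₁`,
`a (z+δv) y y - (s+δm)‖y‖² ≤ -γ‖y₀‖² - δ c‖y₁‖² + Cδ‖y₀‖‖y‖ + o(δ)‖y‖² ≤ -(δc/4)‖y‖²` (`strict`, `dbd`, `comp`). -/
theorem Fam.mu_lt_first {a : B → BF V} {da : B → B →ₗ[ℝ] BF V} {ε : ℝ} (hF : Fam a da ε) {z : B}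
    (hz : ‖z‖ < ε) {S : Submodule ℝ V} (v : B) {s m c : ℝ} (hc : 0 < c)
    (h : ∀ u ∈ eigsp (a z) s, u ∈ S → da z v u u ≤ (m - c) * ‖u‖ ^ 2) {j : ℕ} (hj : 1 ≤ j)
    (hjd : j ≤ Module.finrank ℝ (low (a z) s ⊓ S : Submodule ℝ V) +
      Module.finrank ℝ (eigsp (a z) s ⊓ S : Submodule ℝ V)) :
    ∀ᶠ δ in 𝓝[>] (0 : ℝ), mu S (a (z + δ • v)) j < s + δ * m := by
  have hq := hF.nice z hz
  obtain ⟨M, hM, hexp⟩ := gen4b_exp hF hz v s (c := c / 2) (by positivity)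
  obtain ⟨t, hts, ht⟩ := hq.exists_lt_on_low s
  have := hq.finite_low s
  have := hq.finite_eigsp s
  have hfin : j ≤ Module.finrank ℝ
      ((low (a z) s ⊓ S) ⊔ (eigsp (a z) s ⊓ S) : Submodule ℝ V) := by
    have h1 : FiniteDimensional ℝ (low (a z) s ⊓ S : Submodule ℝ V) :=
      Submodule.finiteDimensional_of_le inf_le_left
    have h2 : FiniteDimensional ℝ (eigsp (a z) s ⊓ S : Submodule ℝ V) :=
      Submodule.finiteDimensional_of_le inf_le_left
    have h3 := Submodule.finrank_sup_add_finrank_inf_eq (low (a z) s ⊓ S) (eigsp (a z) s ⊓ S)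
    have h4 : (low (a z) s ⊓ S) ⊓ (eigsp (a z) s ⊓ S) = ⊥ := by
      rw [eq_bot_iff]
      intro u hu
      exact inner_self_eq_zero.1 (gen4b_orth hq hu.2.1 hu.1.1)
    rw [h4, finrank_bot] at h3
    omega
  filter_upwards [hexp, gen4b_small (K := M * |t| + |m - c / 2|) (by positivity) (sub_pos.2 hts),
    self_mem_nhdsWithin] with δ hδ hδ2 hδ0
  have hδ0' : 0 < δ := hδ0
  have key := mu_le_of_test (hF.nice _ hδ.1).nonneg hj (sup_le inf_le_right inf_le_right) hfin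
    (s := s + δ * (m - c / 2)) (by
      intro y hy
      obtain ⟨r, hr, u, hu, rfl⟩ := Submodule.mem_sup.1 hy
      have ho := gen4b_orth hq hu.1 hr.1
      have h1 := (abs_le.1 (hδ.2 u r hu.1 ho)).2
      have h2 := h u hu.1 hu.2
      have h3 := ht r hr.1
      have h4 : ‖u + r‖ ^ 2 = ‖u‖ ^ 2 + ‖r‖ ^ 2 := by rw [norm_add_sq_real, ho]; ring
      have h5 : a z r r ≤ |t| * ‖r‖ ^ 2 :=
        h3.trans (mul_le_mul_of_nonneg_right (le_abs_self t) (sq_nonneg _))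
      have h6 := mul_le_mul_of_nonneg_left h5 (mul_nonneg hδ0'.le hM)
      have h7 := mul_le_mul_of_nonneg_right hδ2 (sq_nonneg ‖r‖)
      have h8 := mul_le_mul_of_nonneg_left h2 hδ0'.le
      have h9 := mul_le_mul_of_nonneg_left (neg_abs_le (m - c / 2))
        (mul_nonneg hδ0'.le (sq_nonneg ‖r‖))
      rw [add_comm r u, h4]
      nlinarith)
  nlinarith [mul_pos hδ0' hc]

/-- first-order lower bound: any `j`-dimensional `Y ≤ S` contains `y ≠ 0` orthogonal to `low ⊓ S`, hence to `low`;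
`y = y₁ + h` with `y₁ ∈ eigsp ⊓ S` (sector property) and `h` above the cluster, where
`a z h h - s‖h‖² ≥ γ'(‖h‖² + a 0 h h)`. -/
theorem Fam.le_mu_first {a : B → BF V} {da : B → B →ₗ[ℝ] BF V} {ε : ℝ} (hF : Fam a da ε) {z : B}
    (hz : ‖z‖ < ε) {S : Submodule ℝ V} (hS : Sect (a z) S) (v : B) {s m c : ℝ} (hc : 0 < c)
    (h : ∀ u ∈ eigsp (a z) s, u ∈ S → (m + c) * ‖u‖ ^ 2 ≤ da z v u u) {j : ℕ}
    (hjd : Module.finrank ℝ (low (a z) s ⊓ S : Submodule ℝ V) < j)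
    (hdim : ∃ Y : Submodule ℝ V, Y ≤ S ∧ Module.finrank ℝ Y = j) :
    ∀ᶠ δ in 𝓝[>] (0 : ℝ), s + δ * m ≤ mu S (a (z + δ • v)) j := by
  have hq := hF.nice z hz
  obtain ⟨M, hM, hexp⟩ := gen4b_exp hF hz v s hc
  obtain ⟨s', hs', hlow⟩ := gen4b_above hq s
  have := hq.finite_low s
  have := hq.finite_eigsp s
  have h1 : FiniteDimensional ℝ (low (a z) s ⊓ S : Submodule ℝ V) :=
    Submodule.finiteDimensional_of_le inf_le_left
  have h2 : FiniteDimensional ℝ (eigsp (a z) s ⊓ S : Submodule ℝ V) :=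
    Submodule.finiteDimensional_of_le inf_le_left
  filter_upwards [hexp, gen4b_small (K := M * |s'| + |m|) (by positivity) (sub_pos.2 hs'),
    gen4b_small hM one_pos, self_mem_nhdsWithin] with δ hδ hδ2 hδ3 hδ0
  have hδ0' : 0 < δ := hδ0
  apply le_csInf
  · obtain ⟨Y, hY, hYj⟩ := hdim
    have : FiniteDimensional ℝ Y := Module.finite_of_finrank_pos (by omega)
    obtain ⟨s0, hs0⟩ := gen4b_bdd (a (z + δ • v)) Y
    exact ⟨s0, Y, hY, hYj, hs0⟩
  rintro s0 ⟨Y, hY, hYj, hs0⟩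
  obtain ⟨y, hyY, hy0, hyo⟩ := gen4b_exists_orth (low (a z) s ⊓ S) Y (by omega)
  have hyS := hY hyY
  obtain ⟨u, hu, r, hr, hyur⟩ := (eigsp (a z) s ⊓ S).exists_add_mem_mem_orthogonal y
  have hr' : r = y - u := by rw [hyur]; abel
  have hrS : r ∈ S := by rw [hr']; exact S.sub_mem hyS hu.2
  have hro : r ∈ (low (a z) s')ᗮ := by
    refine Submodule.orthogonal_le hlow ?_
    rw [← Submodule.inf_orthogonal]
    constructor
    · refine (Submodule.mem_orthogonal _ _).2 fun w hw => ?_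
      obtain ⟨w₁, hw₁, hw₂⟩ := hS.low_split s hw
      have e1 : ⟪w₁, y⟫ = 0 := (Submodule.mem_orthogonal _ _).1 hyo w₁ hw₁
      have e2 : ⟪w - w₁, y⟫ = 0 := (Submodule.mem_orthogonal' _ _).1 hw₂.2 y hyS
      have e3 : ⟪w, u⟫ = 0 := by rw [real_inner_comm]; exact gen4b_orth hq hu.1 hw
      rw [inner_sub_left] at e2
      rw [hr', inner_sub_right]
      linarith
    · refine (Submodule.mem_orthogonal _ _).2 fun w hw => ?_
      obtain ⟨w₁, hw₁, hw₂, hw₃⟩ := hS s w hw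
      have e1 : ⟪w₁, r⟫ = 0 := (Submodule.mem_orthogonal _ _).1 hr w₁ ⟨hw₃, hw₁⟩
      have e2 : ⟪w - w₁, r⟫ = 0 := (Submodule.mem_orthogonal' _ _).1 hw₂ r hrS
      rw [inner_sub_left] at e2
      linarith
  have ho : ⟪u, r⟫ = 0 := (Submodule.mem_orthogonal _ _).1 hr u hu
  have e1 := (abs_le.1 (hδ.2 u r hu.1 ho)).1
  have e2 := mul_le_mul_of_nonneg_left (h u hu.1 hu.2) hδ0'.le
  have e3 := mul_le_mul_of_nonneg_left (hq.le_of_orth_low s' hro) (sub_nonneg.2 hδ3)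
  have e4 : ‖u + r‖ ^ 2 = ‖u‖ ^ 2 + ‖r‖ ^ 2 := by rw [norm_add_sq_real, ho]; ring
  have e5 := hs0 y hyY
  have e6 := mul_le_mul_of_nonneg_right hδ2 (sq_nonneg ‖r‖)
  have e7 := mul_le_mul_of_nonneg_left (le_abs_self m) (mul_nonneg hδ0'.le (sq_nonneg ‖r‖))
  have e8 := mul_le_mul_of_nonneg_left (le_abs_self s')
    (mul_nonneg (mul_nonneg hδ0'.le hM) (sq_nonneg ‖r‖))
  have e9 : (s + δ * m) * ‖y‖ ^ 2 ≤ s0 * ‖y‖ ^ 2 := by
    refine le_trans ?_ e5
    rw [hyur, e4]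
    nlinarith
  exact le_of_mul_le_mul_right e9 (by positivity)

end Crest.Agent.R202
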