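import Crest.Agent.R202.Gen2
import Crest.Agent.R202.Gen4b

/-! # Row 202, Gen4: reduction to an exactly double eigenvalue -/

set_option autoImplicit false
open scoped RealInnerProductSpace
open Set Filter Topology

noncomputable section
namespace Crest.Agent.R202

variable {V : Type*} [NormedAddCommGroup V] [InnerProductSpace ℝ V]
variable {B : Type*} [NormedAddCommGroup B] [NormedSpace ℝ B]

theorem gen4_exists_sub {T : Submodule ℝ V} {j : ℕ} (hj : j ≤ Module.finrank ℝ T) :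
    ∃ Y : Submodule ℝ V, Y ≤ T ∧ Module.finrank ℝ Y = j := by
  obtain ⟨f, hf⟩ := exists_linearIndependent_of_le_finrank hj
  have hf' : LinearIndependent ℝ (T.subtype ∘ f) := hf.map' _ (Submodule.ker_subtype T)
  refine ⟨Submodule.span ℝ (range (T.subtype ∘ f)), ?_, ?_⟩
  · rw [Submodule.span_le]
    rintro _ ⟨i, rfl⟩
    exact (f i).2
  · rw [finrank_span_eq_card hf', Fintype.card_fin]

theorem gen4_mono {q : BF V} (hq : Nice q) : Monotone (lamv q) := by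
  obtain ⟨φ, h⟩ := hq.eigSys
  exact h.mono

theorem gen4_finrank_low {q : BF V} (hq : Nice q) {i₁ i₂ : ℕ} {s : ℝ} (h : IsClus q i₁ i₂ s) :
    Module.finrank ℝ (low q s) = i₁ := by
  have h1 : lamv q i₁ = s := h.val i₁ ⟨le_rfl, h.lt⟩
  refine le_antisymm (not_lt.1 fun hc => ?_) ?_
  · exact ((hq.lamv_lt_iff s i₁).2 hc).ne h1
  · rcases h.lo with h0 | h0
    · omega
    · have := (hq.lamv_lt_iff s (i₁ - 1)).1 (h1 ▸ h0)
      omega

theorem gen4_dim {q : BF V} (hq : Nice q) (S : Submodule ℝ V) (s : ℝ) {j : ℕ}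
    (hj : j ≤ Module.finrank ℝ (low q s ⊓ S : Submodule ℝ V) +
      Module.finrank ℝ (eigsp q s ⊓ S : Submodule ℝ V)) :
    ∃ Y : Submodule ℝ V, Y ≤ S ∧ Module.finrank ℝ Y = j := by
  haveI := hq.finite_low s
  haveI := hq.finite_eigsp s
  have h0 : (low q s ⊓ S) ⊓ (eigsp q s ⊓ S) = (⊥ : Submodule ℝ V) := by
    obtain ⟨t, ht, h⟩ := hq.exists_lt_on_low s
    rw [eq_bot_iff]
    rintro y ⟨⟨h1, -⟩, h2, -⟩
    have h3 := h y h1
    rw [(mem_eigsp.1 h2) y, real_inner_self_eq_norm_sq] at h3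
    have h4 : ‖y‖ ^ 2 ≤ 0 := by nlinarith [sq_nonneg ‖y‖]
    have h5 : ‖y‖ = 0 := pow_eq_zero_iff (two_ne_zero) |>.1 (le_antisymm h4 (sq_nonneg _))
    exact (Submodule.mem_bot ℝ).2 (norm_eq_zero.1 h5)
  have h1 := Submodule.finrank_sup_add_finrank_inf_eq (low q s ⊓ S) (eigsp q s ⊓ S)
  rw [h0, finrank_bot, add_zero] at h1
  obtain ⟨Y, hY, hY'⟩ := gen4_exists_sub (T := (low q s ⊓ S) ⊔ (eigsp q s ⊓ S)) (h1 ▸ hj)
  exact ⟨Y, hY.trans (sup_le inf_le_right inf_le_right), hY'⟩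

theorem gen4_finrank_eig {q : BF V} (hq : Nice q) {S : Submodule ℝ V} (h : Sect q S) (s : ℝ) :
    Module.finrank ℝ (eigsp q s) ≤ Module.finrank ℝ (eigsp q s ⊓ S : Submodule ℝ V) +
      Module.finrank ℝ (eigsp q s ⊓ Sᗮ : Submodule ℝ V) := by
  haveI := hq.finite_eigsp s
  refine le_trans (Submodule.finrank_mono ?_) (Submodule.finrank_add_le_finrank_add_finrank _ _)
  intro u hu
  obtain ⟨u₁, h1, h2, h3⟩ := h s u hu
  have : u = u₁ + (u - u₁) := by abel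
  rw [this]
  exact Submodule.add_mem_sup ⟨h3, h1⟩ ⟨Submodule.sub_mem _ hu h3, h2⟩

theorem gen4_one_le {T : Submodule ℝ V} [FiniteDimensional ℝ T] {u : V} (hu : u ∈ T) (h0 : u ≠ 0) :
    1 ≤ Module.finrank ℝ T := by
  by_contra hc
  have : T = ⊥ := Submodule.finrank_eq_zero.1 (by omega)
  rw [this] at hu
  exact h0 ((Submodule.mem_bot ℝ).1 hu)

theorem gen4_pair {T : Submodule ℝ V} [FiniteDimensional ℝ T] (h : 2 ≤ Module.finrank ℝ T) :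
    ∃ φ₁ ∈ T, ∃ φ₂ ∈ T, ‖φ₁‖ = 1 ∧ ‖φ₂‖ = 1 ∧ ⟪φ₁, φ₂⟫ = 0 := by
  let b := stdOrthonormalBasis ℝ T
  refine ⟨b ⟨0, by omega⟩, (b _).2, b ⟨1, by omega⟩, (b _).2, b.orthonormal.1 _, b.orthonormal.1 _, ?_⟩
  exact b.orthonormal.2 (i := ⟨0, by omega⟩) (j := ⟨1, by omega⟩) (by simp)

theorem gen4_bound {a : B → BF V} {da : B → B →ₗ[ℝ] BF V} {ε : ℝ} (hF : Fam a da ε) {z : B}
    (hz : ‖z‖ < ε) (v : B) (s : ℝ) :
    ∃ K : ℝ, 0 < K ∧ ∀ u ∈ eigsp (a z) s, |da z v u u| ≤ K * ‖u‖ ^ 2 := by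
  obtain ⟨C, hC⟩ := hF.dbd z hz
  obtain ⟨c, C', hc, hcomp⟩ := hF.comp
  refine ⟨|C| * ‖v‖ * (|s| / c) + 1, by positivity, fun u hu => ?_⟩
  have h0 : 0 ≤ a 0 u u := (hF.nice 0 (by simpa using hF.pos)).nonneg u
  have h1 := hC v u u
  rw [Real.mul_self_sqrt h0] at h1
  have h2 := (hcomp z hz u).1
  rw [(mem_eigsp.1 hu) u, real_inner_self_eq_norm_sq] at h2
  have h3 : a 0 u u ≤ |s| / c * ‖u‖ ^ 2 := by
    rw [div_mul_eq_mul_div, le_div_iff₀ hc]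
    nlinarith [mul_le_mul_of_nonneg_right (le_abs_self s) (sq_nonneg ‖u‖)]
  have h4 : C * ‖v‖ * a 0 u u ≤ |C| * ‖v‖ * (|s| / c * ‖u‖ ^ 2) :=
    mul_le_mul (mul_le_mul_of_nonneg_right (le_abs_self C) (norm_nonneg _)) h3 h0 (by positivity)
  nlinarith [sq_nonneg ‖u‖]

theorem gen4_eventually {z : B} {w : ℝ → B} (hw : Continuous w) {P : B → Prop}
    (hP : ∀ᶠ b in 𝓝 z, P b) : ∀ᶠ δ in 𝓝[>] (0 : ℝ), ∀ t ∈ Icc (0 : ℝ) 1, P (z + δ • w t) := by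
  refine Filter.Eventually.filter_mono nhdsWithin_le_nhds ?_
  refine isCompact_Icc.eventually_forall_of_forall_eventually fun t _ => ?_
  have hc : Continuous fun p : ℝ × ℝ => z + p.1 • w p.2 := by fun_prop
  have := hc.tendsto (0, t)
  simp only [zero_smul, add_zero] at this
  exact this.eventually hP

theorem gen4_ne_zero {E : Type*} [NormedAddCommGroup E] [NormedSpace ℝ E] {F : B → E}
    {L : B →L[ℝ] E} {z : B} (hF : HasFDerivAt F L z) (h0 : F z = 0) {w : ℝ → B} (hw : Continuous w)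
    (hL : ∀ t ∈ Icc (0 : ℝ) 1, L (w t) ≠ 0) :
    ∀ᶠ δ in 𝓝[>] (0 : ℝ), ∀ t ∈ Icc (0 : ℝ) 1, F (z + δ • w t) ≠ 0 := by
  obtain ⟨κ, hκ, hκ'⟩ := isCompact_Icc.exists_forall_le' (f := fun t => ‖L (w t)‖)
    (a := 0) (by fun_prop) fun t ht => norm_pos_iff.2 (hL t ht)
  obtain ⟨M, hM⟩ := isCompact_Icc.exists_bound_of_continuousOn (f := w) (s := Icc (0 : ℝ) 1)
    hw.continuousOn
  have hM0 : 0 ≤ M := (norm_nonneg _).trans (hM 0 ⟨le_rfl, zero_le_one⟩)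
  have h1 := hF.isLittleO.def (c := κ / (M + 1)) (by positivity)
  filter_upwards [gen4_eventually hw h1, self_mem_nhdsWithin] with δ hδ hδ0 t ht hc
  have hδ0 : 0 < δ := hδ0
  have h2 := hδ t ht
  rw [hc, h0, add_sub_cancel_left, sub_zero, zero_sub, norm_neg, map_smul, norm_smul, norm_smul,
    Real.norm_of_nonneg hδ0.le] at h2
  have h3 : κ / (M + 1) * (δ * ‖w t‖) < δ * κ := by
    rw [div_mul_eq_mul_div, div_lt_iff₀ (by positivity)]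
    have := mul_lt_mul_of_pos_left (show ‖w t‖ < M + 1 by linarith [hM t ht]) (mul_pos hδ0 hκ)
    linarith
  have h4 := mul_le_mul_of_nonneg_left (hκ' t ht) hδ0.le
  linarith

/-- the induction step -/
theorem gen4_step {a : B → BF V} {da : B → B →ₗ[ℝ] BF V} {ε : ℝ} (hF : Fam a da ε)
    {σ : V →ₗ[ℝ] V} {σB : B →ₗ[ℝ] B} (hσ : SymData a da ε σ σB) (hP : HypP a da ε)
    (hX : HypX a da ε σ σB) {p : ℕ} {z : B} (hz : Start a ε σ σB p z) {i₁ i₂ : ℕ}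
    (hc : IsClus (a z) i₁ i₂ (lamv (a z) p)) (h₁ : i₁ < p) (h₂ : p < i₂) (h₃ : i₁ + 3 ≤ i₂) :
    ∃ z', Start a ε σ σB p z' ∧ (i₁ = 0 ∨ Gap (a z') i₁) ∧ Gap (a z') i₂ ∧
      lamv (a z') i₁ ≠ lamv (a z') (i₂ - 1) := by
  obtain ⟨hzε, hzσ, -, he, ho⟩ := hz
  obtain ⟨s, hs⟩ : ∃ s, s = lamv (a z) p := ⟨_, rfl⟩
  rw [← hs] at hc he ho
  have hq := hF.nice z hzε
  obtain ⟨S, hS⟩ : ∃ S : Submodule ℝ V, S = LinearMap.ker (LinearMap.id - σ) := ⟨_, rfl⟩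
  have hSe : ∀ u, u ∈ S ↔ σ u = u := fun u => by
    rw [hS, LinearMap.mem_ker, LinearMap.sub_apply, LinearMap.id_apply, sub_eq_zero, eq_comm]
  have hSo : ∀ u, u ∈ Sᗮ ↔ σ u = -u := fun u => by rw [hS]; exact hσ.even_orth u
  have hsect : ∀ b, ‖b‖ < ε → σB b = b → Sect (a b) S := fun b hb hb' => by
    rw [hS]; exact hσ.sect hF hb hb'
  haveI := hq.finite_eigsp s
  -- dimensions
  have d1 := (hsect z hzε hzσ).finrank_low hq s
  rw [gen4_finrank_low hq hc] at d1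
  have d2 := gen4_finrank_eig hq (hsect z hzε hzσ) s
  rw [hc.finrank hq] at d2
  have d3 : 1 ≤ Module.finrank ℝ (eigsp (a z) s ⊓ S : Submodule ℝ V) := by
    obtain ⟨u, hu, h0, hu'⟩ := he
    exact gen4_one_le (u := u) ⟨hu, (hSe u).2 hu'⟩ h0
  have d4 : 1 ≤ Module.finrank ℝ (eigsp (a z) s ⊓ Sᗮ : Submodule ℝ V) := by
    obtain ⟨u, hu, h0, hu'⟩ := ho
    exact gen4_one_le (u := u) ⟨hu, (hSo u).2 hu'⟩ h0
  obtain ⟨j₁, j₂, hj, hj1, hj2, hj3, hj4⟩ : ∃ j₁ j₂ : ℕ, j₁ + j₂ = p + 1 ∧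
      Module.finrank ℝ (low (a z) s ⊓ S : Submodule ℝ V) < j₁ ∧
      j₁ ≤ Module.finrank ℝ (low (a z) s ⊓ S : Submodule ℝ V) +
        Module.finrank ℝ (eigsp (a z) s ⊓ S : Submodule ℝ V) ∧
      Module.finrank ℝ (low (a z) s ⊓ Sᗮ : Submodule ℝ V) < j₂ ∧
      j₂ ≤ Module.finrank ℝ (low (a z) s ⊓ Sᗮ : Submodule ℝ V) +
        Module.finrank ℝ (eigsp (a z) s ⊓ Sᗮ : Submodule ℝ V) := by
    refine ⟨Module.finrank ℝ (low (a z) s ⊓ S : Submodule ℝ V) +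
      min (Module.finrank ℝ (eigsp (a z) s ⊓ S : Submodule ℝ V)) (p - i₁),
      p + 1 - (Module.finrank ℝ (low (a z) s ⊓ S : Submodule ℝ V) +
      min (Module.finrank ℝ (eigsp (a z) s ⊓ S : Submodule ℝ V)) (p - i₁)), ?_⟩
    omega
  have e₁ := gen4_dim hq S s hj2
  have e₂ := gen4_dim hq Sᗮ s hj4
  -- a pair of equal parity
  obtain ⟨φ₁, hφ₁, φ₂, hφ₂, n₁, n₂, o, hpar⟩ : ∃ φ₁ ∈ eigsp (a z) s, ∃ φ₂ ∈ eigsp (a z) s,
      ‖φ₁‖ = 1 ∧ ‖φ₂‖ = 1 ∧ ⟪φ₁, φ₂⟫ = 0 ∧ ∀ q : BF V, q (σ φ₁) (σ φ₂) = q φ₁ φ₂ ∧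
        q (σ φ₁) (σ φ₁) = q φ₁ φ₁ ∧ q (σ φ₂) (σ φ₂) = q φ₂ φ₂ := by
    by_cases h : 2 ≤ Module.finrank ℝ (eigsp (a z) s ⊓ S : Submodule ℝ V)
    · obtain ⟨φ₁, h1, φ₂, h2, n₁, n₂, o⟩ := gen4_pair h
      refine ⟨φ₁, h1.1, φ₂, h2.1, n₁, n₂, o, fun q => ?_⟩
      simp [(hSe _).1 h1.2, (hSe _).1 h2.2]
    · obtain ⟨φ₁, h1, φ₂, h2, n₁, n₂, o⟩ :=
        gen4_pair (T := eigsp (a z) s ⊓ Sᗮ) (by omega)
      refine ⟨φ₁, h1.1, φ₂, h2.1, n₁, n₂, o, fun q => ?_⟩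
      simp [(hSo _).1 h1.2, (hSo _).1 h2.2]
  obtain ⟨v, m, c, hv, hc0, hve, hvo⟩ := separate hF hσ hX hzε hzσ s he ho
  obtain ⟨F, L, hL, hFd, hF0, hFev⟩ := hF.degF hzε hc hφ₁ hφ₂ n₁ n₂ o
  obtain ⟨α, β, hαβ, hαβ'⟩ : ∃ α β : ℝ, 0 < α ^ 2 + β ^ 2 ∧ α * (L v).1 + β * (L v).2 = 0 := by
    by_cases h : (L v).1 = 0
    · exact ⟨1, 0, by norm_num, by simp [h]⟩
    · exact ⟨-(L v).2, (L v).1, by positivity, by ring⟩
  obtain ⟨v₀, hv₀⟩ := hP.surj hF hzε hφ₁ hφ₂ n₁ n₂ o (α, β)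
  obtain ⟨v', hv'⟩ : ∃ v', v' = v₀ + σB v₀ := ⟨_, rfl⟩
  have hv'σ : σB v' = v' := by rw [hv', map_add, hσ.involB, add_comm]
  have hLv' : L v' = (2 * α, 2 * β) := by
    rw [hv', map_add, hL, hL, hv₀, hσ.dcomm z hzε hzσ, hσ.dcomm z hzε hzσ, hσ.dcomm z hzε hzσ,
      (hpar _).1, (hpar _).2.1, (hpar _).2.2, hv₀]
    ext <;> simp <;> ring
  obtain ⟨K, hK, hKb⟩ := gen4_bound hF hzε v' s
  obtain ⟨η, hη, hηK⟩ : ∃ η : ℝ, 0 < η ∧ η * K = c / 2 :=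
    ⟨c / 2 / K, by positivity, by field_simp⟩
  obtain ⟨w, hw⟩ : ∃ w : ℝ → B, w = fun t => (1 - 2 * t) • v + η • v' := ⟨_, rfl⟩
  have hwc : Continuous w := by rw [hw]; fun_prop
  have hwσ : ∀ t, σB (w t) = w t := fun t => by
    rw [hw]; simp only [map_add, map_smul, hv, hv'σ]
  have hwL : ∀ t ∈ Icc (0 : ℝ) 1, L (w t) ≠ 0 := by
    intro t _ h0
    rw [hw] at h0
    simp only [map_add, map_smul, hLv'] at h0
    have h1 := congrArg Prod.fst h0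
    have h2 := congrArg Prod.snd h0
    simp only [Prod.fst_add, Prod.snd_add, Prod.smul_fst, Prod.smul_snd, smul_eq_mul,
      Prod.fst_zero, Prod.snd_zero] at h1 h2
    have h3 : η * (2 * (α ^ 2 + β ^ 2)) = 0 := by
      linear_combination α * h1 + β * h2 - (1 - 2 * t) * hαβ'
    have : 0 < η * (2 * (α ^ 2 + β ^ 2)) := by positivity
    linarith
  have hda : ∀ t u, da z (w t) u u = (1 - 2 * t) * da z v u u + η * da z v' u u := fun t u => by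
    rw [hw]; simp
  have hpert : ∀ u ∈ eigsp (a z) s, -(c / 2 * ‖u‖ ^ 2) ≤ η * da z v' u u ∧
      η * da z v' u u ≤ c / 2 * ‖u‖ ^ 2 := by
    intro u hu
    obtain ⟨h1, h2⟩ := abs_le.1 (hKb u hu)
    rw [← hηK]
    constructor <;> nlinarith
  have hc2 : 0 < c / 2 := by positivity
  have hj1' : 1 ≤ j₁ := by omega
  have hj2' : 1 ≤ j₂ := by omega
  have E1 := hF.le_mu_first hzε (hsect z hzε hzσ) (w 0) (s := s) (m := m) hc2 (fun u hu hu' => by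
    have := hve u hu ((hSe u).1 hu')
    have := (hpert u hu).1
    rw [hda]; linarith) hj1 e₁
  have E2 := hF.mu_lt_first hzε (S := Sᗮ) (w 0) (s := s) (m := m) hc2 (fun u hu hu' => by
    have := hvo u hu ((hSo u).1 hu')
    have := (hpert u hu).2
    rw [hda]; linarith) hj2' hj4
  have E3 := hF.mu_lt_first hzε (S := S) (w 1) (s := s) (m := -m) hc2 (fun u hu hu' => by
    have := hve u hu ((hSe u).1 hu')
    have := (hpert u hu).2
    rw [hda]; linarith) hj1' hj2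
  have E4 := hF.le_mu_first hzε (hsect z hzε hzσ).orth (w 1) (s := s) (m := -m) hc2
    (fun u hu hu' => by
      have := hvo u hu ((hSo u).1 hu')
      have := (hpert u hu).1
      rw [hda]; linarith) hj3 e₂
  obtain ⟨r, -, -, hr, hrε, hrg, -⟩ := hF.cluster hzε hc
  have E5 := gen4_eventually (z := z) hwc (P := fun b => b ∈ Metric.ball z r)
    (Metric.ball_mem_nhds z hr)
  have E6 := gen4_eventually hwc hFev
  have E7 := gen4_ne_zero hFd.hasFDerivAt hF0 hwc hwL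
  obtain ⟨δ, ⟨⟨⟨⟨⟨e1, e2⟩, e3⟩, e4⟩, e5⟩, e6⟩, e7⟩ :=
    ((((((E1.and E2).and E3).and E4).and E5).and E6).and E7).exists
  have hγσ : ∀ t, σB (z + δ • w t) = z + δ • w t := fun t => by
    rw [map_add, map_smul, hzσ, hwσ]
  obtain ⟨t, ht, c1, ⟨u, hu1, hu2, hu3⟩, u', hu1', hu2', hu3'⟩ :=
    hF.ivt_cross (fun t => z + δ • w t) (by fun_prop) (fun t ht => hrε _ (e5 t ht)) (S := S)
      (fun t ht => hsect _ (hrε _ (e5 t ht)) (hγσ t)) hj1' hj2' hj e₁ e₂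
      (mul_nonpos_of_nonneg_of_nonpos (by linarith) (by linarith))
  exact ⟨z + δ • w t, ⟨hrε _ (e5 t ht), hγσ t, c1, ⟨u, hu2, hu3, (hSe u).1 hu1⟩,
    u', hu2', hu3', (hSo u').1 hu1'⟩, (hrg _ (e5 t ht)).1, (hrg _ (e5 t ht)).2,
    fun h => e7 t ht ((e6 t ht).1 h)⟩

/-- **Induction on the multiplicity** `i₂ - i₁` of the full cluster `[i₁,i₂) ∋ p-1,p` at a `Start` point `z`.  If it is `2`, done.
Otherwise one parity part has dimension `≥ 2`; take `v,m,c` from `separate`, an orthonormal pair `φ₁,φ₂` of equal parity in the cluster with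
`da z v φ₁ φ₂ = 0` (rotate any pair), `v'` with `da z v' φ₁ φ₂ ≠ 0` (`HypP`), symmetrised, and `η > 0` so small that `±v + η v'` still
separate (`dbd`).  Choose `j⁺ + j⁻ = p+1` with `c^± < j^± ≤ c^± + m^±` (`c^± = finrank (low ⊓ S^±)`, `m^± = finrank (eigsp ⊓ S^±) ≥ 1`,
`c⁺+c⁻ = i₁`, `m⁺+m⁻ = i₂-i₁`).  On the segment `γ t = z + δ((1-2t) v + η v')` the first-order lemmas give opposite signs at the ends, so
`ivt_cross` gives a new `Start` point `z'`; for small `δ` the gaps `i₁`, `i₂` stay open and the first component of `degF` is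
`δ η da z v' φ₁ φ₂ + o(δ) ≠ 0` on the whole segment, so the cluster of `p` at `z'` is strictly shorter. -/
theorem exact_double {a : B → BF V} {da : B → B →ₗ[ℝ] BF V} {ε : ℝ} (hF : Fam a da ε)
    {σ : V →ₗ[ℝ] V} {σB : B →ₗ[ℝ] B} (hσ : SymData a da ε σ σB) (hP : HypP a da ε)
    (hX : HypX a da ε σ σB) {p : ℕ} (hp : 1 ≤ p) {z : B} (hz : Start a ε σ σB p z) :
    ∃ z', ‖z'‖ < ε ∧ IsClus (a z') (p - 1) (p + 1) (lamv (a z') p) := by
  have hlt : ∀ z, Start a ε σ σB p z → ∀ i₁ i₂, IsClus (a z) i₁ i₂ (lamv (a z) p) → i₁ ≤ p →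
      i₁ < p := by
    intro z hz i₁ i₂ hc h1
    refine lt_of_le_of_ne h1 fun h => ?_
    subst h
    rcases hc.lo with h0 | h0
    · omega
    · exact h0.ne hz.2.2.1
  have key : ∀ n : ℕ, ∀ z, Start a ε σ σB p z → ∀ i₁ i₂, IsClus (a z) i₁ i₂ (lamv (a z) p) →
      i₁ ≤ p → p < i₂ → i₂ - i₁ < n →
      ∃ z', ‖z'‖ < ε ∧ IsClus (a z') (p - 1) (p + 1) (lamv (a z') p) := by
    intro n
    induction n with
    | zero => intro z _ i₁ i₂ _ _ _ h; omega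
    | succ n ih =>
      intro z hz i₁ i₂ hc h1 h2 h3
      have h4 := hlt z hz i₁ i₂ hc h1
      by_cases h5 : i₁ + 3 ≤ i₂
      · obtain ⟨z', hz', g1, g2, g3⟩ := gen4_step hF hσ hP hX hz hc h4 h2 h5
        obtain ⟨k₁, k₂, hk1, hk2, hc'⟩ := (hF.nice z' hz'.1).exists_isClus p
        have a1 : i₁ ≤ k₁ := by
          by_contra hh
          rcases g1 with g1 | g1
          · omega
          · exact g1.ne ((hc'.val _ ⟨by omega, by omega⟩).trans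
              (hc'.val _ ⟨by omega, by omega⟩).symm)
        have a2 : k₂ ≤ i₂ := by
          by_contra hh
          exact g2.ne ((hc'.val _ ⟨by omega, by omega⟩).trans (hc'.val _ ⟨by omega, by omega⟩).symm)
        have a3 : ¬ (k₁ = i₁ ∧ k₂ = i₂) := fun hh =>
          g3 ((hc'.val _ ⟨by omega, by omega⟩).trans (hc'.val _ ⟨by omega, by omega⟩).symm)
        exact ih z' hz' k₁ k₂ hc' hk1 hk2 (by omega)
      · have e1 : i₁ = p - 1 := by omega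
        have e2 : i₂ = p + 1 := by omega
        exact ⟨z, hz.1, e1 ▸ e2 ▸ hc⟩
  obtain ⟨i₁, i₂, h1, h2, hc⟩ := (hF.nice z hz.1).exists_isClus p
  exact key _ z hz i₁ i₂ hc h1 h2 (Nat.lt_succ_self _)

end Crest.Agent.R202
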