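import Crest.Agent.R202.Gen2

/-! # Row 202, Gen5: only one gap closed; swap data -/

set_option autoImplicit false
open scoped RealInnerProductSpace
open Set Filter Topology

noncomputable section
namespace Crest.Agent.R202

variable {V : Type*} [NormedAddCommGroup V] [InnerProductSpace ℝ V]
variable {B : Type*} [NormedAddCommGroup B] [NormedSpace ℝ B]

/-- open mapping in `ℝ³` -/
theorem gen5a_open {F : B → ℝ × ℝ} {G : B → ℝ} {L : B →L[ℝ] ℝ × ℝ} {l : B →L[ℝ] ℝ} {z : B}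
    (hF : HasStrictFDerivAt F L z) (hG : HasStrictFDerivAt G l z) (hF0 : F z = 0) (hG0 : G z = 0)
    (hL : Function.Surjective L) {v₃ : B} (h3 : L v₃ = 0) (h3' : l v₃ ≠ 0) {P : B → Prop}
    (hP : ∀ᶠ b in 𝓝 z, P b) : ∃ b, P b ∧ F b = 0 ∧ G b ≠ 0 := by
  obtain ⟨v₁, h1⟩ := hL (1, 0)
  obtain ⟨v₂, h2⟩ := hL (0, 1)
  let T : (ℝ × ℝ) × ℝ →L[ℝ] B :=
    ((ContinuousLinearMap.fst ℝ ℝ ℝ).comp (ContinuousLinearMap.fst ℝ (ℝ × ℝ) ℝ)).smulRight v₁ +
    ((ContinuousLinearMap.snd ℝ ℝ ℝ).comp (ContinuousLinearMap.fst ℝ (ℝ × ℝ) ℝ)).smulRight v₂ +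
    (ContinuousLinearMap.snd ℝ (ℝ × ℝ) ℝ).smulRight v₃
  have hT : ∀ x, T x = x.1.1 • v₁ + x.1.2 • v₂ + x.2 • v₃ := fun x => rfl
  let g : (ℝ × ℝ) × ℝ → B := fun x => z + T x
  have hg0 : g 0 = z := by simp [g]
  have hg : HasStrictFDerivAt g T 0 := T.hasStrictFDerivAt.const_add z
  have hH : HasStrictFDerivAt (fun x => (F (g x), G (g x))) ((L.comp T).prod (l.comp T)) 0 :=
    (HasStrictFDerivAt.comp 0 (hg0.symm ▸ hF) hg).prodMk
      (HasStrictFDerivAt.comp 0 (hg0.symm ▸ hG) hg)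
  have hr : ((L.comp T).prod (l.comp T)).range = ⊤ := by
    rw [LinearMap.range_eq_top]
    rintro ⟨⟨y₁, y₂⟩, y₃⟩
    refine ⟨((y₁, y₂), (y₃ - y₁ * l v₁ - y₂ * l v₂) / l v₃), ?_⟩
    change (L (T _), l (T _)) = _
    rw [hT]
    simp only [map_add, map_smul, h1, h2, h3, smul_eq_mul]
    refine Prod.ext (by simp) ?_
    simp only
    field_simp
    ring
  have hm := hH.map_nhds_eq_of_surj hr
  simp only [hg0, hF0, hG0] at hm
  have hU : {x | P (g x)} ∈ 𝓝 (0 : (ℝ × ℝ) × ℝ) := by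
    have : Tendsto g (𝓝 0) (𝓝 z) := hg0 ▸ hg.continuousAt
    exact this.eventually hP
  have hI := image_mem_map (m := fun x => (F (g x), G (g x))) hU
  rw [hm] at hI
  have hc : Tendsto (fun t : ℝ => ((0 : ℝ × ℝ), t)) (𝓝[≠] 0) (𝓝 (0, 0)) :=
    (Continuous.tendsto' (by fun_prop) 0 _ rfl).mono_left nhdsWithin_le_nhds
  obtain ⟨t, ⟨x, hx, hxt⟩, ht⟩ := ((hc.eventually hI).and self_mem_nhdsWithin).exists
  have e1 : F (g x) = 0 := congrArg Prod.fst hxt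
  have e2 : G (g x) = t := congrArg Prod.snd hxt
  exact ⟨g x, hx, e1, e2 ▸ ht⟩

theorem gen5a_gap_open {a : B → BF V} {da : B → B →ₗ[ℝ] BF V} {ε : ℝ} (hF : Fam a da ε) {z : B}
    (hz : ‖z‖ < ε) (q : ℕ) : ∀ᶠ b in 𝓝 z, Gap (a z) q → Gap (a b) q := by
  by_cases h : Gap (a z) q
  · have hb : Metric.ball (0 : B) ε ∈ 𝓝 z :=
      Metric.isOpen_ball.mem_nhds (mem_ball_zero_iff.2 hz)
    have h1 := (hF.continuousOn_lamv (q - 1)).continuousAt hb
    have h2 := (hF.continuousOn_lamv q).continuousAt hb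
    filter_upwards [h1.eventually_lt h2 h] with b hb _
    exact hb
  · exact Eventually.of_forall fun b h' => absurd h' h

theorem gen5a_exists_gap {q : BF V} (hq : Nice q) {i j : ℕ} (hij : i ≤ j)
    (h : lamv q i ≠ lamv q j) : ∃ k, i < k ∧ k ≤ j ∧ Gap q k := by
  obtain ⟨φ, hφ⟩ := hq.eigSys
  induction j, hij using Nat.le_induction with
  | base => exact absurd rfl h
  | succ j hij ih =>
    by_cases hg : Gap q (j + 1)
    · exact ⟨j + 1, by omega, le_rfl, hg⟩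
    · have e : lamv q j = lamv q (j + 1) :=
        le_antisymm (hφ.mono (Nat.le_succ j)) (not_lt.1 hg)
      obtain ⟨k, h1, h2, h3⟩ := ih (e ▸ h)
      exact ⟨k, h1, by omega, h3⟩

open Classical in
theorem gen5a_step {a : B → BF V} {da : B → B →ₗ[ℝ] BF V} {ε : ℝ} (hF : Fam a da ε)
    (hP : HypP a da ε) (hD : HypDD a da ε) {p : ℕ} (hp : 1 ≤ p) {N' : ℕ} (hpN : p ≤ N') {z : B}
    (hz : ‖z‖ < ε) (hc : IsClus (a z) (p - 1) (p + 1) (lamv (a z) p)) (hN : Gap (a z) (N' + 1))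
    {q : ℕ} (hq1 : 1 ≤ q) (hqN : q ≤ N') (hqp : q ≠ p) (hq : ¬ Gap (a z) q) :
    ∃ b, ‖b‖ < ε ∧ IsClus (a b) (p - 1) (p + 1) (lamv (a b) p) ∧ Gap (a b) (N' + 1) ∧
      ((Finset.Icc 1 N').filter fun k => ¬ Gap (a b) k).card <
        ((Finset.Icc 1 N').filter fun k => ¬ Gap (a z) k).card := by
  have hn := hF.nice z hz
  obtain ⟨φ, hφ⟩ := hn.eigSys
  obtain ⟨i₁, i₂, hi₁, hi₂, hcl⟩ := hn.exists_isClus q
  have hi₁' : i₁ < q := by
    rcases hi₁.lt_or_eq with h | h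
    · exact h
    · subst h
      rcases hcl.lo with h | h
      · omega
      · exact absurd h hq
  have hi₂' : i₂ ≤ N' + 1 := by
    by_contra h
    have e1 := hcl.val N' ⟨by omega, by omega⟩
    have e2 := hcl.val (N' + 1) ⟨by omega, by omega⟩
    have : lamv (a z) N' < lamv (a z) (N' + 1) := hN
    linarith
  have eq1 : lamv (a z) (q - 1) = lamv (a z) q := hcl.val (q - 1) ⟨by omega, by omega⟩
  have ep1 : lamv (a z) (p - 1) = lamv (a z) p := hc.val (p - 1) ⟨le_rfl, by omega⟩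
  have hne : lamv (a z) p ≠ lamv (a z) q := by
    intro he
    rcases lt_or_gt_of_ne hqp with h | h
    · rcases hc.lo with h0 | h0
      · omega
      · have h1 : lamv (a z) (p - 1 - 1) < lamv (a z) (p - 1) := h0
        have h2 : lamv (a z) (q - 1) ≤ lamv (a z) (p - 1 - 1) := hφ.mono (by omega)
        linarith
    · have h1 : lamv (a z) p < lamv (a z) (p + 1) := hc.hi
      have h2 : lamv (a z) (p + 1) ≤ lamv (a z) q := hφ.mono h
      linarith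
  have m1 : φ (p - 1) ∈ eigsp (a z) (lamv (a z) p) := ep1 ▸ hφ.eig (p - 1)
  have m2 : φ p ∈ eigsp (a z) (lamv (a z) p) := hφ.eig p
  have m3 : φ (q - 1) ∈ eigsp (a z) (lamv (a z) q) := eq1 ▸ hφ.eig (q - 1)
  have m4 : φ q ∈ eigsp (a z) (lamv (a z) q) := hφ.eig q
  have o1 : ⟪φ (p - 1), φ p⟫ = 0 := hφ.orth.2 (by omega : p - 1 ≠ p)
  have o2 : ⟪φ (q - 1), φ q⟫ = 0 := hφ.orth.2 (by omega : q - 1 ≠ q)
  have nn := hφ.orth.1
  obtain ⟨Fp, Lp, hLp, hdp, hp0, hep⟩ := hF.degF hz hc m1 m2 (nn _) (nn _) o1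
  obtain ⟨Fq, Lq, hLq, hdq, hq0, heq⟩ := hF.degF hz hcl m3 m4 (nn _) (nn _) o2
  have hsurj : Function.Surjective Lp := fun y => by
    obtain ⟨v, hv⟩ := hP.surj hF hz m1 m2 (nn _) (nn _) o1 y
    exact ⟨v, (hLp v).trans hv⟩
  obtain ⟨v, hv1, hv2, hv3⟩ := hD z hz _ _ hne _ m1 _ m2 _ m3 _ m4 (nn _) (nn _) o1 (nn _) (nn _) o2
  have hv0 : Lp v = 0 := by
    rw [hLp, hv1, hv2, sub_self]
    rfl
  have hev : ∀ᶠ b in 𝓝 z, (‖b‖ < ε ∧ ∀ k ∈ Finset.range (N' + 2), Gap (a z) k → Gap (a b) k) ∧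
      ((lamv (a b) (p - 1) = lamv (a b) (p + 1 - 1) → Fp b = 0) ∧
        (p + 1 = p - 1 + 2 → Fp b = 0 → lamv (a b) (p - 1) = lamv (a b) (p - 1 + 1))) ∧
      ((lamv (a b) i₁ = lamv (a b) (i₂ - 1) → Fq b = 0) ∧
        (i₂ = i₁ + 2 → Fq b = 0 → lamv (a b) i₁ = lamv (a b) (i₁ + 1))) := by
    refine (Eventually.and ?_ ?_).and (hep.and heq)
    · exact continuous_norm.continuousAt.eventually_lt continuousAt_const hz
    · exact (Finset.eventually_all _).2 fun k _ => gen5a_gap_open hF hz k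
  have key : ∃ b, ((‖b‖ < ε ∧ ∀ k ∈ Finset.range (N' + 2), Gap (a z) k → Gap (a b) k) ∧
      ((lamv (a b) (p - 1) = lamv (a b) (p + 1 - 1) → Fp b = 0) ∧
        (p + 1 = p - 1 + 2 → Fp b = 0 → lamv (a b) (p - 1) = lamv (a b) (p - 1 + 1))) ∧
      ((lamv (a b) i₁ = lamv (a b) (i₂ - 1) → Fq b = 0) ∧
        (i₂ = i₁ + 2 → Fq b = 0 → lamv (a b) i₁ = lamv (a b) (i₁ + 1)))) ∧
      Fp b = 0 ∧ Fq b ≠ 0 := by
    rcases hv3 with h | h
    · obtain ⟨b, h1, h2, h3⟩ := gen5a_open hdp hdq.fst hp0 (by rw [hq0]; rfl) hsurj hv0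
        (by simpa [hLq] using h) hev
      exact ⟨b, h1, h2, fun h4 => h3 (by rw [h4]; rfl)⟩
    · obtain ⟨b, h1, h2, h3⟩ := gen5a_open hdp hdq.snd hp0 (by rw [hq0]; rfl) hsurj hv0
        (by simpa [hLq, sub_eq_zero] using h.symm) hev
      exact ⟨b, h1, h2, fun h4 => h3 (by rw [h4]; rfl)⟩
  obtain ⟨b, ⟨⟨hb, hgap⟩, ⟨-, hb1⟩, ⟨hb2, -⟩⟩, hFp, hFq⟩ := key
  have e1 : lamv (a b) (p - 1) = lamv (a b) p := by
    have := hb1 (by omega) hFp
    rwa [Nat.sub_add_cancel hp] at this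
  refine ⟨b, hb, ⟨hc.lt, ?_, ?_, ?_⟩, hgap _ (Finset.mem_range.2 (by omega)) hN, ?_⟩
  · exact hc.lo.imp_right (hgap _ (Finset.mem_range.2 (by omega)))
  · exact hgap _ (Finset.mem_range.2 (by omega)) hc.hi
  · intro i hi
    obtain ⟨h1, h2⟩ := hi
    rcases (by omega : i = p - 1 ∨ i = p) with h | h
    · rw [h, e1]
    · rw [h]
  · obtain ⟨k, hk1, hk2, hk3⟩ := gen5a_exists_gap (hF.nice b hb) (by omega : i₁ ≤ i₂ - 1)
      (fun h => hFq (hb2 h))
    apply Finset.card_lt_card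
    refine ⟨fun j hj => ?_, fun hsub => ?_⟩
    · obtain ⟨h1, h2⟩ := Finset.mem_filter.1 hj
      have := Finset.mem_Icc.1 h1
      exact Finset.mem_filter.2 ⟨h1, fun h3 => h2 (hgap j (Finset.mem_range.2 (by omega)) h3)⟩
    · have h1 : k ∈ (Finset.Icc 1 N').filter fun k => ¬ Gap (a z) k := by
        refine Finset.mem_filter.2 ⟨Finset.mem_Icc.2 ⟨by omega, by omega⟩, fun h => ?_⟩
        have e2 := hcl.val (k - 1) ⟨by omega, by omega⟩
        have e3 := hcl.val k ⟨by omega, by omega⟩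
        have : lamv (a z) (k - 1) < lamv (a z) k := h
        linarith
      exact (Finset.mem_filter.1 (hsub h1)).2 hk3

/-- Choose `N' ≥ N` with the gap `N'+1` open at `z`.  Induct on the number of closed gaps `q ∈ [1,N']`, keeping the invariants
"`[p-1,p+1)` is a full cluster, gap `N'+1` open".  If `q ≠ p` is closed, its full cluster `[i₁,i₂)` has a different value and
`i₂ ≤ N'+1`; take orthonormal pairs in both clusters, `degF` for both (`F_p`, `F_q`), `HypP.surj` for `L_p` and `v₃` from `HypDD`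
(`L_p v₃ = 0`, some component `ℓ` of `L_q` has `ℓ v₃ ≠ 0`).  The map `(F_p, F_q component)` composed with
`x ↦ z + x₁v₁ + x₂v₂ + x₃v₃` has an invertible strict derivative at `0 ∈ ℝ³`, so (`HasStrictFDerivAt.map_nhds_eq_of_surj`) there are
`b` arbitrarily close to `z` with `F_p b = 0`, `F_q b ≠ 0`: gap `p` closed, open gaps still open, some gap in `(i₁, i₂)` newly open. -/
theorem only_p {a : B → BF V} {da : B → B →ₗ[ℝ] BF V} {ε : ℝ} (hF : Fam a da ε)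
    (hP : HypP a da ε) (hD : HypDD a da ε) {p : ℕ} (hp : 1 ≤ p) (N : ℕ) {z : B} (hz : ‖z‖ < ε)
    (hc : IsClus (a z) (p - 1) (p + 1) (lamv (a z) p)) :
    ∃ z', ‖z'‖ < ε ∧ IsClus (a z') (p - 1) (p + 1) (lamv (a z') p) ∧
      ∀ q, 1 ≤ q → q ≤ N → q ≠ p → Gap (a z') q := by
  classical
  obtain ⟨i₁, i₂, -, hi₂, hcl⟩ := (hF.nice z hz).exists_isClus (N + p)
  obtain ⟨N', rfl⟩ : ∃ N', i₂ = N' + 1 := ⟨i₂ - 1, by omega⟩
  have hN := hcl.hi
  have main : ∀ k, ∀ z : B, ‖z‖ < ε → IsClus (a z) (p - 1) (p + 1) (lamv (a z) p) →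
      Gap (a z) (N' + 1) → ((Finset.Icc 1 N').filter fun k => ¬ Gap (a z) k).card = k →
      ∃ z', ‖z'‖ < ε ∧ IsClus (a z') (p - 1) (p + 1) (lamv (a z') p) ∧
        ∀ q, 1 ≤ q → q ≤ N → q ≠ p → Gap (a z') q := by
    intro k
    induction k using Nat.strong_induction_on with
    | _ k ih =>
      intro z hz hc hN hk
      by_cases hall : ∀ q, 1 ≤ q → q ≤ N → q ≠ p → Gap (a z) q
      · exact ⟨z, hz, hc, hall⟩
      · push Not at hall
        obtain ⟨q, h1, h2, h3, h4⟩ := hall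
        obtain ⟨b, hb, hcb, hNb, hlt⟩ := gen5a_step hF hP hD hp (by omega) hz hc hN h1
          (by omega) h3 h4
        exact ih _ (hk ▸ hlt) b hb hcb hNb rfl
  exact main _ z hz hc hN rfl

end Crest.Agent.R202
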