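import Crest.Agent.R202.Gen2
import Crest.Agent.R202.Gen5a

/-! # Row 202, Gen5: only one gap closed; swap data -/

set_option autoImplicit false
open scoped RealInnerProductSpace
open Set Filter Topology

noncomputable section
namespace Crest.Agent.R202

variable {V : Type*} [NormedAddCommGroup V] [InnerProductSpace ℝ V]
variable {B : Type*} [NormedAddCommGroup B] [NormedSpace ℝ B]

/-- the numerical part -/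
theorem gen5_real {ξ θ y₁ y₂ c₁ c₂ n m : ℝ} (hξ : |ξ| ≤ 1) (hθ : θ = 1 ∨ θ = -1)
    (hn : n ^ 2 = y₁ ^ 2 + y₂ ^ 2) (hn1 : 99 / 100 ≤ n) (hn2 : n ≤ 102 / 100)
    (h₁ : |c₁ - y₁| ≤ 2 / 100) (h₂ : |c₂ - y₂| ≤ 2 / 100)
    (hm1 : |ξ| - 1 / 100 ≤ m * (101 / 100) ^ 2)
    (hm2 : m ≤ ξ * (y₂ ^ 2 - y₁ ^ 2) + 2 * (θ * (1 - ξ ^ 2)) * (y₁ * y₂) + n ^ 2 / 100) :
    1 / 2 ≤ |c₁ + θ * c₂| ∧ (ξ = -1 → 0 < (c₁ + c₂) * (c₁ - c₂)) ∧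
      (ξ = 1 → (c₁ + c₂) * (c₁ - c₂) < 0) := by
  have hnn1 : 98 / 100 ≤ n ^ 2 := by nlinarith
  have hnn2 : n ^ 2 ≤ 105 / 100 := by nlinarith
  have hθ2 : θ ^ 2 = 1 := by rcases hθ with h | h <;> rw [h] <;> norm_num
  have hθa : |θ| = 1 := by rcases hθ with h | h <;> rw [h] <;> norm_num
  have hy₁ : |y₁| ≤ 103 / 100 := abs_le_of_sq_le_sq (by nlinarith [sq_nonneg y₂]) (by norm_num)
  have hy₂ : |y₂| ≤ 103 / 100 := abs_le_of_sq_le_sq (by nlinarith [sq_nonneg y₁]) (by norm_num)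
  have hc₁ : |c₁ ^ 2 - y₁ ^ 2| ≤ 5 / 100 := by
    have e : c₁ ^ 2 - y₁ ^ 2 = (c₁ - y₁) * ((c₁ - y₁) + 2 * y₁) := by ring
    have h3 : |(c₁ - y₁) + 2 * y₁| ≤ 21 / 10 := by
      rw [abs_le] at h₁ hy₁ ⊢
      constructor <;> linarith [h₁.1, h₁.2, hy₁.1, hy₁.2]
    rw [e, abs_mul]
    nlinarith [abs_nonneg (c₁ - y₁), abs_nonneg ((c₁ - y₁) + 2 * y₁)]
  have hc₂ : |c₂ ^ 2 - y₂ ^ 2| ≤ 5 / 100 := by
    have e : c₂ ^ 2 - y₂ ^ 2 = (c₂ - y₂) * ((c₂ - y₂) + 2 * y₂) := by ring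
    have h3 : |(c₂ - y₂) + 2 * y₂| ≤ 21 / 10 := by
      rw [abs_le] at h₂ hy₂ ⊢
      constructor <;> linarith [h₂.1, h₂.2, hy₂.1, hy₂.2]
    rw [e, abs_mul]
    nlinarith [abs_nonneg (c₂ - y₂), abs_nonneg ((c₂ - y₂) + 2 * y₂)]
  refine ⟨?_, fun h => ?_, fun h => ?_⟩
  · have hB : -(n ^ 2 / 2) < 2 * θ * (y₁ * y₂) := by
      by_contra hB
      have hB' : 2 * θ * (y₁ * y₂) ≤ -(n ^ 2 / 2) := not_lt.mp hB
      have hA2 : (y₂ ^ 2 - y₁ ^ 2) ^ 2 + (2 * θ * (y₁ * y₂)) ^ 2 = (n ^ 2) ^ 2 := by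
        rw [hn, mul_pow, mul_pow, hθ2]
        ring
      have hB2 : (n ^ 2 / 2) ^ 2 ≤ (2 * θ * (y₁ * y₂)) ^ 2 := by nlinarith
      have hA : |y₂ ^ 2 - y₁ ^ 2| ≤ 92 / 100 :=
        abs_le_of_sq_le_sq (by nlinarith) (by norm_num)
      have h3 : ξ * (y₂ ^ 2 - y₁ ^ 2) ≤ |ξ| * (92 / 100) := by
        refine (le_abs_self _).trans ?_
        rw [abs_mul]
        exact mul_le_mul_of_nonneg_left hA (abs_nonneg _)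
      have h4 : 1 - |ξ| ≤ 1 - ξ ^ 2 := by
        rw [← sq_abs ξ]
        nlinarith [abs_nonneg ξ]
      have h5 : (1 - ξ ^ 2) * (2 * θ * (y₁ * y₂)) ≤ (1 - ξ ^ 2) * (-(49 / 100)) :=
        mul_le_mul_of_nonneg_left (by linarith) (by linarith)
      nlinarith
    have h6 : (7 / 10 : ℝ) ≤ |y₁ + θ * y₂| := by
      refine le_trans (le_abs_self _) (sq_le_sq.mp ?_)
      have : (y₁ + θ * y₂) ^ 2 = y₁ ^ 2 + θ ^ 2 * y₂ ^ 2 + 2 * θ * (y₁ * y₂) := by ring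
      rw [this, hθ2]
      nlinarith
    have h7 : |(y₁ + θ * y₂) - (c₁ + θ * c₂)| ≤ 4 / 100 := by
      have e : (y₁ + θ * y₂) - (c₁ + θ * c₂) = -((c₁ - y₁) + θ * (c₂ - y₂)) := by ring
      rw [e, abs_neg]
      refine (abs_add_le _ _).trans ?_
      rw [abs_mul, hθa]
      linarith
    have h8 := abs_sub_abs_le_abs_sub (y₁ + θ * y₂) (c₁ + θ * c₂)
    linarith
  · subst h
    rw [abs_le] at hc₁ hc₂
    norm_num at hm1 hm2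
    nlinarith [hc₁.1, hc₁.2, hc₂.1, hc₂.2]
  · subst h
    rw [abs_le] at hc₁ hc₂
    norm_num at hm1 hm2
    nlinarith [hc₁.1, hc₁.2, hc₂.1, hc₂.2]

/-- bounds for the form on a double cluster -/
theorem gen5_clus {q : BF V} (hq : Nice q) {p : ℕ} (hp : 1 ≤ p) {y : V}
    (hy : y ∈ clus q (p - 1) (p + 1)) :
    lamv q (p - 1) * ‖y‖ ^ 2 ≤ q y y ∧ q y y ≤ lamv q p * ‖y‖ ^ 2 := by
  have hle : clus q (p - 1) (p + 1) ≤ eigsp q (lamv q (p - 1)) ⊔ eigsp q (lamv q p) := by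
    refine iSup_le fun i => ?_
    obtain ⟨i, h1, h2⟩ := i
    rcases (by omega : i = p - 1 ∨ i = p) with h | h
    · subst h
      exact le_sup_left
    · subst h
      exact le_sup_right
  obtain ⟨u, hu, w, hw, rfl⟩ := Submodule.mem_sup.mp (hle hy)
  obtain ⟨χ, hχ⟩ := hq.eigSys
  have hmono : lamv q (p - 1) ≤ lamv q p := hχ.mono (Nat.sub_le _ _)
  have h1 := hu u
  have h2 := hu w
  have h3 := hw u
  have h4 := hw w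
  have h5 := hq.symm u w
  rw [real_inner_comm] at h3
  rw [real_inner_self_eq_norm_sq] at h1 h4
  rw [norm_add_sq_real]
  simp only [map_add, LinearMap.add_apply]
  constructor
  · nlinarith [mul_nonneg (sub_nonneg.mpr hmono) (sq_nonneg ‖w‖)]
  · nlinarith [mul_nonneg (sub_nonneg.mpr hmono) (sq_nonneg ‖u‖)]

theorem gen5_norm {φ₁ φ₂ : V} (n₁ : ‖φ₁‖ = 1) (n₂ : ‖φ₂‖ = 1) (o : ⟪φ₁, φ₂⟫ = 0) (y₁ y₂ : ℝ) :
    ‖y₁ • φ₁ + y₂ • φ₂‖ ^ 2 = y₁ ^ 2 + y₂ ^ 2 := by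
  rw [norm_add_sq_real, norm_smul, norm_smul, n₁, n₂, real_inner_smul_left, real_inner_smul_right, o]
  simp

/-- the first-order analysis at one point -/
theorem gen5_core {q : BF V} (hq : Nice q) {p : ℕ} (hp : 1 ≤ p) {φ₁ φ₂ : V} (n₁ : ‖φ₁‖ = 1)
    (n₂ : ‖φ₂‖ = 1) (o : ⟪φ₁, φ₂⟫ = 0) (P : V →ₗ[ℝ] V) {thr δ ξ θ : ℝ} (hδ : 0 < δ) (hξ : |ξ| ≤ 1)
    (hθ : θ = 1 ∨ θ = -1) (hP1 : ∀ u, P u ∈ clus q (p - 1) (p + 1))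
    (hP2 : ∀ y ∈ clus q (p - 1) (p + 1), ∃ y₁ y₂ : ℝ, P (y₁ • φ₁ + y₂ • φ₂) = y)
    (hP3 : ∀ y₁ y₂ : ℝ, ‖P (y₁ • φ₁ + y₂ • φ₂) - (y₁ • φ₁ + y₂ • φ₂)‖
      ≤ 1 / 100 * ‖y₁ • φ₁ + y₂ • φ₂‖)
    (hQ : ∀ y₁ y₂ : ℝ, |q (P (y₁ • φ₁ + y₂ • φ₂)) (P (y₁ • φ₁ + y₂ • φ₂))
      - thr * ‖P (y₁ • φ₁ + y₂ • φ₂)‖ ^ 2
      - δ * (ξ * (y₂ ^ 2 - y₁ ^ 2) + 2 * (θ * (1 - ξ ^ 2)) * (y₁ * y₂))|
        ≤ δ / 100 * (y₁ ^ 2 + y₂ ^ 2)) :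
    (lamv q (p - 1) < thr ∧ thr < lamv q p) ∧ ∀ φ ∈ eigsp q (lamv q p), ‖φ‖ = 1 →
      1 / 2 ≤ |⟪φ, φ₁ + θ • φ₂⟫| ∧ (ξ = -1 → 0 < ⟪φ, φ₁ + φ₂⟫ * ⟪φ, φ₁ - φ₂⟫) ∧
        (ξ = 1 → ⟪φ, φ₁ + φ₂⟫ * ⟪φ, φ₁ - φ₂⟫ < 0) := by
  have hθ2 : θ ^ 2 = 1 := by rcases hθ with h | h <;> rw [h] <;> norm_num
  have hup : ∀ y₁ y₂ : ℝ, δ * (ξ * (y₂ ^ 2 - y₁ ^ 2) + 2 * (θ * (1 - ξ ^ 2)) * (y₁ * y₂)
      - (y₁ ^ 2 + y₂ ^ 2) / 100) ≤ (lamv q p - thr) * ‖P (y₁ • φ₁ + y₂ • φ₂)‖ ^ 2 := by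
    intro y₁ y₂
    have h1 := (abs_le.mp (hQ y₁ y₂)).1
    have h2 := (gen5_clus hq hp (hP1 (y₁ • φ₁ + y₂ • φ₂))).2
    linarith
  have hlo : ∀ y₁ y₂ : ℝ, δ * (-(ξ * (y₂ ^ 2 - y₁ ^ 2) + 2 * (θ * (1 - ξ ^ 2)) * (y₁ * y₂))
      - (y₁ ^ 2 + y₂ ^ 2) / 100) ≤ (thr - lamv q (p - 1)) * ‖P (y₁ • φ₁ + y₂ • φ₂)‖ ^ 2 := by
    intro y₁ y₂
    have h1 := (abs_le.mp (hQ y₁ y₂)).2
    have h2 := (gen5_clus hq hp (hP1 (y₁ • φ₁ + y₂ • φ₂))).1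
    linarith
  have hpos : ∀ {A μ : ℝ} {x : V}, 0 < A → δ * A ≤ μ * ‖x‖ ^ 2 → 0 < μ := by
    intro A μ x hA h
    by_contra hμ
    have h1 : μ * ‖x‖ ^ 2 ≤ 0 := mul_nonpos_of_nonpos_of_nonneg (not_lt.mp hμ) (sq_nonneg _)
    have h2 := mul_pos hδ hA
    linarith
  have hξ' := abs_le.mp hξ
  have hgap : 0 < thr - lamv q (p - 1) ∧ 0 < lamv q p - thr := by
    by_cases h1 : 1 / 2 ≤ ξ
    · exact ⟨hpos (by nlinarith) (hlo 1 0), hpos (by nlinarith) (hup 0 1)⟩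
    by_cases h2 : ξ ≤ -(1 / 2)
    · exact ⟨hpos (by nlinarith) (hlo 0 1), hpos (by nlinarith) (hup 1 0)⟩
    have h3 : ξ ^ 2 ≤ 1 / 4 := by nlinarith
    refine ⟨hpos ?_ (hlo 1 (-θ)), hpos ?_ (hup 1 θ)⟩
    · have e : -(ξ * ((-θ) ^ 2 - 1 ^ 2) + 2 * (θ * (1 - ξ ^ 2)) * (1 * -θ)) - (1 ^ 2 + (-θ) ^ 2) / 100
          = -(ξ * (θ ^ 2 - 1)) + 2 * θ ^ 2 * (1 - ξ ^ 2) - (1 + θ ^ 2) / 100 := by ring
      rw [e, hθ2]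
      linarith
    · have e : ξ * (θ ^ 2 - 1 ^ 2) + 2 * (θ * (1 - ξ ^ 2)) * (1 * θ) - (1 ^ 2 + θ ^ 2) / 100
          = ξ * (θ ^ 2 - 1) + 2 * θ ^ 2 * (1 - ξ ^ 2) - (1 + θ ^ 2) / 100 := by ring
      rw [e, hθ2]
      linarith
  refine ⟨⟨by linarith [hgap.1], by linarith [hgap.2]⟩, fun φ hφ hφ1 => ?_⟩
  have hmem : φ ∈ clus q (p - 1) (p + 1) :=
    le_iSup (fun i : Ico (p - 1) (p + 1) => eigsp q (lamv q i)) ⟨p, by omega, by omega⟩ hφ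
  obtain ⟨y₁, y₂, hy⟩ := hP2 φ hmem
  have h3 := hP3 y₁ y₂
  have hQ' := hQ y₁ y₂
  have hn := gen5_norm n₁ n₂ o y₁ y₂
  have i₁ : ⟪y₁ • φ₁ + y₂ • φ₂, φ₁⟫ = y₁ := by
    rw [inner_add_left, real_inner_smul_left, real_inner_smul_left, real_inner_self_eq_norm_sq, n₁,
      real_inner_comm, o]
    ring
  have i₂ : ⟪y₁ • φ₁ + y₂ • φ₂, φ₂⟫ = y₂ := by
    rw [inner_add_left, real_inner_smul_left, real_inner_smul_left, real_inner_self_eq_norm_sq, n₂, o]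
    ring
  rw [hy] at h3 hQ'
  set u := y₁ • φ₁ + y₂ • φ₂ with hu
  have h4 := abs_le.mp (abs_norm_sub_norm_le φ u)
  rw [hφ1] at h4
  have hn1 : 99 / 100 ≤ ‖u‖ := by linarith [h4.2]
  have hn2 : ‖u‖ ≤ 102 / 100 := by linarith [h4.1]
  have hc : ∀ χ : V, ‖χ‖ = 1 → |⟪φ, χ⟫ - ⟪u, χ⟫| ≤ 2 / 100 := by
    intro χ hχ
    rw [← inner_sub_left]
    refine (abs_real_inner_le_norm _ _).trans ?_
    rw [hχ]
    linarith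
  have hc₁ := hc φ₁ n₁
  have hc₂ := hc φ₂ n₂
  rw [i₁] at hc₁
  rw [i₂] at hc₂
  have hsq : ∀ y₁ y₂ : ℝ, y₁ ^ 2 + y₂ ^ 2 = 1 →
      (lamv q p - thr) * ‖P (y₁ • φ₁ + y₂ • φ₂)‖ ^ 2 ≤ (lamv q p - thr) * (101 / 100) ^ 2 := by
    intro y₁ y₂ h
    have h1 : ‖y₁ • φ₁ + y₂ • φ₂‖ = 1 := by
      have := gen5_norm n₁ n₂ o y₁ y₂
      rw [h] at this
      exact (pow_eq_one_iff_of_nonneg (norm_nonneg _) two_ne_zero).mp this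
    have h2 := hP3 y₁ y₂
    have h5 := norm_sub_norm_le (P (y₁ • φ₁ + y₂ • φ₂)) (y₁ • φ₁ + y₂ • φ₂)
    rw [h1] at h2 h5
    refine mul_le_mul_of_nonneg_left ?_ hgap.2.le
    exact pow_le_pow_left₀ (norm_nonneg _) (by linarith) 2
  have hm1 : |ξ| - 1 / 100 ≤ (lamv q p - thr) / δ * (101 / 100) ^ 2 := by
    rw [div_mul_eq_mul_div, le_div_iff₀ hδ]
    have a1 := (hup 1 0).trans (hsq 1 0 (by norm_num))
    have a2 := (hup 0 1).trans (hsq 0 1 (by norm_num))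
    rcases abs_cases ξ with h | h <;> rw [h.1] <;> nlinarith
  have hm2 : (lamv q p - thr) / δ
      ≤ ξ * (y₂ ^ 2 - y₁ ^ 2) + 2 * (θ * (1 - ξ ^ 2)) * (y₁ * y₂) + ‖u‖ ^ 2 / 100 := by
    rw [div_le_iff₀ hδ, hn]
    have a1 := (abs_le.mp hQ').2
    rw [hφ φ, real_inner_self_eq_norm_sq, hφ1] at a1
    nlinarith
  have := gen5_real hξ hθ hn hn1 hn2 hc₁ hc₂ hm1 hm2
  simpa only [inner_add_right, inner_sub_right, real_inner_smul_right] using this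

/-- the local expansion near `z` -/
theorem gen5_local {a : B → BF V} {da : B → B →ₗ[ℝ] BF V} {ε : ℝ} (hF : Fam a da ε) {z : B}
    (hz : ‖z‖ < ε) {i₁ i₂ : ℕ} {s : ℝ} (hc : IsClus (a z) i₁ i₂ s) {φ₁ φ₂ : V}
    (h₁ : φ₁ ∈ eigsp (a z) s) (h₂ : φ₂ ∈ eigsp (a z) s)
    (hspan : ∀ u ∈ eigsp (a z) s, ∃ y₁ y₂ : ℝ, y₁ • φ₁ + y₂ • φ₂ = u) {η : ℝ} (hη : 0 < η) :
    ∃ P : B → V →ₗ[ℝ] V, ∀ᶠ b in 𝓝 z, ‖b‖ < ε ∧ (∀ u, P b u ∈ clus (a b) i₁ i₂) ∧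
      (∀ y ∈ clus (a b) i₁ i₂, ∃ y₁ y₂ : ℝ, P b (y₁ • φ₁ + y₂ • φ₂) = y) ∧
      (∀ y₁ y₂ : ℝ, ‖P b (y₁ • φ₁ + y₂ • φ₂) - (y₁ • φ₁ + y₂ • φ₂)‖ ≤ η * ‖y₁ • φ₁ + y₂ • φ₂‖) ∧
      ∀ y₁ y₂ : ℝ, |a b (P b (y₁ • φ₁ + y₂ • φ₂)) (P b (y₁ • φ₁ + y₂ • φ₂))
        - s * ‖P b (y₁ • φ₁ + y₂ • φ₂)‖ ^ 2
        - da z (b - z) (y₁ • φ₁ + y₂ • φ₂) (y₁ • φ₁ + y₂ • φ₂)|
          ≤ η * ‖b - z‖ * (y₁ ^ 2 + y₂ ^ 2) := by
  obtain ⟨r, C, P, hr, c1, -, -, c4, c5, c6, c7, c8⟩ := hF.cluster hz hc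
  have key : ∀ φ ∈ eigsp (a z) s, ∀ ψ ∈ eigsp (a z) s, ∀ᶠ b in 𝓝 z,
      |a b (P b φ) (P b ψ) - s * ⟪P b φ, P b ψ⟫ - da z (b - z) φ ψ| ≤ η / 2 * ‖b - z‖ := by
    intro φ hφ ψ hψ
    obtain ⟨L, hL, hd⟩ := c8 φ hφ ψ hψ
    have h1 := hd.hasFDerivAt.isLittleO.def (half_pos hη)
    filter_upwards [h1] with b hb
    rw [c6 φ hφ, c6 ψ hψ, hφ ψ, sub_self, sub_zero, hL, Real.norm_eq_abs] at hb
    exact hb
  have hsmall : ∀ᶠ b in 𝓝 z, C * ‖b - z‖ < η := by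
    have : Continuous fun b : B => C * ‖b - z‖ := by fun_prop
    refine this.continuousAt.eventually_lt continuousAt_const ?_
    simpa using hη
  refine ⟨P, ?_⟩
  filter_upwards [Metric.ball_mem_nhds z hr, key φ₁ h₁ φ₁ h₁, key φ₁ h₁ φ₂ h₂, key φ₂ h₂ φ₁ h₁,
    key φ₂ h₂ φ₂ h₂, hsmall] with b hb k11 k12 k21 k22 hs
  refine ⟨c1 b hb, c4 b hb, fun y hy => ?_, fun y₁ y₂ => ?_, fun y₁ y₂ => ?_⟩
  · obtain ⟨u, hu, rfl⟩ := c5 b hb y hy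
    obtain ⟨y₁, y₂, rfl⟩ := hspan u hu
    exact ⟨y₁, y₂, rfl⟩
  · have hu : y₁ • φ₁ + y₂ • φ₂ ∈ eigsp (a z) s :=
      Submodule.add_mem _ (Submodule.smul_mem _ _ h₁) (Submodule.smul_mem _ _ h₂)
    have := c7 b hb z (Metric.mem_ball_self hr) (y₁ • φ₁ + y₂ • φ₂)
    rw [c6 _ hu] at this
    exact this.trans (mul_le_mul_of_nonneg_right hs.le (norm_nonneg _))
  · set E₁₁ := a b (P b φ₁) (P b φ₁) - s * ⟪P b φ₁, P b φ₁⟫ - da z (b - z) φ₁ φ₁ with e11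
    set E₁₂ := a b (P b φ₁) (P b φ₂) - s * ⟪P b φ₁, P b φ₂⟫ - da z (b - z) φ₁ φ₂ with e12
    set E₂₁ := a b (P b φ₂) (P b φ₁) - s * ⟪P b φ₂, P b φ₁⟫ - da z (b - z) φ₂ φ₁ with e21
    set E₂₂ := a b (P b φ₂) (P b φ₂) - s * ⟪P b φ₂, P b φ₂⟫ - da z (b - z) φ₂ φ₂ with e22
    have e : a b (P b (y₁ • φ₁ + y₂ • φ₂)) (P b (y₁ • φ₁ + y₂ • φ₂))
        - s * ‖P b (y₁ • φ₁ + y₂ • φ₂)‖ ^ 2
        - da z (b - z) (y₁ • φ₁ + y₂ • φ₂) (y₁ • φ₁ + y₂ • φ₂)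
        = y₁ ^ 2 * E₁₁ + y₁ * y₂ * (E₁₂ + E₂₁) + y₂ ^ 2 * E₂₂ := by
      rw [← real_inner_self_eq_norm_sq, e11, e12, e21, e22]
      simp only [map_add, map_smul, LinearMap.add_apply, LinearMap.smul_apply, smul_eq_mul,
        inner_add_left, inner_add_right, real_inner_smul_left, real_inner_smul_right]
      ring
    rw [e]
    set κ := η / 2 * ‖b - z‖ with hκ
    have hκ0 : 0 ≤ κ := (abs_nonneg _).trans k11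
    have e' : η * ‖b - z‖ = 2 * κ := by rw [hκ]; ring
    rw [e']
    have b1 : |y₁ ^ 2 * E₁₁| ≤ y₁ ^ 2 * κ := by
      rw [abs_mul, abs_of_nonneg (sq_nonneg y₁)]
      exact mul_le_mul_of_nonneg_left k11 (sq_nonneg _)
    have b2 : |y₂ ^ 2 * E₂₂| ≤ y₂ ^ 2 * κ := by
      rw [abs_mul, abs_of_nonneg (sq_nonneg y₂)]
      exact mul_le_mul_of_nonneg_left k22 (sq_nonneg _)
    have b3 : |y₁ * y₂ * (E₁₂ + E₂₁)| ≤ (y₁ ^ 2 + y₂ ^ 2) / 2 * (2 * κ) := by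
      rw [abs_mul]
      refine mul_le_mul ?_ ((abs_add_le _ _).trans (by linarith)) (abs_nonneg _) (by positivity)
      rw [abs_le]
      constructor <;> nlinarith [sq_nonneg (y₁ + y₂), sq_nonneg (y₁ - y₂)]
    have b4 := abs_add_three (y₁ ^ 2 * E₁₁) (y₁ * y₂ * (E₁₂ + E₂₁)) (y₂ ^ 2 * E₂₂)
    nlinarith

theorem gen5_basis {E : Submodule ℝ V} [FiniteDimensional ℝ E] (h : Module.finrank ℝ E = 2) :
    ∃ φ₁ ∈ E, ∃ φ₂ ∈ E, ‖φ₁‖ = 1 ∧ ‖φ₂‖ = 1 ∧ ⟪φ₁, φ₂⟫ = 0 ∧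
      ∀ u ∈ E, ∃ y₁ y₂ : ℝ, y₁ • φ₁ + y₂ • φ₂ = u := by
  let b : OrthonormalBasis (Fin 2) ℝ E := (stdOrthonormalBasis ℝ E).reindex (finCongr h)
  refine ⟨b 0, (b 0).2, b 1, (b 1).2, b.orthonormal.1 0, b.orthonormal.1 1,
    b.orthonormal.2 (by decide : (0 : Fin 2) ≠ 1), fun u hu => ?_⟩
  have := congrArg Subtype.val (b.sum_repr ⟨u, hu⟩)
  rw [Fin.sum_univ_two] at this
  exact ⟨_, _, this⟩

/-- **Swap data.**  `λ = lamv (a z) p`, `φ₁,φ₂` an orthonormal basis of `eigsp (a z) λ`; by `HypP.surj` choose `e₁,e₂` with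
`L e₁ = (0,2)`, `L e₂ = (1,0)`; `τ(v) = (da v φ₁φ₁ + da v φ₂φ₂)/2`.  Take `w = z - δe₁`, `w' = z + δe₁`, `e = δe₂`; then
`pt w w' e x θ = z + δ v`, `v = ξ e₁ + θ(1-ξ²) e₂`, `ξ = 2x-1`.  Thresholds: for `q ≠ p` the constant midpoint of the gap at `z`
(`se q = 0`), for `q = p`: `s p = λ - δτ(e₁)`, `s' p = λ + δτ(e₁)`, `se p = δτ(e₂)`, so that the threshold is `λ + δτ(v)`.
`ψ θ = φ₁ + φ₂` if `θ = 1`, else `φ₁ - φ₂`.  With `P` from `Fam.cluster`, for `u = y₁φ₁ + y₂φ₂`: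
`a b (P u)(P u) - (λ+δτ)‖P u‖² = δ(ξ(y₂²-y₁²) + 2t y₁y₂ + o(1)|y|²)`, `t = θ(1-ξ²)`, uniformly in `(ξ,θ)`, and
`ρ = √(ξ²+t²) ≥ 1/2` for `|θ| = 1`.  This form takes both signs on the plane `clus (a b)`, whose eigenvalues are
`lamv (p-1) ≤ lamv p`; so the threshold is in the gap.  A unit eigenvector `φ = P u` for `lamv p` maximises it, so
`(y₂²-y₁², 2y₁y₂)/|y|²` is close to `(ξ,t)/ρ`: `θ y₁y₂ ≥ -o(1)`, `⟪φ,ψ θ⟫² ≈ (y₁+θy₂)² = |y|²+2θy₁y₂`, and at `ξ = ∓1`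
`⟪φ,ψ 1⟫⟪φ,ψ (-1)⟫ ≈ y₁²-y₂² ≈ ±1`. -/
theorem swap_data {a : B → BF V} {da : B → B →ₗ[ℝ] BF V} {ε : ℝ} (hF : Fam a da ε)
    (hP : HypP a da ε) {p N : ℕ} (hp : 1 ≤ p) (hN : p < N) {z : B} (hz : ‖z‖ < ε)
    (hc : IsClus (a z) (p - 1) (p + 1) (lamv (a z) p))
    (hg : ∀ q, 1 ≤ q → q ≤ N → q ≠ p → Gap (a z) q) :
    ∃ (w w' e : B) (s s' se : ℕ → ℝ) (ψ : ℝ → V), MoveOK a ε N w w' e s s' se True p ψ := by
  have hq := hF.nice z hz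
  haveI := hq.finite_eigsp (lamv (a z) p)
  obtain ⟨φ₁, h₁, φ₂, h₂, n₁, n₂, o, hspan⟩ := gen5_basis (E := eigsp (a z) (lamv (a z) p))
    (by rw [hc.finrank hq]; omega)
  obtain ⟨e₁, he₁⟩ := hP.surj hF hz h₁ h₂ n₁ n₂ o (0, 2)
  obtain ⟨e₂, he₂⟩ := hP.surj hF hz h₁ h₂ n₁ n₂ o (1, 0)
  obtain ⟨he₁, he₁'⟩ := Prod.ext_iff.mp he₁
  obtain ⟨he₂, he₂'⟩ := Prod.ext_iff.mp he₂
  simp only at he₁ he₁' he₂ he₂'
  set τ₁ := (da z e₁ φ₁ φ₁ + da z e₁ φ₂ φ₂) / 2 with hτ₁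
  set τ₂ := (da z e₂ φ₁ φ₁ + da z e₂ φ₂ φ₂) / 2 with hτ₂
  set M := ‖e₁‖ + ‖e₂‖ + 3 * (|τ₁| + |τ₂|) + 1 with hM
  have hM1 : 1 ≤ M := by
    have : 0 ≤ ‖e₁‖ + ‖e₂‖ + 3 * (|τ₁| + |τ₂|) := by positivity
    linarith
  have hM0 : 0 < M := by linarith
  have hη : 0 < 1 / (100 * M) := by positivity
  have hη1 : 1 / (100 * M) ≤ 1 / 100 :=
    one_div_le_one_div_of_le (by norm_num) (by linarith)
  obtain ⟨P, hloc⟩ := gen5_local hF hz hc h₁ h₂ hspan hη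
  set mid : ℕ → ℝ := fun q => (lamv (a z) (q - 1) + lamv (a z) q) / 2 with hmid
  have hcont : ∀ i, ContinuousAt (fun b => lamv (a b) i) z := fun i =>
    (hF.continuousOn_lamv i).continuousAt (Metric.isOpen_ball.mem_nhds (by simpa using hz))
  have hother : ∀ᶠ b in 𝓝 z, ∀ q ∈ Finset.Icc 1 N, q ≠ p →
      lamv (a b) (q - 1) < mid q ∧ mid q < lamv (a b) q := by
    rw [Finset.eventually_all]
    intro q hq'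
    by_cases hqp : q = p
    · exact Eventually.of_forall fun b h => absurd hqp h
    have hgq : lamv (a z) (q - 1) < lamv (a z) q :=
      hg q (Finset.mem_Icc.mp hq').1 (Finset.mem_Icc.mp hq').2 hqp
    have a1 : ∀ᶠ b in 𝓝 z, lamv (a b) (q - 1) < mid q :=
      (hcont _).eventually_lt continuousAt_const (by simp only [hmid]; linarith)
    have a2 : ∀ᶠ b in 𝓝 z, mid q < lamv (a b) q :=
      continuousAt_const.eventually_lt (hcont _) (by simp only [hmid]; linarith)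
    filter_upwards [a1, a2] with b b1 b2 _
    exact ⟨b1, b2⟩
  obtain ⟨r, hr, hball⟩ := Metric.eventually_nhds_iff.mp (hloc.and hother)
  set δ := r / (2 * M) with hδdef
  have hδ : 0 < δ := by positivity
  have hv : ∀ ξ t : ℝ, |ξ| ≤ 1 → |t| ≤ 1 → ‖ξ • e₁ + t • e₂‖ ≤ ‖e₁‖ + ‖e₂‖ := by
    intro ξ t hξ ht
    refine (norm_add_le _ _).trans ?_
    rw [norm_smul, norm_smul, Real.norm_eq_abs, Real.norm_eq_abs]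
    exact add_le_add (mul_le_of_le_one_left (norm_nonneg _) hξ)
      (mul_le_of_le_one_left (norm_nonneg _) ht)
  have hin : ∀ ξ t : ℝ, |ξ| ≤ 1 → |t| ≤ 1 → dist (z + δ • (ξ • e₁ + t • e₂)) z < r := by
    intro ξ t hξ ht
    rw [dist_eq_norm, add_sub_cancel_left, norm_smul, Real.norm_eq_abs, abs_of_pos hδ]
    have a1 : ‖ξ • e₁ + t • e₂‖ ≤ M := by
      have : 0 ≤ 3 * (|τ₁| + |τ₂|) := by positivity
      linarith [hv ξ t hξ ht]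
    have a2 : δ * M = r / 2 := by rw [hδdef]; field_simp
    calc δ * ‖ξ • e₁ + t • e₂‖ ≤ δ * M := mul_le_mul_of_nonneg_left a1 hδ.le
      _ < r := by linarith
  have hpt : ∀ x θ : ℝ, pt (z - δ • e₁) (z + δ • e₁) (δ • e₂) x θ
      = z + δ • ((2 * x - 1) • e₁ + (θ * (1 - (2 * x - 1) ^ 2)) • e₂) := by
    intro x θ
    simp only [pt]
    module
  have hξ : ∀ x ∈ Icc (0 : ℝ) 1, |2 * x - 1| ≤ 1 := fun x hx => by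
    rw [abs_le]
    constructor <;> linarith [hx.1, hx.2]
  have ht : ∀ ξ θ : ℝ, |ξ| ≤ 1 → |θ| ≤ 1 → |θ * (1 - ξ ^ 2)| ≤ 1 := by
    intro ξ θ hξ hθ
    have a1 : ξ ^ 2 ≤ 1 := by
      rw [← sq_abs]
      nlinarith [abs_nonneg ξ]
    rw [abs_mul, abs_of_nonneg (sub_nonneg.mpr a1)]
    nlinarith [abs_nonneg θ, sq_nonneg ξ]
  have hcore : ∀ ξ θ : ℝ, |ξ| ≤ 1 → (θ = 1 ∨ θ = -1) →
      ∀ b, b = z + δ • (ξ • e₁ + (θ * (1 - ξ ^ 2)) • e₂) →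
      (lamv (a b) (p - 1) < lamv (a z) p + δ * (ξ * τ₁ + θ * (1 - ξ ^ 2) * τ₂) ∧
        lamv (a z) p + δ * (ξ * τ₁ + θ * (1 - ξ ^ 2) * τ₂) < lamv (a b) p) ∧
      ∀ φ ∈ eigsp (a b) (lamv (a b) p), ‖φ‖ = 1 →
        1 / 2 ≤ |⟪φ, φ₁ + θ • φ₂⟫| ∧ (ξ = -1 → 0 < ⟪φ, φ₁ + φ₂⟫ * ⟪φ, φ₁ - φ₂⟫) ∧
          (ξ = 1 → ⟪φ, φ₁ + φ₂⟫ * ⟪φ, φ₁ - φ₂⟫ < 0) := by
    intro ξ θ hξ hθ b hb
    have hθa : |θ| ≤ 1 := by rcases hθ with h | h <;> rw [h] <;> norm_num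
    have ht' := ht ξ θ hξ hθa
    have hbr := hin ξ _ hξ ht'
    rw [← hb] at hbr
    obtain ⟨⟨l1, l2, l3, l4, l5⟩, -⟩ := hball hbr
    refine gen5_core (hF.nice b l1) hp n₁ n₂ o (P b) hδ hξ hθ l2 l3
      (fun y₁ y₂ => (l4 y₁ y₂).trans (mul_le_mul_of_nonneg_right hη1 (norm_nonneg _)))
      fun y₁ y₂ => ?_
    set t := θ * (1 - ξ ^ 2) with htdef
    have hbz : b - z = δ • (ξ • e₁ + t • e₂) := by rw [hb, add_sub_cancel_left]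
    have k5 := l5 y₁ y₂
    have k4 := l4 y₁ y₂
    have hn := gen5_norm n₁ n₂ o y₁ y₂
    have hda : da z (b - z) (y₁ • φ₁ + y₂ • φ₂) (y₁ • φ₁ + y₂ • φ₂)
        = δ * ((ξ * τ₁ + t * τ₂) * (y₁ ^ 2 + y₂ ^ 2)
          + (ξ * (y₂ ^ 2 - y₁ ^ 2) + 2 * t * (y₁ * y₂))) := by
      have s1 := hF.dsymm z hz e₁ φ₂ φ₁
      have s2 := hF.dsymm z hz e₂ φ₂ φ₁
      have a1 : da z e₁ φ₁ φ₁ = τ₁ - 1 := by rw [hτ₁]; linarith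
      have a2 : da z e₁ φ₂ φ₂ = τ₁ + 1 := by rw [hτ₁]; linarith
      have a3 : da z e₂ φ₁ φ₁ = τ₂ := by rw [hτ₂]; linarith
      have a4 : da z e₂ φ₂ φ₂ = τ₂ := by rw [hτ₂]; linarith
      rw [hbz]
      simp only [map_add, map_smul, LinearMap.add_apply, LinearMap.smul_apply, smul_eq_mul]
      rw [s1, s2, he₁, he₂, a1, a2, a3, a4]
      ring
    rw [hda] at k5
    set u := y₁ • φ₁ + y₂ • φ₂ with hu
    set η := 1 / (100 * M) with hηdef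
    have hnb : ‖b - z‖ ≤ δ * (‖e₁‖ + ‖e₂‖) := by
      rw [hbz, norm_smul, Real.norm_eq_abs, abs_of_pos hδ]
      exact mul_le_mul_of_nonneg_left (hv ξ t hξ ht') hδ.le
    have hτ : |ξ * τ₁ + t * τ₂| ≤ |τ₁| + |τ₂| := by
      refine (abs_add_le _ _).trans ?_
      rw [abs_mul, abs_mul]
      exact add_le_add (mul_le_of_le_one_left (abs_nonneg _) hξ)
        (mul_le_of_le_one_left (abs_nonneg _) ht')
    have hPn : |‖P b u‖ ^ 2 - ‖u‖ ^ 2| ≤ 3 * η * ‖u‖ ^ 2 := by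
      have a1 : |‖P b u‖ - ‖u‖| ≤ η * ‖u‖ := (abs_norm_sub_norm_le _ _).trans k4
      have a2 : η * ‖u‖ ≤ ‖u‖ := mul_le_of_le_one_left (norm_nonneg _) (by linarith)
      have a3 : ‖P b u‖ + ‖u‖ ≤ 3 * ‖u‖ := by linarith [(abs_le.mp a1).2]
      have e : ‖P b u‖ ^ 2 - ‖u‖ ^ 2 = (‖P b u‖ - ‖u‖) * (‖P b u‖ + ‖u‖) := by ring
      rw [e, abs_mul, abs_of_nonneg (by positivity : 0 ≤ ‖P b u‖ + ‖u‖)]
      calc |‖P b u‖ - ‖u‖| * (‖P b u‖ + ‖u‖) ≤ η * ‖u‖ * (3 * ‖u‖) :=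
            mul_le_mul a1 a3 (by positivity) (by positivity)
        _ = _ := by ring
    rw [← hn] at k5 ⊢
    have e : a b (P b u) (P b u) - (lamv (a z) p + δ * (ξ * τ₁ + t * τ₂)) * ‖P b u‖ ^ 2
        - δ * (ξ * (y₂ ^ 2 - y₁ ^ 2) + 2 * t * (y₁ * y₂))
        = (a b (P b u) (P b u) - lamv (a z) p * ‖P b u‖ ^ 2 - δ * ((ξ * τ₁ + t * τ₂) * ‖u‖ ^ 2
          + (ξ * (y₂ ^ 2 - y₁ ^ 2) + 2 * t * (y₁ * y₂))))
          - δ * ((ξ * τ₁ + t * τ₂) * (‖P b u‖ ^ 2 - ‖u‖ ^ 2)) := by ring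
    rw [e]
    refine (abs_sub _ _).trans ?_
    have a1 : |δ * ((ξ * τ₁ + t * τ₂) * (‖P b u‖ ^ 2 - ‖u‖ ^ 2))|
        ≤ δ * ((|τ₁| + |τ₂|) * (3 * η * ‖u‖ ^ 2)) := by
      rw [abs_mul, abs_mul, abs_of_pos hδ]
      exact mul_le_mul_of_nonneg_left (mul_le_mul hτ hPn (abs_nonneg _) (by positivity)) hδ.le
    have a2 : η * ‖b - z‖ * ‖u‖ ^ 2 ≤ η * (δ * (‖e₁‖ + ‖e₂‖)) * ‖u‖ ^ 2 :=
      mul_le_mul_of_nonneg_right (mul_le_mul_of_nonneg_left hnb hη.le) (sq_nonneg _)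
    have a3 : η * M = 1 / 100 := by rw [hηdef]; field_simp
    have a4 : η * (δ * (‖e₁‖ + ‖e₂‖)) * ‖u‖ ^ 2 + δ * ((|τ₁| + |τ₂|) * (3 * η * ‖u‖ ^ 2))
        = δ * ‖u‖ ^ 2 * (η * M - η) := by rw [hM]; ring
    have a5 : δ * ‖u‖ ^ 2 * (η * M - η) ≤ δ * ‖u‖ ^ 2 * (1 / 100) :=
      mul_le_mul_of_nonneg_left (by linarith) (by positivity)
    linarith
  have hθcases : ∀ θ : ℝ, |θ| = 1 → θ = 1 ∨ θ = -1 := fun θ h => (abs_eq zero_le_one).mp h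
  classical
  refine ⟨z - δ • e₁, z + δ • e₁, δ • e₂,
    fun q => if q = p then lamv (a z) p - δ * τ₁ else mid q,
    fun q => if q = p then lamv (a z) p + δ * τ₁ else mid q,
    fun q => if q = p then δ * τ₂ else 0,
    fun θ => if θ = 1 then φ₁ + φ₂ else φ₁ - φ₂, ?_, ?_, fun _ => ⟨hp, hN⟩, ?_, ?_, ?_, ?_⟩
  · intro x hx θ hθ
    rw [hpt]
    exact (hball (hin _ _ (hξ x hx) (ht _ _ (hξ x hx) (abs_le.mpr hθ)))).1.1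
  · intro x hx θ hθ q hq1 hqN hor
    by_cases hqp : q = p
    · subst hqp
      have hθ1 : |θ| = 1 := hor.resolve_left fun h => h ⟨trivial, rfl⟩
      have e : pt (lamv (a z) q - δ * τ₁) (lamv (a z) q + δ * τ₁) (δ * τ₂) x θ
          = lamv (a z) q + δ * ((2 * x - 1) * τ₁ + θ * (1 - (2 * x - 1) ^ 2) * τ₂) := by
        simp only [pt, smul_eq_mul]
        ring
      simp only [if_true]
      rw [e]
      exact (hcore _ θ (hξ x hx) (hθcases θ hθ1) _ (hpt x θ)).1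
    · have e : pt (mid q) (mid q) 0 x θ = mid q := by simp [pt]
      simp only [if_neg hqp]
      rw [e, hpt]
      exact (hball (hin _ _ (hξ x hx) (ht _ _ (hξ x hx) (abs_le.mpr hθ)))).2 q
        (Finset.mem_Icc.mpr ⟨hq1, hqN⟩) hqp
  · intro _ θ
    split_ifs
    · exact (norm_add_le _ _).trans (by rw [n₁, n₂]; norm_num)
    · exact (norm_sub_le _ _).trans (by rw [n₁, n₂]; norm_num)
  · intro _ x hx θ hθ φ hφ hφ1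
    have := ((hcore _ θ (hξ x hx) (hθcases θ hθ) _ (hpt x θ)).2 φ hφ hφ1).1
    rcases hθcases θ hθ with h | h
    · subst h
      simpa using this
    · subst h
      rw [if_neg (by norm_num)]
      simpa [sub_eq_add_neg] using this
  · intro _ φ hφ hφ1
    have := ((hcore (-1) 1 (by norm_num) (Or.inl rfl) (z - δ • e₁) (by module)).2 φ hφ hφ1).2.1 rfl
    rw [if_pos rfl, if_neg (by norm_num)]
    exact this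
  · intro _ φ hφ hφ1
    have := ((hcore 1 1 (by norm_num) (Or.inl rfl) (z + δ • e₁) (by module)).2 φ hφ hφ1).2.2 rfl
    rw [if_pos rfl, if_neg (by norm_num)]
    exact this

end Crest.Agent.R202
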