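import Crest.Agent.R202.Gen1

/-! # Row 202, Gen6: closing the gap between two levels -/

set_option autoImplicit false
open scoped RealInnerProductSpace
open Set Filter Topology

noncomputable section
namespace Crest.Agent.R202

variable {V : Type*} [NormedAddCommGroup V] [InnerProductSpace ℝ V]
variable {B : Type*} [NormedAddCommGroup B] [NormedSpace ℝ B]

theorem gen6_start {a : B → BF V} {da : B → B →ₗ[ℝ] BF V} {ε : ℝ}
    {σ : V →ₗ[ℝ] V} {σB : B →ₗ[ℝ] B} (hσ : SymData a da ε σ σB) {p : ℕ} {z : B} (hz : ‖z‖ < ε)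
    (hzs : σB z = z) (L : V →ₗ[ℝ] V) (hskew : ∀ u w, ⟪L u, w⟫ = -⟪u, L w⟫)
    (hcomm : ∀ u w, a z (L u) w = -a z u (L w)) (hanti : ∀ u, σ (L u) = -L (σ u))
    (he : lamv (a z) (p - 1) = lamv (a z) p) {u : V} (hu : u ∈ eigsp (a z) (lamv (a z) p))
    (hL : L u ≠ 0) : Start a ε σ σB p z := by
  have h1 : ∀ y ∈ eigsp (a z) (lamv (a z) p), L y ∈ eigsp (a z) (lamv (a z) p) := fun y hy w => by
    rw [hcomm, hy, hskew]; ring
  have h2 : σ u ∈ eigsp (a z) (lamv (a z) p) := fun w => by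
    have := hσ.comm z hz hzs u (σ w)
    rw [hσ.invol] at this
    rw [this, hu, ← hσ.iso u, hσ.invol]
  refine ⟨hz, hzs, he, ?_⟩
  by_cases h : L (u + σ u) = 0
  · have h3 : L (u - σ u) ≠ 0 := fun h' => hL (by
      have : (2 : ℝ) • L u = L (u + σ u) + L (u - σ u) := by simp [two_smul]
      rw [h, h', add_zero] at this
      simpa using this)
    have h4 : σ (u - σ u) = -(u - σ u) := by rw [map_sub, hσ.invol, neg_sub]
    exact ⟨⟨_, h1 _ (sub_mem hu h2), h3, by rw [hanti, h4, map_neg, neg_neg]⟩,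
      _, sub_mem hu h2, fun h' => h3 (by rw [h', map_zero]), h4⟩
  · have h4 : σ (u + σ u) = u + σ u := by rw [map_add, hσ.invol, add_comm]
    exact ⟨⟨_, add_mem hu h2, fun h' => h (by rw [h', map_zero]), h4⟩,
      _, h1 _ (add_mem hu h2), h, by rw [hanti, h4]⟩

/-- Sectors `K = ker (L∘L) = ker L` and `Wt = ker (L∘L + ω²)` (`sect_ker` along the path `t • v`).  `Λ = lamv (a 0) (p-1)`,
`Λ' = lamv (a 0) p`, `P = low (a 0) Λ'` has dimension `p`, `c₀ = finrank (P ⊓ K) ≥ 1`, `c' = finrank (P ⊓ Kᗮ)`, `c₀+c' = p`;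
`c ∈ Kᗮ \ P`, so `Kᗮ` has dimension `≥ c'+1`; `P ≤ Wtᗮ` (`low_split`, `hW`).  At `t=0`: `mu K c₀ = Λ` (as `k ∉ low (a 0) Λ`),
`mu Kᗮ (c'+1) ≥ Λ'`, `mu Wt 1 ≥ Λ'`, `mu Wtᗮ p ≤ Λ`.  If `mu Kᗮ (c'+1) ≤ mu K c₀` at `t=1`, `ivt_cross` with `S = K` gives a crossing with an
eigenvector `u ∈ Kᗮ`.  Otherwise at `t = 1`: `mu Kᗮ (c'+1) > mu K c₀ ≥ Λ` (`hK`, `mu_le_of_le`), so at most `p-1` eigenvalues are
`< Λ`, `mu Wtᗮ p ≥ Λ > mu Wt 1` (`hc3`), and `ivt_cross` with `S = Wt` gives a crossing with an eigenvector in `Wt ≤ Kᗮ`.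
Finally `u = u⁺ + u⁻`; `σ` preserves `K`, `Kᗮ` and the eigenspace; a nonzero part `u^±` has `L u^± ≠ 0`, an eigenvector of the other parity. -/
theorem cross_level {a : B → BF V} {da : B → B →ₗ[ℝ] BF V} {ε : ℝ} (hF : Fam a da ε)
    {σ : V →ₗ[ℝ] V} {σB : B →ₗ[ℝ] B} (hσ : SymData a da ε σ σB) {p : ℕ} (hp : 1 ≤ p)
    (v : B) (hv : ‖v‖ < ε) (hvs : σB v = v) (L : V →ₗ[ℝ] V)
    (hskew : ∀ u w, ⟪L u, w⟫ = -⟪u, L w⟫)
    (hcomm : ∀ t ∈ Icc (0 : ℝ) 1, ∀ u w, a (t • v) (L u) w = -a (t • v) u (L w))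
    (hanti : ∀ u, σ (L u) = -L (σ u)) (hgap : Gap (a 0) p)
    (k : V) (hk : k ∈ eigsp (a 0) (lamv (a 0) (p - 1))) (hk0 : k ≠ 0) (hLk : L k = 0)
    (hK : ∀ u, L u = 0 → a 0 u u ≤ a v u u) (ω : ℝ) (hω : 0 < ω)
    (hW : ∀ u ∈ low (a 0) (lamv (a 0) p), L (L u) = -(ω ^ 2) • u → u = 0)
    (c : V) (hc0 : c ≠ 0) (hc : L (L c) = -(ω ^ 2) • c)
    (hc3 : a v c c < lamv (a 0) (p - 1) * ‖c‖ ^ 2) :
    ∃ z, Start a ε σ σB p z := by
  have hγ : ContinuousOn (fun t : ℝ => t • v) (Icc 0 1) := by fun_prop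
  have hγε : ∀ t ∈ Icc (0 : ℝ) 1, ‖t • v‖ < ε := fun t ht => by
    rw [norm_smul, Real.norm_of_nonneg ht.1]
    exact (mul_le_of_le_one_left (norm_nonneg _) ht.2).trans_lt hv
  have fin : ∀ t ∈ Icc (0 : ℝ) 1, lamv (a (t • v)) (p - 1) = lamv (a (t • v)) p →
      ∀ u ∈ eigsp (a (t • v)) (lamv (a (t • v)) p), L u ≠ 0 → ∃ z, Start a ε σ σB p z :=
    fun t ht he u hu hL => ⟨_, gen6_start hσ (hγε t ht) (by rw [map_smul, hvs]) L hskew
      (hcomm t ht) hanti he hu hL⟩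
  have hLL : ∀ u w, ⟪L (L u), w⟫ = ⟪u, L (L w)⟫ := fun u w => by rw [hskew, hskew, neg_neg]
  set K := LinearMap.ker (L ∘ₗ L) with hKdef
  set Wt := LinearMap.ker (L ∘ₗ L + (ω ^ 2) • LinearMap.id (R := ℝ) (M := V)) with hWdef
  have mK : ∀ u, u ∈ K ↔ L u = 0 := fun u => by
    refine ⟨fun h => ?_, fun h => by simp [hKdef, h]⟩
    have h' : L (L u) = 0 := h
    rw [← inner_self_eq_zero (𝕜 := ℝ), hskew, h', inner_zero_right, neg_zero]
  have mW : ∀ u, u ∈ Wt ↔ L (L u) = -(ω ^ 2) • u := fun u => by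
    simp [hWdef, add_eq_zero_iff_eq_neg]
  have sK : ∀ t ∈ Icc (0 : ℝ) 1, Sect (a (t • v)) K := fun t ht =>
    sect_ker (hF.nice _ (hγε t ht)) _ hLL fun u w => by
      simp only [LinearMap.comp_apply, hcomm t ht, neg_neg]
  have sW : ∀ t ∈ Icc (0 : ℝ) 1, Sect (a (t • v)) Wt := fun t ht =>
    sect_ker (hF.nice _ (hγε t ht)) _
      (fun u w => by simp [inner_add_left, inner_add_right, inner_smul_left, inner_smul_right, hLL])
      fun u w => by simp [hcomm t ht]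
  have sK0 := sK 0 (by simp)
  have sK1 := sK 1 (by simp)
  have sW0 := sW 0 (by simp)
  have sW1 := sW 1 (by simp)
  rw [zero_smul] at sK0 sW0
  rw [one_smul] at sK1 sW1
  have n0 : Nice (a 0) := hF.nice _ (by simpa using hF.pos)
  have n1 : Nice (a v) := hF.nice _ hv
  set Λ := lamv (a 0) (p - 1) with hΛ
  set Λ' := lamv (a 0) p with hΛ'
  have hlt : Λ < Λ' := hgap
  set P := low (a 0) Λ' with hP
  haveI := n0.finite_low Λ'
  haveI := n1.finite_low Λ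
  have hPp : Module.finrank ℝ P = p := by
    have h1 := (n0.lamv_lt_iff Λ' (p - 1)).1 hlt
    have h2 := mt (n0.lamv_lt_iff Λ' p).2 (lt_irrefl _)
    rw [← hP] at h1 h2
    omega
  have hkP : k ∈ P ⊓ K := ⟨le_iSup (fun t : Iio Λ' => eigsp (a 0) t) ⟨Λ, hlt⟩ hk, (mK k).2 hLk⟩
  have hlow : Module.finrank ℝ (low (a 0) Λ ⊓ K : Submodule ℝ V) <
      Module.finrank ℝ (P ⊓ K : Submodule ℝ V) := by
    refine Submodule.finrank_lt_finrank_of_lt (lt_of_le_of_ne (inf_le_inf_right _ ?_) fun h => ?_)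
    · exact iSup_le fun t => le_iSup (fun t : Iio Λ' => eigsp (a 0) t) ⟨t, t.2.trans hlt⟩
    · obtain ⟨t, ht, h2⟩ := n0.exists_lt_on_low Λ
      have h3 := h2 k (h ▸ hkP : k ∈ low (a 0) Λ ⊓ K).1
      rw [hk k, real_inner_self_eq_norm_sq] at h3
      exact absurd (le_of_mul_le_mul_right h3 (by positivity)) (not_le.2 ht)
  have hsum := sK0.finrank_low n0 Λ'
  rw [← hP, hPp] at hsum
  set c₀ := Module.finrank ℝ (P ⊓ K : Submodule ℝ V) with hc₀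
  set c' := Module.finrank ℝ (P ⊓ Kᗮ : Submodule ℝ V) with hc'
  have h₁ : 1 ≤ c₀ := by omega
  have d₁ : ∃ Y : Submodule ℝ V, Y ≤ K ∧ Module.finrank ℝ Y = c₀ := ⟨_, inf_le_right, rfl⟩
  have hω2 : ω ^ 2 ≠ 0 := by positivity
  have d₂ : ∃ Y : Submodule ℝ V, Y ≤ Kᗮ ∧ Module.finrank ℝ Y = c' + 1 := by
    refine ⟨P ⊓ Kᗮ ⊔ ℝ ∙ c, sup_le inf_le_right ((Submodule.span_singleton_le_iff_mem _ _).2 ?_),
      ?_⟩
    · refine (Submodule.mem_orthogonal _ _).2 fun y hy => ?_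
      have h := hLL y c
      rw [(mK y).1 hy, map_zero, inner_zero_left, hc, inner_smul_right] at h
      simpa [hω2] using h
    · haveI : FiniteDimensional ℝ (P ⊓ Kᗮ : Submodule ℝ V) :=
        Submodule.finiteDimensional_inf_left _ _
      have h := Submodule.finrank_sup_add_finrank_inf_eq (P ⊓ Kᗮ) (ℝ ∙ c)
      have hd : Disjoint (P ⊓ Kᗮ) (ℝ ∙ c) :=
        (Submodule.disjoint_span_singleton' hc0).2 fun h => hc0 (hW c h.1 hc)
      rw [hd.eq_bot, finrank_bot, finrank_span_singleton hc0] at h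
      exact h
  have a1 : mu K (a 0) c₀ < Λ' := (sK0.mu_lt_iff n0 h₁ d₁ Λ').2 le_rfl
  have a2 : Λ' ≤ mu Kᗮ (a 0) (c' + 1) :=
    not_lt.1 fun h => absurd ((sK0.orth.mu_lt_iff n0 (by omega) d₂ Λ').1 h)
      (Nat.not_succ_le_self c')
  by_cases hcase : mu Kᗮ (a v) (c' + 1) ≤ mu K (a v) c₀
  · obtain ⟨t, ht, he, -, u, hu, hu', h0⟩ := hF.ivt_cross _ hγ hγε sK h₁ (by omega)
      (p := p) (by omega) d₁ d₂ (by
        simp only [zero_smul, one_smul]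
        exact mul_nonpos_of_nonpos_of_nonneg (by linarith) (by linarith))
    refine fin t ht he u hu' fun h => h0 ?_
    exact inner_self_eq_zero.1 (Submodule.inner_right_of_mem_orthogonal ((mK u).2 h) hu)
  · have b1 : Λ ≤ mu K (a 0) c₀ :=
      not_lt.1 fun h => absurd ((sK0.mu_lt_iff n0 h₁ d₁ Λ).1 h) (not_le.2 hlow)
    have b2 : mu K (a 0) c₀ ≤ 1 * mu K (a v) c₀ :=
      mu_le_of_le n0.nonneg h₁ d₁ one_pos fun u hu => by simpa using hK u ((mK u).1 hu)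
    have b3 := mt (sK1.mu_lt_iff n1 h₁ d₁ Λ).2 (by linarith)
    have b4 := mt (sK1.orth.mu_lt_iff n1 (by omega) d₂ Λ).2 (by linarith)
    have b5 := sK1.finrank_low n1 Λ
    have hcW : (ℝ ∙ c) ≤ Wt := (Submodule.span_singleton_le_iff_mem _ _).2 ((mW c).2 hc)
    have e₁ : ∃ Y : Submodule ℝ V, Y ≤ Wt ∧ Module.finrank ℝ Y = 1 :=
      ⟨_, hcW, finrank_span_singleton hc0⟩
    have hbot : Module.finrank ℝ (P ⊓ Wt : Submodule ℝ V) = 0 := by
      rw [(Submodule.eq_bot_iff _).2 fun u (hu : u ∈ P ⊓ Wt) => hW u hu.1 ((mW u).1 hu.2),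
        finrank_bot]
    have hs2 := sW0.finrank_low n0 Λ'
    rw [← hP, hPp, hbot, zero_add] at hs2
    have e₂ : ∃ Y : Submodule ℝ V, Y ≤ Wtᗮ ∧ Module.finrank ℝ Y = p := ⟨_, inf_le_right, hs2.symm⟩
    have c1 : Λ' ≤ mu Wt (a 0) 1 :=
      not_lt.1 fun h => absurd ((sW0.mu_lt_iff n0 le_rfl e₁ Λ').1 h) (by rw [← hP, hbot]; omega)
    have c2 : mu Wtᗮ (a 0) p < Λ' := (sW0.orth.mu_lt_iff n0 hp e₂ Λ').2 hs2.le
    have c3 : Λ ≤ mu Wtᗮ (a v) p := not_lt.1 fun h => by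
      have h1 := (sW1.orth.mu_lt_iff n1 hp e₂ Λ).1 h
      have h2 := Submodule.finrank_mono (inf_le_left : low (a v) Λ ⊓ Wtᗮ ≤ low (a v) Λ)
      omega
    have c4 : mu Wt (a v) 1 ≤ Λ :=
      mu_le_of_test n1.nonneg le_rfl hcW (finrank_span_singleton hc0).ge fun y hy => by
        obtain ⟨r, rfl⟩ := Submodule.mem_span_singleton.1 hy
        simp only [map_smul, LinearMap.smul_apply, smul_eq_mul, norm_smul, mul_pow, Real.norm_eq_abs,
          sq_abs]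
        nlinarith [mul_le_mul_of_nonneg_left hc3.le (sq_nonneg r)]
    obtain ⟨t, ht, he, ⟨u, hu, hu', h0⟩, -⟩ := hF.ivt_cross _ hγ hγε sW le_rfl hp
      (p := p) (by omega) e₁ e₂ (by
        simp only [zero_smul, one_smul]
        exact mul_nonpos_of_nonneg_of_nonpos (by linarith) (by linarith))
    refine fin t ht he u hu' fun h => h0 ?_
    have h2 := (mW u).1 hu
    rw [h, map_zero] at h2
    simpa [hω2] using h2

end Crest.Agent.R202
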