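import Crest.Agent.R202.Gen3
import Crest.Agent.R202.Gen4
import Crest.Agent.R202.Gen5

/-! # Row 202, Gen7: the cycle of moves -/

set_option autoImplicit false
open scoped RealInnerProductSpace
open Set Filter Topology

noncomputable section
namespace Crest.Agent.R202

variable {V : Type*} [NormedAddCommGroup V] [InnerProductSpace ℝ V]
variable {B : Type*} [NormedAddCommGroup B] [NormedSpace ℝ B]

theorem gen7_pt_zero {M : Type*} [AddCommGroup M] [Module ℝ M] (w w' e : M) (θ : ℝ) :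
    pt w w' e 0 θ = w := by simp [pt]

theorem gen7_pt_one {M : Type*} [AddCommGroup M] [Module ℝ M] (w w' e : M) (θ : ℝ) :
    pt w w' e 1 θ = w' := by simp [pt]

theorem gen7_congr {a : B → BF V} {ε : ℝ} {N : ℕ} {w w' e : B} {s s' se t t' : ℕ → ℝ} {sw : Prop}
    {p : ℕ} {ψ : ℝ → V} (h : MoveOK a ε N w w' e s s' se sw p ψ)
    (hs : ∀ q, 1 ≤ q → q ≤ N → t q = s q) (hs' : ∀ q, 1 ≤ q → q ≤ N → t' q = s' q) :
    MoveOK a ε N w w' e t t' se sw p ψ :=
  ⟨h.mem, fun x hx θ hθ q h1 h2 h3 => by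
    rw [hs q h1 h2, hs' q h1 h2]
    exact h.gap x hx θ hθ q h1 h2 h3, h.rng, h.nrm, h.sgn, h.ent, h.ext⟩

/-- extension of finitely many thresholds by zero -/
def gen7ext {N : ℕ} (s : Fin (N + 1) → ℝ) (q : ℕ) : ℝ := if h : q < N + 1 then s ⟨q, h⟩ else 0

theorem gen7ext_res {N : ℕ} (s : ℕ → ℝ) {q : ℕ} (hq : q ≤ N) :
    gen7ext (fun i : Fin (N + 1) => s i) q = s q := by
  simp [gen7ext, Nat.lt_succ_of_le hq]

theorem gen7ext_comb {N : ℕ} (s s' : Fin (N + 1) → ℝ) (u v : ℝ) (q : ℕ) :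
    gen7ext (u • s + v • s') q = u * gen7ext s q + v * gen7ext s' q := by
  unfold gen7ext
  split_ifs <;> simp

theorem gen7ext_cont {N : ℕ} (q : ℕ) : Continuous fun s : Fin (N + 1) → ℝ => gen7ext s q := by
  unfold gen7ext
  split_ifs
  · exact continuous_apply _
  · exact continuous_const

/-- parameters with thresholds in the gaps -/
def gen7O (a : B → BF V) (ε : ℝ) (N : ℕ) : Set (B × (Fin (N + 1) → ℝ)) :=
  {x | ‖x.1‖ < ε ∧ ∀ q, 1 ≤ q → q ≤ N →
    lamv (a x.1) (q - 1) < gen7ext x.2 q ∧ gen7ext x.2 q < lamv (a x.1) q}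

theorem gen7O_open {a : B → BF V} {da : B → B →ₗ[ℝ] BF V} {ε : ℝ} (hF : Fam a da ε) (N : ℕ) :
    IsOpen (gen7O a ε N) := by
  rw [isOpen_iff_mem_nhds]
  rintro x ⟨hx, hx'⟩
  have hb : Metric.ball (0 : B) ε ∈ 𝓝 x.1 :=
    Metric.isOpen_ball.mem_nhds (mem_ball_zero_iff.2 hx)
  have hc : ∀ i, ContinuousAt (fun y : B × (Fin (N + 1) → ℝ) => lamv (a y.1) i) x := fun i =>
    ContinuousAt.comp (g := fun b => lamv (a b) i) ((hF.continuousOn_lamv i).continuousAt hb)
      continuousAt_fst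
  have he : ∀ q, ContinuousAt (fun y : B × (Fin (N + 1) → ℝ) => gen7ext y.2 q) x := fun q =>
    ((gen7ext_cont q).comp continuous_snd).continuousAt
  have h1 : ∀ᶠ y in 𝓝 x, ‖y.1‖ < ε :=
    (continuous_norm.comp continuous_fst).continuousAt.eventually_lt continuousAt_const hx
  have h2 : ∀ᶠ y : B × (Fin (N + 1) → ℝ) in 𝓝 x, ∀ q ∈ Finset.Icc 1 N,
      lamv (a y.1) (q - 1) < gen7ext y.2 q ∧ gen7ext y.2 q < lamv (a y.1) q := by
    refine (Finset.eventually_all _).2 fun q hq => ?_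
    obtain ⟨q1, q2⟩ := Finset.mem_Icc.1 hq
    exact ((hc _).eventually_lt (he q) (hx' q q1 q2).1).and
      ((he q).eventually_lt (hc _) (hx' q q1 q2).2)
  filter_upwards [h1, h2] with y hy hy'
  exact ⟨hy, fun q q1 q2 => hy' q (Finset.mem_Icc.2 ⟨q1, q2⟩)⟩

/-- midpoints of the gaps -/
def gen7mid (a : B → BF V) (N : ℕ) (b : B) : Fin (N + 1) → ℝ :=
  fun i => (lamv (a b) (i - 1) + lamv (a b) i) / 2

theorem gen7mid_ext (a : B → BF V) {N : ℕ} (b : B) {q : ℕ} (hq : q ≤ N) :
    gen7ext (gen7mid a N b) q = (lamv (a b) (q - 1) + lamv (a b) q) / 2 :=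
  gen7ext_res (fun i => (lamv (a b) (i - 1) + lamv (a b) i) / 2) hq

theorem gen7mid_mem {a : B → BF V} {ε : ℝ} {N : ℕ} {b : B} (hb : b ∈ Simple a ε N) :
    (b, gen7mid a N b) ∈ gen7O a ε N := by
  refine ⟨hb.1, fun q q1 q2 => ?_⟩
  have : lamv (a b) (q - 1) < lamv (a b) q := hb.2 q q1 q2
  simp only [gen7mid_ext a b q2]
  constructor <;> linarith

theorem gen7O_simple {a : B → BF V} {ε : ℝ} {N : ℕ} {x : B × (Fin (N + 1) → ℝ)}
    (hx : x ∈ gen7O a ε N) : x.1 ∈ Simple a ε N :=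
  ⟨hx.1, fun q q1 q2 => (hx.2 q q1 q2).1.trans (hx.2 q q1 q2).2⟩

theorem gen7O_seg {a : B → BF V} {ε : ℝ} {N : ℕ} {b : B} {s s' : Fin (N + 1) → ℝ}
    (h : (b, s) ∈ gen7O a ε N) (h' : (b, s') ∈ gen7O a ε N) :
    segment ℝ (b, s) (b, s') ⊆ gen7O a ε N := by
  rintro _ ⟨u, v, hu, hv, huv, rfl⟩
  have e : u • (b, s) + v • (b, s') = (b, u • s + v • s') := by
    refine Prod.ext ?_ rfl
    simp [← add_smul, huv]
  rw [e]
  refine ⟨h.1, fun q q1 q2 => ?_⟩
  have := convex_Ioo (𝕜 := ℝ) _ _ (h.2 q q1 q2) (h'.2 q q1 q2) hu hv huv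
  simp only [gen7ext_comb]
  exact this

theorem gen7O_conn {a : B → BF V} {da : B → B →ₗ[ℝ] BF V} {ε : ℝ} (hF : Fam a da ε)
    (hP : HypP a da ε) (N : ℕ) {b₀ : B} (hb₀ : b₀ ∈ Simple a ε N) :
    IsPreconnected (gen7O a ε N) := by
  have hS := (hF.simple hP N).2.1
  have hcont : ContinuousOn (fun b => (b, gen7mid a N b)) (Simple a ε N) := by
    refine continuousOn_id.prodMk (continuousOn_pi.2 fun i => ?_)
    have hsub : Simple a ε N ⊆ Metric.ball 0 ε := fun b hb => mem_ball_zero_iff.2 hb.1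
    exact (((hF.continuousOn_lamv _).mono hsub).add ((hF.continuousOn_lamv _).mono hsub)).div_const 2
  have hSec := hS.image _ hcont
  refine isPreconnected_of_forall (b₀, gen7mid a N b₀) ?_
  rintro ⟨b, s⟩ hy
  have hb := gen7O_simple hy
  refine ⟨(fun b => (b, gen7mid a N b)) '' Simple a ε N ∪ segment ℝ (b, s) (b, gen7mid a N b),
    union_subset ?_ (gen7O_seg hy (gen7mid_mem hb)), Or.inl ⟨b₀, hb₀, rfl⟩,
    Or.inr (left_mem_segment _ _ _), ?_⟩
  · rintro _ ⟨b', hb', rfl⟩
    exact gen7mid_mem hb'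
  · exact IsPreconnected.union (b, gen7mid a N b) ⟨b, hb, rfl⟩ (right_mem_segment _ _ _) hSec
      (convex_segment _ _).isPreconnected

theorem gen7_move {a : B → BF V} {ε : ℝ} {N : ℕ} {x y : B × (Fin (N + 1) → ℝ)}
    (h : segment ℝ x y ⊆ gen7O a ε N) (p : ℕ) :
    MoveOK a ε N x.1 y.1 0 (gen7ext x.2) (gen7ext y.2) 0 False p 0 := by
  have key : ∀ t ∈ Icc (0 : ℝ) 1, (1 - t) • x + t • y ∈ gen7O a ε N := fun t ht =>
    h ⟨1 - t, t, by linarith [ht.2], ht.1, by ring, rfl⟩
  have e1 : ∀ t θ : ℝ, pt x.1 y.1 0 t θ = ((1 - t) • x + t • y).1 := fun t θ => by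
    simp only [pt, smul_zero, add_zero, Prod.fst_add, Prod.smul_fst]
    module
  have e2 : ∀ (t θ : ℝ) (q : ℕ), pt (gen7ext x.2 q) (gen7ext y.2 q) ((0 : ℕ → ℝ) q) t θ =
      gen7ext ((1 - t) • x + t • y).2 q := fun t θ q => by
    simp only [pt, Pi.zero_apply, smul_zero, add_zero, Prod.snd_add, Prod.smul_snd, gen7ext_comb,
      smul_eq_mul]
    ring
  refine ⟨fun t ht θ _ => ?_, fun t ht θ _ q q1 q2 _ => ?_, False.elim, False.elim, False.elim,
    False.elim, False.elim⟩
  · rw [e1]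
    exact (key t ht).1
  · rw [e1, e2]
    exact (key t ht).2 q q1 q2

/-- a chain of moves from `x` to `y`, with pointer going from `N - 1` to `p` -/
def gen7Chain (a : B → BF V) (ε : ℝ) (N p₀ : ℕ) (x y : B × (Fin (N + 1) → ℝ)) (p : ℕ)
    (last : Prop) : Prop :=
  ∃ (P : Plan B V) (K : ℕ), 1 ≤ K ∧ P.w 0 = x.1 ∧ P.s 0 = gen7ext x.2 ∧ P.w K = y.1 ∧
    P.s K = gen7ext y.2 ∧ P.pos 0 = N - 1 ∧ P.pos K = p ∧ (∀ m < K, P.OK a ε N m) ∧ ¬ P.sw 0 ∧
    (P.sw (K - 1) → last) ∧ (∀ m, m + 1 < K → P.sw m → ¬ P.sw (m + 1)) ∧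
    (∀ m < K, P.sw m → p₀ < P.pos m ∧ P.pos (m + 1) = P.pos m - 1) ∧
    ∀ m < K, ¬ P.sw m → P.pos (m + 1) = P.pos m

theorem gen7_start {a : B → BF V} {ε : ℝ} {N : ℕ} (p₀ : ℕ) {x : B × (Fin (N + 1) → ℝ)}
    (hx : x ∈ gen7O a ε N) : gen7Chain a ε N p₀ x x (N - 1) False := by
  refine ⟨⟨fun _ => x.1, fun _ => 0, fun _ => gen7ext x.2, fun _ => 0, fun _ => False,
    fun _ => N - 1, fun _ => 0⟩, 1, le_rfl, rfl, rfl, rfl, rfl, rfl, rfl, fun m _ => ?_, id, id,
    fun _ _ => False.elim, fun _ _ => False.elim, fun _ _ _ => rfl⟩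
  exact gen7_move (by rw [segment_same]; exact singleton_subset_iff.2 hx) _

theorem gen7_snoc {a : B → BF V} {ε : ℝ} {N p₀ : ℕ} {x y y' : B × (Fin (N + 1) → ℝ)} {p p' : ℕ}
    {last sw : Prop} (h : gen7Chain a ε N p₀ x y p last) {e : B} {se : ℕ → ℝ} {ψ : ℝ → V}
    (hmv : MoveOK a ε N y.1 y'.1 e (gen7ext y.2) (gen7ext y'.2) se sw p ψ) (h1 : last → ¬ sw)
    (h2 : sw → p₀ < p ∧ p' = p - 1) (h3 : ¬ sw → p' = p) : gen7Chain a ε N p₀ x y' p' sw := by
  obtain ⟨P, K, hK, w0, s0, wK, sK, p0, pK, hOK, hsw0, hlast, hadj, hswap, hstay⟩ := h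
  refine ⟨⟨Function.update P.w (K + 1) y'.1, Function.update P.e K e,
    Function.update P.s (K + 1) (gen7ext y'.2), Function.update P.se K se,
    Function.update P.sw K sw, Function.update P.pos (K + 1) p', Function.update P.ψ K ψ⟩,
    K + 1, by omega, ?_, ?_, ?_, ?_, ?_, ?_, ?_, ?_, ?_, ?_, ?_, ?_⟩
  · simpa using w0
  · simpa using s0
  · simp
  · simp
  · simpa using p0
  · simp
  · intro m hm
    unfold Plan.OK
    rcases (by omega : m < K ∨ m = K) with h | h
    · have n1 : m ≠ K + 1 := by omega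
      have n2 : m + 1 ≠ K + 1 := by omega
      have n3 : m ≠ K := by omega
      simp only [Function.update_of_ne n1, Function.update_of_ne n2, Function.update_of_ne n3]
      exact hOK m h
    · subst h
      have n1 : m ≠ m + 1 := by omega
      simp only [Function.update_of_ne n1, Function.update_self, wK, sK, pK]
      exact hmv
  · have n1 : 0 ≠ K := by omega
    simpa only [Function.update_of_ne n1] using hsw0
  · simp
  · intro m hm
    have n1 : m ≠ K := by omega
    simp only [Function.update_of_ne n1]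
    rcases (by omega : m + 1 < K ∨ m + 1 = K) with h | h
    · have n2 : m + 1 ≠ K := by omega
      simp only [Function.update_of_ne n2]
      exact hadj m h
    · subst h
      simp only [Function.update_self]
      exact fun hs => h1 (hlast hs)
  · intro m hm
    rcases (by omega : m < K ∨ m = K) with h | h
    · have n1 : m ≠ K + 1 := by omega
      have n2 : m + 1 ≠ K + 1 := by omega
      have n3 : m ≠ K := by omega
      simp only [Function.update_of_ne n1, Function.update_of_ne n2, Function.update_of_ne n3]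
      exact hswap m h
    · subst h
      have n1 : m ≠ m + 1 := by omega
      simp only [Function.update_of_ne n1, Function.update_self, pK]
      exact h2
  · intro m hm
    rcases (by omega : m < K ∨ m = K) with h | h
    · have n1 : m ≠ K + 1 := by omega
      have n2 : m + 1 ≠ K + 1 := by omega
      have n3 : m ≠ K := by omega
      simp only [Function.update_of_ne n1, Function.update_of_ne n2, Function.update_of_ne n3]
      exact hstay m h
    · subst h
      have n1 : m ≠ m + 1 := by omega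
      simp only [Function.update_of_ne n1, Function.update_self, pK]
      exact h3

theorem gen7_poly {a : B → BF V} {ε : ℝ} {N p₀ : ℕ} (hO : IsOpen (gen7O a ε N))
    (hc : IsPreconnected (gen7O a ε N)) {x y y' : B × (Fin (N + 1) → ℝ)} {p : ℕ} {last : Prop}
    (h : gen7Chain a ε N p₀ x y p last) (hy : y ∈ gen7O a ε N) (hy' : y' ∈ gen7O a ε N) :
    gen7Chain a ε N p₀ x y' p False := by
  obtain ⟨k, v, hk, rfl, rfl, hv⟩ := polygon hO hc hy hy'
  have key : ∀ m, m + 1 ≤ k → gen7Chain a ε N p₀ x (v (m + 1)) p False := by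
    intro m
    induction m with
    | zero =>
      intro hm
      exact gen7_snoc h (gen7_move (hv 0 hm) p) (fun _ => id) False.elim fun _ => rfl
    | succ m ih =>
      intro hm
      exact gen7_snoc (ih (by omega)) (gen7_move (hv (m + 1) hm) p) (fun _ => id) False.elim
        fun _ => rfl
  obtain ⟨k, rfl⟩ : ∃ k', k = k' + 1 := ⟨k - 1, by omega⟩
  exact key k le_rfl

/-- Work in `B × (Fin (N+1) → ℝ)` with the open set `𝒪 = {(b,s) | ‖b‖ < ε, lamv (q-1) < s q < lamv q for q ∈ [1,N]}`; it is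
preconnected (each point is joined by a segment to the continuous midpoint section over `Simple a ε N`, `Fam.simple`).  Base point:
`b₀ ∈ Simple` close to `0` (density, continuity of `lamv`) with `s q` just above `lamv (a b₀) (q-1)`.  For `p = N-1, …, p₀+1`:
`exact_double`, `only_p`, `swap_data` give a swap move whose two ends (`x = 0, 1`, `θ = 1`) lie in `𝒪`; join the base point to its
start and its end to the base point by `polygon`s (non-swap moves with `e = 0`, `se = 0`; a segment in `𝒪` is a valid move; thresholds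
`s q` for `q > N` or `q = 0` are irrelevant but must match at common vertices: first normalise them to `0` in the swap move).  Concatenate by downward induction on `p`
(a plan of length `K` from base to base with pointer going from `N-1` to `p`, extended by one more block); start with one rest move. -/
theorem cycle {a : B → BF V} {da : B → B →ₗ[ℝ] BF V} {ε : ℝ} (hF : Fam a da ε)
    {σ : V →ₗ[ℝ] V} {σB : B →ₗ[ℝ] B} (hσ : SymData a da ε σ σB) (hP : HypP a da ε)
    (hD : HypDD a da ε) (hX : HypX a da ε σ σB) {N p₀ : ℕ} (hN : p₀ < N)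
    (hst : ∀ p, p₀ < p → p < N → ∃ z, Start a ε σ σB p z) {η : ℝ} (hη : 0 < η) :
    ∃ (P : Plan B V) (K : ℕ), 1 ≤ K ∧ Cyc P.sw P.pos K N p₀ ∧ P.w K = P.w 0 ∧ P.s K = P.s 0 ∧
      (∀ m < K, P.OK a ε N m) ∧ ∀ q, 1 ≤ q → q ≤ N → P.s 0 q ≤ lamv (a 0) (q - 1) + η := by
  have hcl : (0 : B) ∈ closure (Simple a ε N) :=
    (hF.simple hP N).2.2 (Metric.mem_ball_self hF.pos)
  have hev : ∀ᶠ b in 𝓝 (0 : B), ∀ q ∈ Finset.range (N + 1),
      lamv (a b) (q - 1) < lamv (a 0) (q - 1) + η := by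
    refine (Finset.eventually_all _).2 fun q _ => ?_
    exact ((hF.continuousOn_lamv (q - 1)).continuousAt
      (Metric.ball_mem_nhds _ hF.pos)).eventually_lt continuousAt_const (by linarith)
  obtain ⟨b₀, hb₀, hb₀'⟩ := ((mem_closure_iff_frequently.1 hcl).and_eventually hev).exists
  have hO := gen7O_open hF N
  have hc := gen7O_conn hF hP N hb₀
  let s₀ : ℕ → ℝ := fun q =>
    min ((lamv (a b₀) (q - 1) + lamv (a b₀) q) / 2) (lamv (a 0) (q - 1) + η)
  let x : B × (Fin (N + 1) → ℝ) := (b₀, fun i => s₀ i)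
  have hx : x ∈ gen7O a ε N := by
    refine ⟨hb₀.1, fun q q1 q2 => ?_⟩
    have h1 : lamv (a b₀) (q - 1) < lamv (a b₀) q := hb₀.2 q q1 q2
    have h2 := hb₀' q (Finset.mem_range.2 (by omega))
    simp only [x, gen7ext_res s₀ q2]
    exact ⟨lt_min (by linarith) h2, (min_le_left _ _).trans_lt (by linarith)⟩
  have main : ∀ j, p₀ + j ≤ N - 1 → gen7Chain a ε N p₀ x x (N - 1 - j) False := by
    intro j
    induction j with
    | zero => exact fun _ => gen7_start p₀ hx
    | succ j ih =>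
      intro hj
      have h0 := ih (by omega)
      set p := N - 1 - j with hpdef
      have hp1 : p₀ < p := by omega
      have hp2 : p < N := by omega
      obtain ⟨z, hz⟩ := hst p hp1 hp2
      obtain ⟨z₁, hz₁, hc₁⟩ := exact_double hF hσ hP hX (by omega) hz
      obtain ⟨z₂, hz₂, hc₂, hg₂⟩ := only_p hF hP hD (by omega) N hz₁ hc₁
      obtain ⟨w, w', e, s, s', se, ψ, hm⟩ := swap_data hF hP (by omega) hp2 hz₂ hc₂ hg₂
      let y : B × (Fin (N + 1) → ℝ) := (w, fun i => s i)
      let y' : B × (Fin (N + 1) → ℝ) := (w', fun i => s' i)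
      have hm' : MoveOK a ε N y.1 y'.1 e (gen7ext y.2) (gen7ext y'.2) se True p ψ :=
        gen7_congr hm (fun q _ q2 => gen7ext_res s q2) (fun q _ q2 => gen7ext_res s' q2)
      have i0 : (0 : ℝ) ∈ Icc (0 : ℝ) 1 := ⟨le_rfl, zero_le_one⟩
      have i1 : (1 : ℝ) ∈ Icc (0 : ℝ) 1 := ⟨zero_le_one, le_rfl⟩
      have i2 : (1 : ℝ) ∈ Icc (-1 : ℝ) 1 := ⟨by norm_num, le_rfl⟩
      have hy : y ∈ gen7O a ε N := by
        refine ⟨?_, fun q q1 q2 => ?_⟩
        · simpa only [gen7_pt_zero] using hm'.mem 0 i0 1 i2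
        · simpa only [gen7_pt_zero] using hm'.gap 0 i0 1 i2 q q1 q2 (Or.inr abs_one)
      have hy' : y' ∈ gen7O a ε N := by
        refine ⟨?_, fun q q1 q2 => ?_⟩
        · simpa only [gen7_pt_one] using hm'.mem 1 i1 1 i2
        · simpa only [gen7_pt_one] using hm'.gap 1 i1 1 i2 q q1 q2 (Or.inr abs_one)
      have h1 := gen7_poly hO hc h0 hx hy
      have h2 : gen7Chain a ε N p₀ x y' (N - 1 - (j + 1)) True :=
        gen7_snoc h1 hm' False.elim (fun _ => ⟨hp1, by omega⟩) (fun h => absurd trivial h)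
      exact gen7_poly hO hc h2 hy' hx
  obtain ⟨P, K, hK, w0, s0, wK, sK, p0, pK, hOK, hsw0, hlast, hadj, hswap, hstay⟩ :=
    main (N - 1 - p₀) (by omega)
  refine ⟨P, K, hK, ⟨p0, by omega, fun m hm hs => ?_, hstay⟩, wK.trans w0.symm, sK.trans s0.symm,
    hOK, fun q q1 q2 => ?_⟩
  · have m1 : 1 ≤ m := by
      by_contra h
      obtain rfl : m = 0 := by omega
      exact hsw0 hs
    have m2 : m + 1 < K := by
      by_contra h
      obtain rfl : m = K - 1 := by omega
      exact hlast hs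
    refine ⟨(hswap m hm hs).1, (hswap m hm hs).2, m1, m2, fun h => ?_, hadj m m2 hs⟩
    have := hadj (m - 1) (by omega) h
    rw [Nat.sub_add_cancel m1] at this
    exact this hs
  · rw [s0]
    simp only [x, gen7ext_res s₀ q2]
    exact min_le_right _ _

/-- the periodic extension is valid everywhere (a rest is the move `0` frozen at `x = 0`; the move `0` is not a swap) -/
theorem Plan.per_OK {a : B → BF V} {ε : ℝ} {N p₀ K R : ℕ} {P : Plan B V} (hK : 1 ≤ K)
    (hc : Cyc P.sw P.pos K N p₀) (hw : P.w K = P.w 0) (hs : P.s K = P.s 0)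
    (hOK : ∀ m < K, P.OK a ε N m) (m : ℕ) : (P.per R K).OK a ε N m := by
  have hlt : m % (R + K) < R + K := Nat.mod_lt _ (by omega)
  have hsucc : m % (R + K) + 1 < R + K → (m + 1) % (R + K) = m % (R + K) + 1 := fun h => by
    rw [← Nat.mod_add_mod, Nat.mod_eq_of_lt h]
  unfold Plan.OK Plan.per extF extSw
  simp only
  by_cases h : m % (R + K) < R
  · have e1 : m % (R + K) - R = 0 := by omega
    have e2 : (m + 1) % (R + K) - R = 0 := by rw [hsucc (by omega)]; omega
    have h0 := hOK 0 hK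
    have i0 : (0 : ℝ) ∈ Icc (0 : ℝ) 1 := ⟨le_rfl, zero_le_one⟩
    have i2 : (1 : ℝ) ∈ Icc (-1 : ℝ) 1 := ⟨by norm_num, le_rfl⟩
    have hf : ¬ (R ≤ m % (R + K) ∧ P.sw 0) := fun h' => by omega
    rw [e1, e2, if_pos h, if_pos h]
    refine ⟨fun x _ θ _ => ?_, fun x _ θ _ q q1 q2 _ => ?_, fun h' => absurd h' hf,
      fun h' => absurd h' hf, fun h' => absurd h' hf, fun h' => absurd h' hf,
      fun h' => absurd h' hf⟩
    · simpa [pt] using h0.mem 0 i0 1 i2
    · simpa [pt] using h0.gap 0 i0 1 i2 q q1 q2 (Or.inr abs_one)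
  · have h' : R ≤ m % (R + K) := not_lt.1 h
    have e0 : (R ≤ m % (R + K) ∧ P.sw (m % (R + K) - R)) = P.sw (m % (R + K) - R) := by simp [h']
    have e1 : ∀ {α : Type _} (f : ℕ → α), f K = f 0 →
        f ((m + 1) % (R + K) - R) = f (m % (R + K) - R + 1) := by
      intro α f hf
      by_cases h2 : m % (R + K) + 1 < R + K
      · rw [hsucc h2]
        congr 1
        omega
      · have h3 : m % (R + K) + 1 = R + K := by omega
        have h4 : (m + 1) % (R + K) = 0 := by rw [← Nat.mod_add_mod, h3, Nat.mod_self]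
        have h5 : m % (R + K) - R + 1 = K := by omega
        rw [h4, h5, Nat.zero_sub, hf]
    have e2 : P.s ((m + 1) % (R + K) - R) = P.s (m % (R + K) - R + 1) := by
      by_cases h2 : m % (R + K) + 1 < R + K
      · rw [hsucc h2]
        congr 1
        omega
      · have h3 : m % (R + K) + 1 = R + K := by omega
        have h4 : (m + 1) % (R + K) = 0 := by rw [← Nat.mod_add_mod, h3, Nat.mod_self]
        have h5 : m % (R + K) - R + 1 = K := by omega
        rw [h4, h5, Nat.zero_sub, hs]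
    rw [e0, if_neg h, if_neg h, e1 P.w hw, e2]
    exact hOK _ (by omega)

/-- swaps of the periodic extension are isolated and end two steps before a multiple of the period -/
theorem extSw_adj {N p₀ K R : ℕ} {sw : ℕ → Prop} {pos : ℕ → ℕ} (hc : Cyc sw pos K N p₀) (hR : 1 ≤ R)
    (j m : ℕ) (hm : m ≤ j * (R + K)) (h : extSw sw R K m) :
    1 ≤ m ∧ m + 2 ≤ j * (R + K) ∧ ¬extSw sw R K (m - 1) ∧ ¬extSw sw R K (m + 1) := by
  obtain ⟨h1, h2⟩ := h
  have hlt : m % (R + K) < R + K := Nat.mod_lt _ (by omega)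
  obtain ⟨-, -, h3, h4, h5, h6⟩ := hc.swap _ (by omega) h2
  have hdm := Nat.div_add_mod m (R + K)
  set r := m % (R + K) with hr
  set t := m / (R + K) with ht
  have htj : t < j := by
    by_contra hcon
    have : j * (R + K) ≤ (R + K) * t := by
      rw [mul_comm]
      exact Nat.mul_le_mul_left _ (not_lt.1 hcon)
    omega
  have hj : (R + K) * t + (R + K) ≤ j * (R + K) := by
    rw [← Nat.mul_succ, mul_comm]
    exact Nat.mul_le_mul_right _ htj
  refine ⟨by omega, by omega, fun h => ?_, fun h => ?_⟩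
  · have e : (m - 1) % (R + K) = r - 1 := by
      have : m - 1 = (R + K) * t + (r - 1) := by omega
      rw [this, Nat.mul_add_mod, Nat.mod_eq_of_lt (by omega)]
    have := h.2
    rw [e, show r - 1 - R = r - R - 1 by omega] at this
    exact h5 this
  · have e : (m + 1) % (R + K) = r + 1 := by
      have : m + 1 = (R + K) * t + (r + 1) := by omega
      rw [this, Nat.mul_add_mod, Nat.mod_eq_of_lt (by omega)]
    have := h.2
    rw [e, show r + 1 - R = r - R + 1 by omega] at this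
    exact h6 this

/-- a cycle with `p₀ + 1 < N` contains a swap -/
theorem Cyc.exists_swap {N p₀ K : ℕ} {sw : ℕ → Prop} {pos : ℕ → ℕ} (hc : Cyc sw pos K N p₀)
    (h : p₀ + 1 < N) : ∃ m < K, sw m := by
  by_contra hn
  push Not at hn
  have key : ∀ m, m ≤ K → pos m = pos 0 := by
    intro m
    induction m with
    | zero => exact fun _ => rfl
    | succ m ih =>
      intro hm
      rw [hc.stay m hm (hn m hm), ih (by omega)]
  have h1 := key K le_rfl
  rw [hc.first, hc.last] at h1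
  omega

end Crest.Agent.R202
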