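import Crest.Agent.R202.Defs

/-! # Row 202, Geo1: the Ricci tensor as a function of 2-jets -/

set_option autoImplicit false
open scoped ContDiff RealInnerProductSpace
open Set Filter Topology MeasureTheory Crest.GeometryTopology.CoordMetric
open Crest.GeometryTopology.ChartCurvature

noncomputable section
namespace Crest.Agent.R202

variable {n : ℕ}

theorem geo1_pderiv_congr {f f' : E n → ℝ} {x : E n} (h : f =ᶠ[𝓝 x] f') (i : Fin n) :
    pderiv i f x = pderiv i f' x := by
  rw [pderiv, pderiv, h.fderiv_eq]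

theorem geo1_chr_congr {g g' : MetricField n} {x : E n} (h : g =ᶠ[𝓝 x] g') (k i j : Fin n) :
    christoffel g x k i j = christoffel g' x k i j := by
  have h1 : ∀ a b c, pderiv a (fun y => g y b c) x = pderiv a (fun y => g' y b c) x := fun a b c =>
    geo1_pderiv_congr (h.mono fun y hy => by simp only [hy]) a
  simp only [christoffel, inverseField, h1, h.eq_of_nhds]

theorem ricci_congr {g g' : MetricField n} {x : E n} (h : g =ᶠ[𝓝 x] g') (i j : Fin n) :
    ricci g x i j = ricci g' x i j := by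
  have h1 : ∀ a k b c, pderiv a (fun y => christoffel g y k b c) x =
      pderiv a (fun y => christoffel g' y k b c) x := fun a k b c =>
    geo1_pderiv_congr (h.eventuallyEq_nhds.mono fun y hy => geo1_chr_congr hy k b c) a
  have h2 : pderiv j (fun y => ∑ k, christoffel g y k k i) x =
      pderiv j (fun y => ∑ k, christoffel g' y k k i) x :=
    geo1_pderiv_congr (h.eventuallyEq_nhds.mono fun y hy => by simp only [geo1_chr_congr hy]) j
  simp only [ricci, h1, h2, geo1_chr_congr h]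

theorem geo1_pderiv_scale (f : E n → ℝ) (c : ℝ) (x : E n) (i : Fin n) :
    pderiv i (fun y => f (c • y)) x = c * pderiv i f (c • x) := by
  rw [pderiv, pderiv, fderiv_comp_smul]; rfl

theorem geo1_pderiv_mul (f : E n → ℝ) (c : ℝ) (x : E n) (i : Fin n) :
    pderiv i (fun y => c * f y) x = c * pderiv i f x := by
  rw [pderiv, pderiv, show (fun y => c * f y) = c • f from rfl, fderiv_const_smul_field]; rfl

theorem geo1_chr_scale (g : MetricField n) (c : ℝ) (x : E n) (k i j : Fin n) :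
    christoffel (fun y => g (c • y)) x k i j = c * christoffel g (c • x) k i j := by
  have h : ∀ a b d, pderiv a (fun y => g (c • y) b d) x = c * pderiv a (fun y => g y b d) (c • x) :=
    fun a b d => geo1_pderiv_scale (fun y => g y b d) c x a
  simp only [christoffel, inverseField, h, Finset.mul_sum]
  exact Finset.sum_congr rfl fun l _ => by ring

/-- scaling (`fderiv_comp_smul` holds without differentiability): `christoffel (g ∘ c•) y = c · christoffel g (c•y)` -/
theorem ricci_scale (g : MetricField n) (c : ℝ) (x : E n) (i j : Fin n) :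
    ricci (fun y => g (c • y)) x i j = c ^ 2 * ricci g (c • x) i j := by
  have h1 : ∀ k, pderiv k (fun y => c * christoffel g (c • y) k i j) x =
      c ^ 2 * pderiv k (fun y => christoffel g y k i j) (c • x) := fun k => by
    rw [geo1_pderiv_mul, geo1_pderiv_scale (fun y => christoffel g y k i j)]; ring
  have h2 : pderiv j (fun y => ∑ k, c * christoffel g (c • y) k k i) x =
      c ^ 2 * pderiv j (fun y => ∑ k, christoffel g y k k i) (c • x) := by
    simp only [← Finset.mul_sum]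
    rw [geo1_pderiv_mul, geo1_pderiv_scale (fun y => ∑ k, christoffel g y k k i)]; ring
  have h3 : ∀ a b : ℝ, c * a * (c * b) = c ^ 2 * (a * b) := fun a b => by ring
  simp only [ricci, geo1_chr_scale, h1, h2, h3]
  simp only [← Finset.mul_sum]
  ring

theorem geo1_contDiffOn_det {P : Type*} [NormedAddCommGroup P] [NormedSpace ℝ P] {O : Set P}
    (G : P → Matrix (Fin n) (Fin n) ℝ) (hG : ∀ i j, ContDiffOn ℝ ∞ (fun p => G p i j) O) :
    ContDiffOn ℝ ∞ (fun p => (G p).det) O := by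
  simp only [Matrix.det_apply']
  exact ContDiffOn.sum fun σ _ => contDiffOn_const.mul (contDiffOn_prod fun i _ => hG _ _)

theorem geo1_contDiffOn_inv {P : Type*} [NormedAddCommGroup P] [NormedSpace ℝ P] {O : Set P}
    (G : P → Matrix (Fin n) (Fin n) ℝ) (hG : ∀ i j, ContDiffOn ℝ ∞ (fun p => G p i j) O)
    (hdet : ∀ p ∈ O, (G p).det ≠ 0) (a b : Fin n) :
    ContDiffOn ℝ ∞ (fun p => (G p)⁻¹ a b) O := by
  simp only [Matrix.inv_def, Ring.inverse_eq_inv', Matrix.smul_apply, smul_eq_mul,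
    Matrix.adjugate_apply]
  refine ((geo1_contDiffOn_det G hG).inv hdet).mul (geo1_contDiffOn_det _ fun i j => ?_)
  simp only [Matrix.updateRow_apply]
  split_ifs
  · exact contDiffOn_const
  · exact hG i j

/-- **2-jets.**  With `σ̂ y = (y, σ y)`: `∂ₖ g_{ij}(y) = DG_{ij}(σ̂ y)(eₖ, Dσ(y)eₖ)` near `x`, and
`∂ₗ∂ₖ g_{ij}(x) = D²G_{ij}(σ̂ x)(eₗ, Dσ eₗ)(eₖ, Dσ eₖ) + DG_{ij}(σ̂ x)(0, D²σ eₗ eₖ)`.  The entries of `(G p)⁻¹ = (det G p)⁻¹ • adjugate (G p)` are smooth on `O`; expand `ricci`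
(either through `∂ₗ g^{ab}`, which has the same chain-rule form for the smooth map `p ↦ (G p)⁻¹ a b`).  Define `R` by the resulting formula. -/
theorem jet_ricci {Z : Type*} [NormedAddCommGroup Z] [NormedSpace ℝ Z] {O : Set (E n × Z)} (hO : IsOpen O)
    (G : E n × Z → Matrix (Fin n) (Fin n) ℝ) (hG : ∀ i j, ContDiffOn ℝ ∞ (fun p => G p i j) O)
    (hdet : ∀ p ∈ O, (G p).det ≠ 0) :
    ∃ R : (E n × Z) × (E n →L[ℝ] Z) × (E n →L[ℝ] E n →L[ℝ] Z) → Fin n → Fin n → ℝ,
      (∀ i j, ContDiffOn ℝ 1 (fun J => R J i j) {J | J.1 ∈ O}) ∧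
      ∀ (σ : E n → Z) (x : E n), ContDiffAt ℝ 2 σ x → (x, σ x) ∈ O → ∀ i j,
        ricci (fun y => G (y, σ y)) x i j = R ((x, σ x), fderiv ℝ σ x, fderiv ℝ (fderiv ℝ σ) x) i j := by
  let e : Fin n → E n := fun i => EuclideanSpace.single i 1
  let D : Fin n → Fin n → Fin n → (E n × Z) × (E n →L[ℝ] Z) → ℝ := fun a b c q =>
    fderiv ℝ (fun p => G p b c) q.1 (e a, q.2 (e a))
  let Γ : Fin n → Fin n → Fin n → (E n × Z) × (E n →L[ℝ] Z) → ℝ := fun k i j q =>
    (1 / 2) * ∑ l, (G q.1)⁻¹ k l * (D i j l q + D j i l q - D l i j q)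
  let O' : Set ((E n × Z) × (E n →L[ℝ] Z)) := {q | q.1 ∈ O}
  have hO' : IsOpen O' := hO.preimage continuous_fst
  have hD : ∀ a b c, ContDiffOn ℝ ∞ (D a b c) O' := fun a b c =>
    (((hG b c).fderiv_of_isOpen hO (m := ∞) (by simp)).comp contDiffOn_fst fun q hq => hq).clm_apply
      (contDiffOn_const.prodMk (contDiffOn_snd.clm_apply contDiffOn_const))
  have hΓ : ∀ k i j, ContDiffOn ℝ ∞ (Γ k i j) O' := fun k i j =>
    contDiffOn_const.mul (ContDiffOn.sum fun l _ =>
      ((geo1_contDiffOn_inv G hG hdet k l).comp contDiffOn_fst fun q hq => hq).mul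
        (((hD _ _ _).add (hD _ _ _)).sub (hD _ _ _)))
  let d : ((E n × Z) × (E n →L[ℝ] Z) → ℝ) → Fin n →
      (E n × Z) × (E n →L[ℝ] Z) × (E n →L[ℝ] E n →L[ℝ] Z) → ℝ := fun F a J =>
    fderiv ℝ F (J.1, J.2.1) ((e a, J.2.1 (e a)), J.2.2 (e a))
  have hπ : ContDiff ℝ ∞ fun J : (E n × Z) × (E n →L[ℝ] Z) × (E n →L[ℝ] E n →L[ℝ] Z) =>
      (J.1, J.2.1) := contDiff_fst.prodMk (contDiff_fst.comp contDiff_snd)
  have hd : ∀ F a, ContDiffOn ℝ ∞ F O' → ContDiffOn ℝ ∞ (d F a) {J | J.1 ∈ O} := fun F a hF =>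
    ((hF.fderiv_of_isOpen hO' (m := ∞) (by simp)).comp hπ.contDiffOn fun J hJ => hJ).clm_apply
      ((contDiffOn_const.prodMk ((contDiff_fst.comp contDiff_snd).contDiffOn.clm_apply
        contDiffOn_const)).prodMk ((contDiff_snd.comp contDiff_snd).contDiffOn.clm_apply
          contDiffOn_const))
  have hΓ' : ∀ k i j, ContDiffOn ℝ ∞ (fun J : (E n × Z) × (E n →L[ℝ] Z) ×
      (E n →L[ℝ] E n →L[ℝ] Z) => Γ k i j (J.1, J.2.1)) {J | J.1 ∈ O} := fun k i j =>
    (hΓ k i j).comp hπ.contDiffOn fun J hJ => hJ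
  refine ⟨fun J i j => (∑ k, d (Γ k i j) k J) - d (fun q => ∑ k, Γ k k i q) j J +
    (∑ k, ∑ l, Γ k k l (J.1, J.2.1) * Γ l i j (J.1, J.2.1)) -
    ∑ k, ∑ l, Γ k j l (J.1, J.2.1) * Γ l k i (J.1, J.2.1), fun i j => ?_, fun σ x hσ hx i j => ?_⟩
  · refine ContDiffOn.of_le (n := ∞) ?_ (by simp)
    exact (((ContDiffOn.sum fun k _ => hd _ _ (hΓ k i j)).sub
      (hd _ _ (ContDiffOn.sum fun k _ => hΓ k k i))).add
      (ContDiffOn.sum fun k _ => ContDiffOn.sum fun l _ => (hΓ' _ _ _).mul (hΓ' _ _ _))).sub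
      (ContDiffOn.sum fun k _ => ContDiffOn.sum fun l _ => (hΓ' _ _ _).mul (hΓ' _ _ _))
  have h1 : ∀ᶠ y in 𝓝 x, DifferentiableAt ℝ σ y ∧ (y, σ y) ∈ O :=
    ((hσ.eventually (by simp)).mono fun y hy => hy.differentiableAt (by simp)).and
      ((continuousAt_id.prodMk hσ.continuousAt).eventually_mem (hO.mem_nhds hx))
  have h2 : ∀ᶠ y in 𝓝 x, ∀ k i j, christoffel (fun y => G (y, σ y)) y k i j =
      Γ k i j ((y, σ y), fderiv ℝ σ y) := h1.mono fun y hy k i j => by
    have h : ∀ a b c, pderiv a (fun y => G (y, σ y) b c) y = D a b c ((y, σ y), fderiv ℝ σ y) :=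
      fun a b c => by
        have h3 := (((hG b c).contDiffAt (hO.mem_nhds hy.2)).differentiableAt (by simp)).hasFDerivAt
        have h4 := h3.comp y ((hasFDerivAt_id y).prodMk hy.1.hasFDerivAt)
        exact DFunLike.congr_fun h4.fderiv (e a)
    simp only [christoffel, inverseField, h, Γ]
  have h5 : HasFDerivAt (fun y => ((y, σ y), fderiv ℝ σ y))
      (((ContinuousLinearMap.id ℝ _).prod (fderiv ℝ σ x)).prod (fderiv ℝ (fderiv ℝ σ) x)) x :=
    ((hasFDerivAt_id x).prodMk h1.self_of_nhds.1.hasFDerivAt).prodMk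
      ((hσ.fderiv_right (m := 1) le_rfl).differentiableAt (by simp)).hasFDerivAt
  have h6 : ∀ F a (f : E n → ℝ), ContDiffOn ℝ ∞ F O' →
      (∀ᶠ y in 𝓝 x, f y = F ((y, σ y), fderiv ℝ σ y)) →
      pderiv a f x = d F a ((x, σ x), fderiv ℝ σ x, fderiv ℝ (fderiv ℝ σ) x) := fun F a f hF hf => by
    rw [geo1_pderiv_congr hf]
    have h3 := ((hF.contDiffAt (hO'.mem_nhds (x := ((x, σ x), fderiv ℝ σ x)) hx)).differentiableAt
      (by simp)).hasFDerivAt
    exact DFunLike.congr_fun (h3.comp x h5).fderiv (e a)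
  rw [ricci, h6 (fun q => ∑ k, Γ k k i q) j _ (ContDiffOn.sum fun k _ => hΓ k k i)
    (h2.mono fun y hy => by simp only [hy])]
  simp only [h2.self_of_nhds]
  congr 3
  exact Finset.sum_congr rfl fun k _ => h6 _ k _ (hΓ k i j) (h2.mono fun y hy => hy k i j)

/-- `Σₖ Γᵏₖᵢ = ½ tr(g⁻¹∂ᵢg)`, and `∂ⱼ tr(g⁻¹∂ᵢg) = tr(g⁻¹∂ⱼ∂ᵢg) - tr(g⁻¹∂ⱼg g⁻¹∂ᵢg)` is symmetric; the other terms are symmetric by `Γᵏᵢⱼ = Γᵏⱼᵢ`. -/
theorem ricci_symm {g : MetricField n} {U : Set (E n)} (hg : IsRiemannianOn g U) {x : E n} (hx : x ∈ U)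
    (i j : Fin n) : ricci g x i j = ricci g x j i := by
  have hU := hg.isOpen.mem_nhds hx
  have hs : ∀ y ∈ U, ∀ a b, g y a b = g y b a := fun y hy a b => by
    simpa using (hg.posDef y hy).isHermitian.apply b a
  have hi : ∀ y ∈ U, ∀ a b, (g y)⁻¹ a b = (g y)⁻¹ b a := fun y hy a b => by
    simpa using (hg.posDef y hy).inv.isHermitian.apply b a
  have hp : ∀ y ∈ U, ∀ c a b, pderiv c (fun y => g y a b) y = pderiv c (fun y => g y b a) y :=
    fun y hy c a b => geo1_pderiv_congr
      (mem_of_superset (hg.isOpen.mem_nhds hy) fun z hz => hs z hz a b) c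
  have hc : ∀ y ∈ U, ∀ k a b, christoffel g y k a b = christoffel g y k b a := fun y hy k a b => by
    simp only [christoffel, hp y hy _ a b, add_comm]
  have htr : ∀ y ∈ U, ∀ a, ∑ k, christoffel g y k k a =
      1 / 2 * ∑ k, ∑ l, (g y)⁻¹ k l * pderiv a (fun y => g y k l) y := fun y hy a => by
    have h : ∑ k, ∑ l, (g y)⁻¹ k l * pderiv k (fun y => g y a l) y =
        ∑ k, ∑ l, (g y)⁻¹ k l * pderiv l (fun y => g y k a) y := by
      rw [Finset.sum_comm]
      exact Finset.sum_congr rfl fun k _ => Finset.sum_congr rfl fun l _ => by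
        rw [hi y hy l k, hp y hy l a k]
    simp only [christoffel, inverseField, ← Finset.mul_sum, mul_add, mul_sub,
      Finset.sum_add_distrib, Finset.sum_sub_distrib, h]
    ring
  have hdet : ∀ y ∈ U, (g y).det ≠ 0 := fun y hy => (hg.posDef y hy).det_pos.ne'
  have c1 : ∀ a b, ContDiffAt ℝ ∞ (fun y => g y a b) x := fun a b => (hg.contDiffOn a b).contDiffAt hU
  have d1 : ∀ a b, DifferentiableAt ℝ (fun y => g y a b) x := fun a b =>
    (c1 a b).differentiableAt (by simp)
  have d2 : ∀ a b, DifferentiableAt ℝ (fun y => (g y)⁻¹ a b) x := fun a b =>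
    ((geo1_contDiffOn_inv g hg.contDiffOn hdet a b).contDiffAt hU).differentiableAt (by simp)
  have d3 : ∀ a b, DifferentiableAt ℝ (fderiv ℝ fun y => g y a b) x := fun a b =>
    ((c1 a b).fderiv_right (m := 1) (WithTop.coe_le_coe.2 (le_top (a := 2)))).differentiableAt (by simp)
  let A : Fin n → Matrix (Fin n) (Fin n) ℝ := fun c => .of fun a b => pderiv c (fun y => g y a b) x
  let B : Fin n → Matrix (Fin n) (Fin n) ℝ := fun c =>
    .of fun a b => pderiv c (fun y => (g y)⁻¹ a b) x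
  have hB : ∀ c, B c = -((g x)⁻¹ * A c * (g x)⁻¹) := fun c => by
    have h : B c * g x + (g x)⁻¹ * A c = 0 := by
      ext a b
      have h1 : (fun y => ∑ l, (g y)⁻¹ a l * g y l b) =ᶠ[𝓝 x]
          fun _ => (1 : Matrix (Fin n) (Fin n) ℝ) a b :=
        mem_of_superset hU fun y hy => by
          change ∑ l, (g y)⁻¹ a l * g y l b = _
          rw [← Matrix.mul_apply, Matrix.nonsing_inv_mul _ (hdet y hy).isUnit]
      have h2 := (HasFDerivAt.fun_sum (u := Finset.univ) fun l _ =>
        (d2 a l).hasFDerivAt.fun_mul (d1 l b).hasFDerivAt).fderiv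
      rw [h1.fderiv_eq, fderiv_fun_const] at h2
      have h3 := DFunLike.congr_fun h2 (EuclideanSpace.single c 1)
      simp only [Pi.zero_apply, ContinuousLinearMap.zero_apply, ContinuousLinearMap.sum_apply,
        ContinuousLinearMap.add_apply, ContinuousLinearMap.smul_apply, smul_eq_mul] at h3
      simp only [Matrix.add_apply, Matrix.mul_apply, Matrix.zero_apply, A, B, Matrix.of_apply,
        pderiv, ← Finset.sum_add_distrib]
      rw [h3]
      exact Finset.sum_congr rfl fun l _ => by ring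
    have h4 : B c = B c * g x * (g x)⁻¹ := by
      rw [Matrix.mul_assoc, Matrix.mul_nonsing_inv _ (hdet x hx).isUnit, Matrix.mul_one]
    rw [h4, eq_neg_of_add_eq_zero_left h, Matrix.neg_mul]
  have key : ∀ a c, pderiv c (fun y => ∑ k, christoffel g y k k a) x =
      1 / 2 * ((B c * A a).trace + ∑ k, ∑ l, (g x)⁻¹ k l *
        fderiv ℝ (fderiv ℝ fun y => g y k l) x (EuclideanSpace.single c 1)
          (EuclideanSpace.single a 1)) := fun a c => by
    rw [geo1_pderiv_congr (mem_of_superset hU fun y hy => htr y hy a), geo1_pderiv_mul]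
    congr 1
    have h2 := (HasFDerivAt.fun_sum (u := Finset.univ) fun k _ =>
      HasFDerivAt.fun_sum (u := Finset.univ) fun l _ => (d2 k l).hasFDerivAt.fun_mul
        ((d3 k l).hasFDerivAt.clm_apply (hasFDerivAt_const (EuclideanSpace.single a (1 : ℝ)) x))).fderiv
    refine (DFunLike.congr_fun h2 (EuclideanSpace.single c 1)).trans ?_
    simp only [ContinuousLinearMap.sum_apply, ContinuousLinearMap.add_apply,
      ContinuousLinearMap.smul_apply, smul_eq_mul, ContinuousLinearMap.comp_zero, zero_add,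
      ContinuousLinearMap.flip_apply, Matrix.trace, Matrix.diag_apply, Matrix.mul_apply, A, B,
      Matrix.of_apply, ← Finset.sum_add_distrib]
    refine Finset.sum_congr rfl fun k _ => Finset.sum_congr rfl fun l _ => ?_
    rw [hp x hx a l k, pderiv, pderiv]
    ring
  have h1 : ∀ k, pderiv k (fun y => christoffel g y k i j) x =
      pderiv k (fun y => christoffel g y k j i) x := fun k =>
    geo1_pderiv_congr (mem_of_superset hU fun y hy => hc y hy k i j) k
  have h2 : (B j * A i).trace = (B i * A j).trace := by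
    rw [hB, hB, Matrix.neg_mul, Matrix.neg_mul, Matrix.trace_neg, Matrix.trace_neg,
      Matrix.mul_assoc _ _ (A i), Matrix.trace_mul_comm, Matrix.mul_assoc _ _ (A j)]
  have h3 : ∀ k l, fderiv ℝ (fderiv ℝ fun y => g y k l) x (EuclideanSpace.single j 1)
      (EuclideanSpace.single i 1) = fderiv ℝ (fderiv ℝ fun y => g y k l) x
        (EuclideanSpace.single i 1) (EuclideanSpace.single j 1) := fun k l =>
    (c1 k l).isSymmSndFDerivAt (by simp; exact WithTop.coe_le_coe.2 (le_top (a := 2))) _ _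
  have h4 : ∑ k, ∑ l, christoffel g x k j l * christoffel g x l k i =
      ∑ k, ∑ l, christoffel g x k i l * christoffel g x l k j := by
    rw [Finset.sum_comm]
    exact Finset.sum_congr rfl fun k _ => Finset.sum_congr rfl fun l _ => by
      rw [hc x hx l j k, hc x hx k l i, mul_comm]
  simp only [ricci, key, h1, h2, h3, h4, hc x hx _ i j]

end Crest.Agent.R202
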