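import Crest.Agent.R202.Geo1
import Crest.Agent.R202.Geo2Aux

/-! # Row 202, Geo2: metrics in radial gauge `g(y) y = y` -/

set_option autoImplicit false
open scoped ContDiff RealInnerProductSpace
open Set Filter Topology MeasureTheory Crest.GeometryTopology.CoordMetric
open Crest.GeometryTopology.ChartCurvature

noncomputable section
namespace Crest.Agent.R202

variable {n : ℕ}

/-- `S = ½ (x·∇) g` and `E = g⁻¹ S` -/
def Smat (g : MetricField n) (x : E n) : Matrix (Fin n) (Fin n) ℝ :=
  Matrix.of fun i j => (1 / 2) * fderiv ℝ (fun y => g y i j) x x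
def Emat (g : MetricField n) (x : E n) : Matrix (Fin n) (Fin n) ℝ := (g x)⁻¹ * Smat g x

/-- radial gauge -/
structure Radial (g : MetricField n) : Prop where
  riem : IsRiemannianOn g univ
  rad : ∀ y : E n, (g y).mulVec (fun i => y i) = fun i => y i

section Local

variable {g : MetricField n} {U : Set (E n)} (hg : IsRiemannianOn g U)
  (hr : ∀ y ∈ U, (g y).mulVec (fun i => y i) = fun i => y i) {x : E n} (hx : x ∈ U)

theorem geo2_S_eq (g : MetricField n) (x : E n) (i j : Fin n) :
    Smat g x i j = (1 / 2) * ∑ l, x l * pderiv l (fun y => g y i j) x := by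
  rw [← geo2_fderiv_eq]; rfl

include hg hx in
theorem geo2_S_symm (i j : Fin n) : Smat g x i j = Smat g x j i := by
  simp only [Smat, Matrix.of_apply, geo2_fd_symm hg hx i j]

include hg hx in
theorem geo2_diff_g (i j : Fin n) : DifferentiableAt ℝ (fun y => g y i j) x :=
  (geo2_contDiffAt hg hx i j).differentiableAt (by simp)

include hg hx in
theorem geo2_diff_S (i j : Fin n) : DifferentiableAt ℝ (fun y => Smat g y i j) x := by
  have h : ContDiffAt ℝ ∞ (fun y => (1 / 2) * fderiv ℝ (fun y => g y i j) y y) x :=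
    contDiffAt_const.mul
      (((geo2_contDiffAt hg hx i j).fderiv_right (m := ∞) (by simp)).clm_apply contDiffAt_id)
  exact h.differentiableAt (by simp)

include hr hx in
theorem geo2_g_x (k : Fin n) : ∑ l, g x k l * x l = x k := congrFun (hr x hx) k

include hg hr hx in
theorem geo2_inv_x (k : Fin n) : ∑ l, x l * (g x)⁻¹ l k = x k := by
  have hu : IsUnit (g x).det := (hg.posDef x hx).det_pos.ne'.isUnit
  have h1 : Matrix.vecMul (fun i => x i) (g x) = fun i => x i := by
    funext i
    rw [← geo2_g_x hr hx i]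
    change ∑ l, x l * g x l i = _
    exact Finset.sum_congr rfl fun l _ => by rw [geo2_symm (hg.posDef x hx) l i, mul_comm]
  have h2 : Matrix.vecMul (fun i => x i) (g x)⁻¹ = fun i => x i := by
    conv_lhs => rw [← h1]
    rw [Matrix.vecMul_vecMul, Matrix.mul_nonsing_inv _ hu, Matrix.vecMul_one]
  exact congrFun h2 k

include hg hr hx in
theorem geo2_contr (j k : Fin n) :
    ∑ l, x l * pderiv j (fun y => g y l k) x = (if j = k then 1 else 0) - g x j k := by
  have h1 : (fun y : E n => ∑ l, g y k l * y l) =ᶠ[𝓝 x] fun y => y k := by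
    filter_upwards [hg.isOpen.mem_nhds hx] with y hy using geo2_g_x hr hy k
  have h2 := geo2_pd_congr j h1
  rw [geo2_pd_contr fun l => geo2_diff_g hg hx k l] at h2
  have h3 : pderiv j (fun y : E n => y k) x = if j = k then 1 else 0 := by
    unfold pderiv
    rw [(geo2_hasFDerivAt_coord k x).fderiv]
    simp [Pi.single_apply, eq_comm]
  rw [← h3, ← h2, geo2_symm (hg.posDef x hx) j k, add_sub_cancel_right]
  exact Finset.sum_congr rfl fun l _ => by rw [geo2_pd_symm hg hx j l k, mul_comm]

include hg hr hx in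
theorem geo2_S_x (i : Fin n) : ∑ j, Smat g x i j * x j = 0 := by
  have h1 : ∑ j, Smat g x i j * x j =
      (1 / 2) * ∑ l, x l * ∑ j, x j * pderiv l (fun y => g y j i) x := by
    simp only [geo2_S_eq, Finset.mul_sum, Finset.sum_mul]
    rw [Finset.sum_comm]
    refine Finset.sum_congr rfl fun l _ => Finset.sum_congr rfl fun j _ => ?_
    rw [geo2_pd_symm hg hx l i j]; ring
  have h2 : ∑ l, x l * g x l i = x i := by
    rw [← geo2_g_x hr hx i]
    exact Finset.sum_congr rfl fun l _ => by rw [geo2_symm (hg.posDef x hx) l i, mul_comm]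
  rw [h1]
  simp only [geo2_contr hg hr hx, mul_sub, Finset.sum_sub_distrib, h2]
  simp

theorem geo2_E_eq (g : MetricField n) (x : E n) (k j : Fin n) :
    Emat g x k j = ∑ m, (g x)⁻¹ k m * Smat g x m j := Matrix.mul_apply

include hg hr hx in
theorem geo2_E_x (k : Fin n) : ∑ j, Emat g x k j * x j = 0 := by
  simp only [geo2_E_eq, Finset.sum_mul]
  rw [Finset.sum_comm]
  refine Finset.sum_eq_zero fun m _ => ?_
  simp only [mul_assoc]
  rw [← Finset.mul_sum, geo2_S_x hg hr hx, mul_zero]

include hg hr hx in
theorem geo2_x_E (j : Fin n) : ∑ k, Emat g x k j * x k = 0 := by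
  simp only [geo2_E_eq, Finset.sum_mul]
  rw [Finset.sum_comm, ← geo2_S_x hg hr hx j]
  refine Finset.sum_congr rfl fun m _ => ?_
  rw [← geo2_inv_x hg hr hx m, Finset.mul_sum, geo2_S_symm hg hx j m]
  exact Finset.sum_congr rfl fun k _ => by ring

include hg hr hx in
theorem geo2_chr_x (k j : Fin n) : ∑ l, christoffel g x k j l * x l = Emat g x k j := by
  have h1 : ∀ m, ∑ l, x l * (pderiv j (fun y => g y l m) x + pderiv l (fun y => g y j m) x -
      pderiv m (fun y => g y j l) x) = 2 * Smat g x m j := by
    intro m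
    have h2 : ∑ l, x l * pderiv m (fun y => g y j l) x = (if j = m then 1 else 0) - g x j m := by
      rw [geo2_symm (hg.posDef x hx) j m, show (if j = m then (1 : ℝ) else 0) =
        if m = j then 1 else 0 by simp only [eq_comm], ← geo2_contr hg hr hx m j]
      exact Finset.sum_congr rfl fun l _ => by rw [geo2_pd_symm hg hx m j l]
    simp only [mul_add, mul_sub, Finset.sum_add_distrib, Finset.sum_sub_distrib]
    rw [h2, geo2_contr hg hr hx, geo2_S_symm hg hx m j, geo2_S_eq]
    ring
  rw [geo2_E_eq]
  calc ∑ l, christoffel g x k j l * x l = ∑ m, (1 / 2) * (g x)⁻¹ k m * ∑ l, x l *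
        (pderiv j (fun y => g y l m) x + pderiv l (fun y => g y j m) x -
          pderiv m (fun y => g y j l) x) := by
        simp only [christoffel, inverseField, Finset.mul_sum, Finset.sum_mul]
        rw [Finset.sum_comm]
        exact Finset.sum_congr rfl fun m _ => Finset.sum_congr rfl fun l _ => by ring
    _ = _ := Finset.sum_congr rfl fun m _ => by rw [h1]; ring

include hg hr hx in
theorem geo2_chr_x' (k j : Fin n) : ∑ l, christoffel g x k l j * x l = Emat g x k j := by
  rw [← geo2_chr_x hg hr hx]
  exact Finset.sum_congr rfl fun l _ => by rw [geo2_chr_symm hg hx]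

include hg hr hx in
theorem geo2_E_ev (k j : Fin n) :
    (fun y => Emat g y k j) =ᶠ[𝓝 x] fun y => ∑ l, christoffel g y k l j * y l := by
  filter_upwards [hg.isOpen.mem_nhds hx] with y hy using (geo2_chr_x' hg hr hy k j).symm

include hg hr hx in
theorem geo2_diff_E (k j : Fin n) : DifferentiableAt ℝ (fun y => Emat g y k j) x :=
  (geo2_E_ev hg hr hx k j).differentiableAt_iff.2
    (geo2_diff_contr fun l => geo2_diff_chr hg hx k l j)

include hg hr hx in
theorem geo2_pd_E (a k j : Fin n) : ∑ l, pderiv a (fun y => christoffel g y k l j) x * x l =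
    pderiv a (fun y => Emat g y k j) x - christoffel g x k a j := by
  rw [geo2_pd_congr a (geo2_E_ev hg hr hx k j), geo2_pd_contr fun l => geo2_diff_chr hg hx k l j]
  ring

include hg hr hx in
theorem geo2_ricci_x (j : Fin n) :
    ∑ i, ricci g x i j * x i = ∑ k, pderiv k (fun y => Emat g y k j) x -
      pderiv j (fun y => (Emat g y).trace) x +
      ∑ k, ∑ l, christoffel g x k k l * Emat g x l j -
      ∑ k, ∑ l, christoffel g x k j l * Emat g x l k := by
  have h1 : ∑ i, (∑ k, pderiv k (fun y => christoffel g y k i j) x) * x i =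
      ∑ k, pderiv k (fun y => Emat g y k j) x - ∑ k, christoffel g x k k j := by
    simp only [Finset.sum_mul]
    rw [Finset.sum_comm, ← Finset.sum_sub_distrib]
    exact Finset.sum_congr rfl fun k _ => geo2_pd_E hg hr hx k k j
  have h2 : ∑ i, pderiv j (fun y => ∑ k, christoffel g y k k i) x * x i =
      pderiv j (fun y => (Emat g y).trace) x - ∑ k, christoffel g x k k j := by
    have h3 : (fun y => (Emat g y).trace) =ᶠ[𝓝 x]
        fun y => ∑ i, (∑ k, christoffel g y k k i) * y i := by
      filter_upwards [hg.isOpen.mem_nhds hx] with y hy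
      simp only [Finset.sum_mul]
      rw [Finset.sum_comm]
      exact Finset.sum_congr rfl fun k _ => (geo2_chr_x hg hr hy k k).symm
    rw [geo2_pd_congr j h3, geo2_pd_contr fun i =>
      DifferentiableAt.fun_sum fun k _ => geo2_diff_chr hg hx k k i]
    ring
  have h3 : ∑ i, (∑ k, ∑ l, christoffel g x k k l * christoffel g x l i j) * x i =
      ∑ k, ∑ l, christoffel g x k k l * Emat g x l j := by
    simp only [Finset.sum_mul]
    rw [Finset.sum_comm]
    refine Finset.sum_congr rfl fun k _ => ?_
    rw [Finset.sum_comm]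
    refine Finset.sum_congr rfl fun l _ => ?_
    rw [← geo2_chr_x' hg hr hx, Finset.mul_sum]
    exact Finset.sum_congr rfl fun i _ => mul_assoc _ _ _
  have h4 : ∑ i, (∑ k, ∑ l, christoffel g x k j l * christoffel g x l k i) * x i =
      ∑ k, ∑ l, christoffel g x k j l * Emat g x l k := by
    simp only [Finset.sum_mul]
    rw [Finset.sum_comm]
    refine Finset.sum_congr rfl fun k _ => ?_
    rw [Finset.sum_comm]
    refine Finset.sum_congr rfl fun l _ => ?_
    rw [← geo2_chr_x hg hr hx, Finset.mul_sum]
    exact Finset.sum_congr rfl fun i _ => mul_assoc _ _ _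
  simp only [ricci, add_mul, sub_mul, Finset.sum_add_distrib, Finset.sum_sub_distrib]
  rw [h1, h2, h3, h4]
  ring

include hg hr hx in
theorem geo2_x_chr (j k : Fin n) : ∑ l, christoffel g x l j k * x l =
    (if j = k then 1 else 0) - g x j k - Smat g x j k := by
  have h1 : ∑ l, christoffel g x l j k * x l = (1 / 2) * ∑ m, x m *
      (pderiv j (fun y => g y k m) x + pderiv k (fun y => g y j m) x -
        pderiv m (fun y => g y j k) x) := by
    simp only [christoffel, inverseField, Finset.mul_sum, Finset.sum_mul]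
    rw [Finset.sum_comm]
    refine Finset.sum_congr rfl fun m _ => ?_
    rw [← geo2_inv_x hg hr hx m, Finset.sum_mul, Finset.mul_sum]
    exact Finset.sum_congr rfl fun l _ => by ring
  have h2 : ∀ a b, ∑ m, x m * pderiv a (fun y => g y b m) x =
      (if a = b then 1 else 0) - g x a b := fun a b => by
    rw [← geo2_contr hg hr hx a b]
    exact Finset.sum_congr rfl fun l _ => by rw [geo2_pd_symm hg hx a b l]
  rw [h1]
  simp only [mul_add, mul_sub, Finset.sum_add_distrib, Finset.sum_sub_distrib]
  rw [h2, h2, geo2_S_eq, geo2_symm (hg.posDef x hx) k j,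
    show (if k = j then (1 : ℝ) else 0) = if j = k then 1 else 0 by simp only [eq_comm]]
  ring

include hg hr hx in
/-- the contracted curvature tensor -/
theorem geo2_riem_x (j k : Fin n) : ∑ l, ∑ i, riemann g x l k i j * x i * x l =
    -(fderiv ℝ (fun y => Smat g y j k) x x + Smat g x j k -
      (Smat g x * (g x)⁻¹ * Smat g x) j k) := by
  have hA := geo2_x_chr hg hr hx
  have ha : ∑ l, ∑ i, pderiv i (fun y => christoffel g y l j k) x * x i * x l =
      -(2 * Smat g x j k) - fderiv ℝ (fun y => Smat g y j k) x x -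
        ∑ l, christoffel g x l j k * x l := by
    have h1 : (fun y => ∑ l, christoffel g y l j k * y l) =ᶠ[𝓝 x]
        fun y => (if j = k then 1 else 0) - g y j k - Smat g y j k := by
      filter_upwards [hg.isOpen.mem_nhds hx] with y hy using geo2_x_chr hg hr hy j k
    have h2 := geo2_fd_contr (fun l => geo2_diff_chr hg hx l j k) x
    have h3 := (((geo2_diff_g hg hx j k).hasFDerivAt.const_sub
      (if j = k then (1 : ℝ) else 0)).fun_sub (geo2_diff_S hg hx j k).hasFDerivAt).fderiv
    rw [h1.fderiv_eq, h3] at h2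
    have h4 : ∑ l, ∑ i, pderiv i (fun y => christoffel g y l j k) x * x i * x l =
        ∑ l, fderiv ℝ (fun y => christoffel g y l j k) x x * x l := by
      refine Finset.sum_congr rfl fun l _ => ?_
      rw [geo2_fderiv_eq, Finset.sum_mul]
      exact Finset.sum_congr rfl fun i _ => by ring
    have h5 : fderiv ℝ (fun y => g y j k) x x = 2 * Smat g x j k := by
      simp only [Smat, Matrix.of_apply]; ring
    simp only [sub_apply, neg_apply, h5] at h2
    rw [h4]
    linarith
  have hb : ∑ l, ∑ i, pderiv j (fun y => christoffel g y l i k) x * x i * x l =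
      -Emat g x j k - ∑ l, christoffel g x l j k * x l := by
    have h1 : (fun y => ∑ l, Emat g y l k * y l) =ᶠ[𝓝 x] fun _ => 0 := by
      filter_upwards [hg.isOpen.mem_nhds hx] with y hy using geo2_x_E hg hr hy k
    have h2 := geo2_pd_congr j h1
    rw [geo2_pd_contr fun l => geo2_diff_E hg hr hx l k] at h2
    have h3 : pderiv j (fun _ : E n => (0 : ℝ)) x = 0 := by simp [pderiv]
    have h4 : ∑ l, ∑ i, pderiv j (fun y => christoffel g y l i k) x * x i * x l =
        ∑ l, pderiv j (fun y => Emat g y l k) x * x l - ∑ l, christoffel g x l j k * x l := by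
      rw [← Finset.sum_sub_distrib]
      refine Finset.sum_congr rfl fun l _ => ?_
      rw [← Finset.sum_mul, geo2_pd_E hg hr hx, sub_mul]
    rw [h4]
    linarith
  have hc : ∑ l, ∑ i, (∑ a, christoffel g x l i a * christoffel g x a j k) * x i * x l = 0 := by
    have h1 : ∀ l, ∑ i, (∑ a, christoffel g x l i a * christoffel g x a j k) * x i * x l =
        ∑ a, christoffel g x a j k * (Emat g x l a * x l) := by
      intro l
      simp only [Finset.sum_mul]
      rw [Finset.sum_comm]
      refine Finset.sum_congr rfl fun a _ => ?_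
      rw [← geo2_chr_x' hg hr hx, Finset.sum_mul, Finset.mul_sum]
      exact Finset.sum_congr rfl fun i _ => by ring
    simp only [h1]
    rw [Finset.sum_comm]
    refine Finset.sum_eq_zero fun a _ => ?_
    rw [← Finset.mul_sum, geo2_x_E hg hr hx, mul_zero]
  have hd : ∑ l, ∑ i, (∑ a, christoffel g x l j a * christoffel g x a i k) * x i * x l =
      Emat g x j k - Smat g x j k - (Smat g x * (g x)⁻¹ * Smat g x) j k := by
    have h1 : ∀ l, ∑ i, (∑ a, christoffel g x l j a * christoffel g x a i k) * x i * x l =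
        ∑ a, christoffel g x l j a * x l * Emat g x a k := by
      intro l
      simp only [Finset.sum_mul]
      rw [Finset.sum_comm]
      refine Finset.sum_congr rfl fun a _ => ?_
      rw [← geo2_chr_x' hg hr hx, Finset.mul_sum]
      exact Finset.sum_congr rfl fun i _ => by ring
    have hu : IsUnit (g x).det := (hg.posDef x hx).det_pos.ne'.isUnit
    have h2 : ∑ a, g x j a * Emat g x a k = Smat g x j k := by
      rw [← Matrix.mul_apply, Emat, ← Matrix.mul_assoc, Matrix.mul_nonsing_inv _ hu, Matrix.one_mul]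
    have h3 : ∑ a, Smat g x j a * Emat g x a k = (Smat g x * (g x)⁻¹ * Smat g x) j k := by
      rw [← Matrix.mul_apply, Emat, ← Matrix.mul_assoc]
    simp only [h1]
    rw [Finset.sum_comm]
    simp only [← Finset.sum_mul, hA, sub_mul, Finset.sum_sub_distrib, h2, h3]
    simp
  simp only [riemann, Finset.sum_sub_distrib, add_mul, sub_mul, Finset.sum_add_distrib]
  rw [ha, hb, hc, hd]
  ring

end Local

/-- differentiate `g_{lk} y^l = y_k`: `x^l ∂ⱼ g_{lk} = δ_{jk} - g_{jk}` -/
theorem Radial.contr {g : MetricField n} (h : Radial g) (x : E n) (j k : Fin n) :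
    ∑ l, x l * pderiv j (fun y => g y l k) x = (if j = k then 1 else 0) - g x j k := by
  exact geo2_contr h.riem (fun y _ => h.rad y) (mem_univ x) j k
theorem Radial.S_mul {g : MetricField n} (h : Radial g) (x : E n) :
    (Smat g x).mulVec (fun i => x i) = 0 := by
  exact funext fun i => geo2_S_x h.riem (fun y _ => h.rad y) (mem_univ x) i
theorem Radial.christoffel_x {g : MetricField n} (h : Radial g) (x : E n) (k j : Fin n) :
    ∑ l, christoffel g x k j l * x l = Emat g x k j := by
  exact geo2_chr_x h.riem (fun y _ => h.rad y) (mem_univ x) k j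
/-- contract the definition with `xⁱ` and use `christoffel_x` at all points `y` -/
theorem Radial.ricci_x {g : MetricField n} (h : Radial g) (x : E n) (j : Fin n) :
    ∑ i, ricci g x i j * x i = ∑ k, pderiv k (fun y => Emat g y k j) x - pderiv j (fun y => (Emat g y).trace) x +
      ∑ k, ∑ l, christoffel g x k k l * Emat g x l j - ∑ k, ∑ l, christoffel g x k j l * Emat g x l k := by
  exact geo2_ricci_x h.riem (fun y _ => h.rad y) (mem_univ x) j
/-- Riccati: `E y = 0` for all `y`, so `xʲ∂ₖEᵏⱼ = -tr E` -/
theorem Radial.ricci_xx {g : MetricField n} (h : Radial g) (x : E n) :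
    ∑ i, ∑ j, ricci g x i j * x i * x j =
      -(Emat g x).trace - (Emat g x * Emat g x).trace - fderiv ℝ (fun y => (Emat g y).trace) x x := by
  have hr : ∀ y ∈ (univ : Set (E n)), (g y).mulVec (fun i => y i) = fun i => y i :=
    fun y _ => h.rad y
  have h0 : ∑ i, ∑ j, ricci g x i j * x i * x j = ∑ j, (∑ i, ricci g x i j * x i) * x j := by
    rw [Finset.sum_comm]
    simp only [Finset.sum_mul]
  have h1 : ∑ j, (∑ k, pderiv k (fun y => Emat g y k j) x) * x j = -(Emat g x).trace := by
    simp only [Finset.sum_mul]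
    rw [Finset.sum_comm, Matrix.trace, ← Finset.sum_neg_distrib]
    refine Finset.sum_congr rfl fun k _ => ?_
    have h2 : (fun y => ∑ l, Emat g y k l * y l) = fun _ => 0 :=
      funext fun y => geo2_E_x h.riem hr (mem_univ y) k
    have h3 := geo2_pd_contr (fun l => geo2_diff_E h.riem hr (mem_univ x) k l) k
    have h4 : pderiv k (fun _ : E n => (0 : ℝ)) x = 0 := by simp [pderiv]
    rw [h2, h4] at h3
    rw [Matrix.diag_apply]
    linarith
  have h2 : ∑ j, pderiv j (fun y => (Emat g y).trace) x * x j =
      fderiv ℝ (fun y => (Emat g y).trace) x x := by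
    rw [geo2_fderiv_eq]
    exact Finset.sum_congr rfl fun j _ => mul_comm _ _
  have h3 : ∑ j, (∑ k, ∑ l, christoffel g x k k l * Emat g x l j) * x j = 0 := by
    simp only [Finset.sum_mul]
    rw [Finset.sum_comm]
    refine Finset.sum_eq_zero fun k _ => ?_
    rw [Finset.sum_comm]
    refine Finset.sum_eq_zero fun l _ => ?_
    simp only [mul_assoc]
    rw [← Finset.mul_sum, geo2_E_x h.riem hr (mem_univ x), mul_zero]
  have h4 : ∑ j, (∑ k, ∑ l, christoffel g x k j l * Emat g x l k) * x j =
      (Emat g x * Emat g x).trace := by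
    simp only [Finset.sum_mul]
    rw [Finset.sum_comm, Matrix.trace]
    refine Finset.sum_congr rfl fun k _ => ?_
    rw [Finset.sum_comm, Matrix.diag_apply, Matrix.mul_apply]
    refine Finset.sum_congr rfl fun l _ => ?_
    rw [← geo2_chr_x' h.riem hr (mem_univ x) k l, Finset.sum_mul]
    exact Finset.sum_congr rfl fun j _ => by ring
  rw [h0]
  simp only [h.ricci_x, add_mul, sub_mul, Finset.sum_add_distrib, Finset.sum_sub_distrib]
  rw [h1, h2, h3, h4]
  ring
/-- Jacobi's formula -/
theorem trace_Emat {g : MetricField n} (hg : IsRiemannianOn g univ) (x : E n) :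
    (Emat g x).trace = (1 / 2) * fderiv ℝ (fun y => Real.log (g y).det) x x := by
  rw [geo2_jacobi (geo2_diff_g hg (mem_univ x)) (hg.posDef x (mem_univ x)).det_pos.ne' x]
  have : Smat g x = (1 / 2 : ℝ) • Matrix.of fun i j => fderiv ℝ (fun y => g y i j) x x := by
    ext i j
    simp [Smat]
  rw [Emat, this, Matrix.mul_smul, Matrix.trace_smul, smul_eq_mul]
/-- With `A_{jk} = x_l Γˡⱼₖ = δ_{jk} - g_{jk} - S_{jk}`: `x_l xⁱ∂ᵢΓˡⱼₖ = XA - A`, `x_l xⁱ ∂ⱼΓˡᵢₖ = -Eʲₖ - A_{jk}`, `x_l xⁱ Γˡᵢₐ = 0`,
`x_l Γˡⱼₐ xⁱΓᵃᵢₖ = A_{ja}Eᵃₖ = Eʲₖ - S_{jk} - (S g⁻¹ S)_{jk}`, `X g = 2S`. -/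
theorem Radial.secNumer_x {g : MetricField n} (h : Radial g) (x w : E n) :
    secNumer g x x w = -(fderiv ℝ (fun y => ∑ j, ∑ k, Smat g y j k * w j * w k) x x +
      ∑ j, ∑ k, Smat g x j k * w j * w k - ∑ j, ∑ k, (Smat g x * (g x)⁻¹ * Smat g x) j k * w j * w k) := by
  have hr : ∀ y ∈ (univ : Set (E n)), (g y).mulVec (fun i => y i) = fun i => y i :=
    fun y _ => h.rad y
  have h1 : secNumer g x x w =
      ∑ j, ∑ k, (∑ l, ∑ i, riemann g x l k i j * x i * x l) * w j * w k := by
    have h2 : ∀ l, ∑ m, g x l m * (∑ k, ∑ i, ∑ j, riemann g x l k i j * w k * x i * w j) * x m =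
        ∑ j, ∑ k, ∑ i, riemann g x l k i j * x i * x l * w j * w k := by
      intro l
      have h3 : ∑ m, g x l m * (∑ k, ∑ i, ∑ j, riemann g x l k i j * w k * x i * w j) * x m =
          (∑ k, ∑ i, ∑ j, riemann g x l k i j * w k * x i * w j) * x l := by
        rw [← geo2_g_x hr (mem_univ x) l, Finset.mul_sum]
        exact Finset.sum_congr rfl fun m _ => by ring
      rw [h3, Finset.sum_comm (γ := Fin n) (f := fun j k => ∑ i, riemann g x l k i j * x i * x l *
        w j * w k), Finset.sum_mul]
      refine Finset.sum_congr rfl fun k _ => ?_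
      rw [Finset.sum_comm, Finset.sum_mul]
      refine Finset.sum_congr rfl fun j _ => ?_
      rw [Finset.sum_mul]
      exact Finset.sum_congr rfl fun i _ => by ring
    unfold secNumer
    simp only [h2, Finset.sum_mul]
    rw [Finset.sum_comm]
    refine Finset.sum_congr rfl fun j _ => ?_
    rw [Finset.sum_comm]
  have h2 : fderiv ℝ (fun y => ∑ j, ∑ k, Smat g y j k * w j * w k) x x =
      ∑ j, ∑ k, fderiv ℝ (fun y => Smat g y j k) x x * w j * w k := by
    have h3 := HasFDerivAt.fun_sum (u := Finset.univ) fun j _ =>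
      HasFDerivAt.fun_sum (u := Finset.univ) fun k _ =>
        ((geo2_diff_S h.riem (mem_univ x) j k).hasFDerivAt.mul_const (w j)).mul_const (w k)
    rw [h3.fderiv]
    simp only [sum_apply, smul_apply, smul_eq_mul]
    exact Finset.sum_congr rfl fun j _ => Finset.sum_congr rfl fun k _ => by ring
  rw [h1, h2]
  simp only [geo2_riem_x h.riem hr (mem_univ x), ← Finset.sum_add_distrib,
    ← Finset.sum_sub_distrib, ← Finset.sum_neg_distrib]
  exact Finset.sum_congr rfl fun j _ => Finset.sum_congr rfl fun k _ => by ring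
/-- strict Cauchy–Schwarz for the positive definite `g x` -/
theorem Radial.gramDet_pos {g : MetricField n} (h : Radial g) {x w : E n} (hx : x ≠ 0)
    (hw : ∀ c : ℝ, w ≠ c • x) : 0 < gramDet g x x w := by
  have hp := h.riem.posDef x (mem_univ x)
  have hq : ∀ v : E n, v ≠ 0 → 0 < quadForm g x v := by
    intro v hv
    have hv' : v.ofLp ≠ 0 := fun h => hv (by ext i; simpa using congrFun h i)
    have h1 := hp.dotProduct_mulVec_pos hv'
    refine h1.trans_eq ?_
    simp only [quadForm, dotProduct, Matrix.mulVec, Finset.mul_sum, Pi.star_apply, star_trivial]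
    exact Finset.sum_congr rfl fun i _ => Finset.sum_congr rfl fun j _ => by ring
  set b := ∑ i, ∑ j, g x i j * x i * w j with hb
  have hb' : ∑ i, ∑ j, g x i j * w i * x j = b := by
    rw [hb, Finset.sum_comm]
    exact Finset.sum_congr rfl fun i _ => Finset.sum_congr rfl fun j _ => by
      rw [geo2_symm hp j i]; ring
  have h1 := hq x hx
  set c := b / quadForm g x x with hc
  have h2 := hq _ (sub_ne_zero.2 (hw c))
  have h3 : quadForm g x (w - c • x) = quadForm g x w - c * b - c * (∑ i, ∑ j, g x i j * w i * x j)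
      + c ^ 2 * quadForm g x x := by
    simp only [quadForm, hb, Finset.mul_sum, ← Finset.sum_sub_distrib, ← Finset.sum_add_distrib,
      PiLp.sub_apply, PiLp.smul_apply, smul_eq_mul]
    exact Finset.sum_congr rfl fun i _ => Finset.sum_congr rfl fun j _ => by ring
  rw [h3, hb'] at h2
  have h4 : gramDet g x x w =
      quadForm g x x * (quadForm g x w - c * b - c * b + c ^ 2 * quadForm g x x) := by
    rw [gramDet, ← hb, hc]
    field_simp
    ring
  rw [h4]
  exact mul_pos h1 h2

/-- the local version for cones: only needs the gauge and smoothness near `x` (apply the identities to the germ; or prove the lemmas above for an open set `U`) -/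
theorem cone_ricci_x {g : MetricField n} {U : Set (E n)} (hg : IsRiemannianOn g U)
    (hr : ∀ y ∈ U, (g y).mulVec (fun i => y i) = fun i => y i)
    (hc : ∀ y ∈ U, ∀ i j, fderiv ℝ (fun z => g z i j) y y = 0) {x : E n} (hx : x ∈ U) (j : Fin n) :
    ∑ i, ricci g x i j * x i = 0 := by
  have hE : ∀ y ∈ U, Emat g y = 0 := by
    intro y hy
    have : Smat g y = 0 := by
      ext i j
      simp [Smat, hc y hy i j]
    rw [Emat, this, Matrix.mul_zero]
  have h0 : ∀ k, pderiv k (fun _ : E n => (0 : ℝ)) x = 0 := fun k => by simp [pderiv]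
  have h1 : ∀ k, pderiv k (fun y => Emat g y k j) x = 0 := fun k => by
    rw [← h0 k]
    refine geo2_pd_congr k ?_
    filter_upwards [hg.isOpen.mem_nhds hx] with y hy
    rw [hE y hy, Matrix.zero_apply]
  have h2 : pderiv j (fun y => (Emat g y).trace) x = 0 := by
    rw [← h0 j]
    refine geo2_pd_congr j ?_
    filter_upwards [hg.isOpen.mem_nhds hx] with y hy
    rw [hE y hy, Matrix.trace_zero]
  rw [geo2_ricci_x hg hr hx, h2, hE x hx]
  simp [h1]

end Crest.Agent.R202
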