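import Crest.Agent.R202.Geo1

/-! # Row 202, Geo3: rotationally symmetric metrics -/

set_option autoImplicit false
open scoped ContDiff RealInnerProductSpace
open Set Filter Topology MeasureTheory Crest.GeometryTopology.CoordMetric
open Crest.GeometryTopology.ChartCurvature

noncomputable section
namespace Crest.Agent.R202

variable {n : ℕ}

/-- Kronecker symbol -/
def g3d (i j : Fin n) : ℝ := if i = j then 1 else 0

lemma g3d_self (i : Fin n) : g3d i i = 1 := by simp [g3d]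
lemma g3d_comm (i j : Fin n) : g3d i j = g3d j i := by simp [g3d, eq_comm]
lemma g3d_sum (i : Fin n) (C : Fin n → ℝ) : ∑ k, g3d k i * C k = C i := by simp [g3d]

lemma g3_sum (y : Fin n → ℝ) (A B : ℝ) (i j m : Fin n) (C D E : Fin n → ℝ) :
    ∑ k, (A + B * (y k * y k) + g3d k i * C k + g3d k j * D k + g3d k m * E k) =
      n * A + B * (∑ k, y k * y k) + C i + D j + E m := by
  simp only [Finset.sum_add_distrib, g3d_sum, ← Finset.mul_sum, Finset.sum_const,
    Finset.card_univ, Fintype.card_fin, nsmul_eq_mul]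

/-- the shape of the Christoffel symbols -/
def g3G (a b c : ℝ) (y : Fin n → ℝ) (k i j : Fin n) : ℝ :=
  a * y k * g3d i j + b * (g3d k i * y j + g3d k j * y i) + c * (y i * y j * y k)

lemma g3_T1 (a b c : ℝ) (y : Fin n → ℝ) (i : Fin n) :
    ∑ k, g3G a b c y k k i = (a + (n + 1) * b + c * ∑ k, y k * y k) * y i := by
  have := g3_sum y (b * y i) (c * y i) i i i (fun k => a * y k) (fun k => b * y k) (fun _ => 0)
  rw [← sub_eq_zero] at this ⊢
  rw [← this]
  congr 1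
  · refine Finset.sum_congr rfl fun k _ => ?_
    simp only [g3G, g3d_self]
    ring
  · ring

lemma g3_T2 (a b c : ℝ) (y : Fin n → ℝ) (i j : Fin n) :
    ∑ l, y l * g3G a b c y l i j = a * (∑ k, y k * y k) * g3d i j +
      (2 * b + c * ∑ k, y k * y k) * (y i * y j) := by
  have := g3_sum y 0 (a * g3d i j + c * (y i * y j)) i j j (fun k => b * y j * y k)
    (fun k => b * y i * y k) (fun _ => 0)
  rw [← sub_eq_zero] at this ⊢
  rw [← this]
  congr 1
  · refine Finset.sum_congr rfl fun k _ => ?_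
    simp only [g3G]
    ring
  · ring

lemma g3_T3 (a b c : ℝ) (y : Fin n → ℝ) (i j : Fin n) :
    ∑ k, ∑ l, g3G a b c y k j l * g3G a b c y l k i =
      2 * a * b * (∑ k, y k * y k) * g3d i j +
      (a ^ 2 + 2 * a * b + 2 * a * c * (∑ k, y k * y k) + (n + 3) * b ^ 2 +
        4 * b * c * (∑ k, y k * y k) + c ^ 2 * (∑ k, y k * y k) ^ 2) * (y i * y j) := by
  set s := ∑ k, y k * y k with hs
  have h1 : ∀ k, ∑ l, g3G a b c y k j l * g3G a b c y l k i =
      (b * g3d k j + c * y j * y k) * (a * g3d k i + c * y k * y i) * s +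
        a * y k * g3G a b c y j k i +
        (b * y j * g3G a b c y k k i + (b * g3d k j + c * y j * y k) * y k * b * y i) +
        (b * g3d k j + c * y j * y k) * y i * b * y k := by
    intro k
    have := g3_sum y 0 ((b * g3d k j + c * y j * y k) * (a * g3d k i + c * y k * y i)) j k i
      (fun l => a * y k * g3G a b c y l k i)
      (fun l => b * y j * g3G a b c y l k i + (b * g3d k j + c * y j * y k) * y l * b * y i)
      (fun l => (b * g3d k j + c * y j * y k) * y l * b * y k)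
    rw [← sub_eq_zero] at this ⊢
    rw [← this]
    congr 1
    · refine Finset.sum_congr rfl fun l _ => ?_
      simp only [g3G, g3d_comm j l, g3d_comm k l]
      ring
    · ring
  simp_rw [h1]
  have := g3_sum y (b ^ 2 * (y i * y j))
    (c ^ 2 * s * (y i * y j) + a * b * g3d i j + a * c * (y i * y j) + 3 * b * c * (y i * y j))
    i j j
    (fun k => a * b * s * g3d k j + a * c * s * y j * y k + a ^ 2 * y k * y j
      + a * b * y j * y k + b ^ 2 * y j * y k)
    (fun k => b * c * s * y k * y i + a * b * y k * y i + 2 * b ^ 2 * y k * y i) (fun _ => 0)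
  rw [← sub_eq_zero] at this ⊢
  rw [← this]
  congr 1
  · refine Finset.sum_congr rfl fun k _ => ?_
    simp only [g3G, g3d_self, g3d_comm j k, g3d_comm j i]
    ring
  · ring

/-- partial derivatives -/
def G3PD (f : E n → ℝ) (x : E n) (d : Fin n → ℝ) : Prop :=
  DifferentiableAt ℝ f x ∧ ∀ k, pderiv k f x = d k

lemma G3PD.add {f g : E n → ℝ} {x : E n} {d e : Fin n → ℝ} (hf : G3PD f x d) (hg : G3PD g x e) :
    G3PD (fun y => f y + g y) x fun k => d k + e k := by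
  refine ⟨hf.1.add hg.1, fun k => ?_⟩
  beta_reduce
  rw [← hf.2 k, ← hg.2 k]
  unfold pderiv
  rw [fderiv_fun_add hf.1 hg.1]
  rfl

lemma G3PD.mul {f g : E n → ℝ} {x : E n} {d e : Fin n → ℝ} (hf : G3PD f x d) (hg : G3PD g x e) :
    G3PD (fun y => f y * g y) x fun k => f x * e k + g x * d k := by
  refine ⟨hf.1.mul hg.1, fun k => ?_⟩
  beta_reduce
  rw [← hf.2 k, ← hg.2 k]
  unfold pderiv
  rw [fderiv_fun_mul hf.1 hg.1]
  rfl

lemma G3PD.const (c : ℝ) (x : E n) : G3PD (fun _ => c) x fun _ => 0 :=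
  ⟨differentiableAt_const c, fun k => by simp [pderiv]⟩

lemma G3PD.coord (i : Fin n) (x : E n) : G3PD (fun y => y i) x fun k => g3d k i := by
  have h : HasFDerivAt (fun y : E n => y i) (EuclideanSpace.proj i : E n →L[ℝ] ℝ) x :=
    (EuclideanSpace.proj i : E n →L[ℝ] ℝ).hasFDerivAt
  refine ⟨h.differentiableAt, fun k => ?_⟩
  unfold pderiv
  rw [h.fderiv]
  simp [g3d, eq_comm]

lemma g3_exp {x : E n} (hx : x ≠ 0) :
    Real.exp (-2 * Real.log ‖x‖) * ∑ k, x k * x k = 1 := by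
  have h0 : 0 < ‖x‖ := norm_pos_iff.2 hx
  have h1 : ∑ k, x k * x k = ‖x‖ ^ 2 := by
    rw [EuclideanSpace.real_norm_sq_eq]
    exact Finset.sum_congr rfl fun k _ => (sq _).symm
  have h2 : ‖x‖ ^ 2 = Real.exp (2 * Real.log ‖x‖) := by
    rw [two_mul, Real.exp_add, Real.exp_log h0, sq]
  rw [h1, h2, ← Real.exp_add]
  simp

lemma G3PD.radial {f : ℝ → ℝ} {f' : ℝ} {x : E n} (hx : x ≠ 0) (hf : HasDerivAt f f' (Real.log ‖x‖)) :
    G3PD (fun y => f (Real.log ‖y‖)) x fun k => f' * Real.exp (-2 * Real.log ‖x‖) * x k := by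
  have h0 : 0 < ‖x‖ := norm_pos_iff.2 hx
  have h1 := (hasStrictFDerivAt_norm_sq x).hasFDerivAt
  have h2 := (h1.log (by positivity : ‖x‖ ^ 2 ≠ 0)).const_mul (1 / 2 : ℝ)
  have e : (fun y : E n => 1 / 2 * Real.log (‖y‖ ^ 2)) = fun y => Real.log ‖y‖ := by
    funext y
    rw [Real.log_pow]
    push_cast
    ring
  rw [e] at h2
  have h3 := hf.comp_hasFDerivAt x h2
  refine ⟨h3.differentiableAt, fun k => ?_⟩
  unfold pderiv
  have h4 : fderiv ℝ (fun y : E n => f (Real.log ‖y‖)) x = _ := h3.fderiv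
  rw [h4]
  have h5 : Real.exp (-2 * Real.log ‖x‖) = (‖x‖ ^ 2)⁻¹ := by
    rw [neg_mul, Real.exp_neg, two_mul, Real.exp_add, Real.exp_log h0, sq]
  rw [h5]
  simp [EuclideanSpace.inner_single_right]
  ring

/-- the explicit metric -/
def g3g (l : ℝ → ℝ) : MetricField n := fun y => Matrix.of fun i j =>
  Real.exp (2 * l (Real.log ‖y‖)) * g3d i j +
    (1 - Real.exp (2 * l (Real.log ‖y‖))) * Real.exp (-2 * Real.log ‖y‖) * (y i * y j)

lemma g3_mul {F F' u : ℝ} {y : Fin n → ℝ} (hF : F' * F = 1) (hu : u * ∑ k, y k * y k = 1) :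
    (Matrix.of fun i j => F' * g3d i j + (1 - F') * u * (y i * y j)) *
      (Matrix.of fun i j => F * g3d i j + (1 - F) * u * (y i * y j)) = 1 := by
  ext i j
  rw [Matrix.mul_apply, Matrix.one_apply]
  have := g3_sum y 0 ((1 - F') * u * y i * ((1 - F) * u * y j)) i j j
    (fun k => F' * (F * g3d k j + (1 - F) * u * (y k * y j)))
    (fun k => (1 - F') * u * (y i * y k) * F) (fun _ => 0)
  have e : ∑ k, (Matrix.of fun i j => F' * g3d i j + (1 - F') * u * (y i * y j)) i k *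
      (Matrix.of fun i j => F * g3d i j + (1 - F) * u * (y i * y j)) k j = _ :=
    Eq.trans (Finset.sum_congr rfl fun k _ => by
      simp only [Matrix.of_apply, g3d_comm i k]; ring) this
  rw [e]
  change _ = g3d i j
  linear_combination (g3d i j - u * (y i * y j)) * hF +
    (1 - F') * (1 - F) * u * (y i * y j) * hu

lemma g3_expF (a : ℝ) : Real.exp (-2 * a) * Real.exp (2 * a) = 1 := by
  rw [← Real.exp_add]; simp

lemma g3_metric (l : ℝ → ℝ) {y : E n} (hy : y ≠ 0) :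
    metric l (fun _ => (0 : BB n)) y = g3g l y := by
  have h0 : 0 < ‖y‖ := norm_pos_iff.2 hy
  have h5 : Real.exp (-2 * Real.log ‖y‖) = ‖y‖⁻¹ * ‖y‖⁻¹ := by
    rw [neg_mul, Real.exp_neg, two_mul, Real.exp_add, Real.exp_log h0, mul_inv]
  have hb : bmat (0 : BB n) y = 0 := by
    ext i j
    simp [bmat]
  have ho : om (0 : Matrix (Fin n) (Fin n) ℝ) = 1 := by
    simp only [om, add_zero, Matrix.det_one]
    rw [max_eq_left (by norm_num), Real.one_rpow]
  unfold metric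
  refine Matrix.inv_eq_right_inv ?_
  rw [← g3_mul (g3_expF (l (Real.log ‖y‖))) (g3_exp hy)]
  congr 1
  ext i j
  rw [hb, Amat, ho, h5]
  simp only [Matrix.add_apply, Matrix.vecMulVec_apply, Matrix.smul_apply, Matrix.sub_apply,
    Matrix.one_apply, Matrix.of_apply, PiLp.smul_apply, smul_eq_mul, g3d, Matrix.zero_apply]
  ring

lemma g3_inv (l : ℝ → ℝ) {y : E n} (hy : y ≠ 0) (i j : Fin n) :
    inverseField (g3g l) y i j = Real.exp (-2 * l (Real.log ‖y‖)) * g3d i j +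
      (1 - Real.exp (-2 * l (Real.log ‖y‖))) * Real.exp (-2 * Real.log ‖y‖) * (y i * y j) := by
  have h : (g3g l y)⁻¹ = _ :=
    Matrix.inv_eq_left_inv (g3_mul (g3_expF (l (Real.log ‖y‖))) (g3_exp hy))
  unfold inverseField
  rw [h]
  rfl

def g3a (l : ℝ → ℝ) (t : ℝ) : ℝ :=
  (1 - Real.exp (2 * l t) - Real.exp (2 * l t) * deriv l t) * Real.exp (-2 * t)
def g3b (l : ℝ → ℝ) (t : ℝ) : ℝ := deriv l t * Real.exp (-2 * t)
def g3c (l : ℝ → ℝ) (t : ℝ) : ℝ := -(g3a l t + 2 * g3b l t) * Real.exp (-2 * t)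

lemma g3_hu (t : ℝ) : HasDerivAt (fun t => Real.exp (-2 * t)) (-2 * Real.exp (-2 * t)) t := by
  have := ((hasDerivAt_id t).const_mul (-2 : ℝ)).exp
  simp only [id, mul_one] at this
  rw [mul_comm]
  exact this

lemma g3_hF {l : ℝ → ℝ} {t : ℝ} (hl : DifferentiableAt ℝ l t) :
    HasDerivAt (fun t => Real.exp (2 * l t)) (2 * deriv l t * Real.exp (2 * l t)) t := by
  have := (hl.hasDerivAt.const_mul (2 : ℝ)).exp
  rw [mul_comm]
  exact this

lemma g3_christoffel {l : ℝ → ℝ} {y : E n} (hy : y ≠ 0) (hl : DifferentiableAt ℝ l (Real.log ‖y‖))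
    (k i j : Fin n) : christoffel (g3g l) y k i j =
      g3G (g3a l (Real.log ‖y‖)) (g3b l (Real.log ‖y‖)) (g3c l (Real.log ‖y‖)) y k i j := by
  have hF := G3PD.radial hy (g3_hF hl)
  have hG := G3PD.radial hy (((g3_hF hl).const_sub 1).mul (g3_hu _))
  have hg : ∀ i j m, pderiv m (fun z => g3g l z i j) y = _ := fun i j m =>
    ((hF.mul (G3PD.const (g3d i j) y)).add (hG.mul ((G3PD.coord i y).mul (G3PD.coord j y)))).2 m
  unfold christoffel
  simp only [hg, g3_inv l hy, g3G, g3a, g3b, g3c, Pi.mul_apply]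
  have hu := g3_exp hy
  have hF' := g3_expF (l (Real.log ‖y‖))
  set F := Real.exp (2 * l (Real.log ‖y‖))
  set F' := Real.exp (-2 * l (Real.log ‖y‖))
  set u := Real.exp (-2 * Real.log ‖y‖)
  set l' := deriv l (Real.log ‖y‖)
  set F₁ := 2 * l' * F * u with hF₁
  set G₁ := (-(2 * l' * F) * u + (1 - F) * (-2 * u)) * u with hG₁
  have := g3_sum y 0 ((1 - F') * u * y k * (-F₁ * g3d i j + G₁ * (y i * y j) +
      2 * ((1 - F) * u) * g3d i j)) k j i
    (fun m => F' * (F₁ * (y i * g3d j m + y j * g3d i m - y m * g3d i j) +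
      G₁ * (y i * y j * y m) + 2 * ((1 - F) * u) * g3d i j * y m))
    (fun m => (1 - F') * u * (y k * y m) * F₁ * y i)
    (fun m => (1 - F') * u * (y k * y m) * F₁ * y j)
  rw [Eq.trans (Finset.sum_congr rfl fun m _ => by
    simp only [g3d_comm k m, g3d_comm j m, g3d_comm i m, g3d_comm j i]; ring) this]
  have hF0 : F ≠ 0 := (Real.exp_pos _).ne'
  have hu0 : u ≠ 0 := (Real.exp_pos _).ne'
  rw [eq_inv_of_mul_eq_one_right hu, eq_inv_of_mul_eq_one_left hF', hF₁, hG₁, g3d_comm j k,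
    g3d_comm i k]
  field_simp
  ring

lemma g3_div {A B C : E n → ℝ} {a₁ b₁ c₁ : ℝ} {x : E n} (pa : G3PD A x fun k => a₁ * x k)
    (pb : G3PD B x fun k => b₁ * x k) (pc : G3PD C x fun k => c₁ * x k) (i j : Fin n) :
    ∑ k, pderiv k (fun y => g3G (A y) (B y) (C y) y k i j) x =
      (a₁ * (∑ k, x k * x k) + n * A x + 2 * B x) * g3d i j +
        (2 * b₁ + c₁ * (∑ k, x k * x k) + (n + 2) * C x) * (x i * x j) := by
  have h1 : ∀ k, pderiv k (fun y => g3G (A y) (B y) (C y) y k i j) x = _ := fun k =>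
    ((((pa.mul (G3PD.coord k x)).mul (G3PD.const (g3d i j) x)).add
      (pb.mul (((G3PD.const (g3d k i) x).mul (G3PD.coord j x)).add
        ((G3PD.const (g3d k j) x).mul (G3PD.coord i x))))).add
      (pc.mul (((G3PD.coord i x).mul (G3PD.coord j x)).mul (G3PD.coord k x)))).2 k
  have := g3_sum x (A x * g3d i j + C x * (x i * x j)) (a₁ * g3d i j + c₁ * (x i * x j)) i j j
    (fun k => 2 * B x * g3d k j + b₁ * x k * x j + C x * x j * x k)
    (fun k => b₁ * x k * x i + C x * x i * x k) (fun _ => 0)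
  rw [Eq.trans (Finset.sum_congr rfl fun k _ => by simp only [h1, g3d_self]; ring) this]
  ring

lemma g3_ricci {l : ℝ → ℝ} {x : E n} (hx : x ≠ 0) (hl : ContDiffAt ℝ 2 l (Real.log ‖x‖))
    (i j : Fin n) : ricci (g3g l) x i j =
      Real.exp (-2 * Real.log ‖x‖) * (Real.exp (2 * l (Real.log ‖x‖)) *
            (-deriv l (Real.log ‖x‖) - deriv l (Real.log ‖x‖) ^ 2 - deriv (deriv l) (Real.log ‖x‖)) +
          ((n : ℝ) - 2) * (1 - Real.exp (2 * l (Real.log ‖x‖)) * (1 + deriv l (Real.log ‖x‖)) ^ 2)) *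
          (g3d i j - Real.exp (-2 * Real.log ‖x‖) * (x i * x j)) +
      Real.exp (-2 * Real.log ‖x‖) ^ 2 * (((n : ℝ) - 1) *
        (-deriv l (Real.log ‖x‖) - deriv l (Real.log ‖x‖) ^ 2 - deriv (deriv l) (Real.log ‖x‖))) *
        (x i * x j) := by
  have hc : ContinuousAt (fun y : E n => Real.log ‖y‖) x :=
    continuous_norm.continuousAt.log (norm_ne_zero_iff.2 hx)
  have hev : ∀ᶠ y in 𝓝 x, y ≠ 0 ∧ DifferentiableAt ℝ l (Real.log ‖y‖) := by
    refine Filter.Eventually.and (isOpen_ne.mem_nhds hx) (hc.eventually (p := fun t =>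
      DifferentiableAt ℝ l t) ?_)
    exact (hl.eventually (by simp)).mono fun t ht => ht.differentiableAt (by simp)
  have hd : DifferentiableAt ℝ l (Real.log ‖x‖) := hl.differentiableAt (by simp)
  have hd2 : HasDerivAt (deriv l) (deriv (deriv l) (Real.log ‖x‖)) (Real.log ‖x‖) :=
    ((hl.derivWithin (m := 1) (by norm_num)).differentiableAt (by simp)).hasDerivAt
  have ha : HasDerivAt (g3a l) _ _ :=
    (((g3_hF hd).const_sub 1).sub ((g3_hF hd).mul hd2)).mul (g3_hu _)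
  have hb : HasDerivAt (g3b l) _ _ := hd2.mul (g3_hu _)
  have hcc : HasDerivAt (g3c l) _ _ := (ha.add (hb.const_mul 2)).neg.mul (g3_hu _)
  have pa := G3PD.radial hx ha
  have pb := G3PD.radial hx hb
  have pc := G3PD.radial hx hcc
  have h1 : ∀ k, pderiv k (fun y => christoffel (g3g l) y k i j) x = pderiv k (fun y : E n =>
      g3G (g3a l (Real.log ‖y‖)) (g3b l (Real.log ‖y‖)) (g3c l (Real.log ‖y‖)) y k i j) x := by
    intro k
    have e : (fun y => christoffel (g3g l) y k i j) =ᶠ[𝓝 x] fun y : E n =>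
        g3G (g3a l (Real.log ‖y‖)) (g3b l (Real.log ‖y‖)) (g3c l (Real.log ‖y‖)) y k i j :=
      hev.mono fun y hy => g3_christoffel hy.1 hy.2 k i j
    unfold pderiv
    rw [e.fderiv_eq]
  have hT : ∀ y : E n, y ≠ 0 → ∀ m,
      ∑ k, g3G (g3a l (Real.log ‖y‖)) (g3b l (Real.log ‖y‖)) (g3c l (Real.log ‖y‖)) y k k m =
        ((n : ℝ) - 1) * g3b l (Real.log ‖y‖) * y m := by
    intro y hy m
    rw [g3_T1, g3c]
    linear_combination (-(g3a l (Real.log ‖y‖) + 2 * g3b l (Real.log ‖y‖)) * y m) * g3_exp hy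
  have h2 : pderiv j (fun y => ∑ k, christoffel (g3g l) y k k i) x = pderiv j (fun y : E n =>
      ((n : ℝ) - 1) * g3b l (Real.log ‖y‖) * y i) x := by
    have e : (fun y => ∑ k, christoffel (g3g l) y k k i) =ᶠ[𝓝 x] fun y : E n =>
        ((n : ℝ) - 1) * g3b l (Real.log ‖y‖) * y i :=
      hev.mono fun y hy => by
        simp only [g3_christoffel hy.1 hy.2]
        exact hT y hy.1 i
    unfold pderiv
    rw [e.fderiv_eq]
  have h2' := (((G3PD.const ((n : ℝ) - 1) x).mul pb).mul (G3PD.coord i x)).2 j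
  have h3 : ∑ k, ∑ m, christoffel (g3g l) x k k m * christoffel (g3g l) x m i j =
      ((n : ℝ) - 1) * g3b l (Real.log ‖x‖) * ∑ m, x m *
        g3G (g3a l (Real.log ‖x‖)) (g3b l (Real.log ‖x‖)) (g3c l (Real.log ‖x‖)) x m i j := by
    rw [Finset.sum_comm, Finset.mul_sum]
    refine Finset.sum_congr rfl fun m _ => ?_
    simp only [g3_christoffel hx hd]
    rw [← Finset.sum_mul, hT x hx, mul_assoc]
  unfold ricci
  rw [h2, h2', h3, g3_T2]
  simp only [h1, g3_christoffel hx hd, g3_T3]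
  rw [g3_div pa pb pc, eq_inv_of_mul_eq_one_right (g3_exp hx), g3d_comm j i]
  simp only [g3a, g3b, g3c, Pi.sub_apply, Pi.mul_apply, Pi.add_apply, Pi.neg_apply]
  have hu0 : Real.exp (-2 * Real.log ‖x‖) ≠ 0 := (Real.exp_pos _).ne'
  generalize Real.exp (-2 * Real.log ‖x‖) = u at hu0 ⊢
  field_simp
  ring

/-- `metric l 0 y = F δ + (1-F) ŷŷᵀ`, `F = e^{2 l(log|y|)}`, for `y ≠ 0`.  In terms of `s = |y|²`: `g_{ij} = F δ_{ij} + G yᵢyⱼ`, `G = (1-F)/s`, `g^{ij} = δ_{ij}/F + (1-1/F) yᵢyⱼ/s`;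
`Γᵏᵢⱼ = α yₖδᵢⱼ + β(δₖᵢyⱼ + δₖⱼyᵢ) + γ yᵢyⱼyₖ` with `β = l'/s`, `α = (1 - F - F l')/s`, `γ = -(α + 2β)/s` (`l' = deriv l (log|y|)`), valid on the open set `y ≠ 0`; then differentiate
(`∂ₖ log|y| = yₖ/s`) and collect: `ricci = a δ + c xxᵀ`.  Check: `φ = r f`, `-r²φ''/φ = ζ(1-ζ)+ζ'`, `ζ = -l'`. -/
theorem ricci_warped (l : ℝ → ℝ) {x : E n} (hx : x ≠ 0) (hl : ContDiffAt ℝ 2 l (Real.log ‖x‖)) (v : E n) :
    ‖x‖ ^ 2 * ∑ i, ∑ j, ricci (metric l fun _ => (0 : BB n)) x i j * v i * v j =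
      ((n : ℝ) - 1) * (-deriv l (Real.log ‖x‖) - deriv l (Real.log ‖x‖) ^ 2 - deriv (deriv l) (Real.log ‖x‖)) *
          (⟪x, v⟫ / ‖x‖) ^ 2 +
        (Real.exp (2 * l (Real.log ‖x‖)) *
            (-deriv l (Real.log ‖x‖) - deriv l (Real.log ‖x‖) ^ 2 - deriv (deriv l) (Real.log ‖x‖)) +
          ((n : ℝ) - 2) * (1 - Real.exp (2 * l (Real.log ‖x‖)) * (1 + deriv l (Real.log ‖x‖)) ^ 2)) *
          (‖v‖ ^ 2 - (⟪x, v⟫ / ‖x‖) ^ 2) := by
  have h0 : 0 < ‖x‖ := norm_pos_iff.2 hx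
  have he : (metric l fun _ => (0 : BB n)) =ᶠ[𝓝 x] g3g l :=
    Filter.Eventually.mono (isOpen_ne.mem_nhds hx) fun y hy => g3_metric l hy
  have h5 : Real.exp (-2 * Real.log ‖x‖) = (‖x‖ ^ 2)⁻¹ := by
    rw [neg_mul, Real.exp_neg, two_mul, Real.exp_add, Real.exp_log h0, sq]
  have hv : ‖v‖ ^ 2 = ∑ i, v i * v i := by
    rw [EuclideanSpace.real_norm_sq_eq]
    exact Finset.sum_congr rfl fun k _ => sq _
  have hi : ⟪x, v⟫ = ∑ i, x i * v i := by
    simp [PiLp.inner_apply, mul_comm]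
  have key : ∀ P Q : ℝ, ∑ i, ∑ j, (P * g3d i j + Q * (x i * x j)) * v i * v j =
      P * ‖v‖ ^ 2 + Q * ⟪x, v⟫ ^ 2 := by
    intro P Q
    rw [hv, hi, sq, Finset.sum_mul_sum, Finset.mul_sum, Finset.mul_sum, ← Finset.sum_add_distrib]
    refine Finset.sum_congr rfl fun i _ => ?_
    rw [Finset.mul_sum, ← g3d_sum i (fun j => P * (v i * v j)), ← Finset.sum_add_distrib]
    refine Finset.sum_congr rfl fun j _ => ?_
    rw [g3d_comm j i]
    ring
  simp only [ricci_congr he, g3_ricci hx hl]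
  set P := Real.exp (2 * l (Real.log ‖x‖)) *
      (-deriv l (Real.log ‖x‖) - deriv l (Real.log ‖x‖) ^ 2 - deriv (deriv l) (Real.log ‖x‖)) +
    ((n : ℝ) - 2) * (1 - Real.exp (2 * l (Real.log ‖x‖)) * (1 + deriv l (Real.log ‖x‖)) ^ 2)
  set Q := ((n : ℝ) - 1) *
    (-deriv l (Real.log ‖x‖) - deriv l (Real.log ‖x‖) ^ 2 - deriv (deriv l) (Real.log ‖x‖))
  set u := Real.exp (-2 * Real.log ‖x‖)
  rw [Eq.trans (Finset.sum_congr rfl fun i _ => Finset.sum_congr rfl fun j _ => by ring)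
    (key (u * P) (u ^ 2 * (Q - P))), h5]
  field_simp
  ring

end Crest.Agent.R202
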