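import Crest.Agent.R202.Geo2
import Crest.Agent.R202.Forms1

/-! # Row 202, Geo4: basic properties of `metric`; distance, completeness, volume -/

set_option autoImplicit false
open scoped ContDiff RealInnerProductSpace
open Set Filter Topology MeasureTheory Crest.GeometryTopology.CoordMetric
open Crest.GeometryTopology.ChartCurvature

noncomputable section
namespace Crest.Agent.R202

variable {n : ℕ}

theorem LocFin.contDiff {B : Type*} [NormedAddCommGroup B] [NormedSpace ℝ B] {b : ℝ → B} (h : LocFin b) :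
    ContDiff ℝ ∞ b := by
  refine contDiff_iff_contDiffAt.2 fun t => ?_
  obtain ⟨I, c, v, hc, hb⟩ := h (t + 1)
  have h1 : ContDiff ℝ ∞ fun s => ∑ k, c k s • v k :=
    ContDiff.sum fun k _ => (hc k).smul contDiff_const
  refine h1.contDiffAt.congr_of_eventuallyEq ?_
  filter_upwards [Iio_mem_nhds (lt_add_one t)] with s hs using hb s hs

/-- `Amat x l (bmat b x) = x̂x̂ᵀ + e^{-2l} H_b(x̂)` -/
theorem Amat_eq (b : BB n) (l : ℝ) (x : Sp n) {r : ℝ} (hr : 0 < r) :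
    Amat (r • (x : E n)) l (bmat b (r • (x : E n))) =
      Matrix.vecMulVec (fun i => (x : E n) i) (fun i => (x : E n) i) + Real.exp (-2 * l) • (HX (iota b)).at x := by
  have h1 : ‖r • (x : E n)‖⁻¹ • (r • (x : E n)) = x := by
    rw [norm_smul, Sp.norm_eq, mul_one, Real.norm_of_nonneg hr.le, smul_smul,
      inv_mul_cancel₀ hr.ne', one_smul]
  have h2 : bmat b (r • (x : E n)) = (iota b).at x := by
    ext i j
    simp [bmat, X.at, W.homog _ hr]
  unfold Amat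
  rw [h1, h2]
  congr 1
  ext i j
  simp only [Matrix.smul_apply, Matrix.sub_apply, Matrix.add_apply, Matrix.one_apply,
    Matrix.vecMulVec_apply, X.at, Matrix.of_apply, HX_apply, PiX, ContinuousMap.coe_mk, smul_eq_mul]
  ring

lemma geo4a_polar {x : E n} (hx : x ≠ 0) : ∃ (r : ℝ) (y : Sp n), 0 < r ∧ x = r • (y : E n) :=
  ⟨‖x‖, ⟨‖x‖⁻¹ • x, by simp [norm_smul, hx]⟩, norm_pos_iff.2 hx, by
    simp [smul_smul, hx]⟩

lemma geo4a_dot_self (v : E n) : (fun i => v i) ⬝ᵥ (fun i => v i) = ‖v‖ ^ 2 := by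
  rw [EuclideanSpace.real_norm_sq_eq]
  simp [dotProduct, sq]

lemma geo4a_unit (y : Sp n) : (fun i => (y : E n) i) ⬝ᵥ (fun i => (y : E n) i) = 1 := by
  rw [geo4a_dot_self, Sp.norm_eq]; norm_num

lemma geo4a_om_zero : om (0 : Matrix (Fin n) (Fin n) ℝ) = 1 := by
  unfold om
  rw [add_zero, Matrix.det_one, max_eq_left (by norm_num), Real.one_rpow]

lemma geo4a_bmat_zero (b : BB n) : bmat b (0 : E n) = 0 := by
  ext i j; simp [bmat]

lemma geo4a_Amat_zero (b : BB n) (l : ℝ) :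
    Amat (0 : E n) l (bmat b 0) = Real.exp (-2 * l) • (1 : Matrix (Fin n) (Fin n) ℝ) := by
  unfold Amat
  rw [geo4a_bmat_zero, geo4a_om_zero]
  ext i j
  simp [Matrix.vecMulVec_apply]

lemma geo4a_symm (b : BB n) (l : ℝ) (x : E n) :
    (Amat x l (bmat b x)).transpose = Amat x l (bmat b x) := by
  ext i j
  simp only [Amat, Matrix.transpose_apply, Matrix.add_apply, Matrix.smul_apply, Matrix.sub_apply,
    Matrix.vecMulVec_apply, Matrix.one_apply, smul_eq_mul]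
  have h1 : bmat b x j i = bmat b x i j := by simp [bmat, b.symm j i]
  have h2 : (if j = i then (1 : ℝ) else 0) = if i = j then 1 else 0 := by simp [eq_comm]
  rw [h1, h2]
  ring

lemma geo4a_dot_symm {A : Matrix (Fin n) (Fin n) ℝ} (hA : A.transpose = A) (u v : Fin n → ℝ) :
    u ⬝ᵥ A.mulVec v = v ⬝ᵥ A.mulVec u := by
  rw [Matrix.dotProduct_mulVec, ← Matrix.mulVec_transpose, hA, dotProduct_comm]

/-- two-sided bounds for the quadratic form of `Amat` -/
lemma geo4a_quad (hn : 2 ≤ n) {ε : ℝ} (h : Good n ε) {b : BB n} (hb : ‖b‖ < ε) (l : ℝ) (x : E n)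
    {lo hi : ℝ} (h1 : lo ≤ 1) (h2 : lo ≤ Real.exp (-2 * l) / 3) (h3 : 1 ≤ hi)
    (h4 : 3 * Real.exp (-2 * l) ≤ hi) (ξ : Fin n → ℝ) :
    lo * (ξ ⬝ᵥ ξ) ≤ ξ ⬝ᵥ (Amat x l (bmat b x)).mulVec ξ ∧
      ξ ⬝ᵥ (Amat x l (bmat b x)).mulVec ξ ≤ hi * (ξ ⬝ᵥ ξ) := by
  have hc : 0 < Real.exp (-2 * l) := Real.exp_pos _
  have hnn : ∀ η : Fin n → ℝ, 0 ≤ η ⬝ᵥ η := fun η => Finset.sum_nonneg fun i _ => mul_self_nonneg _
  by_cases hx : x = 0
  · subst hx
    rw [geo4a_Amat_zero, Matrix.smul_mulVec, Matrix.one_mulVec, dotProduct_smul, smul_eq_mul]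
    have := hnn ξ
    constructor <;> nlinarith
  obtain ⟨r, y, hr, rfl⟩ := geo4a_polar hx
  rw [Amat_eq b l y hr]
  set c := Real.exp (-2 * l)
  set H := (HX (iota b)).at y with hH
  set u : Fin n → ℝ := fun i => (y : E n) i with hu
  have huu : u ⬝ᵥ u = 1 := geo4a_unit y
  have hHu : H.mulVec u = 0 := HX_tang b y
  have hHs : H.transpose = H := by
    ext i j; simp [hH, X.at, HX_symm b j i]
  set a := ξ ⬝ᵥ u with ha
  set η := ξ - a • u with hη
  have hηu : η ⬝ᵥ u = 0 := by rw [hη, sub_dotProduct, smul_dotProduct, huu, smul_eq_mul]; ring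
  have hξ : ξ = η + a • u := by rw [hη]; abel
  have e1 : ξ ⬝ᵥ ξ = a ^ 2 + η ⬝ᵥ η := by
    conv_lhs => rw [hξ]
    rw [add_dotProduct, dotProduct_add, dotProduct_add, dotProduct_smul, smul_dotProduct,
      smul_dotProduct, dotProduct_smul, dotProduct_comm u η, hηu, huu]
    simp only [smul_eq_mul]; ring
  have e2 : ξ ⬝ᵥ H.mulVec ξ = η ⬝ᵥ H.mulVec η := by
    have e3 : H.mulVec ξ = H.mulVec η := by
      conv_lhs => rw [hξ]
      rw [Matrix.mulVec_add, Matrix.mulVec_smul, hHu, smul_zero, add_zero]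
    rw [e3, geo4a_dot_symm hHs, e3]
  have e4 : ξ ⬝ᵥ (Matrix.vecMulVec u u + c • H).mulVec ξ = a ^ 2 + c * (η ⬝ᵥ H.mulVec η) := by
    rw [Matrix.add_mulVec, Matrix.smul_mulVec, dotProduct_add, dotProduct_smul, e2,
      Matrix.vecMulVec_mulVec, op_smul_eq_smul, dotProduct_smul, dotProduct_comm u ξ, ← ha]
    simp only [smul_eq_mul]; ring
  obtain ⟨k1, k2⟩ := HX_coer hn h hb y η hηu
  rw [e4, e1]
  have k3 := hnn η
  have k4 := sq_nonneg a
  have k5 := mul_le_mul_of_nonneg_left k1 hc.le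
  have k6 := mul_le_mul_of_nonneg_left k2 hc.le
  constructor <;> nlinarith

theorem Amat_posDef (hn : 2 ≤ n) {ε : ℝ} (h : Good n ε) {b : BB n} (hb : ‖b‖ < ε) (l : ℝ) (x : E n) :
    (Amat x l (bmat b x)).PosDef := by
  refine Matrix.PosDef.of_dotProduct_mulVec_pos ?_ fun ξ hξ => ?_
  · rw [Matrix.IsHermitian, Matrix.conjTranspose_eq_transpose_of_trivial, geo4a_symm]
  · have hc : 0 < Real.exp (-2 * l) := Real.exp_pos _
    have h1 := (geo4a_quad hn h hb l x (min_le_left 1 _) (min_le_right _ _) (le_max_left 1 _)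
      (le_max_right _ _) ξ).1
    have h2 : 0 < ξ ⬝ᵥ ξ := by
      refine lt_of_le_of_ne (Finset.sum_nonneg fun i _ => mul_self_nonneg _) fun h0 => hξ ?_
      exact dotProduct_self_eq_zero.1 h0.symm
    have h3 : 0 < min 1 (Real.exp (-2 * l) / 3) := lt_min one_pos (by positivity)
    simpa using (mul_pos h3 h2).trans_le h1
theorem Amat_det (hn : 2 ≤ n) {ε : ℝ} (h : Good n ε) {b : BB n} (hb : ‖b‖ < ε) (l : ℝ) {x : E n} (hx : x ≠ 0) :
    (Amat x l (bmat b x)).det = Real.exp (-2 * ((n : ℝ) - 1) * l) := by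
  obtain ⟨r, y, hr, rfl⟩ := geo4a_polar hx
  rw [Amat_eq b l y hr]
  have hd := det_HX hn h hb y
  have hc : 0 < Real.exp (-2 * l) := Real.exp_pos _
  set c := Real.exp (-2 * l) with hcdef
  set H := (HX (iota b)).at y with hH
  set u : Fin n → ℝ := fun i => (y : E n) i with hu
  have huu : u ⬝ᵥ u = 1 := geo4a_unit y
  have hHu : H.mulVec u = 0 := HX_tang b y
  have e1 : H * Matrix.vecMulVec u u = 0 := by
    rw [Matrix.mul_vecMulVec, hHu, Matrix.zero_vecMulVec]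
  have e2 : Matrix.vecMulVec u u * Matrix.vecMulVec u u = Matrix.vecMulVec u u := by
    rw [Matrix.vecMulVec_mul_vecMulVec, huu, one_smul]
  have e3 : Matrix.vecMulVec u u + c • H = (H + Matrix.vecMulVec u u) *
      (c • (1 + Matrix.vecMulVec ((c⁻¹ - 1) • u) u)) := by
    rw [Matrix.smul_vecMulVec, Matrix.mul_smul, mul_add, mul_one, Matrix.mul_smul, add_mul, e1, e2,
      zero_add, smul_add, smul_add, smul_smul, mul_sub, mul_inv_cancel₀ hc.ne', mul_one, sub_smul,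
      one_smul]
    abel
  rw [e3, Matrix.det_mul, hd, one_mul, Matrix.det_smul, Matrix.vecMulVec_eq Unit,
    Matrix.det_one_add_replicateCol_mul_replicateRow, dotProduct_smul, huu, Fintype.card_fin, hcdef,
    ← Real.exp_nat_mul, smul_eq_mul, mul_one, add_sub_cancel, ← Real.exp_neg, ← Real.exp_add]
  congr 1
  ring
theorem Amat_mulVec (b : BB n) (l : ℝ) (x : E n) :
    (Amat x l (bmat b x)).mulVec (fun i => x i) = fun i => x i := by
  by_cases hx : x = 0
  · subst hx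
    exact Matrix.mulVec_zero _
  obtain ⟨r, y, hr, rfl⟩ := geo4a_polar hx
  rw [Amat_eq b l y hr]
  have e : (fun i => (r • (y : E n)) i) = r • fun i => (y : E n) i := by
    funext i; simp
  rw [e, Matrix.mulVec_smul, Matrix.add_mulVec, Matrix.smul_mulVec, HX_tang, smul_zero, add_zero,
    Matrix.vecMulVec_mulVec, geo4a_unit, op_smul_eq_smul, one_smul]

variable {ε : ℝ} {l : ℝ → ℝ} {b : ℝ → BB n}

lemma geo4a_Amat_one (h : Adm ε l b) {x : E n} (hx : ‖x‖ ≤ 1) :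
    Amat x (l (Real.log ‖x‖)) (bmat (b (Real.log ‖x‖)) x) = 1 := by
  have h1 : Real.log ‖x‖ ≤ 0 := Real.log_nonpos (norm_nonneg _) hx
  have h2 : bmat (0 : BB n) x = 0 := by ext i j; simp [bmat]
  rw [h.l0 _ h1, h.b0 _ h1, h2]
  unfold Amat
  rw [geo4a_om_zero]
  simp

theorem Adm.one (h : Adm ε l b) {x : E n} (hx : ‖x‖ ≤ 1) : metric l b x = 1 := by
  unfold metric
  rw [geo4a_Amat_one h hx, inv_one]
theorem Adm.inv (hn : 2 ≤ n) (h : Adm ε l b) (x : E n) :
    inverseField (metric l b) x = Amat x (l (Real.log ‖x‖)) (bmat (b (Real.log ‖x‖)) x) := by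
  unfold inverseField metric
  exact Matrix.nonsing_inv_nonsing_inv _
    (Amat_posDef hn h.good (h.small _) _ x).det_pos.ne'.isUnit
theorem Adm.det (hn : 2 ≤ n) (h : Adm ε l b) (x : E n) :
    (metric l b x).det = Real.exp (2 * ((n : ℝ) - 1) * l (Real.log ‖x‖)) := by
  by_cases hx : x = 0
  · subst hx
    rw [h.one (by simp), Matrix.det_one, norm_zero, Real.log_zero, h.l0 0 le_rfl]
    simp
  · unfold metric
    rw [Matrix.det_nonsing_inv, Amat_det hn h.good (h.small _) _ hx, Ring.inverse_eq_inv',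
      ← Real.exp_neg]
    congr 1
    ring

lemma geo4a_det_smooth {F : E n → Matrix (Fin n) (Fin n) ℝ} {x : E n}
    (hF : ∀ i j, ContDiffAt ℝ ∞ (fun y => F y i j) x) : ContDiffAt ℝ ∞ (fun y => (F y).det) x := by
  simp_rw [Matrix.det_apply']
  exact ContDiffAt.sum fun σ _ => contDiffAt_const.mul (contDiffAt_prod fun i _ => hF _ _)

lemma geo4a_bmat_le (b : BB n) (x : E n) (i j : Fin n) : |bmat b x i j| ≤ ‖b‖ := by
  by_cases hx : x = 0
  · subst hx
    rw [geo4a_bmat_zero]; simp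
  · obtain ⟨r, y, hr, rfl⟩ := geo4a_polar hx
    have : bmat b (r • (y : E n)) i j = b.e i j y := by simp [bmat, W.homog _ hr]
    rw [this]
    exact b.abs_le i j y

lemma geo4a_e_sum {ι : Type*} (s : Finset ι) (c : ι → ℝ) (v : ι → BB n) (i j : Fin n) (x : E n) :
    (∑ k ∈ s, c k • v k).e i j x = ∑ k ∈ s, c k * (v k).e i j x := by
  classical
  induction s using Finset.induction_on with
  | empty => simp
  | insert a s ha ih => simp [Finset.sum_insert ha, ih]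

/-- off the origin the entries of `Amat …` are smooth (`LocFin`; the truncation in `om` is inactive on the open set `det > 1/2`), inverse = `det⁻¹ • adjugate`; near the origin `g = 1` -/
theorem Adm.smooth_Amat (hn : 2 ≤ n) (h : Adm ε l b) (i j : Fin n) :
    ContDiff ℝ ∞ fun x : E n => Amat x (l (Real.log ‖x‖)) (bmat (b (Real.log ‖x‖)) x) i j := by
  refine contDiff_iff_contDiffAt.2 fun x => ?_
  by_cases hx : x = 0
  · refine (contDiffAt_const (c := (1 : Matrix (Fin n) (Fin n) ℝ) i j)).congr_of_eventuallyEq ?_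
    subst hx
    filter_upwards [Metric.ball_mem_nhds (0 : E n) one_pos] with y hy
    rw [geo4a_Amat_one h (mem_ball_zero_iff.1 hy).le]
  have hnorm : ContDiffAt ℝ ∞ (fun y : E n => ‖y‖) x := contDiffAt_norm ℝ hx
  have hlog : ContDiffAt ℝ ∞ (fun y : E n => Real.log ‖y‖) x := hnorm.log (norm_ne_zero_iff.2 hx)
  have hu : ∀ i, ContDiffAt ℝ ∞ (fun y : E n => (‖y‖⁻¹ • y) i) x := fun i => by
    have : ContDiffAt ℝ ∞ (fun y : E n => ‖y‖⁻¹ * y i) x :=
      (hnorm.inv (norm_ne_zero_iff.2 hx)).mul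
        (EuclideanSpace.proj i : E n →L[ℝ] ℝ).contDiff.contDiffAt
    simpa using this
  have hβ : ∀ i j, ContDiffAt ℝ ∞ (fun y : E n => bmat (b (Real.log ‖y‖)) y i j) x := by
    intro i j
    obtain ⟨I, c, v, hc, hb⟩ := h.fin (Real.log ‖x‖ + 1)
    have h1 : ContDiffAt ℝ ∞ (fun y : E n => ∑ k, c k (Real.log ‖y‖) * (v k).e i j y) x :=
      ContDiffAt.sum fun k _ => ((hc k).contDiffAt.comp x hlog).mul (W.contDiffAt _ hx)
    refine h1.congr_of_eventuallyEq ?_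
    filter_upwards [hlog.continuousAt.eventually (Iio_mem_nhds (lt_add_one _))] with y hy
    rw [hb _ hy]
    exact geo4a_e_sum _ _ _ _ _ _
  have hdet : ContDiffAt ℝ ∞ (fun y : E n => (1 + bmat (b (Real.log ‖y‖)) y).det) x :=
    geo4a_det_smooth fun i j => by
      simp only [Matrix.add_apply]
      exact contDiffAt_const.add (hβ i j)
  have hbig : ∀ y : E n, 1 / 2 < (1 + bmat (b (Real.log ‖y‖)) y).det := fun y => by
    have := h.good.2.2 (bmat (b (Real.log ‖y‖)) y)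
      fun i j => (geo4a_bmat_le _ y i j).trans (h.small _).le
    linarith [(abs_lt.1 this).1]
  have hom : ContDiffAt ℝ ∞ (fun y : E n => om (bmat (b (Real.log ‖y‖)) y)) x := by
    have e : (fun y : E n => om (bmat (b (Real.log ‖y‖)) y)) =
        fun y : E n => (1 + bmat (b (Real.log ‖y‖)) y).det ^ (-(1 / ((n : ℝ) - 1))) := by
      funext y
      unfold om
      rw [max_eq_left (hbig y).le]
    rw [e]
    exact hdet.rpow_const_of_ne (by linarith [hbig x])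
  have hexp : ContDiffAt ℝ ∞ (fun y : E n => Real.exp (-2 * l (Real.log ‖y‖))) x :=
    (contDiffAt_const.mul (h.smooth.contDiffAt.comp x hlog)).exp
  simp only [Amat, Matrix.add_apply, Matrix.smul_apply, Matrix.sub_apply, Matrix.vecMulVec_apply,
    smul_eq_mul]
  exact ((hu i).mul (hu j)).add ((hexp.mul hom).mul
    ((contDiffAt_const.add (hβ i j)).sub ((hu i).mul (hu j))))
theorem Adm.radial (hn : 2 ≤ n) (h : Adm ε l b) : Radial (metric l b) := by
  have hpd : ∀ x : E n, (Amat x (l (Real.log ‖x‖)) (bmat (b (Real.log ‖x‖)) x)).PosDef :=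
    fun x => Amat_posDef hn h.good (h.small _) _ x
  refine ⟨⟨isOpen_univ, fun i j => ?_, fun x _ => (hpd x).inv⟩, fun y => ?_⟩
  · refine (contDiff_iff_contDiffAt.2 fun x => ?_).contDiffOn
    simp only [metric, Matrix.inv_def, Ring.inverse_eq_inv', Matrix.smul_apply, smul_eq_mul,
      Matrix.adjugate_apply]
    refine ((geo4a_det_smooth fun i j => (h.smooth_Amat hn i j).contDiffAt).inv
      (hpd x).det_pos.ne').mul (geo4a_det_smooth fun k m => ?_)
    simp only [Matrix.updateRow_apply]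
    split_ifs
    · exact contDiffAt_const
    · exact (h.smooth_Amat hn k m).contDiffAt
  · unfold metric
    conv_lhs => rw [← Amat_mulVec (b (Real.log ‖y‖)) (l (Real.log ‖y‖)) y]
    rw [Matrix.mulVec_mulVec, Matrix.nonsing_inv_mul _ (hpd y).det_pos.ne'.isUnit,
      Matrix.one_mulVec]

lemma geo4a_quad_inv {A : Matrix (Fin n) (Fin n) ℝ} (hA : A.transpose = A) (hu : IsUnit A.det)
    {Λ : ℝ} (hΛ : 0 < Λ)
    (h : ∀ ξ : Fin n → ℝ, 1 / 3 * (ξ ⬝ᵥ ξ) ≤ ξ ⬝ᵥ A.mulVec ξ ∧ ξ ⬝ᵥ A.mulVec ξ ≤ Λ * (ξ ⬝ᵥ ξ))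
    (v : Fin n → ℝ) :
    Λ⁻¹ * (v ⬝ᵥ v) ≤ v ⬝ᵥ A⁻¹.mulVec v ∧ v ⬝ᵥ A⁻¹.mulVec v ≤ 3 * (v ⬝ᵥ v) := by
  have hnn : ∀ η : Fin n → ℝ, 0 ≤ η ⬝ᵥ η := fun η => Finset.sum_nonneg fun i _ => mul_self_nonneg _
  set ξ := A⁻¹.mulVec v with hξ
  have hv : A.mulVec ξ = v := by
    rw [hξ, Matrix.mulVec_mulVec, Matrix.mul_nonsing_inv _ hu, Matrix.one_mulVec]
  have hc : ξ ⬝ᵥ v = v ⬝ᵥ ξ := dotProduct_comm _ _
  constructor
  · have h1 := (h (ξ - Λ⁻¹ • v)).1
    have h2 := hnn (ξ - Λ⁻¹ • v)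
    have h3 : (ξ - Λ⁻¹ • v) ⬝ᵥ A.mulVec (ξ - Λ⁻¹ • v) =
        v ⬝ᵥ ξ - 2 * Λ⁻¹ * (v ⬝ᵥ v) + Λ⁻¹ ^ 2 * (v ⬝ᵥ A.mulVec v) := by
      rw [Matrix.mulVec_sub, Matrix.mulVec_smul, sub_dotProduct, dotProduct_sub, dotProduct_sub,
        dotProduct_smul, smul_dotProduct, smul_dotProduct, dotProduct_smul,
        geo4a_dot_symm hA ξ v, hv, hc]
      simp only [smul_eq_mul]; ring
    have h4 : Λ⁻¹ ^ 2 * (v ⬝ᵥ A.mulVec v) ≤ Λ⁻¹ * (v ⬝ᵥ v) := by
      calc Λ⁻¹ ^ 2 * (v ⬝ᵥ A.mulVec v) ≤ Λ⁻¹ ^ 2 * (Λ * (v ⬝ᵥ v)) :=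
            mul_le_mul_of_nonneg_left (h v).2 (by positivity)
        _ = _ := by field_simp
    linarith
  · have h1 := (h ξ).1
    have h2 := hnn (ξ - (3 : ℝ) • v)
    rw [sub_dotProduct, dotProduct_sub, dotProduct_sub, dotProduct_smul, smul_dotProduct,
      smul_dotProduct, dotProduct_smul, hc] at h2
    rw [hv, hc] at h1
    simp only [smul_eq_mul] at h2
    linarith

/-- `A = g⁻¹` satisfies `(1/3)|ξ|² ≤ ξᵀAξ ≤ 3e^{2Z}|ξ|²`; for `v`, take `ξ = g v` and Cauchy–Schwarz for the form `A` -/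
theorem Adm.quad (hn : 2 ≤ n) (h : Adm ε l b) {Z : ℝ} (hZ : ∀ t, -Z ≤ l t ∧ l t ≤ 0) (x v : E n) :
    Real.exp (-2 * Z) / 3 * ‖v‖ ^ 2 ≤ quadForm (metric l b) x v ∧ quadForm (metric l b) x v ≤ 3 * ‖v‖ ^ 2 := by
  have hZ0 : 0 ≤ Z := by linarith [(hZ 0).1, (hZ 0).2]
  obtain ⟨h1, h2⟩ := hZ (Real.log ‖x‖)
  have h3 : 1 ≤ Real.exp (-2 * l (Real.log ‖x‖)) := Real.one_le_exp (by linarith)
  have h4 : Real.exp (-2 * l (Real.log ‖x‖)) ≤ Real.exp (2 * Z) := Real.exp_le_exp.2 (by linarith)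
  have key := geo4a_quad_inv (geo4a_symm (b (Real.log ‖x‖)) (l (Real.log ‖x‖)) x)
    (Amat_posDef hn h.good (h.small _) _ x).det_pos.ne'.isUnit
    (Λ := 3 * Real.exp (2 * Z)) (by positivity)
    (geo4a_quad hn h.good (h.small _) _ x (by norm_num) (by linarith) (by linarith) (by linarith))
    (fun i => v i)
  have e1 : quadForm (metric l b) x v =
      (fun i => v i) ⬝ᵥ (metric l b x).mulVec (fun i => v i) := by
    simp only [quadForm, dotProduct, Matrix.mulVec, Finset.mul_sum]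
    exact Finset.sum_congr rfl fun i _ => Finset.sum_congr rfl fun j _ => by ring
  have e2 : Real.exp (-2 * Z) / 3 = (3 * Real.exp (2 * Z))⁻¹ := by
    rw [neg_mul, Real.exp_neg]; field_simp
  rw [e1, e2, ← geo4a_dot_self]
  exact key

end Crest.Agent.R202
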