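import Crest.Agent.R202.Geo2
import Crest.Agent.R202.Forms1
import Crest.Agent.R202.Geo4a

/-! # Row 202, Geo4: basic properties of `metric`; distance, completeness, volume -/

set_option autoImplicit false
open scoped ContDiff RealInnerProductSpace
open Set Filter Topology MeasureTheory Crest.GeometryTopology.CoordMetric
open Crest.GeometryTopology.ChartCurvature

noncomputable section
namespace Crest.Agent.R202

variable {n : ℕ}

theorem geo4_quad (g : MetricField n) (x v : E n) :
    quadForm g x v = (fun i => v i) ⬝ᵥ (g x).mulVec fun i => v i := by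
  simp only [quadForm, dotProduct, Matrix.mulVec, Finset.mul_sum]
  exact Finset.sum_congr rfl fun i _ => Finset.sum_congr rfl fun j _ => by ring

theorem geo4_entry {g : MetricField n} (hg : IsRiemannianOn g univ) (i j : Fin n) :
    Continuous fun x => g x i j :=
  continuousOn_univ.1 (hg.contDiffOn i j).continuousOn

theorem geo4_cont {g : MetricField n} (hg : IsRiemannianOn g univ) {γ : ℝ → E n}
    (hγ : ContDiff ℝ 1 γ) : Continuous fun t => √(quadForm g (γ t) (deriv γ t)) := by
  have h1 := hγ.continuous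
  have h2 := hγ.continuous_deriv le_rfl
  refine Continuous.sqrt (continuous_finset_sum _ fun i _ => continuous_finset_sum _ fun j _ => ?_)
  exact (((geo4_entry hg i j).comp h1).mul (by fun_prop)).mul (by fun_prop)

/-- the segment -/
def geo4_seg (x y : E n) : AdmissiblePath univ x y :=
  ⟨fun t => x + t • (y - x), by fun_prop, by simp, by simp, fun _ _ => trivial⟩

theorem geo4_seg_deriv (x y : E n) (t : ℝ) : deriv (geo4_seg x y).1 t = y - x := by
  have := (((hasDerivAt_id t).smul_const (y - x)).const_add x).deriv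
  rw [one_smul] at this
  exact this

theorem geo4_len_nonneg (g : MetricField n) (γ : ℝ → E n) : 0 ≤ curveLength g γ :=
  intervalIntegral.integral_nonneg zero_le_one fun _ _ => Real.sqrt_nonneg _

theorem geo4_le_seg (g : MetricField n) (x y : E n) {c : ℝ}
    (h : ∀ t : ℝ, 0 < t → √(quadForm g (x + t • (y - x)) (y - x)) ≤ c) :
    riemDist g univ x y ≤ c := by
  refine (ciInf_le ⟨0, ?_⟩ (geo4_seg x y)).trans ?_
  · rintro _ ⟨γ, rfl⟩
    exact geo4_len_nonneg g _
  · have := intervalIntegral.norm_integral_le_of_norm_le_const (a := 0) (b := 1) (C := c)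
      (f := fun t => √(quadForm g ((geo4_seg x y).1 t) (deriv (geo4_seg x y).1 t))) fun t ht => by
        rw [geo4_seg_deriv, Real.norm_of_nonneg (Real.sqrt_nonneg _)]
        rw [uIoc_of_le zero_le_one] at ht
        exact h t ht.1
    rw [sub_zero, abs_one, mul_one] at this
    exact (le_abs_self _).trans this

theorem geo4_le_dist {g : MetricField n} {x y : E n} {c : ℝ}
    (h : ∀ γ : AdmissiblePath univ x y, c ≤ curveLength g γ.1) : c ≤ riemDist g univ x y :=
  have : Nonempty (AdmissiblePath univ x y) := ⟨geo4_seg x y⟩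
  le_ciInf h

theorem geo4_inner (y v : E n) : ⟪y, v⟫ = (fun i => v i) ⬝ᵥ fun i => y i := by
  simp only [PiLp.inner_apply, dotProduct, RCLike.inner_apply, conj_trivial]

theorem geo4_quad_sub {g : MetricField n} (h : Radial g) (y v : E n) (t : ℝ) :
    quadForm g y (v - t • y) = ‖y‖ ^ 2 * (t * t) + -2 * ⟪y, v⟫ * t + quadForm g y v := by
  have hs : (g y).transpose = g y := (h.riem.posDef y trivial).isHermitian
  have e : (fun i => (v - t • y) i) = (fun i => v i) - t • fun i => y i := rfl
  have e1 : ((fun i => y i) ⬝ᵥ (g y).mulVec fun i => v i) = ⟪y, v⟫ := by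
    rw [Matrix.dotProduct_mulVec, ← Matrix.mulVec_transpose, hs, h.rad, dotProduct_comm,
      geo4_inner]
  rw [geo4_quad, geo4_quad, e, Matrix.mulVec_sub, Matrix.mulVec_smul, h.rad, sub_dotProduct,
    dotProduct_sub, dotProduct_sub, smul_dotProduct, smul_dotProduct, dotProduct_smul,
    dotProduct_smul, e1, ← geo4_inner, ← geo4_inner, real_inner_self_eq_norm_sq]
  simp only [smul_eq_mul]
  ring

theorem geo4_quad_nonneg {g : MetricField n} (hg : IsRiemannianOn g univ) (y v : E n) :
    0 ≤ quadForm g y v := by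
  rw [geo4_quad]
  exact (hg.posDef y trivial).posSemidef.dotProduct_mulVec_nonneg fun i => v i

theorem geo4_cs {g : MetricField n} (h : Radial g) (y v : E n) :
    ⟪y, v⟫ ≤ ‖y‖ * √(quadForm g y v) := by
  have h1 := discrim_le_zero fun t => geo4_quad_sub h y v t ▸ geo4_quad_nonneg h.riem y (v - t • y)
  refine le_of_sq_le_sq ?_ (by positivity)
  rw [mul_pow, Real.sq_sqrt (geo4_quad_nonneg h.riem y v)]
  rw [discrim] at h1
  linarith

/-- `≤`: the segment `t ↦ t x` has speed `‖x‖` (`g(tx) x = x`).  `≥`: `⟪y,v⟫² ≤ ‖y‖² quadForm g y v` (Cauchy–Schwarz, `g y y = y`), so the derivative of `√(‖γ‖²+δ²)` is `≤ √(quadForm)`. -/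
theorem Radial.riemDist_zero {g : MetricField n} (h : Radial g) (x : E n) : riemDist g univ 0 x = ‖x‖ := by
  refine le_antisymm (geo4_le_seg g 0 x fun t ht => ?_) (geo4_le_dist fun γ => ?_)
  · have h1 : t • ((g (t • x)).mulVec fun i => x i) = t • fun i => x i := by
      rw [← Matrix.mulVec_smul]
      exact h.rad (t • x)
    rw [sub_zero, zero_add, geo4_quad, smul_right_injective _ ht.ne' h1, ← geo4_inner,
      real_inner_self_eq_norm_sq, Real.sqrt_sq (norm_nonneg _)]
  · obtain ⟨γ, hγ, h0, h1, -⟩ := γ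
    refine le_of_forall_pos_le_add fun δ hδ => ?_
    have hd : ∀ t, HasDerivAt γ (deriv γ t) t := fun t =>
      (hγ.differentiable one_ne_zero t).hasDerivAt
    have hp : ∀ t, 0 < ‖γ t‖ ^ 2 + δ ^ 2 := fun t => by positivity
    have hF : ∀ t, HasDerivAt (fun t => √(‖γ t‖ ^ 2 + δ ^ 2))
        (2 * ⟪γ t, deriv γ t⟫ / (2 * √(‖γ t‖ ^ 2 + δ ^ 2))) t := fun t =>
      ((hd t).norm_sq.add_const _).sqrt (hp t).ne'
    have h2 := intervalIntegral.sub_le_integral_of_hasDeriv_right_of_le zero_le_one
      (fun t _ => (hF t).continuousAt.continuousWithinAt) (fun t _ => (hF t).hasDerivWithinAt)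
      (geo4_cont h.riem hγ).integrableOn_Icc fun t _ => by
        rw [mul_div_mul_left _ _ two_ne_zero, div_le_iff₀' (Real.sqrt_pos.2 (hp t))]
        exact (geo4_cs h _ _).trans (mul_le_mul_of_nonneg_right
          (Real.le_sqrt_of_sq_le (by linarith [sq_nonneg δ])) (Real.sqrt_nonneg _))
    rw [h0, h1, norm_zero, zero_pow two_ne_zero, zero_add, Real.sqrt_sq hδ.le] at h2
    have h3 : ‖x‖ ≤ √(‖x‖ ^ 2 + δ ^ 2) := Real.le_sqrt_of_sq_le (by linarith [sq_nonneg δ])
    exact h3.trans (sub_le_iff_le_add.1 h2)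
/-- `√c‖x-y‖ ≤ riemDist x y ≤ √C‖x-y‖` -/
theorem complete_of_quad {g : MetricField n} (hg : IsRiemannianOn g univ) {c C : ℝ} (hc : 0 < c)
    (h : ∀ x v, c * ‖v‖ ^ 2 ≤ quadForm g x v ∧ quadForm g x v ≤ C * ‖v‖ ^ 2) : IsCompleteOn g univ := by
  have up : ∀ x y, riemDist g univ x y ≤ √C * ‖y - x‖ := fun x y =>
    geo4_le_seg g x y fun t _ => (Real.sqrt_le_sqrt (h _ _).2).trans (by
      rw [Real.sqrt_mul' _ (sq_nonneg _), Real.sqrt_sq (norm_nonneg _)])
  have lo : ∀ x y, √c * ‖y - x‖ ≤ riemDist g univ x y := fun x y => geo4_le_dist fun γ => by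
    obtain ⟨γ, hγ, h0, h1, -⟩ := γ
    have hc' := hγ.continuous_deriv le_rfl
    change _ ≤ curveLength g γ
    rw [← h0, ← h1, ← intervalIntegral.integral_deriv_eq_sub
      (fun t _ => hγ.differentiable one_ne_zero t) (hc'.intervalIntegrable _ _)]
    refine (mul_le_mul_of_nonneg_left (intervalIntegral.norm_integral_le_integral_norm zero_le_one)
      (Real.sqrt_nonneg _)).trans ?_
    rw [← intervalIntegral.integral_const_mul]
    refine intervalIntegral.integral_mono_on zero_le_one
      ((hc'.norm.const_mul _).intervalIntegrable _ _) ((geo4_cont hg hγ).intervalIntegrable _ _)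
      fun t _ => le_trans (le_of_eq ?_) (Real.sqrt_le_sqrt (h _ _).1)
    rw [Real.sqrt_mul' _ (sq_nonneg _), Real.sqrt_sq (norm_nonneg _)]
  have hc' := Real.sqrt_pos.2 hc
  intro x _ hx
  obtain ⟨p, hp⟩ := cauchySeq_tendsto_of_complete (u := x) (Metric.cauchySeq_iff.2 fun ε hε => by
    obtain ⟨N, hN⟩ := hx _ (mul_pos hc' hε)
    refine ⟨N, fun k hk l hl => ?_⟩
    rw [dist_comm, dist_eq_norm]
    exact lt_of_mul_lt_mul_left ((lo _ _).trans_lt (hN k hk l hl)) hc'.le)
  refine ⟨p, trivial, squeeze_zero (fun k => le_trans (by positivity) (lo _ _)) (fun k => up _ _) ?_⟩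
  simpa using ((tendsto_const_nhds (x := p)).sub hp).norm.const_mul √C
/-- `riemBall g 0 R = ball 0 R`; substitute `x = R y` (`Measure.addHaar_ball`, `lintegral` scaling / `integral_comp_smul`), dominated convergence on the unit ball; or squeeze:
`|∫_{B_R} φ - v|B_R|| ≤ η|B_R| + |B_{R₀}|`. -/
theorem avr {g : MetricField n} (hn : 1 ≤ n) (h : Radial g) (φ : ℝ → ℝ) (v : ℝ) (hφ : ∀ x, √(g x).det = φ ‖x‖)
    (h1 : ∀ r, φ r ≤ 1) (hv : Tendsto φ atTop (𝓝 v)) : HasAsymptoticVolumeRatio g v := by
  have : Nonempty (Fin n) := ⟨⟨0, hn⟩⟩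
  have hb : ∀ R, riemBall g 0 R = Metric.ball 0 R := fun R => by
    ext y
    rw [riemBall, mem_setOf_eq, h.riemDist_zero, mem_ball_zero_iff]
  have hc : Continuous fun x => √(g x).det :=
    (Continuous.matrix_det (continuous_matrix (geo4_entry h.riem))).sqrt
  have hω : 0 < (volume (Metric.ball (0 : E n) 1)).toReal :=
    ENNReal.toReal_pos (Metric.measure_ball_pos _ _ one_pos).ne' measure_ball_lt_top.ne
  have h2 := tendsto_integral_filter_of_dominated_convergence
    (μ := volume.restrict (Metric.ball (0 : E n) 1)) (l := atTop)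
    (F := fun (R : ℝ) y => √(g (R • y)).det) (f := fun _ => v) (fun _ => 1)
    (.of_forall fun R => (hc.comp (continuous_const_smul R)).aestronglyMeasurable)
    (.of_forall fun R => .of_forall fun y => by
      rw [Real.norm_of_nonneg (Real.sqrt_nonneg _), hφ]
      exact h1 _)
    (integrableOn_const measure_ball_lt_top.ne) (by
      filter_upwards [ae_restrict_of_ae (Measure.ae_ne volume (0 : E n))] with y hy
      refine (hv.comp (tendsto_id.atTop_mul_const (norm_pos_iff.2 hy))).congr' ?_
      filter_upwards [eventually_ge_atTop 0] with R hR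
      rw [hφ, norm_smul, Real.norm_of_nonneg hR]
      rfl)
  rw [setIntegral_const, smul_eq_mul] at h2
  have h3 := h2.div_const (volume (Metric.ball (0 : E n) 1)).toReal
  rw [Measure.real, mul_div_cancel_left₀ _ hω.ne'] at h3
  refine h3.congr' ?_
  filter_upwards [eventually_gt_atTop 0] with R hR
  rw [Measure.setIntegral_comp_smul_of_pos volume (fun x => √(g x).det) _ hR,
    smul_unitBall_of_pos hR, finrank_euclideanSpace_fin, hb, riemVolume,
    ← integral_eq_lintegral_of_nonneg_ae (.of_forall fun _ => Real.sqrt_nonneg _)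
      hc.aestronglyMeasurable, smul_eq_mul]
  field_simp

end Crest.Agent.R202
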