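import Crest.Agent.R202.Geo5Aux

/-! # Row 202, Geo5Aux2: quadratic forms and the radial Ricci curvature -/

set_option autoImplicit false
open scoped ContDiff RealInnerProductSpace
open Set Filter Topology MeasureTheory Crest.GeometryTopology.CoordMetric
open Crest.GeometryTopology.ChartCurvature

noncomputable section
namespace Crest.Agent.R202

variable {n : ℕ}

def geo5q (M : Fin n → Fin n → ℝ) (v w : E n) : ℝ := ∑ i, ∑ j, M i j * v i * w j

theorem geo5q_le {M : Fin n → Fin n → ℝ} {m : ℝ} (h : ∀ i j, |M i j| ≤ m) (v w : E n) :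
    |geo5q M v w| ≤ (n : ℝ) ^ 2 * m * (‖v‖ * ‖w‖) := by
  have h1 : ∀ i j, |M i j * v i * w j| ≤ m * (‖v‖ * ‖w‖) := fun i j => by
    rw [abs_mul, abs_mul, mul_assoc]
    exact mul_le_mul (h i j) (mul_le_mul (PiLp.norm_apply_le v i) (PiLp.norm_apply_le w j)
      (abs_nonneg _) (norm_nonneg _)) (by positivity) ((abs_nonneg _).trans (h i j))
  refine (Finset.abs_sum_le_sum_abs _ _).trans ((Finset.sum_le_sum fun i _ =>
    (Finset.abs_sum_le_sum_abs _ _).trans (Finset.sum_le_sum fun j _ => h1 i j)).trans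
      (le_of_eq ?_))
  simp only [Finset.sum_const, Finset.card_univ, Fintype.card_fin, nsmul_eq_mul]
  ring

theorem geo5q_sub (M M' : Fin n → Fin n → ℝ) (v w : E n) :
    geo5q (fun i j => M i j - M' i j) v w = geo5q M v w - geo5q M' v w := by
  simp only [geo5q, sub_mul, Finset.sum_sub_distrib]

theorem geo5q_symm {M : Fin n → Fin n → ℝ} (h : ∀ i j, M i j = M j i) (v w : E n) :
    geo5q M v w = geo5q M w v := by
  rw [geo5q, Finset.sum_comm]
  refine Finset.sum_congr rfl fun i _ => Finset.sum_congr rfl fun j _ => ?_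
  rw [h j i]; ring

theorem geo5q_expand (M : Fin n → Fin n → ℝ) (a : ℝ) (u w : E n) :
    geo5q M (a • u + w) (a • u + w) =
      a ^ 2 * geo5q M u u + a * geo5q M u w + a * geo5q M w u + geo5q M w w := by
  simp only [geo5q, Finset.mul_sum, ← Finset.sum_add_distrib, PiLp.add_apply, PiLp.smul_apply,
    smul_eq_mul]
  refine Finset.sum_congr rfl fun i _ => Finset.sum_congr rfl fun j _ => ?_
  ring

theorem geo5q_smul (M : Fin n → Fin n → ℝ) (a : ℝ) (u : E n) :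
    geo5q M (a • u) (a • u) = a ^ 2 * geo5q M u u := by
  simp only [geo5q, Finset.mul_sum, PiLp.smul_apply, smul_eq_mul]
  refine Finset.sum_congr rfl fun i _ => Finset.sum_congr rfl fun j _ => ?_
  ring

theorem geo5q_pos {M : Fin n → Fin n → ℝ} (hs : ∀ i j, M i j = M j i) {u : E n} (hu : ‖u‖ = 1)
    {A B κ : ℝ} (hA : 0 < A) (hκ : κ ^ 2 < A * B) (h1 : A ≤ geo5q M u u)
    (h2 : ∀ w, |geo5q M u w| ≤ κ * ‖w‖) (h3 : ∀ w, ⟪u, w⟫ = 0 → B * ‖w‖ ^ 2 ≤ geo5q M w w)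
    {v : E n} (hv : v ≠ 0) : 0 < geo5q M v v := by
  set a : ℝ := ⟪u, v⟫ with ha
  set w : E n := v - a • u with hw
  have e : v = a • u + w := by rw [hw]; abel
  have hperp : ⟪u, w⟫ = 0 := by
    rw [hw, inner_sub_right, real_inner_smul_right, real_inner_self_eq_norm_sq, hu]
    simp [ha]
  rw [e, geo5q_expand, geo5q_symm hs w u]
  have h4 := h3 w hperp
  have h5 : -(|a| * (κ * ‖w‖)) ≤ a * geo5q M u w := by
    have := mul_le_mul_of_nonneg_left (h2 w) (abs_nonneg a)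
    rw [← abs_mul] at this
    exact (abs_le.1 this).1
  have h6 : a ^ 2 * A ≤ a ^ 2 * geo5q M u u := mul_le_mul_of_nonneg_left h1 (sq_nonneg a)
  have h7 : 0 < |a| ^ 2 * A - 2 * (|a| * (κ * ‖w‖)) + B * ‖w‖ ^ 2 := by
    by_cases hw0 : w = 0
    · have : a ≠ 0 := fun h0 => hv (by rw [e, h0, hw0]; simp)
      have := abs_pos.2 this
      rw [hw0, norm_zero]
      have : 0 < |a| ^ 2 * A := by positivity
      linarith
    · have h8 : 0 < ‖w‖ ^ 2 := pow_pos (norm_pos_iff.2 hw0) 2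
      have h9 : 0 < A * (|a| ^ 2 * A - 2 * (|a| * (κ * ‖w‖)) + B * ‖w‖ ^ 2) := by
        nlinarith [sq_nonneg (A * |a| - κ * ‖w‖), mul_pos (sub_pos.2 hκ) h8]
      exact (mul_pos_iff_of_pos_left hA).1 h9
  rw [sq_abs] at h7
  linarith

variable {ε : ℝ} {l : ℝ → ℝ} {b : ℝ → BB n}

theorem geo5_trE (hn : 2 ≤ n) (h : Adm ε l b) {y : E n} (hy : y ≠ 0) :
    (Emat (metric l b) y).trace = ((n : ℝ) - 1) * deriv l (Real.log ‖y‖) := by
  rw [trace_Emat (h.radial hn).riem]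
  simp only [h.det hn, Real.log_exp]
  have hl : Differentiable ℝ l := h.smooth.differentiable (by simp)
  rw [geo5_radial_log (φ := fun s => 2 * ((n : ℝ) - 1) * l s) (hl.const_mul _) hy,
    deriv_const_mul _ (hl _)]
  ring

theorem geo5_xx (hn : 2 ≤ n) (h : Adm ε l b) {x : E n} (hx : x ≠ 0) {C η : ℝ}
    (hC : ∀ i j, |Smat (metric l b) x i j| ≤ C * η ∧ |(metric l b x)⁻¹ i j| ≤ C) :
    ((n : ℝ) - 1) * (-deriv l (Real.log ‖x‖) - deriv (deriv l) (Real.log ‖x‖)) -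
      (n : ℝ) ^ 4 * C ^ 4 * η ^ 2 ≤ geo5q (ricci (metric l b) x) x x := by
  have hl : Differentiable ℝ (deriv l) :=
    (h.smooth.iterate_deriv 1).differentiable (by simp)
  have e1 : (fun y => (Emat (metric l b) y).trace) =ᶠ[𝓝 x]
      fun y => ((n : ℝ) - 1) * deriv l (Real.log ‖y‖) := by
    filter_upwards [isOpen_compl_singleton.mem_nhds hx] with y hy
    exact geo5_trE hn h hy
  rw [geo5q, (h.radial hn).ricci_xx, e1.fderiv_eq,
    geo5_radial_log (φ := fun s => ((n : ℝ) - 1) * deriv l s) (hl.const_mul _) hx,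
    deriv_const_mul _ (hl _), geo5_trE hn h hx]
  have hE : ∀ i j, |Emat (metric l b) x i j| ≤ n * (C * (C * η)) := fun i j => by
    rw [Emat, Matrix.mul_apply]
    refine (Finset.abs_sum_le_sum_abs _ _).trans ((Finset.sum_le_sum fun k _ => ?_).trans
      (le_of_eq (a := ∑ _k : Fin n, C * (C * η)) (by simp)))
    rw [abs_mul]
    exact mul_le_mul (hC i k).2 (hC k j).1 (abs_nonneg _) ((abs_nonneg _).trans (hC i k).2)
  have hT : (Emat (metric l b) x * Emat (metric l b) x).trace ≤ (n : ℝ) ^ 4 * C ^ 4 * η ^ 2 := by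
    simp only [Matrix.trace, Matrix.diag_apply, Matrix.mul_apply]
    refine (Finset.sum_le_sum fun i _ => Finset.sum_le_sum fun k _ => ?_).trans
      (le_of_eq (a := ∑ _i : Fin n, ∑ _k : Fin n, (n * (C * (C * η))) * (n * (C * (C * η))))
        (by simp; ring))
    refine (le_abs_self _).trans ?_
    rw [abs_mul]
    exact mul_le_mul (hE i k) (hE k i) (abs_nonneg _) ((abs_nonneg _).trans (hE i k))
  linarith

/-- the round cone -/
theorem geo5_round (Z : ℝ) (u : Sp n) (w : E n) (hw : ⟪(u : E n), w⟫ = 0) :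
    geo5q (ricci (fun y => geo5G (y, (-Z, 0))) u) w w =
      ((n : ℝ) - 2) * (1 - Real.exp (2 * -Z)) * ‖w‖ ^ 2 := by
  have := ricci_warped (n := n) (fun _ => -Z) (Sp.ne_zero u) contDiffAt_const w
  simp only [Sp.norm_eq, hw, deriv_const'] at this
  have e : (metric (fun _ => -Z) fun _ => (0 : BB n)) = fun y => geo5G (y, (-Z, 0)) := rfl
  rw [e] at this
  rw [geo5q]
  linarith

theorem geo5_flat (h : Adm ε l b) (i j : Fin n) : ricci (metric l b) 0 i j = 0 := by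
  have e : metric l b =ᶠ[𝓝 0] fun _ => 1 := by
    filter_upwards [Metric.closedBall_mem_nhds (0 : E n) one_pos] with y hy
    exact h.one (by simpa using hy)
  rw [ricci_congr e]
  simp [ricci, christoffel, pderiv]

theorem geo5_near (hn : 3 ≤ n) (h : Adm ε l b) {t₁ : ℝ} (hb : ∀ t ≤ t₁, b t = 0)
    (hl : ∀ t, l t ≤ 0 ∧ -1 / 2 ≤ deriv l t ∧ deriv l t ≤ 0 ∧ deriv (deriv l) t ≤ -deriv l t / 2)
    {x : E n} (hx : x ≠ 0) (hx1 : Real.log ‖x‖ < t₁) (v : E n) :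
    0 ≤ geo5q (ricci (metric l b) x) v v := by
  have e : metric l b =ᶠ[𝓝 x] metric l fun _ => (0 : BB n) := by
    have hc : ContinuousAt (fun y : E n => Real.log ‖y‖) x :=
      continuous_norm.continuousAt.log (norm_ne_zero_iff.2 hx)
    filter_upwards [hc.eventually (gt_mem_nhds hx1)] with y hy
    simp only [metric, hb _ hy.le]
  have h1 := ricci_warped l hx ((h.smooth.of_le (by norm_cast)).contDiffAt) v
  simp only [← ricci_congr e] at h1
  have hr : 0 < ‖x‖ := norm_pos_iff.2 hx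
  obtain ⟨a1, a2, a3, a4⟩ := hl (Real.log ‖x‖)
  set d := deriv l (Real.log ‖x‖)
  set d2 := deriv (deriv l) (Real.log ‖x‖)
  have hn' : (3 : ℝ) ≤ n := by exact_mod_cast hn
  have b1 : 0 ≤ -d - d ^ 2 - d2 := by nlinarith
  have b2 : Real.exp (2 * l (Real.log ‖x‖)) ≤ 1 := Real.exp_le_one_iff.2 (by linarith)
  have b3 : (1 + d) ^ 2 ≤ 1 := by nlinarith
  have b4 : 0 ≤ 1 - Real.exp (2 * l (Real.log ‖x‖)) * (1 + d) ^ 2 :=
    sub_nonneg.2 (mul_le_one₀ b2 (sq_nonneg _) b3)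
  have b5 : 0 ≤ ‖v‖ ^ 2 - (⟪x, v⟫ / ‖x‖) ^ 2 := by
    rw [sub_nonneg, div_pow, div_le_iff₀ (by positivity), ← mul_pow, ← sq_abs]
    exact pow_le_pow_left₀ (abs_nonneg _) ((abs_real_inner_le_norm x v).trans (mul_comm _ _).le) 2
  have b6 : 0 ≤ (n : ℝ) - 1 := by linarith
  have b7 : 0 ≤ (n : ℝ) - 2 := by linarith
  have h2 : 0 ≤ ‖x‖ ^ 2 * geo5q (ricci (metric l b) x) v v := by
    rw [geo5q, h1]; positivity
  exact (mul_nonneg_iff_of_pos_left (by positivity)).1 h2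

theorem geo5_const {F Z : Type*} [NormedAddCommGroup F] [NormedSpace ℝ F] [NormedAddCommGroup Z]
    [NormedSpace ℝ Z] (u : F) (z : Z) (σ : F → Z) :
    ‖fderiv ℝ (fderiv ℝ fun _ : F => z) u‖ = 0 ∧
      ‖fderiv ℝ (fderiv ℝ σ) u - fderiv ℝ (fderiv ℝ fun _ : F => z) u‖ =
        ‖fderiv ℝ (fderiv ℝ σ) u‖ := by
  have : fderiv ℝ (fderiv ℝ fun _ : F => z) u = 0 := by simp
  rw [this]
  exact ⟨ContinuousLinearMap.opNorm_zero, by rw [sub_zero]⟩

/-- comparison with the frozen cone and with the round cone -/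
theorem geo5_cmp (hn : 2 ≤ n) (Z : ℝ) : ∃ δ C : ℝ, 0 < δ ∧ 0 < C ∧
    ∀ (ε ε₁ : ℝ) (l : ℝ → ℝ) (b : ℝ → BB n) (t : ℝ) (u : Sp n), Adm ε l b → ε ≤ ε₁ → 42 * ε₁ ≤ δ →
      -Z ≤ l t → l t + Z ≤ ε₁ → |deriv l t| ≤ ε₁ → |deriv (deriv l) t| ≤ ε₁ → ‖deriv b t‖ ≤ ε₁ →
      ‖deriv (deriv b) t‖ ≤ ε₁ →
      (∀ i j, |ricci (fun y => geo5G (y, sigJ l b t y)) u i j -
        ricci (fun y => geo5G (y, sigJ (fun _ => l t) (fun _ => b t) t y)) u i j| ≤
          C * (10 * (|deriv l t| + |deriv (deriv l) t| + ‖deriv b t‖ + ‖deriv (deriv b) t‖))) ∧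
      ∀ i j, |ricci (fun y => geo5G (y, sigJ l b t y)) u i j -
        ricci (fun y => geo5G (y, (-Z, 0))) u i j| ≤ C * (41 * ε₁) := by
  obtain ⟨δ, C, hδ, hC, HJ⟩ := geo5_jet hn Z
  refine ⟨δ, C, hδ, hC, fun ε ε₁ l b t u h hε k2 b1 a1 a2 a3 a4 a5 => ?_⟩
  have k0 : 0 < ε₁ := h.good.1.trans_le hε
  obtain ⟨j1, j2, j3, j4, j5, j6⟩ := sigJ_jets h t u
  have hbt : ‖b t‖ ≤ ε₁ := (h.small t).le.trans hε
  have s1 : sigJ l b t u = (l t, fun i j => (b t).e i j u) := by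
    simp only [sigJ, Sp.norm_eq, Real.log_one, add_zero]
  have s2 : sigJ (fun _ => l t) (fun _ => b t) t u = (l t, fun i j => (b t).e i j u) := rfl
  have m1 : ((u : E n), (l t, fun i j => (b t).e i j u)) ∈ geo5O n :=
    geo5_mem hn h.good (h.small t) (l t) (Sp.ne_zero u)
  have m0 : ((u : E n), ((-Z, 0) : geo5Z n)) ∈ geo5O n :=
    geo5_mem hn h.good (β := 0) (by simpa using h.good.1) (-Z) (Sp.ne_zero u)
  have n0 : ‖((l t, fun i j => (b t).e i j u) : geo5Z n) - (-Z, 0)‖ ≤ ε₁ := by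
    simp only [Prod.mk_sub_mk, sub_zero, Prod.norm_mk, max_le_iff]
    refine ⟨?_, (pi_norm_le_iff_of_nonneg k0.le).2 fun i =>
      (pi_norm_le_iff_of_nonneg k0.le).2 fun j => ((b t).abs_le i j u).trans hbt⟩
    rw [Real.norm_eq_abs, abs_le]
    constructor <;> linarith
  have p1 := abs_nonneg (deriv l t)
  have p2 := abs_nonneg (deriv (deriv l) t)
  have p3 := norm_nonneg (deriv b t)
  have p4 := norm_nonneg (deriv (deriv b) t)
  have n1 : ‖fderiv ℝ (sigJ l b t) u‖ ≤ 41 * ε₁ :=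
    (norm_le_insert' _ _).trans ((add_le_add j3 j5).trans (by linarith))
  have n2 : ‖fderiv ℝ (fderiv ℝ (sigJ l b t)) u‖ ≤ 41 * ε₁ :=
    (norm_le_insert' _ (fderiv ℝ (fderiv ℝ (sigJ (fun _ => l t) (fun _ => b t) t)) u)).trans
      ((add_le_add j4 j6).trans (by linarith))
  have d1 : ε₁ < δ := by linarith
  have d2 : 41 * ε₁ < δ := by linarith
  obtain ⟨z1, z2⟩ := geo5_const (u : E n) ((-Z, 0) : geo5Z n) (sigJ l b t)
  exact ⟨HJ u _ _ _ j1 j2 (s1 ▸ m1) m1 (by rw [s1]; exact n0.trans_lt d1) (n1.trans_lt d2)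
      (n2.trans_lt d2) (n0.trans_lt d1) ((j3.trans hbt).trans_lt d1) ((j4.trans hbt).trans_lt d1)
      (by rw [s1, s2, sub_self, norm_zero]; positivity) (j5.trans (by linarith)) j6,
    HJ u _ (fun _ => (-Z, 0)) _ j1 contDiffAt_const (s1 ▸ m1) m0
      (by rw [s1]; exact n0.trans_lt d1) (n1.trans_lt d2) (n2.trans_lt d2) (by simpa using hδ)
      (by simpa using hδ) (z1.trans_lt hδ) (by rw [s1]; exact n0.trans (by linarith))
      (by simpa using n1) (z2.trans_le n2)⟩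

end Crest.Agent.R202
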