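import Crest.Agent.R202.Geo3
import Crest.Agent.R202.Geo4

/-! # Row 202, Geo5: nonnegative Ricci curvature -/

set_option autoImplicit false
open scoped ContDiff RealInnerProductSpace
open Set Filter Topology MeasureTheory Crest.GeometryTopology.CoordMetric
open Crest.GeometryTopology.ChartCurvature

noncomputable section
namespace Crest.Agent.R202

variable {n : ℕ}

lemma geo5a_ray {f : E n → ℝ} (x : E n) (τ : ℝ) (hf : DifferentiableAt ℝ f (Real.exp τ • x)) :
    HasDerivAt (fun τ => f (Real.exp τ • x)) (fderiv ℝ f (Real.exp τ • x) (Real.exp τ • x)) τ :=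
  hf.hasFDerivAt.comp_hasDerivAt τ ((Real.hasDerivAt_exp τ).smul_const x)

lemma geo5a_lognorm (x : Sp n) (τ : ℝ) : Real.log ‖Real.exp τ • (x : E n)‖ = τ := by
  rw [norm_smul, Sp.norm_eq, mul_one, Real.norm_eq_abs, abs_of_pos (Real.exp_pos τ), Real.log_exp]

lemma geo5a_polar {x : E n} (hx : x ≠ 0) :
    ∃ y : Sp n, x = Real.exp (Real.log ‖x‖) • (y : E n) := by
  have h : 0 < ‖x‖ := norm_pos_iff.2 hx
  refine ⟨⟨‖x‖⁻¹ • x, by simp [norm_smul, h.ne']⟩, ?_⟩
  rw [Real.exp_log h]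
  simp [smul_smul, h.ne']

/-- the inverse metric along a ray -/
def geo5aM (x : Sp n) (l : ℝ) (b : BB n) : Matrix (Fin n) (Fin n) ℝ :=
  Matrix.vecMulVec (fun i => (x : E n) i) (fun i => (x : E n) i) + Real.exp (-2 * l) • (HX (iota b)).at x

lemma geo5a_metric (l : ℝ → ℝ) (b : ℝ → BB n) (x : Sp n) (τ : ℝ) :
    metric l b (Real.exp τ • (x : E n)) = (geo5aM x (l τ) (b τ))⁻¹ := by
  unfold metric
  rw [geo5a_lognorm, Amat_eq _ _ _ (Real.exp_pos τ)]
  rfl

lemma geo5a_M_eq (x : Sp n) (l : ℝ) (b : BB n) : geo5aM x l b = Amat (x : E n) l (bmat b x) := by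
  have := Amat_eq b l x one_pos
  rw [one_smul] at this
  exact this.symm

lemma geo5a_posDef (hn : 2 ≤ n) {ε : ℝ} (h : Good n ε) {b : BB n} (hb : ‖b‖ < ε) (l : ℝ) (x : Sp n) :
    (geo5aM x l b).PosDef := by
  rw [geo5a_M_eq]; exact Amat_posDef hn h hb l x

lemma geo5a_entry (K : X n) (i j : Fin n) (x : Sp n) : |K i j x| ≤ ‖K‖ :=
  ((K i j).norm_coe_le_norm x).trans ((norm_le_pi_norm (K i) j).trans (norm_le_pi_norm K i))

lemma geo5a_iota (b : BB n) : ‖iota b‖ ≤ ‖b‖ := by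
  refine (pi_norm_le_iff_of_nonneg (norm_nonneg _)).2 fun i =>
    (pi_norm_le_iff_of_nonneg (norm_nonneg _)).2 fun j => ?_
  exact (ContinuousMap.norm_le _ (norm_nonneg _)).2 fun x => b.abs_le i j x

/-- evaluation of a matrix field -/
def geo5aEv (i j : Fin n) (x : Sp n) : X n →L[ℝ] ℝ :=
  (ContinuousMap.evalCLM ℝ x) ∘L (ContinuousLinearMap.proj j ∘L
    (ContinuousLinearMap.proj i : X n →L[ℝ] (Fin n → CS n)))

lemma geo5aEv_apply (i j : Fin n) (x : Sp n) (K : X n) : geo5aEv i j x K = K i j x := rfl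

lemma geo5a_derivM {ε : ℝ} {l : ℝ → ℝ} {b : ℝ → BB n} (h : Adm ε l b) (x : Sp n) (τ : ℝ) (i j : Fin n) :
    HasDerivAt (fun τ => geo5aM x (l τ) (b τ) i j)
      (Real.exp (-2 * l τ) * (-2 * deriv l τ) * HX (iota (b τ)) i j x +
        Real.exp (-2 * l τ) * fderiv ℝ HX (iota (b τ)) (iota (deriv b τ)) i j x) τ := by
  have hl : HasDerivAt l (deriv l τ) τ := (h.smooth.differentiable (by simp) τ).hasDerivAt
  have hb : HasDerivAt b (deriv b τ) τ := (h.fin.contDiff.differentiable (by simp) τ).hasDerivAt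
  have h1 : HasDerivAt (fun τ => iota (b τ)) (iota (deriv b τ)) τ :=
    iota.hasFDerivAt.comp_hasDerivAt τ hb
  have h0 : HasFDerivAt HX (fderiv ℝ HX (iota (b τ))) (iota (b τ)) :=
    (analyticAt_HX (h.good.detOK (h.small τ))).differentiableAt.hasFDerivAt
  have h2 : HasDerivAt (fun τ => HX (iota (b τ))) (fderiv ℝ HX (iota (b τ)) (iota (deriv b τ))) τ :=
    HasFDerivAt.comp_hasDerivAt (f := fun τ => iota (b τ)) τ h0 h1
  have h3 : HasDerivAt (fun τ => HX (iota (b τ)) i j x)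
      (fderiv ℝ HX (iota (b τ)) (iota (deriv b τ)) i j x) τ :=
    (geo5aEv i j x).hasFDerivAt.comp_hasDerivAt τ h2
  have h4 : HasDerivAt (fun τ => Real.exp (-2 * l τ)) (Real.exp (-2 * l τ) * (-2 * deriv l τ)) τ :=
    (hl.const_mul (-2)).exp
  have h5 := (h4.mul h3).const_add ((x : E n) i * (x : E n) j)
  exact h5

lemma geo5a_quad_single (g : MetricField n) (x : E n) (i j : Fin n) (c : ℝ) :
    quadForm g x (EuclideanSpace.single i 1 + EuclideanSpace.single j c) =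
      g x i i + c * g x i j + c * g x j i + c ^ 2 * g x j j := by
  unfold quadForm
  simp [PiLp.single_apply, mul_add, add_mul, Finset.sum_add_distrib]
  ring

lemma geo5a_g_bound (hn : 2 ≤ n) {ε Z : ℝ} {l : ℝ → ℝ} {b : ℝ → BB n} (h : Adm ε l b)
    (hZ : ∀ t, -Z ≤ l t ∧ l t ≤ 0) (x : E n) (i j : Fin n) : |metric l b x i j| ≤ 3 := by
  have hpd := (h.radial hn).riem.posDef x (mem_univ x)
  have hs : metric l b x j i = metric l b x i j := by
    have := hpd.1.apply i j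
    simpa using this
  have hd : ∀ k, metric l b x k k ≤ 3 := by
    intro k
    have h1 := (h.quad hn hZ x (EuclideanSpace.single k 1)).2
    have h2 := geo5a_quad_single (metric l b) x k k 0
    have h3 : (EuclideanSpace.single k (0 : ℝ) : E n) = 0 := by ext m; simp
    rw [h3, add_zero] at h2
    rw [h2] at h1
    simpa using h1
  have hp : ∀ c : ℝ, 0 ≤ metric l b x i i + c * metric l b x i j + c * metric l b x j i +
      c ^ 2 * metric l b x j j := by
    intro c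
    rw [← geo5a_quad_single]
    exact le_trans (by positivity) (h.quad hn hZ x _).1
  have a1 := hp 1
  have a2 := hp (-1)
  have a3 := hd i
  have a4 := hd j
  rw [hs] at a1 a2
  exact abs_le.2 ⟨by linarith, by linarith⟩

lemma geo5a_derivG (hn : 2 ≤ n) {ε : ℝ} {l : ℝ → ℝ} {b : ℝ → BB n} (h : Adm ε l b) (x : E n) (τ : ℝ)
    (i j : Fin n) : HasDerivAt (fun τ => metric l b (Real.exp τ • x) i j)
      (2 * Smat (metric l b) (Real.exp τ • x) i j) τ := by
  have h1 : ContDiff ℝ ∞ fun y => metric l b y i j :=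
    contDiffOn_univ.1 ((h.radial hn).riem.contDiffOn i j)
  have h2 := geo5a_ray x τ (h1.differentiable (by simp) _)
  convert h2 using 1
  simp only [Smat, Matrix.of_apply]
  ring

lemma geo5a_triple (P Q R : Matrix (Fin n) (Fin n) ℝ) {p q r : ℝ} (hP : ∀ i j, |P i j| ≤ p)
    (hQ : ∀ i j, |Q i j| ≤ q) (hR : ∀ i j, |R i j| ≤ r) (i j : Fin n) :
    |(P * Q * R) i j| ≤ (n : ℝ) ^ 2 * (p * q * r) := by
  have hp : 0 ≤ p := (abs_nonneg _).trans (hP i j)
  have hq : 0 ≤ q := (abs_nonneg _).trans (hQ i j)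
  simp only [Matrix.mul_apply, Finset.sum_mul]
  refine (Finset.abs_sum_le_sum_abs _ _).trans ?_
  calc ∑ k, |∑ m, P i m * Q m k * R k j| ≤ ∑ _k : Fin n, ∑ _m : Fin n, p * q * r := by
        refine Finset.sum_le_sum fun k _ => (Finset.abs_sum_le_sum_abs _ _).trans
          (Finset.sum_le_sum fun m _ => ?_)
        rw [abs_mul, abs_mul]
        exact mul_le_mul (mul_le_mul (hP _ _) (hQ _ _) (abs_nonneg _) hp) (hR _ _) (abs_nonneg _)
          (mul_nonneg hp hq)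
    _ = (n : ℝ) ^ 2 * (p * q * r) := by simp; ring

/-- the radial derivative of the metric is small: along the ray, `τ ↦ metric l b (e^τ x) = (Amat x (l τ) (bmat (b τ) x))⁻¹ = 𝒢(x, l τ, (iota (b τ)).at x)` with `𝒢` of class `C¹` on a
neighbourhood (`det ≠ 0`, `det(1+β) > 1/2`) of the compact set `{(x,λ,β) | ‖x‖ = 1, λ ∈ [-Z,0], β symmetric, βx = 0, |βᵢⱼ| ≤ ε}` (where `Amat` is positive definite; or
differentiate `g = A⁻¹` directly: `g' = -g A' g` with `fderiv_HX_bound`, `Amat_eq`, `Adm.quad`), so `|S_{ij}| ≤ C(|l'| + ‖b'‖)`; the entries of `g⁻¹ = Amat` are bounded. -/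
theorem Smat_bound (hn : 2 ≤ n) {ε : ℝ} (hε : Good n ε) (Z : ℝ) : ∃ C : ℝ, 0 < C ∧ ∀ (l : ℝ → ℝ) (b : ℝ → BB n),
    Adm ε l b → (∀ t, -Z ≤ l t ∧ l t ≤ 0) → ∀ x : E n, x ≠ 0 → ∀ i j,
      |Smat (metric l b) x i j| ≤ C * (|deriv l (Real.log ‖x‖)| + ‖deriv b (Real.log ‖x‖)‖) ∧
      |(metric l b x)⁻¹ i j| ≤ C := by
  obtain ⟨C₀, hC₀⟩ := fderiv_HX_bound hε
  have hC0 : 0 ≤ C₀ := (norm_nonneg _).trans (hC₀ 0 (by simpa using hε.1)).1
  set D := Real.exp (2 * Z) * C₀ with hD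
  have hD0 : 0 ≤ D := by positivity
  refine ⟨1 + D + 9 * (n : ℝ) ^ 2 * D, by positivity, fun l b h hZ x hx i j => ?_⟩
  obtain ⟨y, hy⟩ := geo5a_polar hx
  set τ := Real.log ‖x‖ with hτ
  have hexp : Real.exp (-2 * l τ) ≤ Real.exp (2 * Z) := Real.exp_le_exp.2 (by linarith [(hZ τ).1])
  have hdet : ∀ σ, IsUnit (geo5aM y (l σ) (b σ)).det := fun σ =>
    (geo5a_posDef hn hε (h.small σ) _ y).det_pos.ne'.isUnit
  have hH : ∀ i j, |HX (iota (b τ)) i j y| ≤ C₀ := fun i j =>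
    (geo5a_entry _ i j y).trans (hC₀ _ (h.small τ)).1
  constructor
  · set A' : Matrix (Fin n) (Fin n) ℝ := Matrix.of fun i j =>
      Real.exp (-2 * l τ) * (-2 * deriv l τ) * HX (iota (b τ)) i j y +
        Real.exp (-2 * l τ) * fderiv ℝ HX (iota (b τ)) (iota (deriv b τ)) i j y with hA'
    have hA'b : ∀ i j, |A' i j| ≤ 2 * D * (|deriv l τ| + ‖deriv b τ‖) := by
      intro i j
      have h1 : |fderiv ℝ HX (iota (b τ)) (iota (deriv b τ)) i j y| ≤ C₀ * ‖deriv b τ‖ :=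
        (geo5a_entry _ i j y).trans ((ContinuousLinearMap.le_opNorm _ _).trans
          (mul_le_mul (hC₀ _ (h.small τ)).2 (geo5a_iota _) (norm_nonneg _) hC0))
      have h2 := hH i j
      have he := Real.exp_pos (-2 * l τ)
      simp only [hA', Matrix.of_apply]
      refine (abs_add_le _ _).trans ?_
      rw [abs_mul, abs_mul, abs_mul, abs_mul, abs_of_pos he, abs_neg, abs_two]
      have h3 : Real.exp (-2 * l τ) * (2 * |deriv l τ|) * |HX (iota (b τ)) i j y| ≤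
          Real.exp (2 * Z) * (2 * |deriv l τ|) * C₀ := by gcongr
      have h4 : Real.exp (-2 * l τ) * |fderiv ℝ HX (iota (b τ)) (iota (deriv b τ)) i j y| ≤
          Real.exp (2 * Z) * (C₀ * ‖deriv b τ‖) := by gcongr
      have h5 : 0 ≤ D * ‖deriv b τ‖ := by positivity
      rw [hD] at h5 ⊢
      nlinarith
    have hprod : (2 : ℝ) • Smat (metric l b) x * geo5aM y (l τ) (b τ) + metric l b x * A' = 0 := by
      ext i j
      have h1 : HasDerivAt (fun σ => ∑ k, metric l b (Real.exp σ • (y : E n)) i k * geo5aM y (l σ) (b σ) k j)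
          (∑ k, (2 * Smat (metric l b) (Real.exp τ • (y : E n)) i k * geo5aM y (l τ) (b τ) k j +
            metric l b (Real.exp τ • (y : E n)) i k * A' k j)) τ :=
        HasDerivAt.fun_sum fun k _ => (geo5a_derivG hn h y τ i k).mul (geo5a_derivM h y τ k j)
      have h2 : (fun σ => ∑ k, metric l b (Real.exp σ • (y : E n)) i k * geo5aM y (l σ) (b σ) k j) =
          fun _ => (1 : Matrix (Fin n) (Fin n) ℝ) i j := by
        funext σ
        rw [← Matrix.mul_apply, geo5a_metric, Matrix.nonsing_inv_mul _ (hdet σ)]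
      rw [h2] at h1
      have h3 := h1.unique (hasDerivAt_const τ _)
      rw [← hy] at h3
      simp only [Matrix.add_apply, Matrix.mul_apply, Matrix.smul_apply, smul_eq_mul, Matrix.zero_apply]
      rw [← h3, Finset.sum_add_distrib]
    have hS : (2 : ℝ) • Smat (metric l b) x = -(metric l b x * A' * metric l b x) := by
      have h1 : geo5aM y (l τ) (b τ) * metric l b x = 1 := by
        rw [hy, geo5a_metric, Matrix.mul_nonsing_inv _ (hdet τ)]
      calc (2 : ℝ) • Smat (metric l b) x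
          = (2 : ℝ) • Smat (metric l b) x * geo5aM y (l τ) (b τ) * metric l b x := by
            rw [Matrix.mul_assoc, h1, Matrix.mul_one]
        _ = -(metric l b x * A' * metric l b x) := by
            rw [eq_neg_of_add_eq_zero_left hprod, Matrix.neg_mul]
    have h6 := geo5a_triple (metric l b x) A' (metric l b x) (geo5a_g_bound hn h hZ x) hA'b
      (geo5a_g_bound hn h hZ x) i j
    have h7 : 2 * Smat (metric l b) x i j = -(metric l b x * A' * metric l b x) i j := by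
      have := congrFun (congrFun hS i) j
      simpa using this
    have h8 : 2 * |Smat (metric l b) x i j| = |(metric l b x * A' * metric l b x) i j| := by
      rw [← abs_neg ((metric l b x * A' * metric l b x) i j), ← h7, abs_mul, abs_two]
    have h9 : 0 ≤ |deriv l τ| + ‖deriv b τ‖ := by positivity
    nlinarith
  · rw [hy, geo5a_metric, Matrix.nonsing_inv_nonsing_inv _ (hdet τ)]
    have h1 : ∀ k, |(y : E n) k| ≤ 1 := fun k => by
      have := PiLp.norm_apply_le (y : E n) k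
      rwa [Sp.norm_eq] at this
    have h2 : geo5aM y (l τ) (b τ) i j =
        (y : E n) i * (y : E n) j + Real.exp (-2 * l τ) * HX (iota (b τ)) i j y := rfl
    rw [h2]
    refine (abs_add_le _ _).trans ?_
    rw [abs_mul, abs_mul, abs_of_pos (Real.exp_pos _)]
    have h3 : |(y : E n) i| * |(y : E n) j| ≤ 1 := mul_le_one₀ (h1 i) (abs_nonneg _) (h1 j)
    have h4 : Real.exp (-2 * l τ) * |HX (iota (b τ)) i j y| ≤ Real.exp (2 * Z) * C₀ := by
      have := hH i j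
      gcongr
    have h5 : 0 ≤ 9 * (n : ℝ) ^ 2 * D := by positivity
    linarith

lemma geo5a_mvt {G φ φ' Q : ℝ → ℝ} (hG : ∀ τ, HasDerivAt G (2 * φ τ) τ) (hφ : ∀ τ, HasDerivAt φ (φ' τ) τ)
    {K C δ : ℝ} (hδ : 0 < δ) (hK0 : 0 ≤ K) (_hC : 0 ≤ C) (hK : ∀ τ, 1 ≤ τ → |φ τ| ≤ K / τ ∧ |Q τ| ≤ K / τ ^ 2)
    (a c : ℕ → ℝ) (ha : Tendsto a atTop atTop) (hac : ∀ j, a j ≤ c j ∧ c j ≤ C * a j)
    (hinc : ∀ᶠ j in atTop, δ ≤ G (c j) - G (a j)) (T : ℝ) : ∃ τ, T ≤ τ ∧ Q τ < φ' τ + φ τ := by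
  obtain ⟨j, hj, hj1, hjT, hj2⟩ := (hinc.and ((ha.eventually_ge_atTop 1).and
    ((ha.eventually_ge_atTop T).and (ha.eventually_gt_atTop (2 * (2 * K + K * C) / δ))))).exists
  obtain ⟨h1, h2⟩ := hac j
  have hlt : a j < c j := by
    refine lt_of_le_of_ne h1 fun e => ?_
    rw [e] at hj
    linarith
  have hd : ∀ τ, HasDerivAt (fun τ => φ τ + G τ / 2) (φ' τ + φ τ) τ := fun τ => by
    have := (hφ τ).add ((hG τ).div_const 2)
    rwa [mul_div_cancel_left₀ _ two_ne_zero] at this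
  obtain ⟨τ, ⟨hτ1, hτ2⟩, hτ⟩ := exists_hasDerivAt_eq_slope (fun τ => φ τ + G τ / 2) (fun τ => φ' τ + φ τ) hlt
    (fun τ _ => (hd τ).continuousAt.continuousWithinAt) (fun τ _ => hd τ)
  refine ⟨τ, by linarith, ?_⟩
  have ha0 : 0 < a j := by linarith
  have b1 : |φ (a j)| ≤ K / a j := (hK _ hj1).1
  have b2 : |φ (c j)| ≤ K / a j :=
    (hK _ (by linarith)).1.trans (div_le_div_of_nonneg_left hK0 ha0 h1)
  have b3 : |Q τ| ≤ K / a j ^ 2 :=
    (hK _ (by linarith)).2.trans (div_le_div_of_nonneg_left hK0 (by positivity) (by gcongr))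
  rw [hτ, lt_div_iff₀ (by linarith)]
  have b4 : Q τ * (c j - a j) ≤ K / a j ^ 2 * (C * a j) :=
    mul_le_mul ((le_abs_self _).trans b3) (by linarith) (by linarith) (by positivity)
  have b5 : K / a j ^ 2 * (C * a j) = K * C / a j := by field_simp
  have b6 : (2 * K + K * C) / a j < δ / 2 := by
    rw [div_lt_iff₀ hδ] at hj2
    rw [div_lt_iff₀ ha0]
    linarith
  have b7 : (2 * K + K * C) / a j = 2 * (K / a j) + K * C / a j := by ring
  obtain ⟨c1, c2⟩ := abs_le.1 b1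
  obtain ⟨c3, c4⟩ := abs_le.1 b2
  linarith

lemma geo5a_form_bound (P : Matrix (Fin n) (Fin n) ℝ) (ξ : E n) {p : ℝ} (hP : ∀ i j, |P i j| ≤ p) :
    |∑ j, ∑ k, P j k * ξ j * ξ k| ≤ p * ∑ j, ∑ k, |ξ j| * |ξ k| := by
  simp only [Finset.mul_sum]
  refine (Finset.abs_sum_le_sum_abs _ _).trans (Finset.sum_le_sum fun j _ =>
    (Finset.abs_sum_le_sum_abs _ _).trans (Finset.sum_le_sum fun k _ => ?_))
  rw [mul_assoc, abs_mul, abs_mul]
  exact mul_le_mul_of_nonneg_right (hP j k) (by positivity)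

lemma geo5a_form_ne {P P' : Matrix (Fin n) (Fin n) ℝ} (hP : ∀ i j, P j i = P i j) (hP' : ∀ i j, P' j i = P' i j)
    (hne : P ≠ P') : ∃ ξ : E n, ∑ j, ∑ k, P j k * ξ j * ξ k ≠ ∑ j, ∑ k, P' j k * ξ j * ξ k := by
  by_contra hcon
  push Not at hcon
  apply hne
  ext i j
  have h : ∀ c : ℝ, P i i + c * P i j + c * P j i + c ^ 2 * P j j =
      P' i i + c * P' i j + c * P' j i + c ^ 2 * P' j j := fun c => by
    rw [← geo5a_quad_single (fun _ => P) 0, ← geo5a_quad_single (fun _ => P') 0]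
    exact hcon _
  have h1 := h 1
  have h2 := h (-1)
  rw [hP i j, hP' i j] at h1 h2
  linarith

lemma geo5a_tendsto (hn : 2 ≤ n) {ε : ℝ} (h : Good n ε) {w : BB n} (hw : ‖w‖ < ε) (x : Sp n) (ξ : E n)
    {u : ℕ → ℝ} {L : ℝ} (hu : Tendsto u atTop (𝓝 L)) :
    Tendsto (fun m => ∑ j, ∑ k, (geo5aM x (u m) w)⁻¹ j k * ξ j * ξ k) atTop
      (𝓝 (∑ j, ∑ k, (geo5aM x L w)⁻¹ j k * ξ j * ξ k)) := by
  have h1 : Continuous fun l => geo5aM x l w := by
    unfold geo5aM
    fun_prop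
  have hdet : (geo5aM x L w).det ≠ 0 := (geo5a_posDef hn h hw L x).det_pos.ne'
  have h2 : ContinuousAt Inv.inv (geo5aM x L w) := by
    refine continuousAt_matrix_inv _ ?_
    rw [Ring.inverse_eq_inv']
    exact continuousAt_inv₀ hdet
  have h3 : Tendsto (fun m => (geo5aM x (u m) w)⁻¹) atTop (𝓝 (geo5aM x L w)⁻¹) :=
    h2.tendsto.comp ((h1.tendsto L).comp hu)
  refine tendsto_finsetSum _ fun j _ => tendsto_finsetSum _ fun k _ => ?_
  exact (((continuous_apply_apply j k).tendsto _).comp h3).mul_const _ |>.mul_const _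

lemma geo5a_fix (hn : 2 ≤ n) {ε : ℝ} (h : Good n ε) {w : BB n} (hw : ‖w‖ < ε) (x : Sp n) (L c : ℝ) :
    ∑ j, ∑ k, (geo5aM x L w)⁻¹ j k * (c • (x : E n)) j * (c • (x : E n)) k =
      c ^ 2 * ∑ j, (x : E n) j * (x : E n) j := by
  have hdet : IsUnit (geo5aM x L w).det := (geo5a_posDef hn h hw L x).det_pos.ne'.isUnit
  have h1 : (geo5aM x L w).mulVec (fun i => (x : E n) i) = fun i => (x : E n) i := by
    rw [geo5a_M_eq]; exact Amat_mulVec w L x
  have h2 : (geo5aM x L w)⁻¹.mulVec (fun i => (x : E n) i) = fun i => (x : E n) i := by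
    conv_lhs => rw [← h1]
    rw [Matrix.mulVec_mulVec, Matrix.nonsing_inv_mul _ hdet, Matrix.one_mulVec]
  rw [Finset.mul_sum]
  refine Finset.sum_congr rfl fun j _ => ?_
  have h3 : ∑ k, (geo5aM x L w)⁻¹ j k * (x : E n) k = (x : E n) j := congrFun h2 j
  calc ∑ k, (geo5aM x L w)⁻¹ j k * (c • (x : E n)) j * (c • (x : E n)) k
      = c ^ 2 * ((x : E n) j * ∑ k, (geo5aM x L w)⁻¹ j k * (x : E n) k) := by
        simp only [PiLp.smul_apply, smul_eq_mul, Finset.mul_sum]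
        exact Finset.sum_congr rfl fun k _ => by ring
    _ = c ^ 2 * ((x : E n) j * (x : E n) j) := by rw [h3]

/-- **negative radial curvature.**  `H_w(x₀) ≠ H_{w'}(x₀)` for some `x₀`, so the symmetric matrices `(Amat x₀ (-Z) (bmat w x₀))⁻¹ ≠ (Amat x₀ (-Z) (bmat w' x₀))⁻¹` have different
quadratic forms at some `ξ`, not parallel to `x₀` (both fix `x₀`).  Let `G τ = quadForm g (e^τ x₀) ξ`, `φ = G'/2 = S(ξ,ξ)`.  Using the pairs `(s j, t j)` or `(t j, s' j)`, `G` increases by `≥ c > 0`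
over intervals `[a,b]`, `b ≤ C a`, `a → ∞`.  `|φ| ≤ C/τ`, `|(S g⁻¹ S)(ξ,ξ)| ≤ C/τ²` (`Smat_bound`).  The mean value theorem for `φ + G/2` gives `τ ∈ [a,b]` with
`φ' + φ ≥ (c/2 - 2C/a)/(Ca) > C/τ²` for large `a`; `secNumer_x`, `gramDet_pos`. -/
theorem neg_curv (hn : 2 ≤ n) {ε Z C : ℝ} {l : ℝ → ℝ} {b : ℝ → BB n} (h : Adm ε l b)
    (hZ : ∀ t, -Z ≤ l t ∧ l t ≤ 0) (hl : Tendsto l atTop (𝓝 (-Z)))
    (hd : ∀ t, 1 ≤ t → |deriv l t| ≤ C / t ∧ ‖deriv b t‖ ≤ C / t)
    {w w' : BB n} (hne : HX (iota w) ≠ HX (iota w')) (s t s' : ℕ → ℝ) (hs : Tendsto s atTop atTop)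
    (hst : ∀ j, s j ≤ t j ∧ t j ≤ s' j ∧ s' j ≤ C * s j ∧ b (s j) = w ∧ b (t j) = w' ∧ b (s' j) = w) :
    ∃ p : ℕ → E n, Tendsto (fun j => ‖p j‖) atTop atTop ∧
      ∀ j, ∃ v : E n, 0 < gramDet (metric l b) (p j) (p j) v ∧ secNumer (metric l b) (p j) (p j) v < 0 := by
  have hC : 0 ≤ C := by simpa using (abs_nonneg _).trans (hd 1 le_rfl).1
  have hw : ‖w‖ < ε := (hst 0).2.2.2.1 ▸ h.small _
  have hw' : ‖w'‖ < ε := (hst 0).2.2.2.2.1 ▸ h.small _
  obtain ⟨i₀, j₀, x, hx⟩ : ∃ i j x, HX (iota w) i j x ≠ HX (iota w') i j x := by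
    by_contra hcon
    push Not at hcon
    exact hne (funext fun i => funext fun j => ContinuousMap.ext fun x => hcon i j x)
  have hsym : ∀ {v : BB n}, ‖v‖ < ε → ∀ i j, (geo5aM x (-Z) v)⁻¹ j i = (geo5aM x (-Z) v)⁻¹ i j := by
    intro v hv i j
    have := (geo5a_posDef hn h.good hv (-Z) x).inv.1.apply i j
    simpa using this
  have hPne : (geo5aM x (-Z) w)⁻¹ ≠ (geo5aM x (-Z) w')⁻¹ := by
    intro he
    have h1 := congrArg Inv.inv he
    rw [Matrix.nonsing_inv_nonsing_inv _ (geo5a_posDef hn h.good hw (-Z) x).det_pos.ne'.isUnit,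
      Matrix.nonsing_inv_nonsing_inv _ (geo5a_posDef hn h.good hw' (-Z) x).det_pos.ne'.isUnit] at h1
    have h2 : (x : E n) i₀ * (x : E n) j₀ + Real.exp (-2 * -Z) * HX (iota w) i₀ j₀ x =
        (x : E n) i₀ * (x : E n) j₀ + Real.exp (-2 * -Z) * HX (iota w') i₀ j₀ x :=
      congrFun (congrFun h1 i₀) j₀
    exact hx (mul_left_cancel₀ (Real.exp_pos _).ne' (add_left_cancel h2))
  obtain ⟨ξ, hξ⟩ := geo5a_form_ne (hsym hw) (hsym hw') hPne
  have hξx : ∀ c : ℝ, ξ ≠ c • (x : E n) := by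
    rintro c rfl
    exact hξ (by rw [geo5a_fix hn h.good hw, geo5a_fix hn h.good hw'])
  set g := metric l b with hg
  have hrad : Radial g := h.radial hn
  set G : ℝ → ℝ := fun τ => ∑ j, ∑ k, g (Real.exp τ • (x : E n)) j k * ξ j * ξ k with hG
  set F : E n → ℝ := fun y => ∑ j, ∑ k, Smat g y j k * ξ j * ξ k with hF
  set Q : ℝ → ℝ := fun τ => ∑ j, ∑ k, (Smat g (Real.exp τ • (x : E n)) * (g (Real.exp τ • (x : E n)))⁻¹ *
    Smat g (Real.exp τ • (x : E n))) j k * ξ j * ξ k with hQ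
  have hGd : ∀ τ, HasDerivAt G (2 * F (Real.exp τ • (x : E n))) τ := by
    intro τ
    have h1 : HasDerivAt G (∑ j, ∑ k, 2 * Smat g (Real.exp τ • (x : E n)) j k * ξ j * ξ k) τ :=
      HasDerivAt.fun_sum fun j _ => HasDerivAt.fun_sum fun k _ =>
        ((geo5a_derivG hn h x τ j k).mul_const _).mul_const _
    convert h1 using 1
    simp only [hF, Finset.mul_sum]
    exact Finset.sum_congr rfl fun j _ => Finset.sum_congr rfl fun k _ => by ring
  have hFd : Differentiable ℝ F := by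
    refine Differentiable.fun_sum fun j _ => Differentiable.fun_sum fun k _ =>
      (Differentiable.mul_const ?_ _).mul_const _
    have h1 : ContDiff ℝ ∞ fun y => g y j k := contDiffOn_univ.1 (hrad.riem.contDiffOn j k)
    have h2 : Differentiable ℝ (fderiv ℝ fun y => g y j k) :=
      (h1.fderiv_right (m := ∞) (by simp)).differentiable (by simp)
    exact (h2.clm_apply differentiable_id).const_mul (1 / 2)
  obtain ⟨C₁, hC₁, hS⟩ := Smat_bound hn h.good Z
  set N : ℝ := ∑ j, ∑ k, |ξ j| * |ξ k| with hN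
  have hN0 : 0 ≤ N := by positivity
  have hne0 : ∀ τ, Real.exp τ • (x : E n) ≠ 0 := fun τ => smul_ne_zero (Real.exp_pos τ).ne' (Sp.ne_zero x)
  set K : ℝ := (2 * C₁ * C + (n : ℝ) ^ 2 * ((2 * C₁ * C) ^ 2 * C₁)) * N with hK
  have hKb : ∀ τ, 1 ≤ τ → |F (Real.exp τ • (x : E n))| ≤ K / τ ∧ |Q τ| ≤ K / τ ^ 2 := by
    intro τ hτ
    have hτ0 : 0 < τ := by linarith
    have h1 : ∀ i j, |Smat g (Real.exp τ • (x : E n)) i j| ≤ 2 * C₁ * C / τ := by
      intro i j
      have h2 := (hS l b h hZ _ (hne0 τ) i j).1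
      rw [geo5a_lognorm] at h2
      refine h2.trans ?_
      have h3 := hd τ hτ
      calc C₁ * (|deriv l τ| + ‖deriv b τ‖) ≤ C₁ * (C / τ + C / τ) := by gcongr; exacts [h3.1, h3.2]
        _ = 2 * C₁ * C / τ := by ring
    have h2 : ∀ i j, |(g (Real.exp τ • (x : E n)))⁻¹ i j| ≤ C₁ := fun i j => (hS l b h hZ _ (hne0 τ) i j).2
    constructor
    · refine (geo5a_form_bound _ ξ h1).trans ?_
      rw [div_mul_eq_mul_div]
      refine div_le_div_of_nonneg_right ?_ hτ0.le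
      refine mul_le_mul_of_nonneg_right (le_add_of_nonneg_right (by positivity)) hN0
    · refine (geo5a_form_bound _ ξ (geo5a_triple _ _ _ h1 h2 h1)).trans ?_
      have h3 : (n : ℝ) ^ 2 * (2 * C₁ * C / τ * C₁ * (2 * C₁ * C / τ)) * N =
          (n : ℝ) ^ 2 * ((2 * C₁ * C) ^ 2 * C₁) * N / τ ^ 2 := by field_simp
      rw [h3]
      refine div_le_div_of_nonneg_right ?_ (by positivity)
      refine mul_le_mul_of_nonneg_right (le_add_of_nonneg_left (by positivity)) hN0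
  have ht : Tendsto t atTop atTop := tendsto_atTop_mono (fun j => (hst j).1) hs
  have hs' : Tendsto s' atTop atTop := tendsto_atTop_mono (fun j => (hst j).2.1) ht
  have hlim : ∀ {u : ℕ → ℝ} {v : BB n}, ‖v‖ < ε → Tendsto u atTop atTop → (∀ j, b (u j) = v) →
      Tendsto (fun m => G (u m)) atTop (𝓝 (∑ j, ∑ k, (geo5aM x (-Z) v)⁻¹ j k * ξ j * ξ k)) := by
    intro u v hv hu hb
    refine (geo5a_tendsto hn h.good hv x ξ (hl.comp hu)).congr fun m => ?_
    simp only [hG, hg, geo5a_metric, hb, Function.comp]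
  have l1 := hlim hw hs fun j => (hst j).2.2.2.1
  have l2 := hlim hw' ht fun j => (hst j).2.2.2.2.1
  have l3 := hlim hw hs' fun j => (hst j).2.2.2.2.2
  have key : ∀ T : ℝ, ∃ τ, T ≤ τ ∧ Q τ < fderiv ℝ F (Real.exp τ • (x : E n)) (Real.exp τ • (x : E n)) +
      F (Real.exp τ • (x : E n)) := by
    intro T
    have hK0 : 0 ≤ K := by positivity
    rcases lt_or_gt_of_ne hξ with hlt | hlt
    · refine geo5a_mvt hGd (fun τ => geo5a_ray (x : E n) τ (hFd _)) (half_pos (sub_pos.2 hlt)) hK0 hC hKb s t hs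
        (fun j => ⟨(hst j).1, (hst j).2.1.trans (hst j).2.2.1⟩) ?_ T
      exact (l2.sub l1).eventually_const_le (half_lt_self (sub_pos.2 hlt))
    · refine geo5a_mvt hGd (fun τ => geo5a_ray (x : E n) τ (hFd _)) (half_pos (sub_pos.2 hlt)) hK0 hC hKb t s' ht
        (fun j => ⟨(hst j).2.1, (hst j).2.2.1.trans (mul_le_mul_of_nonneg_left (hst j).1 hC)⟩) ?_ T
      exact (l3.sub l2).eventually_const_le (half_lt_self (sub_pos.2 hlt))
  choose τ hτ1 hτ2 using key
  refine ⟨fun j => Real.exp (τ j) • (x : E n), ?_, fun j => ⟨ξ, hrad.gramDet_pos (hne0 _) fun c hc => ?_, ?_⟩⟩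
  · refine tendsto_atTop_mono (fun j => ?_) tendsto_natCast_atTop_atTop
    rw [norm_smul, Sp.norm_eq, mul_one, Real.norm_eq_abs, abs_of_pos (Real.exp_pos _)]
    linarith [hτ1 j, Real.add_one_le_exp (τ j)]
  · exact hξx (c * Real.exp (τ j)) (by rw [hc, smul_smul])
  · rw [hrad.secNumer_x]
    have := hτ2 j
    simp only [hQ, hF] at this ⊢
    linarith

end Crest.Agent.R202
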