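import Crest.Agent.R202.Geo3
import Crest.Agent.R202.Geo4
import Crest.Agent.R202.Geo5a

/-! # Row 202, Geo5: nonnegative Ricci curvature -/

set_option autoImplicit false
open scoped ContDiff RealInnerProductSpace
open Set Filter Topology MeasureTheory Crest.GeometryTopology.CoordMetric
open Crest.GeometryTopology.ChartCurvature

noncomputable section
namespace Crest.Agent.R202

variable {n : ℕ}

section geo5bAux
variable {V F : Type*} [NormedAddCommGroup V] [NormedSpace ℝ V] [NormedAddCommGroup F]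
  [NormedSpace ℝ F]

lemma geo5b_has2 {f : V → F} {x : V} (hf : ContDiffAt ℝ 2 f x) :
    HasFDerivAt (fderiv ℝ f) (fderiv ℝ (fderiv ℝ f) x) x :=
  ((hf.fderiv_right (m := 1) (by norm_num)).differentiableAt (by norm_num)).hasFDerivAt

lemma geo5b_has2' {f : V → F} {x : V} (hf : ContDiffAt ℝ 2 f x) (w : V) :
    HasFDerivAt (fun y => fderiv ℝ f y w)
      ((ContinuousLinearMap.apply ℝ F w).comp (fderiv ℝ (fderiv ℝ f) x)) x :=
  (ContinuousLinearMap.apply ℝ F w).hasFDerivAt.comp x (geo5b_has2 hf)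

lemma geo5b_snd {f : V → F} {x : V} (hf : ContDiffAt ℝ 2 f x) (u w : V) :
    fderiv ℝ (fderiv ℝ f) x u w = fderiv ℝ (fun y => fderiv ℝ f y w) x u := by
  rw [(geo5b_has2' hf w).fderiv]; rfl

lemma geo5b_ev {f : V → F} {x : V} (hf : ContDiffAt ℝ 2 f x) :
    ∀ᶠ y in 𝓝 x, DifferentiableAt ℝ f y :=
  (hf.eventually (by simp)).mono fun _ hy => hy.differentiableAt (by norm_num)

lemma geo5b_comp1 {f : V → F} {x : V} (hf : DifferentiableAt ℝ f x) (L : F →L[ℝ] ℝ) (w : V) :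
    L (fderiv ℝ f x w) = fderiv ℝ (fun y => L (f y)) x w := by
  rw [show (fun y => L (f y)) = L ∘ f from rfl, (L.hasFDerivAt.comp x hf.hasFDerivAt).fderiv]; rfl

lemma geo5b_comp2 {f : V → F} {x : V} (hf : ContDiffAt ℝ 2 f x) (L : F →L[ℝ] ℝ) (u w : V) :
    L (fderiv ℝ (fderiv ℝ f) x u w) = fderiv ℝ (fderiv ℝ (fun y => L (f y))) x u w := by
  have h1 : ContDiffAt ℝ 2 (fun y => L (f y)) x := L.contDiff.contDiffAt.comp x hf
  rw [geo5b_snd h1, geo5b_snd hf, geo5b_comp1 (geo5b_has2' hf w).differentiableAt]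
  congr 1
  refine Filter.EventuallyEq.fderiv_eq ?_
  filter_upwards [geo5b_ev hf] with y hy
  exact geo5b_comp1 hy L w

lemma geo5b_sum1 {ι : Type*} [Fintype ι] {c : ι → ℝ → ℝ} (hc : ∀ k, ContDiff ℝ ∞ (c k))
    {μ : V → ℝ} {v : ι → V → ℝ} {y : V} (hμ : DifferentiableAt ℝ μ y)
    (hv : ∀ k, DifferentiableAt ℝ (v k) y) (w : V) :
    fderiv ℝ (fun y => ∑ k, c k (μ y) * v k y) y w =
      ∑ k, (c k (μ y) * fderiv ℝ (v k) y w + deriv (c k) (μ y) * fderiv ℝ μ y w * v k y) := by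
  have h1 : ∀ k, HasFDerivAt (fun y => c k (μ y)) (deriv (c k) (μ y) • fderiv ℝ μ y) y := fun k =>
    ((hc k).differentiable (by simp) (μ y)).hasDerivAt.comp_hasFDerivAt y hμ.hasFDerivAt
  have h2 := HasFDerivAt.fun_sum (u := Finset.univ) fun k _ => (h1 k).mul (hv k).hasFDerivAt
  have h3 := h2.fderiv
  simp only [Pi.mul_apply] at h3
  rw [h3]
  simp only [ContinuousLinearMap.sum_apply, ContinuousLinearMap.add_apply,
    ContinuousLinearMap.smul_apply, smul_eq_mul]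
  exact Finset.sum_congr rfl fun k _ => by ring

lemma geo5b_sum2 {ι : Type*} [Fintype ι] {c : ι → ℝ → ℝ} (hc : ∀ k, ContDiff ℝ ∞ (c k))
    {μ : V → ℝ} {v : ι → V → ℝ} {x : V} (hμ : ContDiffAt ℝ 2 μ x)
    (hv : ∀ k, ContDiffAt ℝ 2 (v k) x) (u w : V) :
    fderiv ℝ (fderiv ℝ (fun y => ∑ k, c k (μ y) * v k y)) x u w =
      ∑ k, (c k (μ x) * fderiv ℝ (fderiv ℝ (v k)) x u w +
        fderiv ℝ μ x u * (deriv (c k) (μ x) * fderiv ℝ (v k) x w) +
        fderiv ℝ μ x w * (deriv (c k) (μ x) * fderiv ℝ (v k) x u) +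
        fderiv ℝ (fderiv ℝ μ) x u w * (deriv (c k) (μ x) * v k x) +
        fderiv ℝ μ x u * fderiv ℝ μ x w * (deriv (deriv (c k)) (μ x) * v k x)) := by
  have h0 : ContDiffAt ℝ 2 (fun y => ∑ k, c k (μ y) * v k y) x :=
    ContDiffAt.sum fun k _ =>
      ((((hc k).of_le (by norm_cast)).contDiffAt (x := μ x)).comp x hμ).mul (hv k)
  rw [geo5b_snd h0]
  have hev : (fun y => fderiv ℝ (fun y => ∑ k, c k (μ y) * v k y) y w) =ᶠ[𝓝 x] fun y =>
      ∑ k, (c k (μ y) * fderiv ℝ (v k) y w + deriv (c k) (μ y) * fderiv ℝ μ y w * v k y) := by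
    filter_upwards [geo5b_ev hμ, Filter.eventually_all.2 fun k => geo5b_ev (hv k)] with y h1 h2
    exact geo5b_sum1 hc h1 h2 w
  rw [hev.fderiv_eq]
  have hμ1 := (hμ.differentiableAt (by norm_num)).hasFDerivAt
  have h1 : ∀ k, HasFDerivAt (fun y => c k (μ y)) (deriv (c k) (μ x) • fderiv ℝ μ x) x := fun k =>
    ((hc k).differentiable (by simp) (μ x)).hasDerivAt.comp_hasFDerivAt x hμ1
  have h2 : ∀ k, HasFDerivAt (fun y => deriv (c k) (μ y))
      (deriv (deriv (c k)) (μ x) • fderiv ℝ μ x) x := fun k =>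
    ((contDiff_infty_iff_deriv.1 (hc k)).2.differentiable (by simp)
      (μ x)).hasDerivAt.comp_hasFDerivAt x hμ1
  have h3 := HasFDerivAt.fun_sum (u := Finset.univ) fun k _ =>
    ((h1 k).fun_mul (geo5b_has2' (hv k) w)).fun_add
      (((h2 k).fun_mul (geo5b_has2' hμ w)).fun_mul
        ((hv k).differentiableAt (by norm_num)).hasFDerivAt)
  rw [h3.fderiv]
  simp only [ContinuousLinearMap.sum_apply, ContinuousLinearMap.add_apply,
    ContinuousLinearMap.smul_apply, smul_eq_mul, ContinuousLinearMap.comp_apply,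
    ContinuousLinearMap.apply_apply]
  exact Finset.sum_congr rfl fun k _ => by ring

end geo5bAux

lemma geo5b_log_has {y : E n} (hy : y ≠ 0) (t : ℝ) :
    HasFDerivAt (fun y : E n => t + Real.log ‖y‖) ((‖y‖ ^ 2)⁻¹ • innerSL ℝ y) y := by
  have h0 : ‖y‖ ^ 2 ≠ 0 := pow_ne_zero 2 (norm_ne_zero_iff.2 hy)
  have h1 := (((hasStrictFDerivAt_norm_sq y).hasFDerivAt.log h0).const_mul (1 / 2 : ℝ)).const_add t
  have h2 : (fun y : E n => t + Real.log ‖y‖) = fun y => t + 1 / 2 * Real.log (‖y‖ ^ 2) := by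
    funext z
    rw [Real.log_pow]; push_cast; ring
  rw [h2]
  refine h1.congr_fderiv ?_
  ext w
  simp only [ContinuousLinearMap.smul_apply, smul_eq_mul, nsmul_eq_mul]
  push_cast
  ring

lemma geo5b_log_smooth {y : E n} (hy : y ≠ 0) (t : ℝ) :
    ContDiffAt ℝ 2 (fun y : E n => t + Real.log ‖y‖) y :=
  contDiffAt_const.add ((contDiffAt_norm ℝ hy).log (norm_ne_zero_iff.2 hy))

lemma geo5b_log1 (x : Sp n) (t : ℝ) (w : E n) :
    |fderiv ℝ (fun y : E n => t + Real.log ‖y‖) x w| ≤ ‖w‖ := by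
  rw [(geo5b_log_has (Sp.ne_zero x) t).fderiv]
  simp only [ContinuousLinearMap.smul_apply, innerSL_apply_apply, Sp.norm_eq x, one_pow, inv_one,
    one_smul]
  simpa [Sp.norm_eq x] using abs_real_inner_le_norm (x : E n) w

lemma geo5b_log2 (x : Sp n) (t : ℝ) (u w : E n) :
    |fderiv ℝ (fderiv ℝ (fun y : E n => t + Real.log ‖y‖)) x u w| ≤ 3 * (‖u‖ * ‖w‖) := by
  rw [geo5b_snd (geo5b_log_smooth (Sp.ne_zero x) t)]
  have hev : (fun y => fderiv ℝ (fun y : E n => t + Real.log ‖y‖) y w) =ᶠ[𝓝 (x : E n)]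
      fun y => (‖y‖ ^ 2)⁻¹ * innerSL ℝ w y := by
    filter_upwards [isOpen_compl_singleton.mem_nhds (Sp.ne_zero x)] with y hy
    rw [(geo5b_log_has hy t).fderiv]
    simp only [ContinuousLinearMap.smul_apply, innerSL_apply_apply, smul_eq_mul, real_inner_comm]
  rw [hev.fderiv_eq]
  have h0 : ‖(x : E n)‖ ^ 2 ≠ 0 := by rw [Sp.norm_eq x]; norm_num
  have h1 := (((hasDerivAt_inv h0).comp_hasFDerivAt (x : E n)
    (hasStrictFDerivAt_norm_sq (x : E n)).hasFDerivAt)).fun_mul (innerSL ℝ w).hasFDerivAt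
  have h2 := h1.fderiv
  simp only [Function.comp_def] at h2
  rw [h2]
  simp only [ContinuousLinearMap.add_apply, ContinuousLinearMap.smul_apply, innerSL_apply_apply,
    smul_eq_mul, Sp.norm_eq x, one_pow, inv_one, one_mul, nsmul_eq_mul]
  have a1 := abs_real_inner_le_norm w u
  have a2 := abs_real_inner_le_norm w (x : E n)
  have a3 := abs_real_inner_le_norm (x : E n) u
  rw [Sp.norm_eq x] at a2 a3
  have a4 : |⟪w, (x : E n)⟫ * ⟪(x : E n), u⟫| ≤ ‖u‖ * ‖w‖ := by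
    rw [abs_mul]
    calc _ ≤ (‖w‖ * 1) * (1 * ‖u‖) := mul_le_mul a2 a3 (abs_nonneg _) (by positivity)
      _ = _ := by ring
  have a5 := abs_le.1 a1
  have a6 := abs_le.1 a4
  rw [abs_le]
  push_cast
  constructor <;> nlinarith

lemma geo5b_norm_le (z : ℝ × (Fin n → Fin n → ℝ)) {B : ℝ} (hB : 0 ≤ B) (h1 : |z.1| ≤ B)
    (h2 : ∀ i j, |z.2 i j| ≤ B) : ‖z‖ ≤ B :=
  norm_prod_le_iff.2 ⟨h1, (pi_norm_le_iff_of_nonneg hB).2 fun i =>
    (pi_norm_le_iff_of_nonneg hB).2 fun j => h2 i j⟩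

/-- the entry functionals -/
def geo5bL (i j : Fin n) : (ℝ × (Fin n → Fin n → ℝ)) →L[ℝ] ℝ :=
  (ContinuousLinearMap.proj j).comp
    ((ContinuousLinearMap.proj (R := ℝ) (φ := fun _ : Fin n => Fin n → ℝ) i).comp
      (ContinuousLinearMap.snd ℝ ℝ _))

lemma geo5bL_apply (i j : Fin n) (z : ℝ × (Fin n → Fin n → ℝ)) : geo5bL i j z = z.2 i j := rfl

lemma geo5b_e_sum {ι : Type*} [Fintype ι] (a : ι → ℝ) (v : ι → BB n) (i j : Fin n) :
    (∑ k, a k • v k).e i j = ∑ k, a k • (v k).e i j := by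
  let L : BB n →ₗ[ℝ] W n := ⟨⟨fun b => b.e i j, fun _ _ => rfl⟩, fun _ _ => rfl⟩
  change L (∑ k, a k • v k) = ∑ k, a k • L (v k)
  simp only [map_sum, map_smul]

lemma geo5b_e0 {ι : Type*} [Fintype ι] (a : ι → ℝ) (v : ι → BB n) (i j : Fin n) (y : E n) :
    (∑ k, a k • v k).e i j y = ∑ k, a k * (v k).e i j y := by
  rw [geo5b_e_sum, W.sum_apply]; rfl

lemma geo5b_e1 {ι : Type*} [Fintype ι] (a : ι → ℝ) (v : ι → BB n) (i j : Fin n) (x : Sp n)
    (w : E n) :
    fderiv ℝ ((∑ k, a k • v k).e i j) x w = ∑ k, a k * fderiv ℝ ((v k).e i j) x w := by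
  rw [geo5b_e_sum, ← d1_apply, map_sum, ContinuousMap.sum_apply, ContinuousLinearMap.sum_apply]
  refine Finset.sum_congr rfl fun k _ => ?_
  rw [map_smul]; rfl

lemma geo5b_e2 {ι : Type*} [Fintype ι] (a : ι → ℝ) (v : ι → BB n) (i j : Fin n) (x : Sp n)
    (u w : E n) :
    fderiv ℝ (fderiv ℝ ((∑ k, a k • v k).e i j)) x u w =
      ∑ k, a k * fderiv ℝ (fderiv ℝ ((v k).e i j)) x u w := by
  rw [geo5b_e_sum, ← d2_apply, map_sum, ContinuousMap.sum_apply, ContinuousLinearMap.sum_apply,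
    ContinuousLinearMap.sum_apply]
  refine Finset.sum_congr rfl fun k _ => ?_
  rw [map_smul]; rfl

lemma geo5b_b1 (β : BB n) (i j : Fin n) (x : Sp n) (w : E n) :
    |fderiv ℝ (β.e i j) x w| ≤ ‖β‖ * ‖w‖ :=
  ((fderiv ℝ (β.e i j) x).le_opNorm w).trans
    (mul_le_mul_of_nonneg_right (β.d1_le i j x) (norm_nonneg _))

lemma geo5b_b2 (β : BB n) (i j : Fin n) (x : Sp n) (u w : E n) :
    |fderiv ℝ (fderiv ℝ (β.e i j)) x u w| ≤ ‖β‖ * ‖u‖ * ‖w‖ :=
  ((fderiv ℝ (fderiv ℝ (β.e i j)) x).le_opNorm₂ u w).trans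
    (mul_le_mul_of_nonneg_right (mul_le_mul_of_nonneg_right (β.d2_le i j x) (norm_nonneg _))
      (norm_nonneg _))

lemma geo5b_abs_mul {a b A B : ℝ} (ha : |a| ≤ A) (hb : |b| ≤ B) : |a * b| ≤ A * B := by
  rw [abs_mul]
  exact mul_le_mul ha hb (abs_nonneg _) ((abs_nonneg _).trans ha)

/-- jets at a unit vector of `σ_t(y) = (l(t+log|y|), b(t+log|y|)(y))`, compared with the frozen `σ⁰_t(y) = (l t, b t (y))` -/
def sigJ (l : ℝ → ℝ) (b : ℝ → BB n) (t : ℝ) (y : E n) : ℝ × (Fin n → Fin n → ℝ) :=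
  (l (t + Real.log ‖y‖), fun i j => (b (t + Real.log ‖y‖)).e i j y)

/-- with `b τ = Σ cₖ(τ) vₖ` near `t` and `λ(y) = log|y|` (`‖Dλ‖ ≤ 1`, `‖D²λ‖ ≤ 3` at unit vectors): `D[b(t+λ)(y)] = b'(y) Dλ + D(b t)`,
`D² = b''(y) Dλ⊗Dλ + b'(y) D²λ + 2 sym(D b' ⊗ Dλ) + D²(b t)`; `BB.abs_le`, `BB.d1_le`, `BB.d2_le`. -/
theorem sigJ_jets {ε : ℝ} {l : ℝ → ℝ} {b : ℝ → BB n} (h : Adm ε l b) (t : ℝ) (x : Sp n) :
    ContDiffAt ℝ 2 (sigJ l b t) x ∧ ContDiffAt ℝ 2 (sigJ (fun _ => l t) (fun _ => b t) t) x ∧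
    ‖fderiv ℝ (sigJ (fun _ => l t) (fun _ => b t) t) x‖ ≤ ‖b t‖ ∧
    ‖fderiv ℝ (fderiv ℝ (sigJ (fun _ => l t) (fun _ => b t) t)) x‖ ≤ ‖b t‖ ∧
    ‖fderiv ℝ (sigJ l b t) x - fderiv ℝ (sigJ (fun _ => l t) (fun _ => b t) t) x‖ ≤
      |deriv l t| + ‖deriv b t‖ ∧
    ‖fderiv ℝ (fderiv ℝ (sigJ l b t)) x - fderiv ℝ (fderiv ℝ (sigJ (fun _ => l t) (fun _ => b t) t)) x‖ ≤
      10 * (|deriv l t| + |deriv (deriv l) t| + ‖deriv b t‖ + ‖deriv (deriv b) t‖) := by
  obtain ⟨I, c, v, hc, hb⟩ := h.fin (t + 1)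
  set μ : E n → ℝ := fun y => t + Real.log ‖y‖ with hμdef
  have hx := (Sp.ne_zero x)
  have hμ : ContDiffAt ℝ 2 μ x := geo5b_log_smooth hx t
  have hμx : μ x = t := by simp [hμdef, Sp.norm_eq x]
  have hbt : b t = ∑ k, c k t • v k := hb t (by linarith)
  have hd1 : ∀ τ, τ < t + 1 → deriv b τ = ∑ k, deriv (c k) τ • v k := by
    intro τ hτ
    have hev : b =ᶠ[𝓝 τ] fun s => ∑ k, c k s • v k := by
      filter_upwards [Iio_mem_nhds hτ] with s hs using hb s hs
    rw [hev.deriv_eq]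
    exact (HasDerivAt.fun_sum (u := Finset.univ) fun k _ =>
      ((hc k).differentiable (by simp) τ).hasDerivAt.smul_const (v k)).deriv
  have hb1 := hd1 t (by linarith)
  have hb2 : deriv (deriv b) t = ∑ k, deriv (deriv (c k)) t • v k := by
    have hev : deriv b =ᶠ[𝓝 t] fun s => ∑ k, deriv (c k) s • v k := by
      filter_upwards [Iio_mem_nhds (show t < t + 1 by linarith)] with s hs using hd1 s hs
    rw [hev.deriv_eq]
    exact (HasDerivAt.fun_sum (u := Finset.univ) fun k _ =>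
      ((contDiff_infty_iff_deriv.1 (hc k)).2.differentiable (by simp) t).hasDerivAt.smul_const
        (v k)).deriv
  have hW : ∀ (β : BB n) i j, ContDiffAt ℝ 2 (β.e i j) x := fun β i j =>
    ((β.e i j).contDiffAt hx).of_le (by norm_cast)
  -- the entries near `x`
  have hent : ∀ i j, (fun y => geo5bL i j (sigJ l b t y)) =ᶠ[𝓝 (x : E n)]
      fun y => ∑ k, c k (μ y) * (v k).e i j y := by
    intro i j
    have h1 : ∀ᶠ y in 𝓝 (x : E n), μ y < t + 1 :=
      hμ.continuousAt.eventually (Iio_mem_nhds (by rw [hμx]; linarith))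
    filter_upwards [h1] with y hy
    change (b (μ y)).e i j y = _
    rw [hb _ hy, geo5b_e0]
  have hfst : (fun y => ContinuousLinearMap.fst ℝ ℝ (Fin n → Fin n → ℝ) (sigJ l b t y)) =
      fun y => ∑ _k : Unit, l (μ y) * (fun _ : E n => (1 : ℝ)) y := by
    funext y; simp [sigJ, hμdef]
  have hent0 : ∀ i j, (fun y => geo5bL i j (sigJ (fun _ => l t) (fun _ => b t) t y)) =
      (b t).e i j := fun i j => rfl
  have hfst0 : (fun y => ContinuousLinearMap.fst ℝ ℝ (Fin n → Fin n → ℝ)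
      (sigJ (fun _ => l t) (fun _ => b t) t y)) = fun _ => l t := rfl
  have hS : ContDiffAt ℝ 2 (sigJ l b t) x := by
    refine ContDiffAt.prodMk ((h.smooth.of_le (by norm_cast)).contDiffAt.comp (x : E n) hμ) ?_
    refine contDiffAt_pi.2 fun i => contDiffAt_pi.2 fun j => ?_
    refine ContDiffAt.congr_of_eventuallyEq ?_ (hent i j)
    exact ContDiffAt.sum fun k _ =>
      ((((hc k).of_le (by norm_cast)).contDiffAt (x := μ x)).comp (x : E n) hμ).mul (hW _ i j)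
  have hS0 : ContDiffAt ℝ 2 (sigJ (fun _ => l t) (fun _ => b t) t) x :=
    ContDiffAt.prodMk contDiffAt_const
      (contDiffAt_pi.2 fun i => contDiffAt_pi.2 fun j => hW (b t) i j)
  have hSd := hS.differentiableAt (by norm_num)
  have hS0d := hS0.differentiableAt (by norm_num)
  have hμd := hμ.differentiableAt (by norm_num)
  -- components of the jets of the frozen map
  have a1 : ∀ w, (fderiv ℝ (sigJ (fun _ => l t) (fun _ => b t) t) x w).1 = 0 := fun w => by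
    have := geo5b_comp1 hS0d (ContinuousLinearMap.fst ℝ ℝ (Fin n → Fin n → ℝ)) w
    rw [hfst0] at this
    simpa using this
  have a2 : ∀ w i j, (fderiv ℝ (sigJ (fun _ => l t) (fun _ => b t) t) x w).2 i j =
      fderiv ℝ ((b t).e i j) x w := fun w i j => geo5b_comp1 hS0d (geo5bL i j) w
  have a3 : ∀ u w, (fderiv ℝ (fderiv ℝ (sigJ (fun _ => l t) (fun _ => b t) t)) x u w).1 = 0 :=
    fun u w => by
    have := geo5b_comp2 hS0 (ContinuousLinearMap.fst ℝ ℝ (Fin n → Fin n → ℝ)) u w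
    rw [hfst0] at this
    simpa using this
  have a4 : ∀ u w i j, (fderiv ℝ (fderiv ℝ (sigJ (fun _ => l t) (fun _ => b t) t)) x u w).2 i j =
      fderiv ℝ (fderiv ℝ ((b t).e i j)) x u w := fun u w i j => geo5b_comp2 hS0 (geo5bL i j) u w
  -- components of the jets of the moving map
  have b1 : ∀ w, (fderiv ℝ (sigJ l b t) x w).1 = deriv l t * fderiv ℝ μ x w := fun w => by
    have := geo5b_comp1 hSd (ContinuousLinearMap.fst ℝ ℝ (Fin n → Fin n → ℝ)) w
    rw [hfst, geo5b_sum1 (c := fun _ : Unit => l) (fun _ => h.smooth) hμd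
      (fun _ => differentiableAt_const _), hμx] at this
    simpa using this
  have b2 : ∀ w i j, (fderiv ℝ (sigJ l b t) x w).2 i j =
      fderiv ℝ ((b t).e i j) x w + fderiv ℝ μ x w * (deriv b t).e i j x := fun w i j => by
    have := geo5b_comp1 hSd (geo5bL i j) w
    rw [(hent i j).fderiv_eq, geo5b_sum1 hc hμd
      (fun k => (hW (v k) i j).differentiableAt (by norm_num)), hμx, geo5bL_apply] at this
    rw [this, hbt, hb1, geo5b_e1, geo5b_e0, Finset.mul_sum, ← Finset.sum_add_distrib]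
    exact Finset.sum_congr rfl fun k _ => by ring
  have b3 : ∀ u w, (fderiv ℝ (fderiv ℝ (sigJ l b t)) x u w).1 =
      fderiv ℝ (fderiv ℝ μ) x u w * deriv l t +
        fderiv ℝ μ x u * fderiv ℝ μ x w * deriv (deriv l) t := fun u w => by
    have := geo5b_comp2 hS (ContinuousLinearMap.fst ℝ ℝ (Fin n → Fin n → ℝ)) u w
    rw [hfst, geo5b_sum2 (c := fun _ : Unit => l) (fun _ => h.smooth) hμ
      (fun _ => contDiffAt_const), hμx] at this
    simpa using this
  have b4 : ∀ u w i j, (fderiv ℝ (fderiv ℝ (sigJ l b t)) x u w).2 i j =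
      fderiv ℝ (fderiv ℝ ((b t).e i j)) x u w +
        (fderiv ℝ μ x u * fderiv ℝ ((deriv b t).e i j) x w +
        fderiv ℝ μ x w * fderiv ℝ ((deriv b t).e i j) x u +
        fderiv ℝ (fderiv ℝ μ) x u w * (deriv b t).e i j x +
        fderiv ℝ μ x u * fderiv ℝ μ x w * (deriv (deriv b) t).e i j x) := fun u w i j => by
    have := geo5b_comp2 hS (geo5bL i j) u w
    rw [(hent i j).fderiv.fderiv_eq, geo5b_sum2 hc hμ (fun k => hW (v k) i j), hμx,
      geo5bL_apply] at this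
    rw [this, hb2, hbt, hb1, geo5b_e2, geo5b_e1, geo5b_e1, geo5b_e0, geo5b_e0]
    simp only [Finset.mul_sum, ← Finset.sum_add_distrib]
    exact Finset.sum_congr rfl fun k _ => by ring
  have m1 : ∀ w, |fderiv ℝ μ x w| ≤ ‖w‖ := geo5b_log1 x t
  have m2 : ∀ u w, |fderiv ℝ (fderiv ℝ μ) x u w| ≤ 3 * (‖u‖ * ‖w‖) := geo5b_log2 x t
  refine ⟨hS, hS0, ?_, ?_, ?_, ?_⟩
  · refine ContinuousLinearMap.opNorm_le_bound _ (norm_nonneg _) fun w => ?_
    refine geo5b_norm_le _ (by positivity) (by rw [a1]; simp; positivity) fun i j => ?_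
    rw [a2]; exact geo5b_b1 _ i j x w
  · refine ContinuousLinearMap.opNorm_le_bound₂ _ (norm_nonneg _) fun u w => ?_
    refine geo5b_norm_le _ (by positivity) (by rw [a3]; simp; positivity) fun i j => ?_
    rw [a4]; exact geo5b_b2 _ i j x u w
  · refine ContinuousLinearMap.opNorm_le_bound _ (by positivity) fun w => ?_
    have hw := norm_nonneg w
    refine geo5b_norm_le _ (by positivity) ?_ fun i j => ?_
    · rw [ContinuousLinearMap.sub_apply, Prod.fst_sub, a1, b1, sub_zero]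
      have := geo5b_abs_mul (le_refl |deriv l t|) (m1 w)
      nlinarith [norm_nonneg (deriv b t)]
    · rw [ContinuousLinearMap.sub_apply, Prod.snd_sub, Pi.sub_apply, Pi.sub_apply, a2, b2,
        add_sub_cancel_left]
      have := geo5b_abs_mul (m1 w) ((deriv b t).abs_le i j x)
      nlinarith [abs_nonneg (deriv l t)]
  · refine ContinuousLinearMap.opNorm_le_bound₂ _ (by positivity) fun u w => ?_
    have huw : 0 ≤ ‖u‖ * ‖w‖ := by positivity
    have p1 := mul_nonneg (abs_nonneg (deriv l t)) huw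
    have p2 := mul_nonneg (abs_nonneg (deriv (deriv l) t)) huw
    have p3 := mul_nonneg (norm_nonneg (deriv b t)) huw
    have p4 := mul_nonneg (norm_nonneg (deriv (deriv b) t)) huw
    refine geo5b_norm_le _ (by positivity) ?_ fun i j => ?_
    · rw [ContinuousLinearMap.sub_apply, ContinuousLinearMap.sub_apply, Prod.fst_sub, a3, b3,
        sub_zero]
      have q1 := geo5b_abs_mul (m2 u w) (le_refl |deriv l t|)
      have q2 := geo5b_abs_mul (geo5b_abs_mul (m1 u) (m1 w)) (le_refl |deriv (deriv l) t|)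
      refine (abs_add_le _ _).trans ?_
      nlinarith
    · rw [ContinuousLinearMap.sub_apply, ContinuousLinearMap.sub_apply, Prod.snd_sub,
        Pi.sub_apply, Pi.sub_apply, a4, b4, add_sub_cancel_left]
      have q1 := geo5b_abs_mul (m1 u) (geo5b_b1 (deriv b t) i j x w)
      have q2 := geo5b_abs_mul (m1 w) (geo5b_b1 (deriv b t) i j x u)
      have q3 := geo5b_abs_mul (m2 u w) ((deriv b t).abs_le i j x)
      have q4 := geo5b_abs_mul (geo5b_abs_mul (m1 u) (m1 w)) ((deriv (deriv b) t).abs_le i j x)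
      refine (abs_add_le _ _).trans ?_
      refine (add_le_add_left (abs_add_three _ _ _) _).trans ?_
      nlinarith

end Crest.Agent.R202
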