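import Crest.Agent.R202.Geo3
import Crest.Agent.R202.Geo4
import Crest.Agent.R202.Geo5b
import Crest.Agent.R202.Geo5Aux2

/-! # Row 202, Geo5: nonnegative Ricci curvature -/

set_option autoImplicit false
open scoped ContDiff RealInnerProductSpace
open Set Filter Topology MeasureTheory Crest.GeometryTopology.CoordMetric
open Crest.GeometryTopology.ChartCurvature

noncomputable section
namespace Crest.Agent.R202

variable {n : ℕ}

/-- **Ricci curvature.**  For `‖x‖ < 1` the metric is flat; the set where the form is `≥ 0` is closed, or use `ricci_warped` for `0 < ‖x‖ < e^{t₁}` (`ricci_congr`; there `b = 0`,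
`ζ - ζ² + ζ' ≥ ζ/2 - ζ² ≥ 0`, `f(1-ζ) ≤ 1`) and `Adm.one` at `0`.  For `t = log‖x‖ ≥ t₁`: scale to the unit sphere (`ricci_scale`; `metric l b (e^t y) = G(y, sigJ l b t y)` near the
sphere, `G(y,λ,β) = (Amat y λ β)⁻¹`, `jet_ricci`).  `R` is `C¹` near the compact set `{((x,-Z,0),0,0)}`, so Lipschitz with constant `C₀` on the jets within `ε₁'` of it (same `x`: convex).
At the centre `R` is the round cone (`ricci_warped`, constant `l`): `(n-2)(1-e^{-2Z})|w|²` on `w ⊥ x`, so `Ric(w,w) ≥ c|w|²`.  For the frozen jet `Ric(x,·) = 0` (`cone_ricci_x`), so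
`|Ric(x,w)| ≤ C δ|w|`, `δ = |l'|+|l''|+‖b'‖+‖b''‖` (`sigJ_jets`, `ricci_symm`).  `Ric(x,x) = (n-1)(ζ+ζ') - tr E² ≥ (n-1)ζ/2 - C(ζ+‖b'‖)²` (`ricci_xx`, `trace_Emat`, `Adm.det`, `Smat_bound`).
With `C₁` large the hypothesis makes `Ric(x,x) ≥ ζ/2` and `C²δ² < c ζ/2`. -/
theorem ricci_pos (hn : 3 ≤ n) {Z : ℝ} (hZ : 0 < Z) : ∃ ε₁ C₁ : ℝ, 0 < ε₁ ∧ 0 < C₁ ∧
    ∀ (ε : ℝ) (l : ℝ → ℝ) (b : ℝ → BB n) (t₁ : ℝ), ε ≤ ε₁ → Adm ε l b →
      (∀ t, -Z ≤ l t ∧ l t ≤ 0 ∧ -1 / 2 ≤ deriv l t ∧ deriv l t ≤ 0 ∧ deriv (deriv l) t ≤ -deriv l t / 2) →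
      (∀ t ≤ t₁, b t = 0) →
      (∀ t, t₁ ≤ t → l t + Z ≤ ε₁ ∧ |deriv l t| ≤ ε₁ ∧ |deriv (deriv l) t| ≤ ε₁ ∧ ‖deriv b t‖ ≤ ε₁ ∧
        ‖deriv (deriv b) t‖ ≤ ε₁ ∧ deriv l t < 0 ∧
        C₁ * (deriv l t ^ 2 + deriv (deriv l) t ^ 2 + ‖deriv b t‖ ^ 2 + ‖deriv (deriv b) t‖ ^ 2) ≤ -deriv l t) →
      RicciNonnegOn (metric l b) univ ∧ ∀ x : E n, Real.exp t₁ < ‖x‖ → ∀ w : E n, w ≠ 0 →
        0 < ∑ i, ∑ j, ricci (metric l b) x i j * w i * w j := by
  have hn2 : 2 ≤ n := by omega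
  have hn' : (3 : ℝ) ≤ n := by exact_mod_cast hn
  obtain ⟨ε₀, hε₀⟩ := exists_good n
  obtain ⟨CS, hCS, HS⟩ := Smat_bound hn2 hε₀ Z
  obtain ⟨δ, C, hδ, hC, HJ⟩ := geo5_cmp hn2 Z
  obtain ⟨c, hc⟩ : ∃ c : ℝ, c = ((n : ℝ) - 2) * (1 - Real.exp (2 * -Z)) := ⟨_, rfl⟩
  have hc0 : 0 < c := by
    rw [hc]
    exact mul_pos (by linarith) (sub_pos.2 (Real.exp_lt_one_iff.2 (by linarith)))
  obtain ⟨D, hD⟩ : ∃ D : ℝ, D = (n : ℝ) ^ 2 * C := ⟨_, rfl⟩
  have hD0 : 0 < D := by rw [hD]; positivity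
  have he₀ := hε₀.1
  refine ⟨min ε₀ (min (δ / 42) (c / (82 * D))), 4 * ((n : ℝ) ^ 4 * CS ^ 4) + 1600 * D ^ 2 / c + 1,
    by positivity, by positivity, fun ε l b t₁ hε h hl hb ht => ?_⟩
  set ε₁ := min ε₀ (min (δ / 42) (c / (82 * D))) with hε₁
  have k1 : ε₁ ≤ ε₀ := min_le_left _ _
  have k2 : 42 * ε₁ ≤ δ := by
    have : ε₁ ≤ δ / 42 := (min_le_right _ _).trans (min_le_left _ _)
    linarith
  have k3 : D * (41 * ε₁) ≤ c / 2 := by
    have : ε₁ ≤ c / (82 * D) := (min_le_right _ _).trans (min_le_right _ _)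
    rw [le_div_iff₀ (by positivity)] at this
    linarith
  have k0 : 0 < ε₁ := by positivity
  have h₀ : Adm ε₀ l b := ⟨hε₀, h.smooth, h.l0, h.b0,
    fun t => (h.small t).trans_le (hε.trans k1), h.fin⟩
  have key : ∀ x : E n, x ≠ 0 → t₁ ≤ Real.log ‖x‖ → ∀ w : E n, w ≠ 0 →
      0 < geo5q (ricci (metric l b) x) w w := by
    intro x hx hxt v hv
    have hr : 0 < ‖x‖ := norm_pos_iff.2 hx
    obtain ⟨t, htx⟩ : ∃ t, t = Real.log ‖x‖ := ⟨_, rfl⟩
    let u : Sp n := ⟨‖x‖⁻¹ • x, by simp [norm_smul, hx]⟩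
    have hux : ‖x‖ • (u : E n) = x := smul_inv_smul₀ hr.ne' x
    obtain ⟨M, hM⟩ : ∃ M : Fin n → Fin n → ℝ,
        M = ricci (fun y => geo5G (y, sigJ l b t y)) u := ⟨_, rfl⟩
    have hMx : ∀ i j, M i j = ‖x‖ ^ 2 * ricci (metric l b) x i j := fun i j => by
      have e : (fun y => metric l b (‖x‖ • y)) =ᶠ[𝓝 (u : E n)]
          fun y => geo5G (y, sigJ l b t y) := by
        filter_upwards [isOpen_compl_singleton.mem_nhds (Sp.ne_zero u)] with y hy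
        rw [htx]
        exact geo5_metric_smul l b hr hy
      rw [hM, ← ricci_congr e, ricci_scale, hux]
    have hq : ∀ v w, geo5q M v w = ‖x‖ ^ 2 * geo5q (ricci (metric l b) x) v w := fun v w => by
      simp only [geo5q, hMx, Finset.mul_sum, mul_assoc]
    have hsym : ∀ i j, M i j = M j i := fun i j => by
      rw [hMx, hMx, ricci_symm (h.radial hn2).riem (mem_univ x)]
    rw [← htx] at hxt
    obtain ⟨a1, a2, a3, a4, a5, a6, a7⟩ := ht t hxt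
    obtain ⟨b1, b2, b3, b4, b5⟩ := hl t
    obtain ⟨c1, c0⟩ := HJ ε ε₁ l b t u h hε k2 b1 a1 a2 a3 a4 a5
    obtain ⟨η, hη⟩ : ∃ η : ℝ, η = |deriv l t| + |deriv (deriv l) t| + ‖deriv b t‖ +
      ‖deriv (deriv b) t‖ := ⟨_, rfl⟩
    rw [← hM] at c0
    rw [← hM, ← hη] at c1
    clear HJ
    obtain ⟨Q, hQ⟩ : ∃ Q : ℝ, Q = deriv l t ^ 2 + deriv (deriv l) t ^ 2 + ‖deriv b t‖ ^ 2 +
      ‖deriv (deriv b) t‖ ^ 2 := ⟨_, rfl⟩
    rw [← hQ] at a7
    have hQ0 : 0 < Q := by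
      have := pow_pos (neg_pos.2 a6) 2
      rw [hQ]; nlinarith [sq_nonneg (deriv (deriv l) t)]
    have hηQ : η ^ 2 ≤ 4 * Q := by
      rw [hη, hQ, ← sq_abs (deriv l t), ← sq_abs (deriv (deriv l) t)]
      nlinarith [sq_nonneg (|deriv l t| - |deriv (deriv l) t|), sq_nonneg (|deriv l t| - ‖deriv b t‖),
        sq_nonneg (|deriv l t| - ‖deriv (deriv b) t‖), sq_nonneg (|deriv (deriv l) t| - ‖deriv b t‖),
        sq_nonneg (|deriv (deriv l) t| - ‖deriv (deriv b) t‖),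
        sq_nonneg (‖deriv b t‖ - ‖deriv (deriv b) t‖)]
    have hη2 : (|deriv l t| + ‖deriv b t‖) ^ 2 ≤ 2 * Q := by
      rw [hQ, ← sq_abs (deriv l t)]
      nlinarith [sq_nonneg (|deriv l t| - ‖deriv b t‖), sq_nonneg (deriv (deriv l) t),
        sq_nonneg ‖deriv (deriv b) t‖]
    have q1 : 0 ≤ (n : ℝ) ^ 4 * CS ^ 4 * Q := by positivity
    have q2 : 0 ≤ 1600 * D ^ 2 / c * Q := by positivity
    have hpos : 0 < geo5q M v v := by
      refine geo5q_pos hsym (Sp.norm_eq u) (A := -deriv l t / 2) (B := c / 2) (κ := D * (10 * η))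
        (by linarith) ?_ ?_ (fun w => ?_) (fun w hw => ?_) hv
      · have e : 1600 * D ^ 2 / c * Q * c = 1600 * D ^ 2 * Q := by field_simp
        have e2 : (1600 * D ^ 2 / c * Q + Q) * c ≤ -deriv l t * c :=
          mul_le_mul_of_nonneg_right (by linarith) hc0.le
        have e3 : D ^ 2 * η ^ 2 ≤ D ^ 2 * (4 * Q) := mul_le_mul_of_nonneg_left hηQ (sq_nonneg D)
        have e4 : 0 < Q * c := mul_pos hQ0 hc0
        nlinarith
      · have e : geo5q M u u = geo5q (ricci (metric l b) x) x x := by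
          rw [hq, ← geo5q_smul, hux]
        have e2 := geo5_xx hn2 h hx (HS l b h₀ (fun t => ⟨(hl t).1, (hl t).2.1⟩) x hx)
        rw [← htx] at e2
        have e3 : (n : ℝ) ^ 4 * CS ^ 4 * (|deriv l t| + ‖deriv b t‖) ^ 2 ≤
            (n : ℝ) ^ 4 * CS ^ 4 * (2 * Q) := mul_le_mul_of_nonneg_left hη2 (by positivity)
        have e4 : 2 * (-deriv l t / 2) ≤ ((n : ℝ) - 1) * (-deriv l t - deriv (deriv l) t) :=
          mul_le_mul (by linarith) (by linarith) (by linarith) (by linarith)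
        rw [e]
        nlinarith
      · have e := geo5q_le c1 u w
        have e0 : geo5q (ricci (fun y => geo5G (y, sigJ (fun _ => l t) (fun _ => b t) t y)) u)
            u w = 0 := by
          rw [geo5q, Finset.sum_comm]
          refine Finset.sum_eq_zero fun j _ => ?_
          rw [← Finset.sum_mul, geo5_cone hn2 hε₀ (h₀.small t) (l t) t (Sp.ne_zero u), zero_mul]
        rw [geo5q_sub, e0, sub_zero, Sp.norm_eq, one_mul] at e
        refine e.trans (le_of_eq ?_)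
        rw [hD]; ring
      · have e := geo5q_le c0 w w
        rw [geo5q_sub, geo5_round Z u w hw, ← hc] at e
        have e2 : (n : ℝ) ^ 2 * (C * (41 * ε₁)) * (‖w‖ * ‖w‖) ≤ c / 2 * (‖w‖ * ‖w‖) :=
          mul_le_mul_of_nonneg_right (by rw [← mul_assoc, ← hD]; exact k3) (by positivity)
        have := (abs_le.1 e).1
        nlinarith
    rw [hq] at hpos
    exact (mul_pos_iff_of_pos_left (by positivity)).1 hpos
  refine ⟨fun x _ v => ?_, fun x hx w hw => ?_⟩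
  · by_cases hx : x = 0
    · simp [hx, geo5_flat h]
    by_cases hv : v = 0
    · simp [hv]
    rcases lt_or_ge (Real.log ‖x‖) t₁ with h1 | h1
    · exact geo5_near hn h hb (fun t => (hl t).2) hx h1 v
    · exact (key x hx h1 v hv).le
  · have hx0 : 0 < ‖x‖ := (Real.exp_pos _).trans hx
    exact key x (norm_pos_iff.1 hx0) ((Real.lt_log_iff_exp_lt hx0).2 hx).le w hw

end Crest.Agent.R202
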