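import Crest.Agent.R202.Geo3
import Crest.Agent.R202.Geo4
import Crest.Agent.R202.Geo5b

/-! # Row 202, Geo5Aux: the Ricci tensor is Lipschitz in the jets near the round cone -/

set_option autoImplicit false
open scoped ContDiff RealInnerProductSpace
open Set Filter Topology MeasureTheory Crest.GeometryTopology.CoordMetric
open Crest.GeometryTopology.ChartCurvature

noncomputable section
namespace Crest.Agent.R202

variable {n : ℕ}

theorem geo5_lip {F F' : Type*} [NormedAddCommGroup F] [NormedSpace ℝ F] [NormedAddCommGroup F']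
    [NormedSpace ℝ F'] {f : F → F'} {U K : Set F} (hU : IsOpen U) (hf : ContDiffOn ℝ 1 f U)
    (hK : IsCompact K) (hKU : K ⊆ U) : ∃ δ C : ℝ, 0 < δ ∧ 0 < C ∧
      ∀ c ∈ K, ∀ a b, ‖a - c‖ < δ → ‖b - c‖ < δ → ‖f a - f b‖ ≤ C * ‖a - b‖ := by
  have hc : ContinuousOn (fderiv ℝ f) U := hf.continuousOn_fderiv_of_isOpen hU le_rfl
  obtain ⟨M, hM⟩ := hK.exists_bound_of_continuousOn (hc.mono hKU)
  have hV : IsOpen (U ∩ (fun p => ‖fderiv ℝ f p‖) ⁻¹' Iio (|M| + 1)) :=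
    hc.norm.isOpen_inter_preimage hU isOpen_Iio
  obtain ⟨δ, hδ, hs⟩ := hK.exists_thickening_subset_open hV fun c hc =>
    ⟨hKU hc, by
      have := hM c hc
      have := le_abs_self M
      simp only [mem_preimage, mem_Iio]
      linarith⟩
  refine ⟨δ, |M| + 1, hδ, by positivity, fun c hc a b ha hb => ?_⟩
  have hball := (Metric.ball_subset_thickening hc δ).trans hs
  exact (convex_ball c δ).norm_image_sub_le_of_norm_fderiv_le (𝕜 := ℝ)
    (fun p hp => (hf.contDiffAt (hU.mem_nhds (hball hp).1)).differentiableAt one_ne_zero)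
    (fun p hp => le_of_lt (hball hp).2) (mem_ball_iff_norm.2 hb) (mem_ball_iff_norm.2 ha)

theorem geo5_det {F : Type*} [NormedAddCommGroup F] [NormedSpace ℝ F] {s : Set F}
    {A : F → Matrix (Fin n) (Fin n) ℝ} (h : ∀ i j, ContDiffOn ℝ ∞ (fun p => A p i j) s) :
    ContDiffOn ℝ ∞ (fun p => (A p).det) s := by
  simp only [Matrix.det_apply']
  exact ContDiffOn.sum fun σ _ => contDiffOn_const.mul (contDiffOn_prod fun i _ => h _ _)

theorem geo5_inv {F : Type*} [NormedAddCommGroup F] [NormedSpace ℝ F] {s : Set F}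
    {A : F → Matrix (Fin n) (Fin n) ℝ} (h : ∀ i j, ContDiffOn ℝ ∞ (fun p => A p i j) s)
    (hd : ∀ p ∈ s, (A p).det ≠ 0) (i j : Fin n) : ContDiffOn ℝ ∞ (fun p => (A p)⁻¹ i j) s := by
  simp only [Matrix.inv_def, Ring.inverse_eq_inv', Matrix.smul_apply, smul_eq_mul,
    Matrix.adjugate_apply]
  refine ((geo5_det h).inv hd).mul (geo5_det fun a b => ?_)
  by_cases e : a = j
  · simp only [e, Matrix.updateRow_self]
    exact contDiffOn_const
  · simp only [Matrix.updateRow_ne e]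
    exact h a b

abbrev geo5Z (n : ℕ) := ℝ × (Fin n → Fin n → ℝ)

def geo5A (p : E n × geo5Z n) : Matrix (Fin n) (Fin n) ℝ := Amat p.1 p.2.1 (Matrix.of p.2.2)
def geo5G (p : E n × geo5Z n) : Matrix (Fin n) (Fin n) ℝ := (geo5A p)⁻¹
def geo5O₁ (n : ℕ) : Set (E n × geo5Z n) := {p | p.1 ≠ 0 ∧ 1 / 2 < (1 + Matrix.of p.2.2).det}
def geo5O (n : ℕ) : Set (E n × geo5Z n) := geo5O₁ n ∩ {p | (geo5A p).det ≠ 0}

theorem geo5_det1 : ContDiff ℝ ∞ fun p : E n × geo5Z n => (1 + Matrix.of p.2.2).det := by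
  rw [← contDiffOn_univ]
  refine geo5_det fun i j => ContDiff.contDiffOn ?_
  simp only [Matrix.add_apply, Matrix.of_apply]
  fun_prop

theorem geo5_open₁ : IsOpen (geo5O₁ n) :=
  (isOpen_ne_fun continuous_fst continuous_const).inter
    (isOpen_lt continuous_const geo5_det1.continuous)

theorem geo5_A_smooth (i j : Fin n) : ContDiffOn ℝ ∞ (fun p => geo5A p i j) (geo5O₁ n) := by
  have h1 : ∀ k, ContDiffOn ℝ ∞ (fun p : E n × geo5Z n => (‖p.1‖⁻¹ • p.1) k) (geo5O₁ n) := by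
    intro k p hp
    have h2 : ContDiffAt ℝ ∞ (fun p : E n × geo5Z n => ‖p.1‖⁻¹) p :=
      (contDiffAt_fst.norm ℝ hp.1).inv (norm_ne_zero_iff.2 hp.1)
    have h3 : ContDiffAt ℝ ∞ (fun p : E n × geo5Z n => p.1 k) p := by fun_prop
    exact (h2.mul h3).contDiffWithinAt
  have h2 : ContDiffOn ℝ ∞ (fun p : E n × geo5Z n => om (Matrix.of p.2.2)) (geo5O₁ n) := by
    refine (geo5_det1.contDiffOn.rpow_const_of_ne (p := -(1 / ((n : ℝ) - 1))) fun p hp => ?_).congr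
      fun p hp => ?_
    · exact (lt_trans (by norm_num) hp.2).ne'
    · simp only [om]
      rw [max_eq_left hp.2.le]
  have h3 : ContDiffOn ℝ ∞ (fun p : E n × geo5Z n => Real.exp (-2 * p.2.1)) (geo5O₁ n) :=
    ContDiff.contDiffOn (by fun_prop)
  have h4 : ContDiffOn ℝ ∞ (fun p : E n × geo5Z n => p.2.2 i j) (geo5O₁ n) :=
    ContDiff.contDiffOn (by fun_prop)
  simp only [geo5A, Amat, Matrix.add_apply, Matrix.smul_apply, Matrix.sub_apply,
    Matrix.vecMulVec_apply, smul_eq_mul, Matrix.of_apply]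
  exact ((h1 i).mul (h1 j)).add ((h3.mul h2).mul
    ((contDiffOn_const.add h4).sub ((h1 i).mul (h1 j))))

theorem geo5_open : IsOpen (geo5O n) :=
  (geo5_det geo5_A_smooth).continuousOn.isOpen_inter_preimage geo5_open₁
    (isOpen_compl_singleton (x := (0 : ℝ)))

theorem geo5_G_smooth (i j : Fin n) : ContDiffOn ℝ ∞ (fun p => geo5G p i j) (geo5O n) :=
  geo5_inv (fun i j => (geo5_A_smooth i j).mono inter_subset_left) (fun _ hp => hp.2) i j

theorem geo5_G_det (p : E n × geo5Z n) (hp : p ∈ geo5O n) : (geo5G p).det ≠ 0 := by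
  rw [geo5G, Matrix.det_nonsing_inv, Ring.inverse_eq_inv']
  exact inv_ne_zero hp.2

theorem geo5_abs_le (β : BB n) (i j : Fin n) (y : E n) : |β.e i j y| ≤ ‖β‖ := by
  by_cases hy : y = 0
  · simp [hy]
  · have hn : 0 < ‖y‖⁻¹ := inv_pos.2 (norm_pos_iff.2 hy)
    have := β.abs_le i j ⟨‖y‖⁻¹ • y, by simp [norm_smul, hy]⟩
    rwa [(β.e i j).homog hn] at this

theorem geo5_mem (hn : 2 ≤ n) {ε : ℝ} (h : Good n ε) {β : BB n} (hβ : ‖β‖ < ε) (lam : ℝ) {y : E n}
    (hy : y ≠ 0) : (y, (lam, fun i j => β.e i j y)) ∈ geo5O n := by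
  refine ⟨⟨hy, ?_⟩, ?_⟩
  · have := h.2.2 (Matrix.of fun i j => β.e i j y) fun i j => (geo5_abs_le β i j y).trans hβ.le
    have := (abs_lt.1 this).1
    change 1 / 2 < (1 + Matrix.of fun i j => β.e i j y).det
    linarith
  · change (Amat y lam (bmat β y)).det ≠ 0
    rw [Amat_det hn h hβ lam hy]
    exact (Real.exp_pos _).ne'

/-- the Ricci tensor is Lipschitz in the 2-jet near the jets of the round cone -/
theorem geo5_jet (hn : 2 ≤ n) (Z : ℝ) : ∃ δ C : ℝ, 0 < δ ∧ 0 < C ∧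
    ∀ (u : Sp n) (σ σ' : E n → geo5Z n) (η : ℝ), ContDiffAt ℝ 2 σ u → ContDiffAt ℝ 2 σ' u →
      ((u : E n), σ u) ∈ geo5O n → ((u : E n), σ' u) ∈ geo5O n →
      ‖σ u - (-Z, 0)‖ < δ → ‖fderiv ℝ σ u‖ < δ → ‖fderiv ℝ (fderiv ℝ σ) u‖ < δ →
      ‖σ' u - (-Z, 0)‖ < δ → ‖fderiv ℝ σ' u‖ < δ → ‖fderiv ℝ (fderiv ℝ σ') u‖ < δ →
      ‖σ u - σ' u‖ ≤ η → ‖fderiv ℝ σ u - fderiv ℝ σ' u‖ ≤ η →
      ‖fderiv ℝ (fderiv ℝ σ) u - fderiv ℝ (fderiv ℝ σ') u‖ ≤ η → ∀ i j,
        |ricci (fun y => geo5G (y, σ y)) u i j - ricci (fun y => geo5G (y, σ' y)) u i j| ≤ C * η := by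
  obtain ⟨R, hR, hric⟩ := jet_ricci geo5_open geo5G geo5_G_smooth (geo5_G_det (n := n))
  obtain ⟨ε, hε⟩ := exists_good n
  let ctr : Sp n → (E n × geo5Z n) × (E n →L[ℝ] geo5Z n) × (E n →L[ℝ] E n →L[ℝ] geo5Z n) :=
    fun u => (((u : E n), (-Z, 0)), 0, 0)
  have hctr : Continuous ctr := by fun_prop
  have hO : IsOpen {J : (E n × geo5Z n) × (E n →L[ℝ] geo5Z n) × (E n →L[ℝ] E n →L[ℝ] geo5Z n) |
      J.1 ∈ geo5O n} := geo5_open.preimage continuous_fst
  obtain ⟨δ, C, hδ, hC, H⟩ := geo5_lip (f := R) (U := {J | J.1 ∈ geo5O n}) (K := range ctr) hO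
    (contDiffOn_pi.2 fun i => contDiffOn_pi.2 fun j => hR i j) (isCompact_range hctr) (by
      rintro _ ⟨u, rfl⟩
      exact geo5_mem hn hε (β := 0) (by simpa using hε.1) (-Z) (Sp.ne_zero u))
  refine ⟨δ, C, hδ, hC, fun u σ σ' η h1 h2 m1 m2 a1 a2 a3 b1 b2 b3 c1 c2 c3 i j => ?_⟩
  rw [hric σ u h1 m1, hric σ' u h2 m2]
  have h0 : 0 ≤ η := (norm_nonneg _).trans c1
  have := H _ ⟨u, rfl⟩ (((u : E n), σ u), fderiv ℝ σ u, fderiv ℝ (fderiv ℝ σ) u)
    (((u : E n), σ' u), fderiv ℝ σ' u, fderiv ℝ (fderiv ℝ σ') u)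
    (by simp only [ctr, Prod.mk_sub_mk, sub_self, sub_zero, Prod.norm_mk, norm_zero, max_lt_iff]
        exact ⟨⟨hδ, a1⟩, a2, a3⟩)
    (by simp only [ctr, Prod.mk_sub_mk, sub_self, sub_zero, Prod.norm_mk, norm_zero, max_lt_iff]
        exact ⟨⟨hδ, b1⟩, b2, b3⟩)
  refine le_trans ?_ (this.trans (mul_le_mul_of_nonneg_left ?_ hC.le))
  · exact (norm_le_pi_norm (f := (R _ - R _) i) j).trans (norm_le_pi_norm _ i)
  · simp only [Prod.mk_sub_mk, sub_self, Prod.norm_mk, norm_zero, max_le_iff]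
    exact ⟨⟨h0, c1⟩, c2, c3⟩

/-! radial derivatives -/

theorem geo5_radial {f : E n → ℝ} {y : E n} {d : ℝ} (hf : DifferentiableAt ℝ f y)
    (h : HasDerivAt (fun s => f (Real.exp s • y)) d 0) : fderiv ℝ f y y = d := by
  have h1 : HasDerivAt (fun s => Real.exp s • y) y 0 := by
    simpa using (Real.hasDerivAt_exp 0).smul_const y
  have h2 : HasFDerivAt f (fderiv ℝ f y) (Real.exp 0 • y) := by
    simpa using hf.hasFDerivAt
  exact (h2.comp_hasDerivAt (0 : ℝ) h1).unique h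

theorem geo5_log_smul {c : ℝ} (hc : 0 < c) {y : E n} (hy : y ≠ 0) :
    Real.log ‖c • y‖ = Real.log c + Real.log ‖y‖ := by
  rw [norm_smul, Real.norm_of_nonneg hc.le, Real.log_mul hc.ne' (norm_ne_zero_iff.2 hy)]

theorem geo5_radial_log {φ : ℝ → ℝ} (hφ : Differentiable ℝ φ) {y : E n} (hy : y ≠ 0) :
    fderiv ℝ (fun z : E n => φ (Real.log ‖z‖)) y y = deriv φ (Real.log ‖y‖) := by
  refine geo5_radial ((hφ _).comp y ?_) ?_
  · exact (((contDiffAt_norm ℝ (n := 1) hy).differentiableAt one_ne_zero).log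
      (norm_ne_zero_iff.2 hy))
  · simp only [geo5_log_smul (Real.exp_pos _) hy, Real.log_exp]
    have h1 : HasDerivAt φ (deriv φ (Real.log ‖y‖)) (0 + Real.log ‖y‖) := by
      rw [zero_add]; exact (hφ _).hasDerivAt
    exact h1.comp_add_const 0 _

theorem geo5_Amat_smul {c : ℝ} (hc : 0 < c) (y : E n) (lam : ℝ) (β : Matrix (Fin n) (Fin n) ℝ) :
    Amat (c • y) lam β = Amat y lam β := by
  have : ‖c • y‖⁻¹ • c • y = ‖y‖⁻¹ • y := by
    rw [norm_smul, Real.norm_of_nonneg hc.le, smul_smul]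
    congr 1
    field_simp
  simp only [Amat, this]

/-- the rescaled metric in terms of `sigJ` -/
theorem geo5_metric_smul (l : ℝ → ℝ) (b : ℝ → BB n) {c : ℝ} (hc : 0 < c) {y : E n} (hy : y ≠ 0) :
    metric l b (c • y) = geo5G (y, sigJ l b (Real.log c) y) := by
  simp only [metric, geo5G, geo5A, sigJ, geo5_log_smul hc hy, geo5_Amat_smul hc, bmat,
    W.homog _ hc]

/-- the frozen metric is a cone -/
theorem geo5_cone (hn : 2 ≤ n) {ε : ℝ} (h : Good n ε) {β : BB n} (hβ : ‖β‖ < ε) (lam t : ℝ)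
    {x : E n} (hx : x ≠ 0) (j : Fin n) :
    ∑ i, ricci (fun y => geo5G (y, sigJ (fun _ => lam) (fun _ => β) t y)) x i j * x i = 0 := by
  have hs : ∀ i j, ContDiffOn ℝ ∞
      (fun y : E n => geo5G (y, sigJ (fun _ => lam) (fun _ => β) t y) i j) {0}ᶜ := fun i j =>
    (geo5_G_smooth i j).comp (f := fun y : E n => (y, sigJ (fun _ => lam) (fun _ => β) t y))
      (contDiffOn_id.prodMk (contDiffOn_const.prodMk
        (contDiffOn_pi.2 fun i => contDiffOn_pi.2 fun j => (β.e i j).smooth)))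
      fun y hy => geo5_mem hn h hβ lam hy
  refine cone_ricci_x (U := {0}ᶜ) ⟨isOpen_compl_singleton, hs,
    fun y _ => (Amat_posDef hn h hβ lam y).inv⟩ (fun y hy => ?_) (fun y hy i j => ?_) hx j
  · change (Amat y lam (bmat β y))⁻¹.mulVec _ = _
    have hd : IsUnit (Amat y lam (bmat β y)).det := by
      rw [Amat_det hn h hβ lam hy]
      exact (Real.exp_pos _).ne'.isUnit
    conv_lhs => rw [← Amat_mulVec β lam y]
    rw [Matrix.mulVec_mulVec, Matrix.nonsing_inv_mul _ hd, Matrix.one_mulVec]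
  · refine geo5_radial (((hs i j).contDiffAt (isOpen_compl_singleton.mem_nhds hy)).differentiableAt
      (by simp)) ?_
    simp only [geo5G, geo5A, sigJ, geo5_Amat_smul (Real.exp_pos _), W.homog _ (Real.exp_pos _)]
    exact hasDerivAt_const _ _

end Crest.Agent.R202
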