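import Crest.Agent.R202.Geo4
import Crest.Agent.R202.Lim

/-! # Row 202, Geo6: the Laplacian in weak form on spheres -/

set_option autoImplicit false
open scoped ContDiff RealInnerProductSpace
open Set Filter Topology MeasureTheory Crest.GeometryTopology.CoordMetric
open Crest.GeometryTopology.ChartCurvature

noncomputable section
namespace Crest.Agent.R202

variable {n : ℕ}

theorem geo6_ne {r : ℝ} (hr : 0 < r) (x : Sp n) : r • (x : E n) ≠ 0 :=
  smul_ne_zero hr.ne' (Sp.ne_zero x)

theorem geo6_diff {F : E n → ℝ} (hF : ContDiffOn ℝ 1 F {0}ᶜ) {y : E n} (hy : y ≠ 0) :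
    DifferentiableAt ℝ F y :=
  (hF.contDiffAt (isOpen_compl_singleton.mem_nhds hy)).differentiableAt (by simp)

theorem geo6_cont_fderiv {F : E n → ℝ} (hF : ContDiffOn ℝ 1 F {0}ᶜ) {r : ℝ} (hr : 0 < r) :
    Continuous fun x : Sp n => fderiv ℝ F (r • (x : E n)) :=
  (hF.continuousOn_fderiv_of_isOpen isOpen_compl_singleton le_rfl).comp_continuous
    (by fun_prop) fun x => geo6_ne hr x

theorem geo6_integrable {F : Sp n → ℝ} (hF : Continuous F) : Integrable F (sig n) :=
  CS.integrable ⟨F, hF⟩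

/-- the derivative along a rotation field integrates to zero on every sphere -/
theorem geo6_rot {F : E n → ℝ} (hF : ContDiffOn ℝ 1 F {0}ᶜ) {r : ℝ} (hr : 0 < r) (i j : Fin n) :
    ∫ x : Sp n, fderiv ℝ F (r • (x : E n))
      (gen (EuclideanSpace.single i 1) (EuclideanSpace.single j 1) (r • (x : E n))) ∂sig n = 0 := by
  by_cases hij : i = j
  · subst hij
    simp
  · have hc : Continuous fun x : Sp n => F (r • (x : E n)) :=
      hF.continuousOn.comp_continuous (by fun_prop) fun x => geo6_ne hr x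
    have hc' : Continuous fun x : Sp n => fderiv ℝ F (r • (x : E n))
        (gen (EuclideanSpace.single i 1) (EuclideanSpace.single j 1) (r • (x : E n))) :=
      (geo6_cont_fderiv hF hr).clm_apply (by fun_prop)
    refine integ_orbit (Plane.coord i j hij) ⟨_, hc⟩ ⟨_, hc'⟩ fun x => ?_
    have h1 := (hasDerivAt_rot (Plane.coord i j hij) x 0).const_smul r
    have h0 : rot (Plane.coord i j hij) 0 x = x := by rw [rot_zero]; rfl
    have h2 : HasFDerivAt F (fderiv ℝ F (r • (x : E n))) (r • rot (Plane.coord i j hij) 0 x) := by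
      rw [h0]
      exact (geo6_diff hF (geo6_ne hr x)).hasFDerivAt
    have h3 := h2.comp_hasDerivAt 0 h1
    rw [h0, ← map_smul] at h3
    exact h3

theorem geo6_coord (i : Fin n) (y : E n) :
    HasFDerivAt (fun z : E n => z i) (EuclideanSpace.proj i : E n →L[ℝ] ℝ) y :=
  (EuclideanSpace.proj i : E n →L[ℝ] ℝ).hasFDerivAt

theorem geo6_norm_sq (y : E n) : ∑ j, y j * y j = ‖y‖ ^ 2 := by
  rw [EuclideanSpace.real_norm_sq_eq]
  exact Finset.sum_congr rfl fun j _ => by ring

theorem geo6_expand (L : E n →L[ℝ] ℝ) (y : E n) :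
    L y = ∑ j, y j * L (EuclideanSpace.single j 1) := by
  conv_lhs => rw [← (EuclideanSpace.basisFun (Fin n) ℝ).sum_repr y]
  simp

/-- pointwise identity behind `integral_div_tang` -/
theorem geo6_div (Vf : Fin n → E n → ℝ) (hV : ∀ i, ContDiffOn ℝ 1 (Vf i) {0}ᶜ)
    (ht : ∀ y : E n, y ≠ 0 → ∑ i, Vf i y * y i = 0) {y : E n} (hy : y ≠ 0) :
    ‖y‖ ^ 2 * ∑ i, pderiv i (Vf i) y = ∑ i, ∑ j, fderiv ℝ (fun z => Vf i z * z j) y
      (gen (EuclideanSpace.single j 1) (EuclideanSpace.single i 1) y) := by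
  have hd : ∀ i j, HasFDerivAt (fun z => Vf i z * z j)
      (Vf i y • (EuclideanSpace.proj j : E n →L[ℝ] ℝ) + y j • fderiv ℝ (Vf i) y) y := fun i j =>
    (geo6_diff (hV i) hy).hasFDerivAt.mul (geo6_coord j y)
  have h0 : (∑ i, (Vf i y • (EuclideanSpace.proj i : E n →L[ℝ] ℝ) + y i • fderiv ℝ (Vf i) y)) = 0 := by
    have h1 := HasFDerivAt.fun_sum (u := Finset.univ) fun i _ => hd i i
    have h2 : (fun z => ∑ i, Vf i z * z i) =ᶠ[𝓝 y] fun _ => (0 : ℝ) := by
      filter_upwards [isOpen_compl_singleton.mem_nhds hy] with z hz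
      exact ht z hz
    exact h1.unique ((hasFDerivAt_const (0 : ℝ) y).congr_of_eventuallyEq h2)
  have h1 : ∑ i, y i * fderiv ℝ (Vf i) y y = 0 := by
    have h2 := congrArg (fun L : E n →L[ℝ] ℝ => L y) h0
    simp only [sum_apply, add_apply,
      smul_apply, smul_eq_mul, Finset.sum_add_distrib,
      zero_apply] at h2
    have h3 := ht y hy
    have h4 : ∑ i, Vf i y * (EuclideanSpace.proj i : E n →L[ℝ] ℝ) y = ∑ i, Vf i y * y i := rfl
    linarith
  have h2 : ∀ i, ∑ j, fderiv ℝ (fun z => Vf i z * z j) y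
      (gen (EuclideanSpace.single j 1) (EuclideanSpace.single i 1) y) =
      (1 - n) * (Vf i y * y i) + ‖y‖ ^ 2 * pderiv i (Vf i) y - y i * fderiv ℝ (Vf i) y y := by
    intro i
    have h3 : ∀ j, fderiv ℝ (fun z => Vf i z * z j) y
        (gen (EuclideanSpace.single j 1) (EuclideanSpace.single i 1) y) =
        (if j = i then Vf i y * y i else 0) - Vf i y * y i + y j * y j * pderiv i (Vf i) y -
          y i * (y j * fderiv ℝ (Vf i) y (EuclideanSpace.single j 1)) := by
      intro j
      rw [(hd i j).fderiv]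
      unfold pderiv
      by_cases hji : j = i
      · subst hji
        simp
        ring
      · simp [hji, EuclideanSpace.inner_single_left]
        ring
    rw [Finset.sum_congr rfl fun j _ => h3 j, Finset.sum_sub_distrib, Finset.sum_add_distrib,
      Finset.sum_sub_distrib, ← Finset.sum_mul _ (fun j => y j * y j), ← Finset.mul_sum _ _ (y i),
      ← geo6_expand, geo6_norm_sq]
    simp
    ring
  rw [Finset.sum_congr rfl fun i _ => h2 i, Finset.sum_sub_distrib, Finset.sum_add_distrib,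
    ← Finset.mul_sum, ← Finset.mul_sum, ht y hy, h1]
  ring

/-- `∫_S div V = 0` for a field tangent to the spheres: `V = Σ_{i,j} ½ c_{ij} Ξ_{ij} y`, `c_{ij} = ⟪V,Ξ_{ij}y⟫/|y|²`, so `div V = ½ Σ L_{ij} c_{ij}` (`div (Ξ y) = 0`), and
`integ_orbit` for `x ↦ c_{ij}(r x)`.  Equivalently: `pderiv_polar` for `∂ᵢVᵢ`, and `Σ yᵢVᵢ = 0` near the sphere. -/
theorem integral_div_tang {r : ℝ} (hr : 0 < r) (Vf : Fin n → E n → ℝ)
    (hV : ∀ i, ContDiffOn ℝ 1 (Vf i) {0}ᶜ) (ht : ∀ y : E n, y ≠ 0 → ∑ i, Vf i y * y i = 0) :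
    ∫ x : Sp n, ∑ i, pderiv i (Vf i) (r • (x : E n)) ∂sig n = 0 := by
  have hc : ∀ i j : Fin n, ContDiffOn ℝ 1 (fun z : E n => Vf i z * z j) {0}ᶜ := fun i j =>
    (hV i).mul (by fun_prop)
  have h1 : ∀ x : Sp n, ∑ i, pderiv i (Vf i) (r • (x : E n)) =
      (r ^ 2)⁻¹ * ∑ i, ∑ j, fderiv ℝ (fun z => Vf i z * z j) (r • (x : E n))
        (gen (EuclideanSpace.single j 1) (EuclideanSpace.single i 1) (r • (x : E n))) := by
    intro x
    rw [← geo6_div Vf hV ht (geo6_ne hr x), norm_smul, Sp.norm_eq, Real.norm_of_nonneg hr.le]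
    field_simp
  have hi : ∀ i j : Fin n, Integrable (fun x : Sp n => fderiv ℝ (fun z => Vf i z * z j) (r • (x : E n))
      (gen (EuclideanSpace.single j 1) (EuclideanSpace.single i 1) (r • (x : E n)))) (sig n) :=
    fun i j => geo6_integrable ((geo6_cont_fderiv (hc i j) hr).clm_apply (by fun_prop))
  simp only [h1]
  rw [integral_const_mul, integral_finsetSum _ fun i _ => integrable_finsetSum _ fun j _ => hi i j]
  refine mul_eq_zero_of_right _ (Finset.sum_eq_zero fun i _ => ?_)
  rw [integral_finsetSum _ fun j _ => hi i j]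
  exact Finset.sum_eq_zero fun j _ => geo6_rot (hc i j) hr j i

theorem geo6_contDiff_pderiv {F : E n → ℝ} (hF : ContDiff ℝ ∞ F) (i : Fin n) :
    ContDiff ℝ ∞ (pderiv i F) :=
  (hF.fderiv_right (m := ∞) (by simp)).clm_apply contDiff_const

theorem geo6_log_smooth : ContDiffOn ℝ ∞ (fun y : E n => Real.log ‖y‖) {0}ᶜ := fun _ hy =>
  ((contDiffAt_norm ℝ hy).log (norm_ne_zero_iff.2 hy)).contDiffWithinAt

/-- radial derivative of a radial function -/
theorem geo6_radial {G : ℝ → ℝ} (hG : Differentiable ℝ G) {y : E n} (hy : y ≠ 0) :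
    fderiv ℝ (fun z : E n => G (Real.log ‖z‖)) y y = deriv G (Real.log ‖y‖) := by
  have hd : DifferentiableAt ℝ (fun z : E n => G (Real.log ‖z‖)) y :=
    (hG _).comp y (geo6_diff (geo6_log_smooth.of_le (by simp)) hy)
  have h1 : HasDerivAt (fun s : ℝ => s • y) y 1 := by
    simpa using (hasDerivAt_id (1 : ℝ)).smul_const y
  have h2 : HasFDerivAt (fun z : E n => G (Real.log ‖z‖))
      (fderiv ℝ (fun z : E n => G (Real.log ‖z‖)) y) ((1 : ℝ) • y) := by
    rw [one_smul]; exact hd.hasFDerivAt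
  have h3 := h2.comp_hasDerivAt 1 h1
  have h4 : HasDerivAt (fun s : ℝ => Real.log s + Real.log ‖y‖) 1 1 := by
    simpa using (Real.hasDerivAt_log one_ne_zero).add_const (Real.log ‖y‖)
  have h5 : HasDerivAt G (deriv G (Real.log ‖y‖)) (Real.log 1 + Real.log ‖y‖) := by
    rw [Real.log_one, zero_add]; exact (hG _).hasDerivAt
  have h6 := h5.comp 1 h4
  rw [mul_one] at h6
  refine h3.unique (h6.congr_of_eventuallyEq ?_)
  filter_upwards [Ioi_mem_nhds (zero_lt_one' ℝ)] with s hs
  have hs' : 0 < s := hs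
  simp only [Function.comp_apply]
  rw [norm_smul, Real.norm_of_nonneg hs'.le, Real.log_mul hs'.ne' (norm_ne_zero_iff.2 hy)]

/-- divergence of the radial field `y ↦ G(log|y|) (y·∇U) y` -/
theorem geo6_div_rad {G : ℝ → ℝ} (hG : Differentiable ℝ G) {U : E n → ℝ} (hU : ContDiff ℝ ∞ U)
    {y : E n} (hy : y ≠ 0) :
    ∑ i, pderiv i (fun z => z i * (G (Real.log ‖z‖) * fderiv ℝ U z z)) y =
      G (Real.log ‖y‖) * (fderiv ℝ (fderiv ℝ U) y y y + (n + 1) * fderiv ℝ U y y) +
        deriv G (Real.log ‖y‖) * fderiv ℝ U y y := by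
  have hd : DifferentiableAt ℝ (fun z : E n => G (Real.log ‖z‖)) y :=
    (hG _).comp y (geo6_diff (geo6_log_smooth.of_le (by simp)) hy)
  have hU2 : DifferentiableAt ℝ (fderiv ℝ U) y :=
    ((hU.fderiv_right (m := 1) (by norm_cast)).differentiable (by simp)) y
  have h1 := hU2.hasFDerivAt.clm_apply (hasFDerivAt_id y)
  have h2 := hd.hasFDerivAt.mul h1
  set ψ : E n → ℝ := fun z => G (Real.log ‖z‖) * fderiv ℝ U z z with hψ
  have h3 : fderiv ℝ ψ y y = G (Real.log ‖y‖) * (fderiv ℝ (fderiv ℝ U) y y y + fderiv ℝ U y y) +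
      deriv G (Real.log ‖y‖) * fderiv ℝ U y y := by
    have := congrArg (fun L : E n →L[ℝ] ℝ => L y) h2.fderiv
    simp only [add_apply, smul_apply, smul_eq_mul, geo6_radial hG hy] at this
    refine Eq.trans this ?_
    simp
    ring
  have h4 : ∀ i, pderiv i (fun z => z i * ψ z) y =
      y i * fderiv ℝ ψ y (EuclideanSpace.single i 1) + ψ y := by
    intro i
    have h5 : HasFDerivAt ψ (fderiv ℝ ψ y) y := h2.differentiableAt.hasFDerivAt
    unfold pderiv
    rw [((geo6_coord i y).fun_mul h5).fderiv]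
    simp
  rw [Finset.sum_congr rfl fun i _ => h4 i, Finset.sum_add_distrib, ← geo6_expand, h3]
  simp only [Finset.sum_const, Finset.card_univ, Fintype.card_fin, nsmul_eq_mul, hψ]
  ring

/-- the integrand of the weak equation on the sphere of radius `r` -/
def resid (U : E n → ℝ) (r p : ℝ) (K : X n) (w : W n) (x : Sp n) : ℝ :=
  (fderiv ℝ (fderiv ℝ U) (r • (x : E n)) (r • (x : E n)) (r • (x : E n)) +
      (p + 1) * fderiv ℝ U (r • (x : E n)) (r • (x : E n))) * w x -
    ∑ i, ∑ j, K i j x * (r * fderiv ℝ U (r • (x : E n)) (EuclideanSpace.single i 1) * grad j w x)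

/-- **(★)**  `√det g = f^{n-1}`, `f = e^{l(log|y|)}`, `g⁻¹∇U = (y·∇U) y/|y|² + f⁻² H∇U`.  The radial part gives `r⁻²(D²U(y,y) + (p+1) y·∇U)`; for the tangential part
`V = H_{b(log|y|)}(ŷ)∇U` (`H` symmetric, tangential): `f^{-(n-1)} div(f^{n-3}V) = f⁻² div V`, and `w div V = div(wV) - V·∇w` with `∇w(r x) = r⁻¹∇w(x)`; `integral_div_tang`. -/
theorem laplace_weak (hn : 2 ≤ n) {ε : ℝ} {l : ℝ → ℝ} {b : ℝ → BB n} (h : Adm ε l b) {U : E n → ℝ}
    (hU : ContDiff ℝ ∞ U) (t : ℝ) (w : W n) :
    ∫ x : Sp n, Real.exp t ^ 2 * laplaceBeltrami (metric l b) U (Real.exp t • (x : E n)) * w x ∂sig n =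
      ∫ x : Sp n, resid U (Real.exp t) (pf n l t) (Kf l b t) w x ∂sig n := by
  set r := Real.exp t with hr
  have hr0 : 0 < r := Real.exp_pos t
  have hl : Differentiable ℝ l := h.smooth.differentiable (by simp)
  -- the fields
  let A : E n → Matrix (Fin n) (Fin n) ℝ := fun y =>
    Amat y (l (Real.log ‖y‖)) (bmat (b (Real.log ‖y‖)) y)
  let φ : E n → ℝ := fun y => Real.exp (((n : ℝ) - 1) * l (Real.log ‖y‖))
  let G : ℝ → ℝ := fun s => Real.exp (((n : ℝ) - 1) * l s - 2 * s)
  let P : Fin n → E n → ℝ := fun i y => φ y * ∑ j, A y i j * pderiv j U y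
  let R : Fin n → E n → ℝ := fun i y => y i * (G (Real.log ‖y‖) * fderiv ℝ U y y)
  let Z : Fin n → E n → ℝ := fun i y => w y * (P i y - R i y)
  have hφ : ∀ y, √(metric l b y).det = φ y := fun y => by
    rw [h.det hn, ← Real.exp_half]
    simp only [φ]
    congr 1
    ring
  have hΔ : ∀ y, laplaceBeltrami (metric l b) U y = (1 / φ y) * ∑ i, pderiv i (P i) y := fun y => by
    unfold laplaceBeltrami
    simp only [hφ, h.inv hn]
    rfl
  have hG : ContDiff ℝ ∞ G := ((contDiff_const.mul h.smooth).sub (by fun_prop)).exp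
  have hG' : deriv G t = G t * (((n : ℝ) - 1) * deriv l t - 2) := by
    have h1 := (((hl t).hasDerivAt.const_mul ((n : ℝ) - 1)).fun_sub
      ((hasDerivAt_id t).const_mul 2)).exp
    simpa using h1.deriv
  have hφs : ContDiffOn ℝ ∞ φ {0}ᶜ :=
    (contDiffOn_const.mul (h.smooth.comp_contDiffOn geo6_log_smooth)).exp
  have hPs : ∀ i, ContDiffOn ℝ 1 (P i) {0}ᶜ := fun i =>
    (hφs.mul (ContDiff.sum fun j _ =>
      (h.smooth_Amat hn i j).mul (geo6_contDiff_pderiv hU j)).contDiffOn).of_le (by simp)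
  have hRs : ∀ i, ContDiffOn ℝ 1 (R i) {0}ᶜ := fun i =>
    (ContDiffOn.mul (by fun_prop) ((hG.comp_contDiffOn geo6_log_smooth).mul
      ((hU.fderiv_right (m := ∞) (by simp)).clm_apply contDiff_id).contDiffOn)).of_le (by simp)
  have hws : ContDiffOn ℝ 1 w {0}ᶜ := w.smooth.of_le (by simp)
  have hZs : ∀ i, ContDiffOn ℝ 1 (Z i) {0}ᶜ := fun i => hws.mul ((hPs i).sub (hRs i))
  have hGφ : ∀ y : E n, y ≠ 0 → ‖y‖ ^ 2 * G (Real.log ‖y‖) = φ y := fun y hy => by
    have h1 : ‖y‖ ^ 2 = Real.exp (2 * Real.log ‖y‖) := by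
      rw [two_mul, Real.exp_add, Real.exp_log (norm_pos_iff.2 hy), sq]
    rw [h1]
    simp only [G, φ]
    rw [← Real.exp_add]
    congr 1
    ring
  have hZt : ∀ y : E n, y ≠ 0 → ∑ i, Z i y * y i = 0 := by
    intro y hy
    have hsym : ∀ i j, A y i j = A y j i := fun i j => by
      simpa using ((Amat_posDef hn h.good (h.small _) _ y).isHermitian.apply j i)
    have hmul : ∀ j, ∑ i, A y j i * y i = y j := fun j => congrFun (Amat_mulVec _ _ y) j
    have h1 : ∑ i, P i y * y i = φ y * fderiv ℝ U y y := by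
      rw [geo6_expand (fderiv ℝ U y) y]
      simp only [P, mul_assoc, ← Finset.mul_sum, Finset.sum_mul]
      congr 1
      rw [Finset.sum_comm]
      refine Finset.sum_congr rfl fun j _ => ?_
      rw [← hmul j, Finset.sum_mul]
      refine Finset.sum_congr rfl fun i _ => ?_
      rw [hsym i j]
      unfold pderiv
      ring
    have h2 : ∑ i, R i y * y i = φ y * fderiv ℝ U y y := by
      rw [← hGφ y hy, ← geo6_norm_sq, Finset.sum_mul, Finset.sum_mul]
      exact Finset.sum_congr rfl fun i _ => by simp only [R]; ring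
    simp only [Z, mul_assoc, ← Finset.mul_sum, sub_mul, Finset.sum_sub_distrib, h1, h2, sub_self,
      mul_zero]
  have hlog : ∀ x : Sp n, Real.log ‖r • (x : E n)‖ = t := fun x => by
    rw [norm_smul, Sp.norm_eq, Real.norm_of_nonneg hr0.le, mul_one, hr, Real.log_exp]
  set c : ℝ := Real.exp (((n : ℝ) - 1) * l t) with hc
  have hc0 : 0 < c := Real.exp_pos _
  have hφc : ∀ x : Sp n, φ (r • (x : E n)) = c := fun x => by simp only [φ, hlog, hc]
  have hGc : r ^ 2 * G t = c := by
    have h1 : r ^ 2 = Real.exp (2 * t) := by rw [two_mul, Real.exp_add, sq]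
    rw [h1, hc]
    simp only [G]
    rw [← Real.exp_add]
    congr 1
    ring
  -- the pointwise identity
  have key : ∀ x : Sp n, r ^ 2 * laplaceBeltrami (metric l b) U (r • (x : E n)) * w x =
      resid U r (pf n l t) (Kf l b t) w x + r ^ 2 / c * ∑ i, pderiv i (Z i) (r • (x : E n)) := by
    intro x
    have hy := geo6_ne hr0 x
    set y : E n := r • (x : E n) with hyd
    have hwy : w y = w x := w.homog hr0 x
    have hw' : ∀ i, r * fderiv ℝ w y (EuclideanSpace.single i 1) = grad i w x := fun i => by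
      rw [grad_apply, ← w.fderiv_homog hr0 x]
      rfl
    have hV : ∀ i, P i y - R i y = c * ∑ j, Kf l b t j i x * pderiv j U y := fun i => by
      simp only [P, R, A, hyd, hφc, hlog]
      rw [Amat_eq (b t) (l t) x hr0, geo6_expand (fderiv ℝ U _) (r • (x : E n)), ← hGc]
      simp only [Finset.mul_sum, ← Finset.sum_sub_distrib]
      refine Finset.sum_congr rfl fun j _ => ?_
      simp only [Kf, X.at, Matrix.add_apply, Matrix.vecMulVec_apply, Matrix.smul_apply,
        Matrix.of_apply, Pi.smul_apply, ContinuousMap.smul_apply, smul_eq_mul, PiLp.smul_apply,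
        HX_symm (b t) j i]
      unfold pderiv
      ring
    have hZ : ∀ i, pderiv i (Z i) y = w x * (pderiv i (P i) y - pderiv i (R i) y) +
        (P i y - R i y) * fderiv ℝ w y (EuclideanSpace.single i 1) := fun i => by
      have h1 := (geo6_diff hws hy).hasFDerivAt.fun_mul
        ((geo6_diff (hPs i) hy).hasFDerivAt.fun_sub (geo6_diff (hRs i) hy).hasFDerivAt)
      unfold pderiv
      rw [show Z i = fun z => w z * (P i z - R i z) from rfl, h1.fderiv, hwy]
      simp
    have hR := geo6_div_rad (hG.differentiable (by simp)) hU hy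
    rw [hyd, hlog, ← hyd, hG'] at hR
    have hK : r ^ 2 / c * ∑ i, (P i y - R i y) * fderiv ℝ w y (EuclideanSpace.single i 1) =
        ∑ i, ∑ j, Kf l b t i j x * (r * fderiv ℝ U y (EuclideanSpace.single i 1) * grad j w x) := by
      rw [Finset.sum_comm, Finset.mul_sum]
      refine Finset.sum_congr rfl fun i _ => ?_
      rw [hV, ← hw', Finset.mul_sum, Finset.sum_mul, Finset.mul_sum]
      refine Finset.sum_congr rfl fun j _ => ?_
      unfold pderiv
      field_simp
    rw [hΔ, hyd, hφc, ← hyd, Finset.sum_congr rfl fun i _ => hZ i, Finset.sum_add_distrib,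
      ← Finset.mul_sum, Finset.sum_sub_distrib, mul_add, hK]
    change _ = _ + (r ^ 2 / c * (w x * (_ - ∑ i, pderiv i (R i) y)) + _)
    rw [show ∑ i, pderiv i (R i) y = _ from hR]
    unfold resid pf
    rw [← hyd, ← hGc]
    have hGt : G t ≠ 0 := (Real.exp_pos _).ne'
    field_simp
    ring
  have hres : Integrable (resid U r (pf n l t) (Kf l b t) w) (sig n) := by
    refine geo6_integrable ?_
    have h1 : Continuous (fderiv ℝ U) := (hU.fderiv_right (m := 1) (by norm_cast)).continuous
    have h2 : Continuous (fderiv ℝ (fderiv ℝ U)) :=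
      ((hU.fderiv_right (m := 1) (by norm_cast)).fderiv_right (m := 0) (by norm_cast)).continuous
    have h3 : Continuous fun x : Sp n => r • (x : E n) := by fun_prop
    have h4 : Continuous fun x : Sp n => w x := (res w).continuous
    unfold resid
    refine Continuous.sub (Continuous.mul (Continuous.add
      (((h2.comp h3).clm_apply h3).clm_apply h3)
      (continuous_const.mul ((h1.comp h3).clm_apply h3))) h4) ?_
    refine continuous_finsetSum _ fun i _ => continuous_finsetSum _ fun j _ => ?_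
    exact (Kf l b t i j).continuous.mul ((continuous_const.mul
      ((h1.comp h3).clm_apply continuous_const)).mul (grad j w).continuous)
  have hdiv : Integrable (fun x : Sp n => ∑ i, pderiv i (Z i) (r • (x : E n))) (sig n) :=
    geo6_integrable (continuous_finsetSum _ fun i _ =>
      (geo6_cont_fderiv (hZs i) hr0).clm_apply continuous_const)
  simp only [key]
  rw [integral_add hres (hdiv.const_mul _), integral_const_mul, integral_div_tang hr0 Z hZs hZt,
    mul_zero, add_zero]

theorem geo6_contDiff_det {M : E n → Matrix (Fin n) (Fin n) ℝ}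
    (hM : ∀ i j, ContDiff ℝ ∞ fun y => M y i j) : ContDiff ℝ ∞ fun y => (M y).det := by
  simp only [Matrix.det_apply']
  exact ContDiff.sum fun σ _ => contDiff_const.mul (contDiff_prod fun i _ => hM _ _)

theorem continuous_laplace {g : MetricField n} (hg : IsRiemannianOn g univ) {U : E n → ℝ}
    (hU : ContDiff ℝ ∞ U) : Continuous (laplaceBeltrami g U) := by
  have he : ∀ i j, ContDiff ℝ ∞ fun y => g y i j := fun i j => contDiffOn_univ.1 (hg.contDiffOn i j)
  have hd := geo6_contDiff_det he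
  have hp : ∀ y, 0 < (g y).det := fun y => (hg.posDef y (mem_univ _)).det_pos
  have hs : ContDiff ℝ ∞ fun y => √(g y).det := hd.sqrt fun y => (hp y).ne'
  have hi : ∀ i j, ContDiff ℝ ∞ fun y => inverseField g y i j := by
    intro i j
    have : (fun y => inverseField g y i j) =
        fun y => ((g y).det)⁻¹ * ((g y).updateRow j (Pi.single i 1)).det := by
      funext y
      simp [inverseField, Matrix.inv_def, Matrix.adjugate_apply]
    rw [this]
    refine (hd.inv fun y => (hp y).ne').mul (geo6_contDiff_det fun a c => ?_)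
    by_cases ha : a = j
    · subst ha
      simp only [Matrix.updateRow_self]
      exact contDiff_const
    · simp only [Matrix.updateRow_ne ha]
      exact he a c
  unfold laplaceBeltrami
  refine (continuous_const.div hs.continuous fun y => (Real.sqrt_pos.2 (hp y)).ne').mul
    (continuous_finsetSum _ fun i _ => (geo6_contDiff_pderiv ?_ i).continuous)
  exact hs.mul (ContDiff.sum fun j _ => (hi i j).mul (geo6_contDiff_pderiv hU j))

end Crest.Agent.R202
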