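import Crest.Agent.R202.Time
import Crest.Agent.R202.Forms1
import Crest.Agent.R202.Geo4
import Crest.Agent.R202.Lim

/-! # Row 202, KB: bounds for the coefficient field `Kf` along the timeline -/

set_option autoImplicit false
open scoped ContDiff RealInnerProductSpace
open Set Filter Topology MeasureTheory Crest.GeometryTopology.CoordMetric

noncomputable section
namespace Crest.Agent.R202

variable {n : ℕ}

theorem kb_smooth {ε : ℝ} (hε : Good n ε) {l : ℝ → ℝ} {b : ℝ → BB n} (hl : ContDiff ℝ ∞ l)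
    (hb : ContDiff ℝ ∞ b) (hs : ∀ t, ‖b t‖ < ε) : ContDiff ℝ ∞ (Kf l b) :=
  (contDiff_const.mul hl).exp.smul (contDiff_iff_contDiffAt.2 fun t =>
    ContDiffAt.comp (g := HX) (f := fun t => iota (b t)) t
      (analyticAt_HX (hε.detOK (hs t))).contDiffAt (iota.contDiff.comp hb).contDiffAt)

theorem Adm.Kf_smooth {ε : ℝ} {l : ℝ → ℝ} {b : ℝ → BB n} (h : Adm ε l b) : ContDiff ℝ ∞ (Kf l b) := by
  exact kb_smooth h.good h.smooth h.fin.contDiff h.small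
theorem Adm.Kf_zero {ε : ℝ} {l : ℝ → ℝ} {b : ℝ → BB n} (h : Adm ε l b) {t : ℝ} (ht : t ≤ 0) : Kf l b t = PiX n := by
  simp [Kf, h.l0 t ht, h.b0 t ht, HX_zero]
theorem Kf_symm (l : ℝ → ℝ) (b : ℝ → BB n) (t : ℝ) (u w : W n) : form (Kf l b t) u w = form (Kf l b t) w u := by
  refine form_symm (fun i j => ?_) u w
  simp only [Kf, Pi.smul_apply, HX_symm (b t) i j]
theorem Kf_form (l : ℝ → ℝ) (b : ℝ → BB n) (t : ℝ) (u w : W n) :
    form (Kf l b t) u w = Real.exp (-2 * l t) * aB (b t) u w := by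
  rw [Kf, aB, ← formK_apply, ← formK_apply, map_smul, smul_eq_mul]
theorem Adm.Kf_coer (hn : 2 ≤ n) {ε : ℝ} {l : ℝ → ℝ} {b : ℝ → BB n} (h : Adm ε l b) (hl : ∀ t, l t ≤ 0) (t : ℝ)
    (w : W n) : (1 / 3) * form (PiX n) w w ≤ form (Kf l b t) w w := by
  have h1 := (aB_coer hn h.good (h.small t) w).1
  have h2 := form_PiX_nonneg w
  rw [Kf_form]
  exact h1.trans (le_mul_of_one_le_left (by linarith) (Real.one_le_exp (by linarith [hl t])))
/-- chain rule and `fderiv_HX_bound` -/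
theorem Kf_deriv {ε : ℝ} (hε : Good n ε) (Z : ℝ) : ∃ C : ℝ, 0 < C ∧ ∀ (l : ℝ → ℝ) (b : ℝ → BB n), Adm ε l b →
    (∀ t, -Z ≤ l t) → ∀ t, ‖deriv (Kf l b) t‖ ≤ C * (|deriv l t| + ‖deriv b t‖) := by
  obtain ⟨C, hC⟩ := fderiv_HX_bound hε
  have hC0 : 0 ≤ C := (norm_nonneg _).trans (hC 0 (by simpa using hε.1)).1
  refine ⟨Real.exp (2 * Z) * (C + 1) * (2 + ‖(iota : BB n →L[ℝ] X n)‖), by positivity,
    fun l b h hZ t => ?_⟩
  have h1 : HasDerivAt l (deriv l t) t := (h.smooth.differentiable (by simp) t).hasDerivAt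
  have h2 : HasDerivAt b (deriv b t) t := (h.fin.contDiff.differentiable (by simp) t).hasDerivAt
  have h3 := (analyticAt_HX (h.good.detOK (h.small t))).differentiableAt.hasFDerivAt.comp_hasDerivAt
    t (iota.hasFDerivAt.comp_hasDerivAt t h2)
  have h4 : HasDerivAt (Kf l b) _ t := (h1.const_mul (-2)).exp.smul h3
  have h5 : Real.exp (-2 * l t) ≤ Real.exp (2 * Z) := Real.exp_le_exp.2 (by linarith [hZ t])
  have h6 : ‖fderiv ℝ HX (iota (b t)) (iota (deriv b t))‖ ≤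
      C * (‖(iota : BB n →L[ℝ] X n)‖ * ‖deriv b t‖) :=
    (ContinuousLinearMap.le_opNorm _ _).trans
      (mul_le_mul (hC _ (h.small t)).2 (iota.le_opNorm _) (norm_nonneg _) hC0)
  have h7 := (hC _ (h.small t)).1
  rw [h4.deriv]
  refine (norm_add_le _ _).trans ?_
  rw [norm_smul, norm_smul, norm_mul, norm_mul, Real.norm_of_nonneg (Real.exp_pos _).le, norm_neg,
    Real.norm_two, Real.norm_eq_abs]
  calc _ ≤ Real.exp (2 * Z) * ((C + 1) * ((2 + ‖(iota : BB n →L[ℝ] X n)‖) * ‖deriv b t‖)) +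
        Real.exp (2 * Z) * ((2 + ‖(iota : BB n →L[ℝ] X n)‖) * |deriv l t|) * (C + 1) := by
        refine add_le_add (mul_le_mul h5 (h6.trans ?_) (norm_nonneg _) (Real.exp_pos _).le)
          (mul_le_mul ?_ (h7.trans (by linarith)) (norm_nonneg _) (by positivity))
        · gcongr <;> linarith
        · gcongr
          linarith [norm_nonneg (iota : BB n →L[ℝ] X n)]
    _ = _ := by ring

/-- smooth finite families: `(s,y) ↦ actX (rot π s) (HX (iota (Σ cₖ(y) vₖ))) = HX (Σ cₖ(y) actX (rot π s) (iota vₖ))` (`HX_actX`, `analytic_orbit_iota`, `analyticAt_HX`, `DetOK.actX`) -/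
theorem smooth_family {Y : Type*} [NormedAddCommGroup Y] [NormedSpace ℝ Y] {ε : ℝ} (hε : Good n ε) (π : Plane n)
    {ι : Type*} [Fintype ι] (c : ι → Y → ℝ) (hc : ∀ k, ContDiff ℝ ∞ (c k)) (v : ι → BB n) :
    ContDiffOn ℝ ∞ (fun p : ℝ × Y => actX (rot π p.1) (HX (iota (∑ k, c k p.2 • v k))))
      {p | ‖∑ k, c k p.2 • v k‖ < ε} := by
  intro p hp
  have h1 : ContDiff ℝ ∞ fun p : ℝ × Y => ∑ k, c k p.2 • actX (rot π p.1) (iota (v k)) :=
    ContDiff.sum fun k _ => ((hc k).comp contDiff_snd).smul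
      ((analytic_orbit_iota π (v k)).contDiff.comp contDiff_fst)
  have h2 : ∀ p : ℝ × Y, ∑ k, c k p.2 • actX (rot π p.1) (iota (v k)) =
      actX (rot π p.1) (iota (∑ k, c k p.2 • v k)) := fun p => by simp only [map_sum, map_smul]
  simp only [h2] at h1
  simp only [← HX_actX]
  exact ((analyticAt_HX ((hε.detOK hp).actX (rot π p.1))).contDiffAt.comp p
    h1.contDiffAt).contDiffWithinAt

theorem kb_pt {ε : ℝ} (hε : Good n ε) (π : Plane n) (j : ℕ) (w w' e : BB n)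
    (hs : ∀ x ∈ Icc (0 : ℝ) 1, ∀ θ ∈ Icc (-1 : ℝ) 1, ‖pt w w' e x θ‖ < ε) :
    ∃ C : ℝ, ∀ x ∈ Icc (0 : ℝ) 1, ∀ θ ∈ Icc (-1 : ℝ) 1,
      ‖orbD π j (HX (iota (pt w w' e x θ)))‖ ≤ C := by
  have h1 := smooth_family (Y := ℝ × ℝ) hε π
    ![fun _ => 1, fun y => y.1, fun y => y.2 * (4 * y.1 * (1 - y.1))]
    (fun k => by fin_cases k <;> simp <;> fun_prop) ![w, w' - w, e]
  have h2 : ∀ y : ℝ × ℝ, ∑ k, (![fun _ => 1, fun y => y.1, fun y => y.2 * (4 * y.1 * (1 - y.1))] :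
      Fin 3 → ℝ × ℝ → ℝ) k y • ![w, w' - w, e] k = pt w w' e y.1 y.2 := fun y => by
    simp [Fin.sum_univ_three, pt]
  simp only [h2] at h1
  have hO : IsOpen {p : ℝ × ℝ × ℝ | ‖pt w w' e p.2.1 p.2.2‖ < ε} :=
    isOpen_lt (by unfold pt; fun_prop) continuous_const
  obtain ⟨C, hC⟩ := ((isCompact_Icc : IsCompact (Icc (0 : ℝ) 1)).prod
    (isCompact_Icc : IsCompact (Icc (-1 : ℝ) 1))).exists_bound_of_continuousOn
    ((contDiffAt_iteratedDeriv hO h1 j).continuousOn.comp (f := fun y : ℝ × ℝ => ((0 : ℝ), y))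
      (by fun_prop) fun y hy => hs _ hy.1 _ hy.2)
  exact ⟨C, fun x hx θ hθ => hC (x, θ) ⟨hx, hθ⟩⟩

theorem kb_swap {Y F : Type*} [NormedAddCommGroup Y] [NormedSpace ℝ Y] [NormedAddCommGroup F]
    [NormedSpace ℝ F] {O : Set (ℝ × Y)} (hO : IsOpen O) {Φ : ℝ × ℝ × Y → F}
    (hΦ : ContDiffOn ℝ ∞ Φ {p | p.2 ∈ O}) (i : ℕ) : ContDiffOn ℝ ∞
      (fun p : ℝ × ℝ × Y => iteratedDeriv i (fun t => Φ (p.1, t, p.2.2)) p.2.1) {p | p.2 ∈ O} := by
  have hsw : ContDiff ℝ ∞ fun p : ℝ × ℝ × Y => (p.2.1, p.1, p.2.2) := by fun_prop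
  exact (contDiffAt_iteratedDeriv (hO.preimage (f := fun p : ℝ × ℝ × Y => (p.1, p.2.2))
    (by fun_prop)) (hΦ.comp hsw.contDiffOn fun _ hp => hp) i).comp hsw.contDiffOn fun _ hp => hp

theorem kb_local {ε A ρ : ℝ} (hε : Good n ε) (hA : 0 < A) (hρ : 1 < ρ) {l : ℝ → ℝ}
    (hl : ContDiff ℝ ∞ l) (w e : ℕ → BB n) (h0 : ∀ θ ∈ cube, ∀ t, ‖bcurve A ρ w e θ t‖ < ε)
    (π : Plane n) (i M : ℕ) : ∃ (Ψ : ℝ × ℝ × (Fin M → ℝ) → X n) (O : Set (ℝ × (Fin M → ℝ))),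
      IsOpen O ∧ ContDiffOn ℝ ∞ Ψ {p | p.2 ∈ O} ∧ ∀ θ ∈ cube, ∀ t < tl A ρ M,
        (t, fun m : Fin M => θ m) ∈ O ∧ ∀ s, actX (rot π s)
          (iteratedDeriv i (Kf l (bcurve A ρ w e θ)) t) = Ψ (s, t, fun m : Fin M => θ m) := by
  have hp : ∀ m, ContDiff ℝ ∞ (prog A ρ m) := fun m =>
    chi_props.1.comp ((contDiff_id.sub contDiff_const).div_const _)
  have hq : ContDiff ℝ ∞ (pre A ρ) := chi_props.1.comp ((contDiff_id.sub contDiff_const).div_const _)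
  let c : Option (Fin M ⊕ Fin M) → ℝ × (Fin M → ℝ) → ℝ := fun k y => k.elim (pre A ρ y.1)
    (Sum.elim (fun m => prog A ρ m y.1) fun m => y.2 m * (4 * prog A ρ m y.1 * (1 - prog A ρ m y.1)))
  let v : Option (Fin M ⊕ Fin M) → BB n := fun k => k.elim (w 0)
    (Sum.elim (fun m => w (m + 1) - w m) fun m => e m)
  have hc : ∀ k, ContDiff ℝ ∞ (c k) := by
    rintro (_ | m | m)
    · exact hq.comp contDiff_fst
    · exact (hp m).comp contDiff_fst
    · exact ((contDiff_apply ℝ ℝ m).comp contDiff_snd).mul ((contDiff_const.mul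
        ((hp m).comp contDiff_fst)).mul (contDiff_const.sub ((hp m).comp contDiff_fst)))
  have hb : ∀ (θ : ℕ → ℝ) (t : ℝ), t < tl A ρ M →
      ∑ k, c k (t, fun m => θ m) • v k = bcurve A ρ w e θ t := fun θ t ht => by
    rw [bcurve, glue_sum hA hρ w e θ M ht.le, Finset.sum_range, Finset.sum_add_distrib,
      Fintype.sum_option, Fintype.sum_sum_type]
    simp only [c, v, Option.elim, Sum.elim_inl, Sum.elim_inr]
    module
  have hO : IsOpen {y | ‖∑ k, c k y • v k‖ < ε} :=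
    isOpen_lt (continuous_finsetSum _ fun k _ => (hc k).continuous.smul continuous_const).norm
      continuous_const
  have h1 : ContDiffOn ℝ ∞ (fun p : ℝ × ℝ × (Fin M → ℝ) => Real.exp (-2 * l p.2.1) •
      actX (rot π p.1) (HX (iota (∑ k, c k p.2 • v k)))) {p | p.2 ∈ {y | ‖∑ k, c k y • v k‖ < ε}} :=
    (contDiff_const.mul (hl.comp (contDiff_fst.comp contDiff_snd))).exp.contDiffOn.smul
      (smooth_family hε π c hc v)
  refine ⟨_, _, hO, kb_swap hO h1 i, fun θ hθ t ht =>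
      ⟨(congrArg norm (hb θ t ht)).trans_lt (h0 θ hθ t), fun s => ?_⟩⟩
  have h2 := (actX (rot π s)).iteratedFDeriv_comp_left (kb_smooth hε hl
    (bcurve_locFin hA hρ w e θ).contDiff (h0 θ hθ)).contDiffAt (x := t) (i := i) (by
      exact_mod_cast le_top)
  refine (DFunLike.congr_fun h2 fun _ => 1).symm.trans (Filter.EventuallyEq.iteratedDeriv_eq i ?_)
  filter_upwards [Iio_mem_nhds ht] with t' ht'
  simp only [Function.comp, Kf, map_smul, hb θ t' ht']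

/-- (h1)–(h3) of `reg`, uniformly in the controls.  (h2): `bcurve` takes values in finitely many compact families `pt w w' e x θ`, `(x,θ) ∈ [0,1]×[-1,1]`, and `x • w 0`;
`orbD π j (c • K) = c • orbD π j K`; `contDiffAt_iteratedDeriv` gives continuity in `(x,θ)`.  (h1),(h3): for `t < tl M` write `Kf l (bcurve θ) t = Ψ(t, θ|_M)` with `glue_sum`; the map
`Φ(s,t,y) = actX (rot π s) (Ψ(t,y))` is smooth on an open set containing `ℝ × (-∞, tl M) × [-1,1]^M`; `actX (rot π s)` commutes with `iteratedDeriv i` in `t`; apply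
`contDiffAt_iteratedDeriv` twice and compactness. -/
theorem Kf_bounds {ε Z A ρ : ℝ} (hε : Good n ε) (hA : 0 < A) (hρ : 1 < ρ) {l : ℝ → ℝ} (hl : ContDiff ℝ ∞ l)
    (hZ : ∀ t, -Z ≤ l t) (w e : ℕ → BB n) (hw : (range w).Finite) (he : (range e).Finite)
    (hs : ∀ m, ∀ x ∈ Icc (0 : ℝ) 1, ∀ θ ∈ Icc (-1 : ℝ) 1, ‖pt (w m) (w (m + 1)) (e m) x θ‖ < ε) :
    (∀ θ ∈ cube, ∀ t, ‖bcurve A ρ w e θ t‖ < ε) ∧
    (∀ θ ∈ cube, ∀ t i, OrbSmooth (iteratedDeriv i (Kf l (bcurve A ρ w e θ)) t)) ∧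
    (∀ (π : Plane n) (j : ℕ), ∃ C : ℝ, ∀ θ ∈ cube, ∀ t, ‖orbD π j (Kf l (bcurve A ρ w e θ) t)‖ ≤ C) ∧
    ∀ (π : Plane n) (i j : ℕ) (T : ℝ), ∃ C : ℝ, ∀ θ ∈ cube, ∀ t ∈ Icc (-T) T,
      ‖orbD π j (iteratedDeriv i (Kf l (bcurve A ρ w e θ)) t)‖ ≤ C := by
  have hw0 : ‖w 0‖ < ε := by simpa [pt] using hs 0 0 (by simp) 0 (by simp)
  have hsm : ∀ x ∈ Icc (0 : ℝ) 1, ‖x • w 0‖ < ε := fun x hx => by
    rw [norm_smul, Real.norm_of_nonneg hx.1]
    exact (mul_le_of_le_one_left (norm_nonneg _) hx.2).trans_lt hw0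
  have h0 : ∀ θ ∈ cube, ∀ t, ‖bcurve A ρ w e θ t‖ < ε := fun θ hθ t => by
    rcases le_total t A with ht | ht
    · rw [bcurve_of_le hA hρ w e θ ht]
      exact hsm _ (chi_props.2.1 _)
    · obtain ⟨m, hm⟩ := exists_tl hA hρ ht
      rw [bcurve_of_ge hA hρ w e θ ht, glue_eq hA hρ w e θ m hm]
      exact hs m _ (prog_mem m t) _ (abs_le.1 (hθ m))
  refine ⟨h0, fun θ hθ t i π => ?_, fun π j => ?_, fun π i j T => ?_⟩
  · obtain ⟨M, hM⟩ := ((tl_tendsto hA hρ).eventually_gt_atTop t).exists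
    obtain ⟨Ψ, O, -, h1, h2⟩ := kb_local hε hA hρ hl w e h0 π i M
    simp only [(h2 θ hθ t hM).2]
    exact h1.comp_contDiff (contDiff_id.prodMk contDiff_const) fun _ => (h2 θ hθ t hM).1
  · choose! f hf using fun p : BB n × BB n × BB n => kb_pt hε π j p.1 p.2.1 p.2.2
    obtain ⟨C, hC⟩ := (((hw.prod (hw.prod he)).insert (0, w 0, 0)).image f).bddAbove
    have h1 : ∀ θ ∈ cube, ∀ t, ‖orbD π j (HX (iota (bcurve A ρ w e θ t)))‖ ≤ C := fun θ hθ t => by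
      rcases le_total t A with ht | ht
      · have := hf (0, w 0, 0) (fun x hx θ _ => by simpa [pt] using hsm x hx) (pre A ρ t)
          (chi_props.2.1 _) 0 (by simp)
        rw [bcurve_of_le hA hρ w e θ ht]
        exact le_trans (by simpa [pt] using this) (hC ⟨_, mem_insert _ _, rfl⟩)
      · obtain ⟨m, hm⟩ := exists_tl hA hρ ht
        rw [bcurve_of_ge hA hρ w e θ ht, glue_eq hA hρ w e θ m hm]
        exact (hf (w m, w (m + 1), e m) (hs m) _ (prog_mem m t) _ (abs_le.1 (hθ m))).trans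
          (hC ⟨_, mem_insert_of_mem _ ⟨⟨m, rfl⟩, ⟨m + 1, rfl⟩, ⟨m, rfl⟩⟩, rfl⟩)
    refine ⟨Real.exp (2 * Z) * C, fun θ hθ t => ?_⟩
    simp only [orbD, Kf, map_smul]
    rw [iteratedDeriv_fun_const_smul_field, norm_smul, Real.norm_of_nonneg (Real.exp_pos _).le]
    exact mul_le_mul (Real.exp_le_exp.2 (by linarith [hZ t])) (h1 θ hθ t) (norm_nonneg _)
      (Real.exp_pos _).le
  · obtain ⟨M, hM⟩ := ((tl_tendsto hA hρ).eventually_gt_atTop T).exists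
    obtain ⟨Ψ, O, hO, h1, h2⟩ := kb_local hε hA hρ hl w e h0 π i M
    have hc : IsCompact cube := by
      convert isCompact_univ_pi fun _ : ℕ => (isCompact_Icc : IsCompact (Icc (-1 : ℝ) 1))
      ext θ
      simp only [cube, abs_le, mem_ofPred_eq, mem_univ_pi, mem_Icc]
    obtain ⟨C, hC⟩ := (hc.prod (isCompact_Icc : IsCompact (Icc (-T) T))).exists_bound_of_continuousOn
      ((contDiffAt_iteratedDeriv (hO.preimage continuous_snd) h1 j).continuousOn.comp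
        (f := fun p : (ℕ → ℝ) × ℝ => ((0 : ℝ), p.2, fun m : Fin M => p.1 m))
        (by fun_prop) fun p hp => (h2 p.1 hp.1 p.2 (hp.2.2.trans_lt hM)).1)
    refine ⟨C, fun θ hθ t ht => ?_⟩
    simp only [orbD, (h2 θ hθ t (ht.2.trans_lt hM)).2]
    exact hC (θ, t) ⟨hθ, ht⟩

end Crest.Agent.R202
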