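import Crest.Agent.R202.Defs
import Crest.Agent.R202.GDefs

/-! # Row 202, Time: the profile `l = log f` and the timeline -/

set_option autoImplicit false
open scoped ContDiff RealInnerProductSpace
open Set Filter Topology MeasureTheory Crest.GeometryTopology.CoordMetric

noncomputable section
namespace Crest.Agent.R202

variable {n : ℕ}

theorem timea_d0 (x : ℝ) : HasDerivAt expNegInvGlue (x⁻¹ ^ 2 * expNegInvGlue x) x := by
  simpa using expNegInvGlue.hasDerivAt_polynomial_eval_inv_mul 1 x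

theorem timea_d1 (x : ℝ) : HasDerivAt (fun x => x⁻¹ ^ 2 * expNegInvGlue x)
    ((x⁻¹ ^ 4 - 2 * x⁻¹ ^ 3) * expNegInvGlue x) x := by
  have h := expNegInvGlue.hasDerivAt_polynomial_eval_inv_mul (Polynomial.X ^ 2) x
  simp only [Polynomial.eval_pow, Polynomial.eval_X, Polynomial.eval_mul, Polynomial.eval_sub,
    Polynomial.derivative_X_pow, Polynomial.eval_C] at h
  refine h.congr_deriv ?_
  push_cast
  ring

theorem timea_d2 (x : ℝ) : HasDerivAt (fun x => (x⁻¹ ^ 4 - 2 * x⁻¹ ^ 3) * expNegInvGlue x)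
    ((x⁻¹ ^ 6 - 6 * x⁻¹ ^ 5 + 6 * x⁻¹ ^ 4) * expNegInvGlue x) x := by
  have h := expNegInvGlue.hasDerivAt_polynomial_eval_inv_mul
    (Polynomial.X ^ 4 - Polynomial.C 2 * Polynomial.X ^ 3) x
  simp only [Polynomial.eval_pow, Polynomial.eval_X, Polynomial.eval_mul, Polynomial.eval_sub,
    Polynomial.derivative_X_pow, Polynomial.eval_C, Polynomial.derivative_sub,
    Polynomial.derivative_C_mul] at h
  refine h.congr_deriv ?_
  push_cast
  ring

theorem timea_scale {f f' : ℝ → ℝ} (h : ∀ x, HasDerivAt f (f' x) x) (c T : ℝ) :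
    deriv (fun t => c * f (t / T)) = fun t => c / T * f' (t / T) := by
  funext t
  have h1 := (((h (t / T)).comp t ((hasDerivAt_id t).div_const T)).const_mul c).deriv
  refine h1.trans ?_
  ring

theorem timea_bd (k : ℕ) (x : ℝ) :
    0 ≤ x⁻¹ ^ k * expNegInvGlue x ∧ x⁻¹ ^ k * expNegInvGlue x ≤ k.factorial := by
  rcases le_or_gt x 0 with h | h
  · simp [expNegInvGlue.zero_of_nonpos h]
  · refine ⟨mul_nonneg (by positivity) (expNegInvGlue.nonneg x), ?_⟩
    have h1 := Real.pow_div_factorial_le_exp x⁻¹ (inv_pos.2 h).le k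
    rw [expNegInvGlue, if_neg h.not_ge, Real.exp_neg, ← div_eq_mul_inv,
      div_le_iff₀ (Real.exp_pos _)]
    rwa [div_le_iff₀' (by positivity)] at h1

theorem timea_ge {x : ℝ} (h : 0 < x) : 1 - x⁻¹ ≤ expNegInvGlue x := by
  rw [expNegInvGlue, if_neg h.not_ge]
  linarith [Real.add_one_le_exp (-x⁻¹)]

theorem timea_deriv_zero {f : ℝ → ℝ} (hf : Differentiable ℝ f) (h : ∀ t ≤ 0, f t = 0) :
    ∀ t ≤ 0, deriv f t = 0 := fun t ht =>
  (uniqueDiffOn_Iic 0 t ht).eq_deriv _ (hf t).hasDerivAt.hasDerivWithinAt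
    ((hasDerivWithinAt_const t _ 0).congr h (h t ht))

/-- `l t = -Z · expNegInvGlue (t/T)`.  For `t > 0`: `ζ = -l' = Z T t⁻² e^{-T/t}`, `ζ'/ζ = T/t² - 2/t ≥ -1/T ≥ -1/2` for `T ≥ 2`.  The first three derivatives of `expNegInvGlue` are bounded
on `ℝ` (continuous, zero on `(-∞,0]`, tending to `0` at `+∞`; `expNegInvGlue.hasDerivAt_polynomial_eval_inv_mul`), so `|l^{(k)}| ≤ Z Cₖ/T^k`.  For `t ≥ T`: `ζ ≥ ZT/(e t²)`,
`ζ ≤ ZT/t²`, `|ζ'| ≤ 3ζ/t`.  Choose `T` large first, then `t₁`. -/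
theorem profile {Z η C : ℝ} (hZ : 0 < Z) (hη : 0 < η) : ∃ (l : ℝ → ℝ) (t₁ C' : ℝ), 1 ≤ t₁ ∧ ContDiff ℝ ∞ l ∧
    (∀ t ≤ 0, l t = 0) ∧ Tendsto l atTop (𝓝 (-Z)) ∧
    (∀ t, -Z ≤ l t ∧ l t ≤ 0 ∧ deriv l t ≤ 0 ∧ deriv (deriv l) t ≤ -deriv l t / 2 ∧ |deriv l t| ≤ η ∧
      |deriv (deriv l) t| ≤ η ∧ |deriv (deriv (deriv l)) t| ≤ η) ∧
    (∀ t, 1 ≤ t → |deriv l t| ≤ C' / t) ∧
    ∀ t, t₁ ≤ t → l t + Z ≤ η ∧ C / t ^ 2 ≤ -deriv l t ∧ deriv l t < 0 ∧
      C * (deriv l t ^ 2 + deriv (deriv l) t ^ 2) ≤ -deriv l t := by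
  obtain ⟨T, hT2, hTη, hTC, hTC'⟩ : ∃ T : ℝ, 2 ≤ T ∧ 1584 * Z ≤ η * T ∧ 2 * |C| ≤ Z * T ∧
      4 * |C| * Z ≤ T := by
    have h1 : 0 ≤ 1584 * Z / η := by positivity
    have h2 : 0 ≤ 2 * |C| / Z := by positivity
    have h3 : 0 ≤ 4 * |C| * Z := by positivity
    refine ⟨2 + 1584 * Z / η + 2 * |C| / Z + 4 * |C| * Z, by linarith, ?_, ?_, by linarith⟩
    · rw [← div_le_iff₀' hη]
      linarith
    · rw [← div_le_iff₀' hZ]
      linarith
  have hT : 0 < T := by linarith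
  have e1 := timea_scale timea_d0 (-Z) T
  have e2 := timea_scale timea_d1 (-Z / T) T
  have e3 := timea_scale timea_d2 (-Z / T / T) T
  have a1 : 0 < Z / T := by positivity
  have a2 : Z / T / T ≤ Z / T / 2 := by gcongr
  have a3 : Z / T / T / T ≤ Z / T / T := div_le_self (by positivity) (by linarith)
  have a4 : 1584 * (Z / T) ≤ η := by
    rw [← mul_div_assoc, div_le_iff₀ hT]
    exact hTη
  have a5 : 0 < Z / T / T := by positivity
  have a6 : 0 < Z / T / T / T := by positivity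
  have hup : ∀ t, 0 < t → -Z * expNegInvGlue (t / T) + Z ≤ Z * T / t := fun t ht => by
    have h1 := timea_ge (div_pos ht hT)
    rw [inv_div] at h1
    rw [mul_div_assoc]
    nlinarith
  have hlo : ∀ t, -Z ≤ -Z * expNegInvGlue (t / T) := fun t => by
    have h1 := (timea_bd 0 (t / T)).2
    simp only [pow_zero, one_mul, Nat.factorial_zero, Nat.cast_one] at h1
    nlinarith
  refine ⟨fun t => -Z * expNegInvGlue (t / T), 2 * T + Z * T / η, Z, ?_,
    contDiff_const.mul (expNegInvGlue.contDiff.comp (contDiff_id.div_const T)), fun t ht => ?_, ?_,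
    fun t => ?_, fun t ht => ?_, fun t ht => ?_⟩
  · have : 0 ≤ Z * T / η := by positivity
    linarith
  · simp only [expNegInvGlue.zero_of_nonpos (div_nonpos_of_nonpos_of_nonneg ht hT.le), mul_zero]
  · have h1 : Tendsto (fun t : ℝ => -Z + Z * T / t) atTop (𝓝 (-Z + 0)) :=
      (tendsto_const_nhds.div_atTop tendsto_id).const_add _
    rw [add_zero] at h1
    refine tendsto_of_tendsto_of_tendsto_of_le_of_le' tendsto_const_nhds h1
      (Eventually.of_forall hlo) ?_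
    filter_upwards [eventually_gt_atTop 0] with t ht
    linarith [hup t ht]
  · rw [e1, e2, e3]
    dsimp only
    obtain ⟨b2, c2⟩ := timea_bd 2 (t / T)
    obtain ⟨b3, c3⟩ := timea_bd 3 (t / T)
    obtain ⟨b4, c4⟩ := timea_bd 4 (t / T)
    obtain ⟨b5, c5⟩ := timea_bd 5 (t / T)
    obtain ⟨b6, c6⟩ := timea_bd 6 (t / T)
    have g0 := expNegInvGlue.nonneg (t / T)
    norm_num only [Nat.factorial] at c2 c3 c4 c5 c6
    generalize (t / T)⁻¹ = u at *
    have hlo' := hlo t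
    generalize expNegInvGlue (t / T) = g at *
    have k1 : -((u ^ 4 - 2 * u ^ 3) * g) ≤ u ^ 2 * g := by
      nlinarith [mul_nonneg b2 (sq_nonneg (u - 1))]
    simp only [neg_div, abs_neg, neg_mul]
    refine ⟨by linarith, by nlinarith, by nlinarith, ?_, ?_, ?_, ?_⟩
    · nlinarith [mul_le_mul_of_nonneg_left k1 a5.le, mul_le_mul_of_nonneg_right a2 b2]
    · rw [abs_mul, abs_of_pos a1, abs_of_nonneg b2]
      nlinarith
    · have h1 : |(u ^ 4 - 2 * u ^ 3) * g| ≤ 1584 := abs_le.2 ⟨by nlinarith, by nlinarith⟩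
      rw [abs_mul, abs_of_pos a5]
      nlinarith
    · have h1 : |(u ^ 6 - 6 * u ^ 5 + 6 * u ^ 4) * g| ≤ 1584 :=
        abs_le.2 ⟨by nlinarith, by nlinarith⟩
      rw [abs_mul, abs_of_pos a6]
      nlinarith
  · rw [e1]
    have h0 : 0 < t := by linarith
    obtain ⟨b1, c1⟩ := timea_bd 1 (t / T)
    have e : -Z / T * ((t / T)⁻¹ ^ 2 * expNegInvGlue (t / T)) =
        -(Z / t * ((t / T)⁻¹ ^ 1 * expNegInvGlue (t / T))) := by
      field_simp
    dsimp only
    rw [e, abs_neg, abs_of_nonneg (by positivity)]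
    exact mul_le_of_le_one_right (by positivity) (by simpa using c1)
  · have h1 : 0 ≤ Z * T / η := by positivity
    have h0 : 0 < t := by linarith
    have hu0 : 0 < (t / T)⁻¹ := by positivity
    have hu1 : (t / T)⁻¹ ≤ 1 / 2 := by
      rw [inv_div, div_le_iff₀ h0]
      linarith
    have hg : 1 / 2 ≤ expNegInvGlue (t / T) := by linarith [timea_ge (div_pos h0 hT)]
    obtain ⟨b2, c2⟩ := timea_bd 2 (t / T)
    norm_num only [Nat.factorial] at c2
    have hζ : 0 < Z / T * ((t / T)⁻¹ ^ 2 * expNegInvGlue (t / T)) := by positivity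
    rw [e1, e2]
    dsimp only
    refine ⟨(hup t h0).trans ?_, ?_, by rw [neg_div, neg_mul]; linarith, ?_⟩
    · rw [div_le_iff₀ h0, ← div_le_iff₀' hη]
      linarith
    · have e : -(-Z / T * ((t / T)⁻¹ ^ 2 * expNegInvGlue (t / T))) =
          Z * T * expNegInvGlue (t / T) / t ^ 2 := by
        field_simp
      rw [e]
      gcongr
      nlinarith [le_abs_self C, mul_pos hZ hT]
    · have e : -Z / T / T * (((t / T)⁻¹ ^ 4 - 2 * (t / T)⁻¹ ^ 3) * expNegInvGlue (t / T)) =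
          Z / T * ((t / T)⁻¹ ^ 2 * expNegInvGlue (t / T)) *
            ((2 * (t / T)⁻¹ - (t / T)⁻¹ ^ 2) / T) := by
        ring
      have h2 : ((2 * (t / T)⁻¹ - (t / T)⁻¹ ^ 2) / T) ^ 2 ≤ 1 := by
        refine pow_le_one₀ (div_nonneg (by nlinarith) hT.le) ?_
        rw [div_le_one hT]
        nlinarith
      have h3 : 2 * |C| * (Z / T * ((t / T)⁻¹ ^ 2 * expNegInvGlue (t / T))) ≤ 1 := by
        calc _ ≤ 2 * |C| * (Z / T * 2) := by gcongr
          _ = 4 * |C| * Z / T := by ring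
          _ ≤ 1 := (div_le_one hT).2 hTC'
      rw [e, neg_div, neg_mul, neg_neg, neg_sq, mul_pow _ (_ / T)]
      generalize Z / T * ((t / T)⁻¹ ^ 2 * expNegInvGlue (t / T)) = ζ at *
      have h4 : 0 ≤ ((2 * (t / T)⁻¹ - (t / T)⁻¹ ^ 2) / T) ^ 2 := sq_nonneg _
      generalize ((2 * (t / T)⁻¹ - (t / T)⁻¹ ^ 2) / T) ^ 2 = a at *
      calc C * (ζ ^ 2 + ζ ^ 2 * a) ≤ |C| * (ζ ^ 2 + ζ ^ 2 * a) := by gcongr; exact le_abs_self C
        _ ≤ |C| * (ζ ^ 2 + ζ ^ 2 * 1) := by gcongr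
        _ = 2 * |C| * ζ * ζ := by ring
        _ ≤ ζ := mul_le_of_le_one_left hζ.le h3

/-- `q = p²/4 + p'/2`, `p = n-2+(n-1)l'` -/
theorem qf_props (hn : 2 ≤ n) {l : ℝ → ℝ} (hl : ContDiff ℝ ∞ l) : ContDiff ℝ ∞ (qf n l) ∧
    (∀ η, η ≤ 1 → (∀ t, |deriv l t| ≤ η ∧ |deriv (deriv l) t| ≤ η ∧ |deriv (deriv (deriv l)) t| ≤ η) →
      ∀ t, |qf n l t - ((n : ℝ) - 2) ^ 2 / 4| ≤ 2 * n ^ 2 * η ∧ |deriv (qf n l) t| ≤ 2 * n ^ 2 * η) ∧
    ((∀ t ≤ 0, l t = 0) → ∀ t ≤ 0, qf n l t = ((n : ℝ) - 2) ^ 2 / 4) := by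
  have d1 : ContDiff ℝ ∞ (deriv l) := hl.iterate_deriv 1
  have d2 : ContDiff ℝ ∞ (deriv (deriv l)) := d1.iterate_deriv 1
  have hp : ∀ t, HasDerivAt (pf n l) (((n : ℝ) - 1) * deriv (deriv l) t) t := fun t =>
    ((d1.differentiable (by simp) t).hasDerivAt.const_mul _).const_add _
  have e : qf n l = fun t => pf n l t ^ 2 / 4 + ((n : ℝ) - 1) * deriv (deriv l) t / 2 :=
    funext fun t => by rw [qf, (hp t).deriv]
  have hn' : (2 : ℝ) ≤ n := by exact_mod_cast hn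
  refine ⟨?_, fun η hη h t => ?_, fun h t ht => ?_⟩
  · rw [e]
    exact (((contDiff_const.add (contDiff_const.mul d1)).pow 2).div_const 4).add
      ((contDiff_const.mul d2).div_const 2)
  · have hq : deriv (qf n l) t = pf n l t * (((n : ℝ) - 1) * deriv (deriv l) t) / 2 +
        ((n : ℝ) - 1) * deriv (deriv (deriv l)) t / 2 := by
      have := ((((hp t).pow 2).div_const 4).add
        (((d2.differentiable (by simp) t).hasDerivAt.const_mul ((n : ℝ) - 1)).div_const 2)).deriv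
      rw [e]
      refine this.trans ?_
      norm_num
      ring
    obtain ⟨h1, h2, h3⟩ := h t
    rw [hq, e]
    simp only [pf]
    have h0 : 0 ≤ η := (abs_nonneg _).trans h1
    generalize deriv (deriv (deriv l)) t = c at *
    generalize deriv (deriv l) t = b at *
    generalize deriv l t = a at *
    have p1 : |((n : ℝ) - 1) * a| ≤ n * η := by
      rw [abs_mul, abs_of_nonneg (by linarith)]
      exact mul_le_mul (by linarith) h1 (abs_nonneg _) (by linarith)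
    have p2 : |((n : ℝ) - 1) * b| ≤ n * η := by
      rw [abs_mul, abs_of_nonneg (by linarith)]
      exact mul_le_mul (by linarith) h2 (abs_nonneg _) (by linarith)
    have p3 : |((n : ℝ) - 1) * c| ≤ n * η := by
      rw [abs_mul, abs_of_nonneg (by linarith)]
      exact mul_le_mul (by linarith) h3 (abs_nonneg _) (by linarith)
    generalize ((n : ℝ) - 1) * a = A at *
    generalize ((n : ℝ) - 1) * b = B at *
    generalize ((n : ℝ) - 1) * c = D at *
    have p4 : (n : ℝ) * η ≤ n := mul_le_of_le_one_right (by linarith) hη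
    have p5 : (n : ℝ) * η ≤ n * (n * η) := le_mul_of_one_le_left (by positivity) (by linarith)
    have p6 : 0 ≤ (n : ℝ) * (n * η) := by positivity
    obtain ⟨p7, p8⟩ := abs_le.1 p1
    constructor
    · have q1 : |(2 * ((n : ℝ) - 2) + A) * A| ≤ 3 * n * (n * η) := by
        rw [abs_mul]
        exact mul_le_mul (abs_le.2 ⟨by linarith, by linarith⟩) p1 (abs_nonneg _) (by linarith)
      obtain ⟨q2, q3⟩ := abs_le.1 q1
      obtain ⟨q4, q5⟩ := abs_le.1 p2
      exact abs_le.2 ⟨by nlinarith, by nlinarith⟩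
    · have q1 : |((n : ℝ) - 2 + A) * B| ≤ 2 * n * (n * η) := by
        rw [abs_mul]
        exact mul_le_mul (abs_le.2 ⟨by linarith, by linarith⟩) p2 (abs_nonneg _) (by linarith)
      obtain ⟨q2, q3⟩ := abs_le.1 q1
      obtain ⟨q4, q5⟩ := abs_le.1 p3
      exact abs_le.2 ⟨by nlinarith, by nlinarith⟩
  · have h1 := timea_deriv_zero (hl.differentiable (by simp)) h
    have h2 := timea_deriv_zero (d1.differentiable (by simp)) h1
    simp [e, pf, h1 t ht, h2 t ht]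

theorem chi_props : ContDiff ℝ ∞ chi ∧ (∀ s, chi s ∈ Icc (0 : ℝ) 1) ∧ (∀ s ≤ (1 / 3 : ℝ), chi s = 0) ∧
    (∀ s, (2 / 3 : ℝ) ≤ s → chi s = 1) ∧ ∃ C : ℝ, ∀ s, |deriv chi s| ≤ C ∧ |deriv (deriv chi) s| ≤ C := by
  have h0 : ContDiff ℝ ∞ chi :=
    Real.smoothTransition.contDiff.comp ((contDiff_const.mul contDiff_id).sub contDiff_const)
  have h1 : ∀ s ≤ (1 / 3 : ℝ), chi s = 0 := fun s hs =>
    Real.smoothTransition.zero_of_nonpos (by linarith)
  have h2 : ∀ s, (2 / 3 : ℝ) ≤ s → chi s = 1 := fun s hs =>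
    Real.smoothTransition.one_of_one_le (by linarith)
  refine ⟨h0, fun s => ⟨Real.smoothTransition.nonneg _, Real.smoothTransition.le_one _⟩, h1, h2, ?_⟩
  have h3 : HasCompactSupport (deriv chi) := by
    refine HasCompactSupport.intro (isCompact_Icc (a := 1 / 3) (b := 2 / 3)) fun x hx => ?_
    rcases lt_or_ge x (1 / 3) with h | h
    · have : chi =ᶠ[𝓝 x] fun _ => 0 := by
        filter_upwards [gt_mem_nhds h] with y hy using h1 y hy.le
      rw [this.deriv_eq, deriv_const]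
    · have : chi =ᶠ[𝓝 x] fun _ => 1 := by
        filter_upwards [lt_mem_nhds (not_le.1 fun h' => hx ⟨h, h'⟩)] with y hy using h2 y hy.le
      rw [this.deriv_eq, deriv_const]
  have d1 : ContDiff ℝ ∞ (deriv chi) := h0.iterate_deriv 1
  have d2 : ContDiff ℝ ∞ (deriv (deriv chi)) := d1.iterate_deriv 1
  obtain ⟨C₁, hC₁⟩ := h3.exists_bound_of_continuous d1.continuous
  obtain ⟨C₂, hC₂⟩ := h3.deriv.exists_bound_of_continuous d2.continuous
  exact ⟨max C₁ C₂, fun s => ⟨le_max_of_le_left (hC₁ s), le_max_of_le_right (hC₂ s)⟩⟩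

end Crest.Agent.R202
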