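import Crest.Agent.R202.Defs
import Crest.Agent.R202.GDefs
import Crest.Agent.R202.Timea

/-! # Row 202, Time: the profile `l = log f` and the timeline -/

set_option autoImplicit false
open scoped ContDiff RealInnerProductSpace
open Set Filter Topology MeasureTheory Crest.GeometryTopology.CoordMetric

noncomputable section
namespace Crest.Agent.R202

variable {n : ℕ}

section
variable {B : Type*} [NormedAddCommGroup B] [NormedSpace ℝ B] {A ρ : ℝ}

theorem tl_strictMono (hA : 0 < A) (hρ : 1 < ρ) : StrictMono (tl A ρ) := by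
  intro a b h
  exact mul_lt_mul_of_pos_left (pow_lt_pow_right₀ hρ h) hA
theorem tl_tendsto (hA : 0 < A) (hρ : 1 < ρ) : Tendsto (tl A ρ) atTop atTop := by
  exact (tendsto_pow_atTop_atTop_of_one_lt hρ).const_mul_atTop hA
theorem time_exists_tl (hA : 0 < A) (hρ : 1 < ρ) {t : ℝ} (ht : A ≤ t) :
    ∃ m, tl A ρ m ≤ t ∧ t < tl A ρ (m + 1) := by
  obtain ⟨m, h1, h2⟩ := exists_nat_pow_near ((one_le_div hA).2 ht) hρ
  exact ⟨m, (le_div_iff₀' hA).1 h1, (div_lt_iff₀' hA).1 h2⟩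
theorem exists_tl (hA : 0 < A) (hρ : 1 < ρ) {t : ℝ} (ht : A ≤ t) : ∃ m, t ∈ Icc (tl A ρ m) (tl A ρ (m + 1)) := by
  obtain ⟨m, h1, h2⟩ := time_exists_tl hA hρ ht
  exact ⟨m, h1, h2.le⟩
theorem prog_mem (m : ℕ) (t : ℝ) : prog A ρ m t ∈ Icc (0 : ℝ) 1 := chi_props.2.1 _
theorem time_chi_zero {a b t : ℝ} (h : a < b) (ht : t ≤ a) : chi ((t - a) / (b - a)) = 0 := by
  refine chi_props.2.2.1 _ (le_trans (div_nonpos_of_nonpos_of_nonneg ?_ ?_) (by norm_num)) <;>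
    linarith
theorem time_chi_one {a b t : ℝ} (h : a < b) (ht : a + 2 / 3 * (b - a) ≤ t) :
    chi ((t - a) / (b - a)) = 1 := by
  refine chi_props.2.2.2.1 _ ?_
  rw [le_div_iff₀ (by linarith)]
  linarith
theorem time_lt (hA : 0 < A) (hρ : 1 < ρ) (m : ℕ) : tl A ρ m < tl A ρ (m + 1) :=
  tl_strictMono hA hρ (Nat.lt_succ_self m)
theorem time_div_lt (hA : 0 < A) (hρ : 1 < ρ) : A / ρ < A := div_lt_self hA hρ
theorem prog_start (hA : 0 < A) (hρ : 1 < ρ) (m : ℕ) {t : ℝ} (ht : t ≤ tl A ρ m) : prog A ρ m t = 0 := by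
  exact time_chi_zero (time_lt hA hρ m) ht
theorem prog_end (hA : 0 < A) (hρ : 1 < ρ) (m : ℕ) {t : ℝ} (ht : tl A ρ (m + 1) ≤ t) : prog A ρ m t = 1 := by
  have := time_lt hA hρ m
  exact time_chi_one this (by linarith)
theorem glue_sum (hA : 0 < A) (hρ : 1 < ρ) (w e : ℕ → B) (θ : ℕ → ℝ) (M : ℕ) {t : ℝ} (ht : t ≤ tl A ρ M) :
    glue A ρ w e θ t = w 0 + ∑ m ∈ Finset.range M, (prog A ρ m t • (w (m + 1) - w m) +
      (θ m * (4 * prog A ρ m t * (1 - prog A ρ m t))) • e m) := by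
  unfold glue
  rw [tsum_eq_sum (s := Finset.range M)]
  intro m hm
  rw [prog_start hA hρ m (ht.trans ((tl_strictMono hA hρ).monotone (by simpa using hm)))]
  simp
theorem time_glue_eq (hA : 0 < A) (hρ : 1 < ρ) (w e : ℕ → B) (θ : ℕ → ℝ) (m : ℕ) {t : ℝ}
    (h1 : ∀ j < m, prog A ρ j t = 1) (h2 : t ≤ tl A ρ (m + 1)) :
    glue A ρ w e θ t = pt (w m) (w (m + 1)) (e m) (prog A ρ m t) (θ m) := by
  rw [glue_sum hA hρ w e θ (m + 1) h2, Finset.sum_range_succ,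
    Finset.sum_congr rfl (g := fun j => w (j + 1) - w j) fun j hj => by
      rw [h1 j (Finset.mem_range.1 hj)]
      simp, Finset.sum_range_sub]
  unfold pt
  abel
theorem glue_eq (hA : 0 < A) (hρ : 1 < ρ) (w e : ℕ → B) (θ : ℕ → ℝ) (m : ℕ) {t : ℝ}
    (ht : t ∈ Icc (tl A ρ m) (tl A ρ (m + 1))) :
    glue A ρ w e θ t = pt (w m) (w (m + 1)) (e m) (prog A ρ m t) (θ m) := by
  exact time_glue_eq hA hρ w e θ m
    (fun j hj => prog_end hA hρ j (((tl_strictMono hA hρ).monotone hj).trans ht.1)) ht.2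
theorem glue_tl (hA : 0 < A) (hρ : 1 < ρ) (w e : ℕ → B) (θ : ℕ → ℝ) (m : ℕ) :
    glue A ρ w e θ (tl A ρ m) = w m := by
  rw [glue_eq hA hρ w e θ m ⟨le_rfl, (time_lt hA hρ m).le⟩, prog_start hA hρ m le_rfl]
  simp [pt]
theorem glue_pre (hA : 0 < A) (hρ : 1 < ρ) (w e : ℕ → B) (θ : ℕ → ℝ) {t : ℝ} (ht : t ≤ A) :
    glue A ρ w e θ t = w 0 := by
  rw [glue_sum hA hρ w e θ 0 (by simpa [tl] using ht)]
  simp
theorem time_bcurve_eq (hA : 0 < A) (hρ : 1 < ρ) (w e : ℕ → B) (θ : ℕ → ℝ) {t : ℝ}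
    (ht : A / ρ + 2 / 3 * (A - A / ρ) ≤ t) : bcurve A ρ w e θ t = glue A ρ w e θ t := by
  unfold bcurve pre
  rw [time_chi_one (time_div_lt hA hρ) ht]
  simp
theorem bcurve_of_ge (hA : 0 < A) (hρ : 1 < ρ) (w e : ℕ → B) (θ : ℕ → ℝ) {t : ℝ} (ht : A ≤ t) :
    bcurve A ρ w e θ t = glue A ρ w e θ t := by
  have := time_div_lt hA hρ
  exact time_bcurve_eq hA hρ w e θ (by linarith)
theorem bcurve_of_le (hA : 0 < A) (hρ : 1 < ρ) (w e : ℕ → B) (θ : ℕ → ℝ) {t : ℝ} (ht : t ≤ A) :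
    bcurve A ρ w e θ t = pre A ρ t • w 0 := by
  unfold bcurve
  rw [glue_pre hA hρ w e θ ht, sub_smul, one_smul, sub_sub_cancel]
theorem bcurve_zero (hA : 0 < A) (hρ : 1 < ρ) (w e : ℕ → B) (θ : ℕ → ℝ) {t : ℝ} (ht : t ≤ A / ρ) :
    bcurve A ρ w e θ t = 0 := by
  rw [bcurve_of_le hA hρ w e θ (ht.trans (time_div_lt hA hρ).le), pre,
    time_chi_zero (time_div_lt hA hρ) ht, zero_smul]
/-- finite combinations with smooth coefficients -/
def TimeFin (b : ℝ → B) : Prop :=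
  ∃ (I : ℕ) (c : Fin I → ℝ → ℝ) (v : Fin I → B), (∀ k, ContDiff ℝ ∞ (c k)) ∧ ∀ t, b t = ∑ k, c k t • v k
theorem TimeFin.smul {c : ℝ → ℝ} (hc : ContDiff ℝ ∞ c) (v : B) : TimeFin fun t => c t • v :=
  ⟨1, fun _ => c, fun _ => v, fun _ => hc, fun t => by simp⟩
theorem TimeFin.const (v : B) : TimeFin fun _ => v :=
  ⟨1, fun _ _ => 1, fun _ => v, fun _ => contDiff_const, fun t => by simp⟩
theorem TimeFin.add {b b' : ℝ → B} (h : TimeFin b) (h' : TimeFin b') :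
    TimeFin fun t => b t + b' t := by
  obtain ⟨I, c, v, hc, hb⟩ := h
  obtain ⟨I', c', v', hc', hb'⟩ := h'
  refine ⟨I + I', Fin.append c c', Fin.append v v', fun k => ?_, fun t => ?_⟩
  · refine Fin.addCases (fun i => ?_) (fun i => ?_) k
    · rw [Fin.append_left]
      exact hc i
    · rw [Fin.append_right]
      exact hc' i
  · rw [Fin.sum_univ_add]
    simp only [Fin.append_left, Fin.append_right, hb, hb']
theorem TimeFin.sum {b : ℕ → ℝ → B} (h : ∀ m, TimeFin (b m)) (M : ℕ) :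
    TimeFin fun t => ∑ m ∈ Finset.range M, b m t := by
  induction M with
  | zero => simpa using TimeFin.const (0 : B)
  | succ M ih => simpa only [Finset.sum_range_succ] using ih.add (h M)
theorem time_locFin {b : ℝ → B} (h : ∀ T : ℝ, ∃ b', TimeFin b' ∧ ∀ t < T, b t = b' t) :
    LocFin b := by
  intro T
  obtain ⟨b', ⟨I, c, v, hc, hb⟩, h'⟩ := h T
  exact ⟨I, c, v, hc, fun t ht => (h' t ht).trans (hb t)⟩
theorem time_contDiff_chi (a L : ℝ) : ContDiff ℝ ∞ fun t : ℝ => chi ((t - a) / L) :=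
  chi_props.1.comp ((contDiff_id.sub contDiff_const).div_const L)
theorem time_contDiff_prog (m : ℕ) : ContDiff ℝ ∞ (prog A ρ m) := time_contDiff_chi _ _
theorem time_contDiff_pre : ContDiff ℝ ∞ (pre A ρ) := time_contDiff_chi _ _
theorem time_fin_glue (w e : ℕ → B) (θ : ℕ → ℝ) (M : ℕ) :
    TimeFin fun t => w 0 + ∑ m ∈ Finset.range M, (prog A ρ m t • (w (m + 1) - w m) +
      (θ m * (4 * prog A ρ m t * (1 - prog A ρ m t))) • e m) :=
  (TimeFin.const _).add (TimeFin.sum (fun m => (TimeFin.smul (time_contDiff_prog m) _).add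
    (TimeFin.smul (contDiff_const.mul ((contDiff_const.mul (time_contDiff_prog m)).mul
      (contDiff_const.sub (time_contDiff_prog m)))) _)) M)
theorem glue_locFin (hA : 0 < A) (hρ : 1 < ρ) (w e : ℕ → B) (θ : ℕ → ℝ) : LocFin (glue A ρ w e θ) := by
  refine time_locFin fun T => ?_
  obtain ⟨M, hM⟩ := ((tl_tendsto hA hρ).eventually_ge_atTop T).exists
  exact ⟨_, time_fin_glue w e θ M, fun t ht => glue_sum hA hρ w e θ M (ht.le.trans hM)⟩
theorem bcurve_locFin (hA : 0 < A) (hρ : 1 < ρ) (w e : ℕ → B) (θ : ℕ → ℝ) : LocFin (bcurve A ρ w e θ) := by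
  refine time_locFin fun T => ?_
  obtain ⟨M, hM⟩ := ((tl_tendsto hA hρ).eventually_ge_atTop T).exists
  refine ⟨_, (time_fin_glue (A := A) (ρ := ρ) w e θ M).add
    (TimeFin.smul ((time_contDiff_pre (A := A) (ρ := ρ)).sub (contDiff_const (c := (1 : ℝ)))) (w 0)),
    fun t ht => ?_⟩
  unfold bcurve
  rw [glue_sum hA hρ w e θ M (ht.le.trans hM), sub_eq_add_neg, ← neg_smul, neg_sub]
theorem bcurve_continuous (hA : 0 < A) (hρ : 1 < ρ) (w e : ℕ → B) :
    Continuous fun p : (ℕ → ℝ) × ℝ => bcurve A ρ w e p.1 p.2 := by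
  refine continuous_iff_continuousAt.2 fun p => ?_
  obtain ⟨M, hM⟩ := ((tl_tendsto hA hρ).eventually_gt_atTop p.2).exists
  have hp : ∀ m, Continuous (prog A ρ m) := fun m => (time_contDiff_prog m).continuous
  have hq : Continuous (pre A ρ) := time_contDiff_pre.continuous
  have hc : Continuous fun p : (ℕ → ℝ) × ℝ => w 0 + ∑ m ∈ Finset.range M,
      (prog A ρ m p.2 • (w (m + 1) - w m) +
        (p.1 m * (4 * prog A ρ m p.2 * (1 - prog A ρ m p.2))) • e m) - (1 - pre A ρ p.2) • w 0 := by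
    fun_prop
  refine hc.continuousAt.congr ?_
  filter_upwards [continuous_snd.continuousAt.eventually (gt_mem_nhds hM)] with q hq
  unfold bcurve
  rw [glue_sum hA hρ w e q.1 M hq.le]
theorem time_move {C₀ Cb : ℝ} (hC : ∀ s, |deriv chi s| ≤ C₀ ∧ |deriv (deriv chi) s| ≤ C₀)
    {w w' e : B} {θ a L : ℝ} (hL : 0 < L) (hw : ‖w‖ ≤ Cb) (hw' : ‖w'‖ ≤ Cb) (he : ‖e‖ ≤ Cb)
    (hθ : |θ| ≤ 1) (t : ℝ) :
    ‖deriv (fun t => pt w w' e (chi ((t - a) / L)) θ) t‖ ≤ (6 * C₀ + 8 * C₀ ^ 2) * Cb / L ∧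
    ‖deriv (deriv fun t => pt w w' e (chi ((t - a) / L)) θ) t‖ ≤
      (6 * C₀ + 8 * C₀ ^ 2) * Cb / L ^ 2 := by
  obtain ⟨d0, c1⟩ := contDiff_infty_iff_deriv.1 chi_props.1
  have d1 := (contDiff_infty_iff_deriv.1 c1).1
  have hs : ∀ t : ℝ, HasDerivAt (fun t : ℝ => (t - a) / L) (1 / L) t :=
    fun t => ((hasDerivAt_id t).sub_const a).div_const L
  have hx : ∀ t : ℝ, HasDerivAt (fun t : ℝ => chi ((t - a) / L))
      (deriv chi ((t - a) / L) * (1 / L)) t := fun t => (d0 _).hasDerivAt.comp t (hs t)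
  have hy : ∀ t : ℝ, HasDerivAt (fun t : ℝ => deriv chi ((t - a) / L))
      (deriv (deriv chi) ((t - a) / L) * (1 / L)) t := fun t => (d1 _).hasDerivAt.comp t (hs t)
  have h1 : ∀ t : ℝ, HasDerivAt (fun t => pt w w' e (chi ((t - a) / L)) θ)
      ((deriv chi ((t - a) / L) / L) • (w' - w) +
        (θ * (4 * deriv chi ((t - a) / L) * (1 - 2 * chi ((t - a) / L))) / L) • e) t := by
    intro t
    have := (((hx t).smul_const (w' - w)).const_add w).add
      (((((hx t).const_mul 4).mul ((hx t).const_sub 1)).const_mul θ).smul_const e)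
    refine HasDerivAt.congr_deriv this ?_
    congr 2 <;> ring
  have h2 : deriv (fun t => pt w w' e (chi ((t - a) / L)) θ) = fun t =>
      (deriv chi ((t - a) / L) / L) • (w' - w) +
        (θ * (4 * deriv chi ((t - a) / L) * (1 - 2 * chi ((t - a) / L))) / L) • e :=
    funext fun t => (h1 t).deriv
  have h3 : HasDerivAt (fun t => (deriv chi ((t - a) / L) / L) • (w' - w) +
        (θ * (4 * deriv chi ((t - a) / L) * (1 - 2 * chi ((t - a) / L))) / L) • e)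
      ((deriv (deriv chi) ((t - a) / L) / L ^ 2) • (w' - w) +
        (θ * (4 * deriv (deriv chi) ((t - a) / L) * (1 - 2 * chi ((t - a) / L)) -
          8 * deriv chi ((t - a) / L) ^ 2) / L ^ 2) • e) t := by
    have := (((hy t).div_const L).smul_const (w' - w)).add
      ((((((hy t).const_mul 4).mul (((hx t).const_mul 2).const_sub 1)).const_mul θ).div_const
        L).smul_const e)
    refine HasDerivAt.congr_deriv this ?_
    congr 2 <;> ring
  rw [h2, h3.deriv]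
  simp only
  obtain ⟨hx1, hx2⟩ := hC ((t - a) / L)
  obtain ⟨hx3, hx4⟩ := chi_props.2.1 ((t - a) / L)
  generalize deriv (deriv chi) ((t - a) / L) = z at *
  generalize deriv chi ((t - a) / L) = y at *
  generalize chi ((t - a) / L) = x at *
  have hC0 : 0 ≤ C₀ := (abs_nonneg _).trans hx1
  have hCb : 0 ≤ Cb := (norm_nonneg _).trans hw
  have hd : ‖w' - w‖ ≤ 2 * Cb := (norm_sub_le _ _).trans (by linarith)
  have hu : |1 - 2 * x| ≤ 1 := abs_le.2 ⟨by linarith, by linarith⟩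
  have key : ∀ p q D : ℝ, 0 < D → |p| ≤ C₀ → |q| ≤ 4 * C₀ + 8 * C₀ ^ 2 →
      ‖(p / D) • (w' - w) + (θ * q / D) • e‖ ≤ (6 * C₀ + 8 * C₀ ^ 2) * Cb / D := by
    intro p q D hD hp hq
    refine (norm_add_le _ _).trans ?_
    rw [norm_smul, norm_smul, Real.norm_eq_abs, Real.norm_eq_abs, abs_div, abs_div, abs_of_pos hD,
      abs_mul, div_mul_eq_mul_div, div_mul_eq_mul_div, ← add_div]
    refine div_le_div_of_nonneg_right ?_ hD.le
    have a1 : |p| * ‖w' - w‖ ≤ C₀ * (2 * Cb) := by gcongr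
    have a2 : |θ| * |q| * ‖e‖ ≤ 1 * (4 * C₀ + 8 * C₀ ^ 2) * Cb := by gcongr
    linarith
  have hm : ∀ p : ℝ, |p| ≤ C₀ → |4 * p * (1 - 2 * x)| ≤ 4 * C₀ := by
    intro p hp
    rw [abs_mul, abs_mul, abs_of_pos (by norm_num : (0 : ℝ) < 4)]
    calc 4 * |p| * |1 - 2 * x| ≤ 4 * C₀ * 1 := by gcongr
      _ = _ := mul_one _
  refine ⟨key _ _ _ hL hx1 ((hm y hx1).trans (by nlinarith)), key _ _ _ (by positivity) hx2 ?_⟩
  refine (abs_sub _ _).trans (add_le_add (hm z hx2) ?_)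
  rw [abs_of_nonneg (by positivity), ← sq_abs y]
  gcongr
/-- near a point of `[tl m, tl (m+1)]` the curve equals the formula of `glue_eq` (`chi` is flat at both ends), and `tl (m+1) - tl m ≥ (ρ-1)/ρ · max t A`; before `A` only the
preliminary move (length `A(ρ-1)/ρ`) acts. -/
theorem glue_deriv (hρ : 1 < ρ) (Cb : ℝ) : ∃ C : ℝ, 0 < C ∧ ∀ (A : ℝ) (w e : ℕ → B) (θ : ℕ → ℝ), 1 ≤ A →
    (∀ m, ‖w m‖ ≤ Cb ∧ ‖e m‖ ≤ Cb) → θ ∈ cube → ∀ t,
      ‖deriv (glue A ρ w e θ) t‖ ≤ C / max t A ∧ ‖deriv (bcurve A ρ w e θ) t‖ ≤ C / max t A ∧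
      ‖deriv (deriv (bcurve A ρ w e θ)) t‖ ≤ C / (max t A) ^ 2 := by
  obtain ⟨C₀, hC⟩ := chi_props.2.2.2.2
  have hC0 : 0 ≤ C₀ := (abs_nonneg _).trans (hC 0).1
  have hρ0 : 0 < ρ := by linarith
  have hρ1 : 0 < ρ - 1 := by linarith
  obtain ⟨κ, hκ⟩ : ∃ κ : ℝ, κ = ρ / (ρ - 1) := ⟨_, rfl⟩
  have hκ1 : 1 ≤ κ := by
    rw [hκ, le_div_iff₀ hρ1]
    linarith
  obtain ⟨K, hK⟩ : ∃ K : ℝ, K = (6 * C₀ + 8 * C₀ ^ 2) * |Cb| := ⟨_, rfl⟩
  have hK0 : 0 ≤ K := by rw [hK]; positivity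
  refine ⟨K * κ ^ 2 + 1, by positivity, fun A w e θ hA1 hb hθ t => ?_⟩
  have hA : 0 < A := by linarith
  have hw : ∀ m, ‖w m‖ ≤ |Cb| := fun m => (hb m).1.trans (le_abs_self _)
  have he : ∀ m, ‖e m‖ ≤ |Cb| := fun m => (hb m).2.trans (le_abs_self _)
  have conv : ∀ T L : ℝ, 0 < T → 0 < L → T ≤ κ * L →
      K / L ≤ (K * κ ^ 2 + 1) / T ∧ K / L ^ 2 ≤ (K * κ ^ 2 + 1) / T ^ 2 := by
    intro T L hT hL h
    constructor
    · rw [div_le_div_iff₀ hL hT]
      have h1 : K * T ≤ K * (κ * L) := by gcongr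
      have h2 : K * (κ * L) ≤ K * (κ ^ 2 * L) := by
        gcongr
        nlinarith
      nlinarith
    · rw [div_le_div_iff₀ (by positivity) (by positivity)]
      have h1 : K * T ^ 2 ≤ K * (κ * L) ^ 2 := by gcongr
      nlinarith [sq_nonneg L]
  rcases lt_or_ge t A with ht | ht
  · rw [max_eq_right ht.le]
    have hL : 0 < A - A / ρ := sub_pos.2 (time_div_lt hA hρ)
    have h1 : glue A ρ w e θ =ᶠ[𝓝 t] fun _ => w 0 := by
      filter_upwards [gt_mem_nhds ht] with s hs using glue_pre hA hρ w e θ hs.le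
    have h2 : bcurve A ρ w e θ =ᶠ[𝓝 t]
        fun s => pt 0 (w 0) (e 0) (chi ((s - A / ρ) / (A - A / ρ))) 0 := by
      filter_upwards [gt_mem_nhds ht] with s hs
      rw [bcurve_of_le hA hρ w e θ hs.le]
      simp [pt, pre]
    obtain ⟨h3, h4⟩ := time_move hC (w := (0 : B)) (a := A / ρ) (θ := 0) hL (by simp) (hw 0) (he 0)
      (by simp) t
    obtain ⟨h5, h6⟩ := conv A _ hA hL (le_of_eq (by rw [hκ]; field_simp))
    rw [← hK] at h3 h4
    rw [h1.deriv_eq, h2.deriv_eq, h2.deriv.deriv_eq]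
    refine ⟨?_, h3.trans h5, h4.trans h6⟩
    rw [deriv_const, norm_zero]
    positivity
  · rw [max_eq_left ht]
    obtain ⟨m, hm1, hm2⟩ := time_exists_tl hA hρ ht
    have hL : 0 < tl A ρ (m + 1) - tl A ρ m := sub_pos.2 (time_lt hA hρ m)
    have hAm : A ≤ tl A ρ m := by
      simpa [tl] using (tl_strictMono hA hρ).monotone (Nat.zero_le m)
    have h1 : glue A ρ w e θ =ᶠ[𝓝 t] fun s => pt (w m) (w (m + 1)) (e m)
        (chi ((s - tl A ρ m) / (tl A ρ (m + 1) - tl A ρ m))) (θ m) := by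
      have h7 : ∀ᶠ s in 𝓝 t, ∀ j ∈ Finset.range m, prog A ρ j s = 1 := by
        refine (eventually_all_finset _).2 fun j hj => ?_
        have h8 : tl A ρ (j + 1) ≤ tl A ρ m :=
          (tl_strictMono hA hρ).monotone (Finset.mem_range.1 hj)
        have h9 := time_lt hA hρ j
        have h10 : tl A ρ j + 2 / 3 * (tl A ρ (j + 1) - tl A ρ j) < t := by linarith
        filter_upwards [lt_mem_nhds h10] with s hs using time_chi_one h9 hs.le
      filter_upwards [h7, gt_mem_nhds hm2] with s hs hs'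
      exact time_glue_eq hA hρ w e θ m (fun j hj => hs j (Finset.mem_range.2 hj)) hs'.le
    have h2 : bcurve A ρ w e θ =ᶠ[𝓝 t] glue A ρ w e θ := by
      have h9 := time_div_lt hA hρ
      have h10 : A / ρ + 2 / 3 * (A - A / ρ) < t := by linarith
      filter_upwards [lt_mem_nhds h10] with s hs using time_bcurve_eq hA hρ w e θ hs.le
    have h11 := h2.trans h1
    obtain ⟨h3, h4⟩ := time_move hC (a := tl A ρ m) hL (hw m) (hw (m + 1)) (he m) (hθ m) t
    obtain ⟨h5, h6⟩ := conv t _ (by linarith) hL (hm2.le.trans (le_of_eq (by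
      rw [hκ]
      unfold tl
      field_simp
      ring)))
    rw [← hK] at h3 h4
    rw [h1.deriv_eq, h11.deriv_eq, h11.deriv.deriv_eq]
    exact ⟨h3.trans h5, h3.trans h5, h4.trans h6⟩
end

end Crest.Agent.R202
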