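import Crest.Agent.R202.Reg
import Crest.Agent.R202.Sph4
import Crest.Agent.R202.Geo6
import Crest.Agent.R202.Time
import Crest.Agent.R202.KB

/-! # Row 202, Harm: from Galerkin solutions to harmonic functions -/

set_option autoImplicit false
open scoped ContDiff RealInnerProductSpace
open Set Filter Topology MeasureTheory Crest.GeometryTopology.CoordMetric

noncomputable section
namespace Crest.Agent.R202

variable {n : ℕ}

/-- the Galerkin operator of the equation `ũ'' = (f⁻² A + q) ũ` -/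
def BM (M : ℕ) (l : ℝ → ℝ) (b : ℝ → BB n) (t : ℝ) : PM n M →L[ℝ] PM n M :=
  opA M (Kf l b t) + qf n l t • (1 : PM n M →L[ℝ] PM n M)

/-- regular initial data in terms of levels -/
def RegLev (M : ℕ) (x y : PM n M) : Prop :=
  ∀ j, lev j (incl M y) = ((j : ℝ) + ((n : ℝ) - 2) / 2) • lev j (incl M x)

theorem lev_ext_aux {j : ℕ} {a b : W n} (ha : a ∈ Lev n j) (hb : b ∈ Lev n j)
    (h : ∀ v ∈ Lev n j, ⟪v, a⟫ = ⟪v, b⟫) : a = b := by
  have hd : a - b ∈ Lev n j := (Lev n j).sub_mem ha hb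
  have h1 := h _ hd
  rw [← sub_eq_zero, ← inner_sub_right, inner_self_eq_zero] at h1
  exact sub_eq_zero.1 h1

theorem inner_lev_aux {j : ℕ} {v : W n} (hv : v ∈ Lev n j) (w : W n) : ⟪v, lev j w⟫ = ⟪v, w⟫ := by
  have h := Submodule.starProjection_inner_eq_zero (K := Lev n j) w v hv
  rw [real_inner_comm, inner_sub_right] at h
  exact (sub_eq_zero.1 h).symm

theorem lev_BM (hn : 2 ≤ n) {ε : ℝ} {l : ℝ → ℝ} {b : ℝ → BB n} (h : Adm ε l b) {M : ℕ} {t : ℝ} (ht : t ≤ 0)
    (j : ℕ) (z : PM n M) :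
    lev j (incl M (BM M l b t z)) = ((j : ℝ) + ((n : ℝ) - 2) / 2) ^ 2 • lev j (incl M z) := by
  rcases le_or_gt M j with hj | hj
  · rw [lev_eq_zero (incl_mem _) hj, lev_eq_zero (incl_mem _) hj, smul_zero]
  refine lev_ext_aux (lev_mem _ _) ((Lev n j).smul_mem _ (lev_mem _ _)) fun v hv => ?_
  have hvM : v ∈ Plt n M := Plt_mono (Nat.succ_le_of_lt hj) hv.1
  rw [inner_lev_aux hv, real_inner_smul_right, inner_lev_aux hv]
  have hq := (qf_props hn h.smooth).2.2 h.l0 t ht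
  have e1 : ⟪v, incl M (BM M l b t z)⟫ = ⟪BM M l b t z, PM.mk v hvM⟫ := by
    rw [real_inner_comm, ← (incl M).inner_map_map, incl_mk]
  have e2 : ⟪z, PM.mk v hvM⟫ = ⟪v, incl M z⟫ := by
    rw [← (incl M).inner_map_map, incl_mk, real_inner_comm]
  rw [e1, BM, add_apply, inner_add_left, inner_opA, h.Kf_zero ht, incl_mk,
    form_PiX_symm, form_Lev hv, smul_apply, one_apply_eq_self,
    real_inner_smul_left, e2, hq, ev]
  ring

/-- for `v ∈ Lev n j`, `j < M`: `BM 0 v = (j+(n-2)/2)² v` (`form_Lev`, `Adm.Kf_zero`, `qf_props`), so `⟪φ i, v⟫ ≠ 0` forces `√(β i) = j+(n-2)/2` -/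
theorem regLev_of_reg0 (hn : 2 ≤ n) {ε : ℝ} {l : ℝ → ℝ} {b : ℝ → BB n} (h : Adm ε l b) {M D : ℕ}
    {φ : OrthonormalBasis (Fin D) ℝ (PM n M)} {β : Fin D → ℝ} (hB : EigB (BM M l b 0) φ β) {x y : PM n M}
    (hr : Reg0 φ β x y) : RegLev M x y := by
  intro j
  have ha : 0 ≤ (j : ℝ) + ((n : ℝ) - 2) / 2 := by
    have : (2 : ℝ) ≤ n := by exact_mod_cast hn
    positivity
  have hx : ∀ z : PM n M, lev j (incl M z) = ∑ i, ⟪φ i, z⟫ • lev j (incl M (φ i)) := fun z => by
    conv_lhs => rw [← φ.sum_repr' z]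
    simp only [map_sum, map_smul]
  rw [hx y, hx x, Finset.smul_sum]
  refine Finset.sum_congr rfl fun i _ => ?_
  have h1 := lev_BM hn h le_rfl j (φ i)
  rw [hB.2 i, map_smul, map_smul, ← sub_eq_zero, ← sub_smul, smul_eq_zero] at h1
  rcases h1 with h1 | h1
  · rw [hr i, sub_eq_zero.1 h1, Real.sqrt_sq ha, smul_smul]
  · simp [h1]

theorem ode_neg_aux {V : Type*} [NormedAddCommGroup V] [NormedSpace ℝ V] {f g : ℝ → V} {a : ℝ}
    (hf : ∀ t ≤ 0, HasDerivAt f (g t) t) (hg : ∀ t ≤ 0, g t = a • f t) {t : ℝ} (ht : t ≤ 0) :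
    f t = Real.exp (a * t) • f 0 := by
  have hd : ∀ s ≤ 0, HasDerivAt (fun s => Real.exp (-(a * s)) • f s) 0 s := fun s hs => by
    have h1 : HasDerivAt (fun s => Real.exp (-(a * s))) (Real.exp (-(a * s)) * -a) s := by
      simpa using ((hasDerivAt_id s).const_mul a).neg.exp
    have h2 := h1.smul (hf s hs)
    have h3 : Real.exp (-(a * s)) • g s + (Real.exp (-(a * s)) * -a) • f s = 0 := by
      rw [hg s hs, smul_smul, ← add_smul]
      simp
    rw [h3] at h2
    exact h2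
  have hc := constant_of_has_deriv_right_zero (f := fun s => Real.exp (-(a * s)) • f s) (a := t) (b := 0)
    (fun s hs => (hd s hs.2).continuousAt.continuousWithinAt)
    (fun s hs => (hd s hs.2.le).hasDerivWithinAt) 0 ⟨ht, le_rfl⟩
  simp only [mul_zero, neg_zero, Real.exp_zero, one_smul] at hc
  rw [hc, smul_smul, ← Real.exp_add]
  simp

theorem lev_sol_neg (hn : 2 ≤ n) {ε : ℝ} {l : ℝ → ℝ} {b : ℝ → BB n} (h : Adm ε l b) {M : ℕ} {u u' : ℝ → PM n M}
    (hu : Sol (BM M l b) u u') (hr : RegLev M (u 0) (u' 0)) (j : ℕ) {t : ℝ} (ht : t ≤ 0) :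
    lev j (incl M (u t)) = Real.exp (((j : ℝ) + ((n : ℝ) - 2) / 2) * t) • lev j (incl M (u 0)) := by
  set a : ℝ := (j : ℝ) + ((n : ℝ) - 2) / 2 with ha
  let L : PM n M →L[ℝ] W n := (lev j).comp (incl M).toContinuousLinearMap
  have hL : ∀ z, L z = lev j (incl M z) := fun z => rfl
  have hf : ∀ s, HasDerivAt (fun s => L (u s)) (L (u' s)) s := fun s =>
    L.hasFDerivAt.comp_hasDerivAt s (hu s).1
  have hg : ∀ s ≤ 0, HasDerivAt (fun s => L (u' s)) (a ^ 2 • L (u s)) s := fun s hs => by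
    have := L.hasFDerivAt.comp_hasDerivAt s (hu s).2
    rw [hL (BM M l b s (u s)), lev_BM hn h hs] at this
    exact this
  have hh : ∀ s ≤ 0, L (u' s) - a • L (u s) = 0 := fun s hs => by
    have := ode_neg_aux (f := fun s => L (u' s) - a • L (u s))
      (g := fun s => a ^ 2 • L (u s) - a • L (u' s)) (a := -a)
      (fun s hs => (hg s hs).sub ((hf s).const_smul a)) (fun s _ => by module) hs
    rw [this]
    simp only [hL]
    rw [hr j, sub_self, smul_zero]
  exact ode_neg_aux (f := fun s => L (u s)) (g := fun s => L (u' s)) (fun s _ => hf s)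
    (fun s hs => sub_eq_zero.1 (hh s hs)) ht

/-- for `t ≤ 0` the solution is explicit (`Sol.unique` backwards: compare on `(-∞,0]`, where `BM = opA M Π + (n-2)²/4`; or level by level) -/
theorem sol_neg (hn : 2 ≤ n) {ε : ℝ} {l : ℝ → ℝ} {b : ℝ → BB n} (h : Adm ε l b) {M : ℕ} {u u' : ℝ → PM n M}
    (hu : Sol (BM M l b) u u') (hr : RegLev M (u 0) (u' 0)) {t : ℝ} (ht : t ≤ 0) :
    incl M (u t) = ∑ j ∈ Finset.range M,
      Real.exp (((j : ℝ) + ((n : ℝ) - 2) / 2) * t) • lev j (incl M (u 0)) ∧ ‖u t‖ ≤ ‖u 0‖ := by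
  refine ⟨?_, ?_⟩
  · conv_lhs => rw [← sum_lev (incl_mem (u t))]
    exact Finset.sum_congr rfl fun j _ => lev_sol_neg hn h hu hr j ht
  · rw [← (incl M).norm_map, ← (incl M).norm_map (u 0), ← sq_le_sq₀ (norm_nonneg _) (norm_nonneg _),
      norm_sq_eq_sum_lev (incl_mem _), norm_sq_eq_sum_lev (incl_mem _)]
    refine Finset.sum_le_sum fun j _ => ?_
    rw [lev_sol_neg hn h hu hr j ht, norm_smul, Real.norm_of_nonneg (Real.exp_pos _).le]
    have ha : 0 ≤ (j : ℝ) + ((n : ℝ) - 2) / 2 := by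
      have : (2 : ℝ) ≤ n := by exact_mod_cast hn
      positivity
    have h1 : Real.exp (((j : ℝ) + ((n : ℝ) - 2) / 2) * t) ≤ 1 :=
      Real.exp_le_one_iff.2 (mul_nonpos_of_nonneg_of_nonpos ha ht)
    gcongr
    exact mul_le_of_le_one_left (norm_nonneg _) h1

theorem eval_smul_hom_aux {p : MvPolynomial (Fin n) ℝ} {j : ℕ} (hp : p.IsHomogeneous j) (c : ℝ)
    (x : Fin n → ℝ) : MvPolynomial.eval (fun i => c * x i) p = c ^ j * MvPolynomial.eval x p := by
  rw [MvPolynomial.eval_eq', MvPolynomial.eval_eq', Finset.mul_sum]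
  refine Finset.sum_congr rfl fun d hd => ?_
  have h1 : ∑ i, d i = j := by
    have := hp (MvPolynomial.mem_support_iff.1 hd)
    rw [← this, Finsupp.weight_apply, Finsupp.sum_fintype _ _ (by simp)]
    simp
  simp only [mul_pow, Finset.prod_mul_distrib, Finset.prod_pow_eq_pow_sum, h1]
  ring

theorem contDiff_eval_aux (p : MvPolynomial (Fin n) ℝ) :
    ContDiff ℝ ∞ (fun y : E n => MvPolynomial.eval (fun i => y i) p) := by
  induction p using MvPolynomial.induction_on with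
  | C a => simpa using contDiff_const
  | add p q hp hq => simpa using hp.add hq
  | mul_X p i hp =>
    simp only [map_mul, MvPolynomial.eval_X]
    exact hp.mul (EuclideanSpace.proj i : E n →L[ℝ] ℝ).contDiff

theorem BM_contDiff (hn : 2 ≤ n) {ε : ℝ} {l : ℝ → ℝ} {b : ℝ → BB n} (h : Adm ε l b) (M : ℕ) :
    ContDiff ℝ ∞ (BM M l b) :=
  ((opA M).contDiff.comp h.Kf_smooth).add ((qf_props hn h.smooth).1.smul contDiff_const)

/-- **the approximate solutions.**  `U x = ϖ(log|x|) ũ(log|x|)(x)` off the origin; on the unit ball `U = Σ_j p_j(x)` with `p_j` homogeneous of degree `j`, `toW p_j = lev j (u 0)`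
(`sol_neg`, `Lev_le_Hom`), which defines `U 0` and gives smoothness.  Off the origin expand `ũ(t)` in a basis of `PM n M` (`Sol.contDiff`). -/
theorem exists_U (hn : 2 ≤ n) {ε : ℝ} {l : ℝ → ℝ} {b : ℝ → BB n} (h : Adm ε l b) {M : ℕ} {u u' : ℝ → PM n M}
    (hu : Sol (BM M l b) u u') (hr : RegLev M (u 0) (u' 0)) :
    ∃ (U : E n → ℝ) (p : ℕ → MvPolynomial (Fin n) ℝ), ContDiff ℝ ∞ U ∧
      (∀ x, x ≠ 0 → U x = varpi n l (Real.log ‖x‖) * incl M (u (Real.log ‖x‖)) x) ∧
      (∀ j, (p j).IsHomogeneous j ∧ toW (p j) = lev j (incl M (u 0))) ∧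
      ∀ x : E n, ‖x‖ < 1 → U x = ∑ j ∈ Finset.range M, MvPolynomial.eval (fun i => x i) (p j) := by
  classical
  have hp : ∀ j, ∃ p : MvPolynomial (Fin n) ℝ, p.IsHomogeneous j ∧ toW p = lev j (incl M (u 0)) := fun j => by
    obtain ⟨p, hp, hp'⟩ := Lev_le_Hom j (lev_mem j (incl M (u 0)))
    exact ⟨p, hp, hp'⟩
  choose p hp using hp
  let P : E n → ℝ := fun x => ∑ j ∈ Finset.range M, MvPolynomial.eval (fun i => x i) (p j)
  let G : E n → ℝ := fun x => varpi n l (Real.log ‖x‖) * incl M (u (Real.log ‖x‖)) x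
  have hP : ContDiff ℝ ∞ P := ContDiff.sum fun j _ => contDiff_eval_aux (p j)
  have hGP : ∀ x : E n, x ≠ 0 → ‖x‖ < 1 → G x = P x := fun x hx hx1 => by
    have hx0 : 0 < ‖x‖ := norm_pos_iff.2 hx
    have ht : Real.log ‖x‖ ≤ 0 := Real.log_nonpos hx0.le hx1.le
    simp only [G, P]
    rw [(sol_neg hn h hu hr ht).1, W.sum_apply, Finset.mul_sum]
    refine Finset.sum_congr rfl fun j _ => ?_
    rw [W.smul_apply, ← (hp j).2, toW_apply_of_ne _ hx, varpi, h.l0 _ ht, ← mul_assoc, ← Real.exp_add]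
    have e1 : -(((n : ℝ) - 2) * Real.log ‖x‖ / 2) - ((n : ℝ) - 1) * 0 / 2 +
        ((j : ℝ) + ((n : ℝ) - 2) / 2) * Real.log ‖x‖ = j * Real.log ‖x‖ := by ring
    rw [e1, Real.exp_nat_mul, Real.exp_log hx0]
    simp only [PiLp.smul_apply, smul_eq_mul]
    rw [eval_smul_hom_aux (hp j).1, ← mul_assoc, ← mul_pow, mul_inv_cancel₀ hx0.ne', one_pow, one_mul]
  have hus : ContDiff ℝ ∞ u := (Sol.contDiff (BM_contDiff hn h M) hu).1
  have hG : ∀ x : E n, x ≠ 0 → ContDiffAt ℝ ∞ G x := fun x hx => by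
    have hlog : ContDiffAt ℝ ∞ (fun y : E n => Real.log ‖y‖) x :=
      (contDiffAt_norm ℝ hx).log (norm_ne_zero_iff.2 hx)
    have hv : ContDiff ℝ ∞ (varpi n l) := by
      unfold varpi
      have := h.smooth
      fun_prop
    let e := stdOrthonormalBasis ℝ (PM n M)
    have he : ∀ (z : PM n M) (y : E n), incl M z y = ∑ k, ⟪e k, z⟫ * incl M (e k) y := fun z y => by
      conv_lhs => rw [← e.sum_repr' z]
      rw [map_sum, W.sum_apply]
      simp
    refine (hv.contDiffAt.comp x hlog).mul ?_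
    simp only [he (u _)]
    refine ContDiffAt.sum fun k _ => ContDiffAt.mul ?_ (W.contDiffAt _ hx)
    exact ((innerSL ℝ (e k)).contDiff.comp hus).contDiffAt.comp x hlog
  refine ⟨fun x => if x = 0 then P x else G x, p, ?_, fun x hx => if_neg hx, hp, fun x hx => ?_⟩
  · rw [contDiff_iff_contDiffAt]
    intro x
    by_cases hx : x = 0
    · refine hP.contDiffAt.congr_of_eventuallyEq ?_
      subst hx
      filter_upwards [Metric.ball_mem_nhds (0 : E n) one_pos] with y hy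
      split_ifs with hy0
      · rfl
      · exact hGP y hy0 (by simpa using hy)
    · refine (hG x hx).congr_of_eventuallyEq ?_
      filter_upwards [isOpen_compl_singleton.mem_nhds hx] with y hy
      exact if_neg hy
  · beta_reduce
    split_ifs with hx0
    · rfl
    · exact hGP x hx0 hx

end Crest.Agent.R202
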