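import Crest.Agent.R202.Reg
import Crest.Agent.R202.Sph4
import Crest.Agent.R202.Geo6
import Crest.Agent.R202.Time
import Crest.Agent.R202.KB
import Crest.Agent.R202.Harma

/-! # Row 202, Harm: from Galerkin solutions to harmonic functions -/

set_option autoImplicit false
open scoped ContDiff RealInnerProductSpace
open Set Filter Topology MeasureTheory Crest.GeometryTopology.CoordMetric

noncomputable section
namespace Crest.Agent.R202

variable {n : ℕ}

lemma harmb_log_smooth : ContDiffOn ℝ ∞ (fun x : E n => Real.log ‖x‖) {0}ᶜ := fun _ hx =>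
  ((contDiffAt_norm ℝ hx).log (norm_ne_zero_iff.2 hx)).contDiffWithinAt

lemma harmb_log_fderiv {x : E n} (hx : x ≠ 0) :
    HasFDerivAt (fun x : E n => Real.log ‖x‖) ((‖x‖ ^ 2)⁻¹ • innerSL ℝ x) x := by
  have h0 : ‖x‖ ^ 2 ≠ 0 := pow_ne_zero 2 (norm_ne_zero_iff.2 hx)
  have h := ((hasStrictFDerivAt_norm_sq x).hasFDerivAt.log h0).const_mul (1 / 2 : ℝ)
  have e1 : (fun x : E n => Real.log ‖x‖) = fun y => 1 / 2 * Real.log (‖y‖ ^ 2) := by
    funext y
    rw [Real.log_pow]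
    push_cast
    ring
  rw [e1]
  refine h.congr_fderiv ?_
  ext y
  simp
  ring

lemma harmb_euler (u : W n) {x : E n} (hx : x ≠ 0) : fderiv ℝ u x x = 0 := by
  have h1 : HasDerivAt (fun c : ℝ => c • x) x 1 := by
    simpa using (hasDerivAt_id (1 : ℝ)).smul_const x
  have h2 : HasDerivAt (fun c : ℝ => u (c • x)) (fderiv ℝ u x x) 1 := by
    have h3 : HasFDerivAt u (fderiv ℝ u x) ((1 : ℝ) • x) := by
      rw [one_smul]; exact (u.differentiableAt hx).hasFDerivAt
    exact h3.comp_hasDerivAt (1 : ℝ) h1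
  have h4 : (fun c : ℝ => u (c • x)) =ᶠ[𝓝 1] fun _ => u x :=
    (eventually_gt_nhds zero_lt_one).mono fun c hc => u.homog hc x
  exact h2.unique ((hasDerivAt_const (1 : ℝ) (u x)).congr_of_eventuallyEq h4)

lemma harmb_expand {M : ℕ} (L : PM n M →ₗ[ℝ] W n) (y : PM n M) :
    L y = ∑ k, ⟪stdOrthonormalBasis ℝ (PM n M) k, y⟫ • L (stdOrthonormalBasis ℝ (PM n M) k) := by
  conv_lhs => rw [← (stdOrthonormalBasis ℝ (PM n M)).sum_repr' y]
  simp

lemma harmb_expand' {M : ℕ} (L : PM n M →ₗ[ℝ] W n) (y : PM n M) (x : E n) :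
    L y x = ∑ k, ⟪stdOrthonormalBasis ℝ (PM n M) k, y⟫ *
      L (stdOrthonormalBasis ℝ (PM n M) k) x := by
  rw [harmb_expand, W.sum_apply]
  rfl

lemma harmb_smooth {M : ℕ} (L : PM n M →ₗ[ℝ] W n) {v : ℝ → PM n M} (hv : ContDiff ℝ ∞ v) :
    ContDiffOn ℝ ∞ (fun x : E n => L (v (Real.log ‖x‖)) x) {0}ᶜ := by
  rw [funext fun x : E n => harmb_expand' L (v (Real.log ‖x‖)) x]
  refine ContDiffOn.sum fun k _ => ContDiffOn.mul ?_ (W.smooth _)
  exact contDiffOn_const.inner ℝ (hv.comp_contDiffOn harmb_log_smooth)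

lemma harmb_fderiv {M : ℕ} (L : PM n M →ₗ[ℝ] W n) {v : ℝ → PM n M} {v' : PM n M} {x : E n}
    (hx : x ≠ 0) (hv : HasDerivAt v v' (Real.log ‖x‖)) (h : E n) :
    fderiv ℝ (fun x : E n => L (v (Real.log ‖x‖)) x) x h =
      ⟪x, h⟫ / ‖x‖ ^ 2 * L v' x + fderiv ℝ (L (v (Real.log ‖x‖))) x h := by
  set b := stdOrthonormalBasis ℝ (PM n M) with hb
  have h1 : ∀ k, HasFDerivAt (fun x : E n => ⟪b k, v (Real.log ‖x‖)⟫)
      (⟪b k, v'⟫ • (‖x‖ ^ 2)⁻¹ • innerSL ℝ x) x := fun k => by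
    have h2 : HasDerivAt (fun t => ⟪b k, v t⟫) ⟪b k, v'⟫ (Real.log ‖x‖) :=
      (innerSL ℝ (b k)).hasFDerivAt.comp_hasDerivAt _ hv
    exact h2.comp_hasFDerivAt x (harmb_log_fderiv hx)
  have h3 := HasFDerivAt.fun_sum (u := Finset.univ) fun k _ =>
    (h1 k).mul ((L (b k)).differentiableAt hx).hasFDerivAt
  have h4 := HasFDerivAt.fun_sum (u := Finset.univ) fun k _ =>
    (((L (b k)).differentiableAt hx).hasFDerivAt).const_mul ⟪b k, v (Real.log ‖x‖)⟫
  have e3 : (fun x : E n => L (v (Real.log ‖x‖)) x) =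
      fun y => ∑ k, ((fun x : E n => ⟪b k, v (Real.log ‖x‖)⟫) * ⇑(L (b k))) y :=
    funext fun y => harmb_expand' L _ y
  have e4 : ⇑(L (v (Real.log ‖x‖))) = fun y => ∑ k, ⟪b k, v (Real.log ‖x‖)⟫ * L (b k) y :=
    funext fun y => harmb_expand' L _ y
  rw [e3, h3.fderiv, e4, h4.fderiv, harmb_expand' L v', Finset.mul_sum, sum_apply, sum_apply,
    ← Finset.sum_add_distrib]
  refine Finset.sum_congr rfl fun k _ => ?_
  simp only [add_apply, smul_apply, smul_eq_mul, innerSL_apply_apply, ← hb]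
  ring

/-- number of radial letters -/
def harmbCnt : List (Bool ⊕ Fin n × Fin n) → ℕ
  | [] => 0
  | Sum.inl true :: w => harmbCnt w + 1
  | Sum.inl false :: w => harmbCnt w
  | Sum.inr _ :: w => harmbCnt w

/-- the angular letters -/
def harmbWl : List (Bool ⊕ Fin n × Fin n) → List (Fin n × Fin n)
  | [] => []
  | Sum.inl _ :: w => harmbWl w
  | Sum.inr I :: w => I :: harmbWl w

lemma harmb_len (w : List (Bool ⊕ Fin n × Fin n)) : harmbCnt w + (harmbWl w).length ≤ w.length := by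
  induction w with
  | nil => simp [harmbCnt, harmbWl]
  | cons a w ih =>
    rcases a with (_ | _) | I <;> simp only [harmbCnt, harmbWl, List.length_cons] <;> omega

/-- the word operator on the Galerkin space -/
def harmbL (M : ℕ) (w : List (Fin n × Fin n)) : PM n M →ₗ[ℝ] W n :=
  IsLinearMap.mk' _ (Lw_linear w) ∘ₗ (incl M).toLinearMap

lemma harmbL_apply (M : ℕ) (w : List (Fin n × Fin n)) (y : PM n M) :
    harmbL M w y = Lw w (incl M y) := rfl

lemma harmb_core {ψ : ℝ → ℝ} (hψ : ContDiff ℝ ∞ ψ) (m : ℕ) (T : ℝ) : ∃ C : ℝ, 0 ≤ C ∧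
    ∀ (M : ℕ) (u : ℝ → PM n M) (S : ℝ), ContDiff ℝ ∞ u → 0 ≤ S →
      (∀ (a : ℕ) (w : List (Fin n × Fin n)), a + w.length ≤ m → ∀ t ∈ Icc (-T) T, ∀ y : Sp n,
        |Lw w (incl M (iteratedDeriv a u t)) y| ≤ S) →
      ∀ x : E n, x ≠ 0 → Real.log ‖x‖ ∈ Icc (-T) T →
        ‖iteratedFDeriv ℝ m
          (fun x : E n => Real.exp (ψ (Real.log ‖x‖)) * incl M (u (Real.log ‖x‖)) x) x‖ ≤ C * S := by
  set K : Set (E n) := Metric.closedBall 0 (Real.exp T) \ Metric.ball 0 (Real.exp (-T)) with hK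
  have hKc : IsCompact K := (isCompact_closedBall _ _).diff Metric.isOpen_ball
  have hKm : ∀ x : E n, x ∈ K ↔ x ≠ 0 ∧ Real.log ‖x‖ ∈ Icc (-T) T := by
    intro x
    simp only [hK, Set.mem_sdiff, mem_closedBall_zero_iff, mem_ball_zero_iff, not_lt, mem_Icc]
    constructor
    · rintro ⟨h1, h2⟩
      have h0 : 0 < ‖x‖ := (Real.exp_pos _).trans_le h2
      exact ⟨norm_pos_iff.1 h0, (Real.le_log_iff_exp_le h0).2 h2, (Real.log_le_iff_le_exp h0).2 h1⟩
    · rintro ⟨h0, h1, h2⟩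
      have h0' : 0 < ‖x‖ := norm_pos_iff.2 h0
      exact ⟨(Real.log_le_iff_le_exp h0').1 h2, (Real.le_log_iff_exp_le h0').1 h1⟩
  have hq : ∀ i : Fin n, ContDiffOn ℝ ∞ (fun x : E n => x i / ‖x‖ ^ 2) {0}ᶜ := fun i =>
    ContDiffOn.div (by fun_prop) (contDiff_norm_sq ℝ).contDiffOn
      fun x hx => pow_ne_zero 2 (norm_ne_zero_iff.2 hx)
  have hit : ∀ {M : ℕ} {u : ℝ → PM n M}, ContDiff ℝ ∞ u → ∀ a, ContDiff ℝ ∞ (iteratedDeriv a u) :=
    fun {M u} hu a => by rw [iteratedDeriv_eq_iterate]; exact hu.iterate_deriv a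
  obtain ⟨C, hC⟩ := word_bound (A := Bool ⊕ Fin n × Fin n)
    (Ω := Σ M : ℕ, {u : ℝ → PM n M // ContDiff ℝ ∞ u}) isOpen_compl_singleton hKc
    (fun x hx => ((hKm x).1 hx).1)
    (fun o w x => harmbL o.1 (harmbWl w) (Real.exp (ψ (Real.log ‖x‖)) •
      iteratedDeriv (harmbCnt w) o.2.1 (Real.log ‖x‖)) x)
    (fun i α x => match α with
      | Sum.inl true => x i / ‖x‖ ^ 2
      | Sum.inl false => x i / ‖x‖ ^ 2 * deriv ψ (Real.log ‖x‖)
      | Sum.inr I => if I.2 = i then x I.1 / ‖x‖ ^ 2 else 0)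
    (fun i α => by
      rcases α with (_ | _) | I
      · exact (hq i).mul ((contDiff_infty_iff_deriv.1 hψ).2.comp_contDiffOn harmb_log_smooth)
      · exact hq i
      · by_cases h : I.2 = i
        · simpa only [h, if_true] using hq I.1
        · simpa only [h, if_false] using contDiffOn_const)
    (fun o w => harmb_smooth _ (v := fun t => Real.exp (ψ t) • iteratedDeriv (harmbCnt w) o.2.1 t)
      (hψ.exp.smul (hit o.2.2 _)))
    (fun o w i x hx => by
      have hx' : x ≠ 0 := hx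
      have h0 : ‖x‖ ^ 2 ≠ 0 := pow_ne_zero 2 (norm_ne_zero_iff.2 hx')
      have hd : HasDerivAt (fun t => Real.exp (ψ t) • iteratedDeriv (harmbCnt w) o.2.1 t)
          (Real.exp (ψ (Real.log ‖x‖)) • iteratedDeriv (harmbCnt w + 1) o.2.1 (Real.log ‖x‖) +
            (Real.exp (ψ (Real.log ‖x‖)) * deriv ψ (Real.log ‖x‖)) •
              iteratedDeriv (harmbCnt w) o.2.1 (Real.log ‖x‖)) (Real.log ‖x‖) := by
        rw [iteratedDeriv_succ]
        exact ((hψ.differentiable (by simp) _).hasDerivAt.exp).smul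
          ((hit o.2.2 _).differentiable (by simp) _).hasDerivAt
      rw [pderiv_polar _ hx']
      simp only [harmb_fderiv _ hx' hd, harmb_euler _ hx', Fintype.sum_sum_type, Fintype.sum_bool,
        Fintype.sum_prod_type, harmbCnt, harmbWl, ite_mul, zero_mul, Finset.sum_ite_eq',
        Finset.mem_univ, if_true]
      congr 1
      · rw [real_inner_self_eq_norm_sq, div_self h0, map_add, mul_comm (Real.exp _), mul_smul,
          map_smul _ (deriv ψ _), W.add_apply, W.smul_apply]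
        ring
      · refine Finset.sum_congr rfl fun j _ => ?_
        have : ⟪x, gen (EuclideanSpace.single j 1) (EuclideanSpace.single i 1) x⟫ = 0 := by
          rw [gen_apply, inner_sub_right, real_inner_smul_right, real_inner_smul_right,
            real_inner_comm x, real_inner_comm x]
          ring
        rw [this, zero_div, zero_mul, zero_add]
        rfl)
    m []
  obtain ⟨B, hB⟩ := (isCompact_Icc (a := -T) (b := T)).exists_bound_of_continuousOn
    (hψ.exp.continuous.continuousOn)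
  refine ⟨|C| * |B|, by positivity, fun M u S hu hS hb x hx hxT => ?_⟩
  have h1 := hC ⟨M, u, hu⟩ (|B| * S) (by positivity) (fun w hw y hy => ?_) x ((hKm x).2 ⟨hx, hxT⟩)
  · have e : (fun x : E n => Real.exp (ψ (Real.log ‖x‖)) * incl M (u (Real.log ‖x‖)) x) =
        fun x => harmbL M (harmbWl []) (Real.exp (ψ (Real.log ‖x‖)) •
          iteratedDeriv (harmbCnt ([] : List (Bool ⊕ Fin n × Fin n))) u (Real.log ‖x‖)) x := by
      funext y
      rw [map_smul, W.smul_apply]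
      rfl
    rw [e, mul_assoc]
    exact h1.trans (mul_le_mul_of_nonneg_right (le_abs_self C) (by positivity))
  · obtain ⟨hy0, hyT⟩ := (hKm y).1 hy
    have hn : 0 < ‖y‖⁻¹ := inv_pos.2 (norm_pos_iff.2 hy0)
    rw [List.append_nil, map_smul, W.smul_apply, abs_mul, harmbL_apply, ← W.homog _ hn y]
    exact mul_le_mul ((hB _ hyT).trans (le_abs_self B))
      (hb _ _ ((harmb_len w).trans hw) _ hyT ⟨‖y‖⁻¹ • y, by simp [norm_smul, hy0]⟩)
      (abs_nonneg _) (abs_nonneg _)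

lemma harmb_poly_smooth (p : MvPolynomial (Fin n) ℝ) :
    ContDiff ℝ ∞ (fun y : E n => MvPolynomial.eval (fun i => y i) p) := by
  induction p using MvPolynomial.induction_on with
  | C a => simpa using contDiff_const
  | add p q hp hq => simpa using hp.add hq
  | mul_X p i hp =>
    simp only [map_mul, MvPolynomial.eval_X]
    exact hp.mul (by fun_prop)

lemma harmb_poly_homog {j : ℕ} {p : MvPolynomial (Fin n) ℝ} (hp : p.IsHomogeneous j) (c : ℝ)
    (y : E n) : MvPolynomial.eval (fun i => (c • y) i) p =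
      c ^ j * MvPolynomial.eval (fun i => y i) p := by
  rw [MvPolynomial.eval_eq, MvPolynomial.eval_eq, Finset.mul_sum]
  refine Finset.sum_congr rfl fun d hd => ?_
  rw [hp.degree_eq_sum_deg_support hd, ← Finset.prod_pow_eq_pow_sum]
  simp only [PiLp.smul_apply, smul_eq_mul, mul_pow, Finset.prod_mul_distrib]
  ring

/-- a smooth homogeneous function: bounds on the sphere give bounds on the ball -/
lemma harmb_ball (hn : 2 ≤ n) {P : E n → ℝ} (hP : ContDiff ℝ ∞ P) {j : ℕ}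
    (hh : ∀ (c : ℝ) (y : E n), P (c • y) = c ^ j * P y) (m : ℕ) {B : ℝ}
    (hB : ∀ y : E n, ‖y‖ = 1 → ‖iteratedFDeriv ℝ m P y‖ ≤ B) (x : E n) (hx : ‖x‖ ≤ 1) :
    ‖iteratedFDeriv ℝ m P x‖ ≤ B := by
  have hPm : ContDiff ℝ m P := hP.of_le (by exact_mod_cast le_top)
  have hc : Continuous (iteratedFDeriv ℝ m P) := hPm.continuous_iteratedFDeriv le_rfl
  have h1 : ∀ (c : ℝ) (y : E n),
      c ^ m • iteratedFDeriv ℝ m P (c • y) = c ^ j • iteratedFDeriv ℝ m P y := fun c y => by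
    have h2 := congrFun (iteratedFDeriv_comp_const_smul c hPm) y
    rw [← h2, ← iteratedFDeriv_const_smul_apply' hPm.contDiffAt]
    simp only [hh, smul_eq_mul]
  have h2 : ∀ y : E n, ‖y‖ = 1 → ∀ c : ℝ, 0 < c → c ≤ 1 →
      ‖iteratedFDeriv ℝ m P (c • y)‖ ≤ B := fun y hy c hc0 hc1 => by
    rcases le_or_gt m j with h | h
    · have h3 := congrArg norm (h1 c y)
      rw [norm_smul, norm_smul, Real.norm_of_nonneg (by positivity),
        Real.norm_of_nonneg (by positivity)] at h3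
      refine le_trans (le_of_mul_le_mul_left ?_ (pow_pos hc0 m)) (hB y hy)
      rw [h3]
      exact mul_le_mul_of_nonneg_right (pow_le_pow_of_le_one hc0.le hc1 h) (norm_nonneg _)
    · have h3 : ∀ z : E n, iteratedFDeriv ℝ m P z = 0 := fun z => by
        have h4 : Tendsto (fun d : ℝ => d ^ (m - j) • iteratedFDeriv ℝ m P (d • z)) (𝓝[>] 0)
            (𝓝 ((0 : ℝ) ^ (m - j) • iteratedFDeriv ℝ m P ((0 : ℝ) • z))) :=
          (Continuous.tendsto (by fun_prop) _).mono_left nhdsWithin_le_nhds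
        rw [zero_pow (by omega), zero_smul] at h4
        refine tendsto_nhds_unique tendsto_const_nhds (h4.congr' ?_)
        filter_upwards [self_mem_nhdsWithin] with d hd
        have hd' : d ^ j ≠ 0 := pow_ne_zero _ (ne_of_gt hd)
        apply smul_right_injective _ hd'
        simp only [smul_smul, ← pow_add]
        rw [Nat.add_sub_cancel' h.le, h1]
      rw [h3, ← h3 y]
      exact hB y hy
  by_cases h0 : x = 0
  · set y : E n := EuclideanSpace.single (⟨0, by omega⟩ : Fin n) 1 with hy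
    have h4 : Tendsto (fun d : ℝ => ‖iteratedFDeriv ℝ m P (d • y)‖) (𝓝[>] 0)
        (𝓝 ‖iteratedFDeriv ℝ m P ((0 : ℝ) • y)‖) :=
      (Continuous.tendsto (by fun_prop) _).mono_left nhdsWithin_le_nhds
    rw [zero_smul] at h4
    rw [h0]
    refine le_of_tendsto h4 ?_
    filter_upwards [Ioc_mem_nhdsGT (zero_lt_one' ℝ)] with d hd
    exact h2 y (by simp [hy]) d hd.1 hd.2
  · have h5 := h2 (‖x‖⁻¹ • x) (by simp [norm_smul, h0]) ‖x‖ (norm_pos_iff.2 h0) hx
    rwa [smul_smul, mul_inv_cancel₀ (norm_ne_zero_iff.2 h0), one_smul] at h5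

/-- derivative bounds for a homogeneous polynomial on the unit ball: `P(x) = |x|^j Y(x)` off `0`, `Y = toW p ∈ Lev n j`; on the unit sphere use `word_bound` (alphabet `Option (Fin n × Fin n)`, the letter `none`
being `x·∇`, i.e. multiplication by `j`) with `sup_Lev`, `Lw_Lev`; `D^m P` is homogeneous of degree `j-m ≥ 0` or zero (differentiate `P(cx) = c^j P(x)`). -/
theorem poly_deriv_bound (hn : 2 ≤ n) (m : ℕ) : ∃ C : ℝ, ∀ (j : ℕ) (p : MvPolynomial (Fin n) ℝ),
    p.IsHomogeneous j → toW p ∈ Lev n j → ∀ x : E n, ‖x‖ ≤ 1 →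
      ‖iteratedFDeriv ℝ m (fun y : E n => MvPolynomial.eval (fun i => y i) p) x‖ ≤
        C * (1 + (j : ℝ)) ^ (m + n) * ‖toW p‖ := by
  obtain ⟨C, hC0, hC⟩ := harmb_core (n := n) (ψ := fun _ => 0) contDiff_const m 0
  obtain ⟨D, hD⟩ := sup_Lev hn
  refine ⟨C * (|D| * (n : ℝ) ^ m), fun j p hp hL x hx => ?_⟩
  refine harmb_ball hn (harmb_poly_smooth p) (harmb_poly_homog hp) m (fun y hy => ?_) x hx
  have hy0 : y ≠ 0 := norm_ne_zero_iff.1 (by rw [hy]; exact one_ne_zero)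
  set Y : PM n (j + 1) := PM.mk (toW p) hL.1 with hY
  have hs : ContDiff ℝ ∞ fun t : ℝ => Real.exp (j * t) := by fun_prop
  have hn1 : (1 : ℝ) ≤ n := by exact_mod_cast (by omega : 1 ≤ n)
  have hj1 : (1 : ℝ) ≤ 1 + j := le_add_of_nonneg_right j.cast_nonneg
  have h1 := hC (j + 1) (fun t => Real.exp (j * t) • Y)
    (|D| * (n : ℝ) ^ m * (1 + (j : ℝ)) ^ (m + n) * ‖toW p‖) (hs.smul contDiff_const)
    (by positivity) (fun a w haw t ht z => ?_) y hy0 (by simp [hy])
  · have e : (fun y : E n => MvPolynomial.eval (fun i => y i) p) =ᶠ[𝓝 y] fun x : E n =>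
        Real.exp 0 * incl (j + 1) (Real.exp (j * Real.log ‖x‖) • Y) x := by
      filter_upwards [isOpen_compl_singleton.mem_nhds hy0] with x hx
      have hx' : 0 < ‖x‖ := norm_pos_iff.2 hx
      rw [Real.exp_zero, one_mul, map_smul, W.smul_apply, hY, incl_mk, toW_apply_of_ne p hx,
        harmb_poly_homog hp, Real.exp_nat_mul, Real.exp_log hx', ← mul_assoc, ← mul_pow,
        mul_inv_cancel₀ hx'.ne', one_pow, one_mul]
    rw [(e.iteratedFDeriv ℝ m).eq_of_nhds]
    refine h1.trans (le_of_eq ?_)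
    ring
  · obtain rfl : t = 0 := le_antisymm ht.2 (by simpa using ht.1)
    obtain ⟨h2, h3⟩ := Lw_Lev w hL
    rw [iteratedDeriv_smul_const (hs.contDiffAt.of_le (by exact_mod_cast le_top)),
      iteratedDeriv_exp_const_mul, map_smul, (Lw_linear w).map_smul, W.smul_apply, hY, incl_mk,
      abs_mul]
    simp only [mul_zero, Real.exp_zero, mul_one]
    have h4 : |(j : ℝ) ^ a| ≤ (1 + (j : ℝ)) ^ a := by
      rw [abs_of_nonneg (by positivity)]
      exact pow_le_pow_left₀ j.cast_nonneg (by linarith) a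
    have h5 : |Lw w (toW p) z| ≤
        |D| * (1 + (j : ℝ)) ^ n * (((n : ℝ) * (1 + j)) ^ w.length * ‖toW p‖) :=
      (hD j _ h2 z).trans (mul_le_mul (mul_le_mul_of_nonneg_right (le_abs_self D) (by positivity))
        h3 (norm_nonneg _) (by positivity))
    refine (mul_le_mul h4 h5 (abs_nonneg _) (by positivity)).trans ?_
    have h6 : (n : ℝ) ^ w.length ≤ (n : ℝ) ^ m := pow_le_pow_right₀ hn1 (by omega)
    have h7 : (1 + (j : ℝ)) ^ (a + w.length + n) ≤ (1 + (j : ℝ)) ^ (m + n) :=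
      pow_le_pow_right₀ hj1 (by omega)
    calc _ = |D| * (n : ℝ) ^ w.length * (1 + (j : ℝ)) ^ (a + w.length + n) * ‖toW p‖ := by
          rw [mul_pow, pow_add, pow_add]; ring
      _ ≤ _ := by gcongr

/-- derivative bounds on a shell: `word_bound` with the alphabet `{X, id} ⊔ Fin n × Fin n` and `F w (x) = ϖ(log|x|) · Lw (w|_L) (u^{(#X w)}(log|x|))(x)`
(`pderiv_polar`; `x·∇ϖ = -(p/2)ϖ`), `sup_word`. -/
theorem shell_bound (hn : 2 ≤ n) {l : ℝ → ℝ} (hl : ContDiff ℝ ∞ l) (m : ℕ) (T : ℝ) : ∃ C : ℝ,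
    ∀ (M : ℕ) (u : ℝ → PM n M) (U : E n → ℝ) (S : ℝ), ContDiff ℝ ∞ u → 0 ≤ S →
      (∀ x, x ≠ 0 → U x = varpi n l (Real.log ‖x‖) * incl M (u (Real.log ‖x‖)) x) →
      (∀ a ≤ m, ∀ t ∈ Icc (-T) T, √(sob M (m + n + 1) (incl M (iteratedDeriv a u t))) ≤ S) →
      ∀ x : E n, x ≠ 0 → Real.log ‖x‖ ∈ Icc (-T) T → ‖iteratedFDeriv ℝ m U x‖ ≤ C * S := by
  obtain ⟨C, hC0, hC⟩ := harmb_core (n := n)
    (ψ := fun t => -(((n : ℝ) - 2) * t / 2) - ((n : ℝ) - 1) * l t / 2) (by fun_prop) m T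
  choose D hD using sup_word hn
  refine ⟨C * ∑ k ∈ Finset.range (m + 1), |D k|, fun M u U S hu hS hU hb x hx hxT => ?_⟩
  have hD0 : 0 ≤ ∑ k ∈ Finset.range (m + 1), |D k| := Finset.sum_nonneg fun _ _ => abs_nonneg _
  have h1 := hC M u ((∑ k ∈ Finset.range (m + 1), |D k|) * S) hu (by positivity)
    (fun a w haw t ht z => ?_) x hx hxT
  · have e : U =ᶠ[𝓝 x] fun x : E n =>
        varpi n l (Real.log ‖x‖) * incl M (u (Real.log ‖x‖)) x := by
      filter_upwards [isOpen_compl_singleton.mem_nhds hx] with y hy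
      exact hU y hy
    rw [(e.iteratedFDeriv ℝ m).eq_of_nhds, mul_assoc]
    exact h1
  · refine (hD w.length M _ (incl_mem _) w rfl z).trans (mul_le_mul ((le_abs_self _).trans ?_)
      (le_trans (Real.sqrt_le_sqrt (sob_mono M (by omega) _)) (hb a (by omega) t ht))
      (Real.sqrt_nonneg _) hD0)
    exact Finset.single_le_sum (f := fun k => |D k|) (fun _ _ => abs_nonneg _)
      (Finset.mem_range.2 (by omega))

end Crest.Agent.R202
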