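import Crest.Agent.R202.Reg
import Crest.Agent.R202.Sph4
import Crest.Agent.R202.Geo6
import Crest.Agent.R202.Time
import Crest.Agent.R202.KB
import Crest.Agent.R202.Harmb

/-! # Row 202, Harm: from Galerkin solutions to harmonic functions -/

set_option autoImplicit false
open scoped ContDiff RealInnerProductSpace
open Set Filter Topology MeasureTheory Crest.GeometryTopology.CoordMetric

noncomputable section
namespace Crest.Agent.R202

variable {n : ℕ}

/-- evaluation at a point, as a continuous functional on the Galerkin space -/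
def harmEv (M : ℕ) (x : E n) : PM n M →L[ℝ] ℝ :=
  LinearMap.toContinuousLinearMap
    { toFun := fun z => incl M z x
      map_add' := fun z z' => by simp
      map_smul' := fun c z => by simp }
lemma harmEv_apply (M : ℕ) (x : E n) (z : PM n M) : harmEv M x z = incl M z x := rfl

lemma harm_varpi {l : ℝ → ℝ} (hl : ContDiff ℝ ∞ l) (t : ℝ) :
    HasDerivAt (varpi n l) (varpi n l t * (-(pf n l t / 2))) t := by
  have h1 : HasDerivAt l (deriv l t) t := (hl.differentiable (by simp) t).hasDerivAt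
  have h2 : HasDerivAt (fun t => -(((n : ℝ) - 2) * t / 2) - ((n : ℝ) - 1) * l t / 2)
      (-(((n : ℝ) - 2) * 1 / 2) - ((n : ℝ) - 1) * deriv l t / 2) t :=
    ((((hasDerivAt_id t).const_mul _).div_const 2).neg).sub ((h1.const_mul _).div_const 2)
  refine HasDerivAt.congr_deriv (h2.exp) ?_
  unfold varpi pf
  ring

lemma harm_pf {l : ℝ → ℝ} (hl : ContDiff ℝ ∞ l) (t : ℝ) :
    HasDerivAt (pf n l) (deriv (pf n l) t) t := by
  have h1 : Differentiable ℝ (deriv l) := (contDiff_infty_iff_deriv.1 hl).2.differentiable (by simp)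
  have h2 : DifferentiableAt ℝ (pf n l) t := by
    unfold pf
    exact (differentiableAt_const _).add ((h1 t).const_mul _)
  exact h2.hasDerivAt

lemma harm_ray (x : E n) (t : ℝ) :
    HasDerivAt (fun τ => Real.exp τ • x) (Real.exp t • x) t :=
  (Real.hasDerivAt_exp t).smul_const x

/-- radial part of the weak equation -/
lemma harm_radial {ε : ℝ} {l : ℝ → ℝ} {b : ℝ → BB n} (h : Adm ε l b) {M : ℕ} {u u' : ℝ → PM n M}
    (hu : Sol (BM M l b) u u') {U : E n → ℝ} (hU : ContDiff ℝ ∞ U)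
    (hUe : ∀ x, x ≠ 0 → U x = varpi n l (Real.log ‖x‖) * incl M (u (Real.log ‖x‖)) x) (t : ℝ)
    (x : Sp n) :
    fderiv ℝ (fderiv ℝ U) (Real.exp t • (x : E n)) (Real.exp t • (x : E n)) (Real.exp t • (x : E n)) +
      (pf n l t + 1) * fderiv ℝ U (Real.exp t • (x : E n)) (Real.exp t • (x : E n)) =
      varpi n l t * incl M (opA M (Kf l b t) (u t)) x := by
  set ev := harmEv M (x : E n)
  have hUd : Differentiable ℝ U := hU.differentiable (by simp)
  have hU1 : Differentiable ℝ (fderiv ℝ U) :=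
    (hU.fderiv_right (m := ∞) (by simp)).differentiable (by simp)
  have hray : (fun τ => U (Real.exp τ • (x : E n))) = fun τ => varpi n l τ * ev (u τ) := by
    funext τ
    have hpos := Real.exp_pos τ
    have hne : Real.exp τ • (x : E n) ≠ 0 := smul_ne_zero hpos.ne' (Sp.ne_zero x)
    have hn : ‖Real.exp τ • (x : E n)‖ = Real.exp τ := by
      rw [norm_smul, Sp.norm_eq, mul_one, Real.norm_of_nonneg hpos.le]
    rw [hUe _ hne, hn, Real.log_exp, W.homog _ hpos]
    rfl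
  have ha : ∀ τ, HasDerivAt (fun τ => ev (u τ)) (ev (u' τ)) τ := fun τ =>
    ev.hasFDerivAt.comp_hasDerivAt τ (hu τ).1
  have ha' : ∀ τ, HasDerivAt (fun τ => ev (u' τ)) (ev (BM M l b τ (u τ))) τ := fun τ =>
    ev.hasFDerivAt.comp_hasDerivAt τ (hu τ).2
  have h1 : (fun τ => fderiv ℝ U (Real.exp τ • (x : E n)) (Real.exp τ • (x : E n))) =
      fun τ => varpi n l τ * (-(pf n l τ / 2) * ev (u τ) + ev (u' τ)) := by
    funext τ
    have e1 : HasDerivAt (fun τ => U (Real.exp τ • (x : E n)))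
        (fderiv ℝ U (Real.exp τ • (x : E n)) (Real.exp τ • (x : E n))) τ :=
      (hUd _).hasFDerivAt.comp_hasDerivAt τ (harm_ray (x : E n) τ)
    rw [hray] at e1
    have e2 := (harm_varpi (n := n) h.smooth τ).mul (ha τ)
    rw [e1.unique e2]
    ring
  have e1 : HasDerivAt (fun τ => fderiv ℝ U (Real.exp τ • (x : E n)) (Real.exp τ • (x : E n)))
      (fderiv ℝ (fderiv ℝ U) (Real.exp t • (x : E n)) (Real.exp t • (x : E n)) (Real.exp t • (x : E n)) +
        fderiv ℝ U (Real.exp t • (x : E n)) (Real.exp t • (x : E n))) t :=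
    ((hU1 _).hasFDerivAt.comp_hasDerivAt t (harm_ray (x : E n) t)).clm_apply
      (harm_ray (x : E n) t)
  rw [h1] at e1
  have e2 := (harm_varpi (n := n) h.smooth t).mul
    (((((harm_pf (n := n) h.smooth t).div_const 2).neg).mul (ha t)).add (ha' t))
  have e3 := e1.unique e2
  have e4 := congrFun h1 t
  have e5 : ev (BM M l b t (u t)) = ev (opA M (Kf l b t) (u t)) + qf n l t * ev (u t) := by
    simp [BM]
  simp only [Pi.neg_apply, Pi.add_apply, Pi.mul_apply] at e3 e4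
  rw [e5] at e3
  change _ = varpi n l t * ev (opA M (Kf l b t) (u t))
  unfold qf at e3
  linear_combination e3 + pf n l t * e4

lemma harm_inv_norm (x : Sp n) :
    HasFDerivAt (fun y : E n => ‖y‖⁻¹) (-(innerSL ℝ (x : E n))) (x : E n) := by
  have h1 : HasFDerivAt (fun y : E n => ‖y‖ ^ 2) (2 • innerSL ℝ (x : E n)) (x : E n) :=
    (hasStrictFDerivAt_norm_sq (x : E n)).hasFDerivAt
  have hx : ‖(x : E n)‖ ^ 2 ≠ 0 := by rw [Sp.norm_eq]; norm_num
  have h2 := h1.sqrt hx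
  have h3 : (fun y : E n => √(‖y‖ ^ 2)) = fun y => ‖y‖ := funext fun y => Real.sqrt_sq (norm_nonneg y)
  rw [h3] at h2
  have h4 := (hasDerivAt_inv (x := ‖(x : E n)‖) (by rw [Sp.norm_eq]; norm_num)).comp_hasFDerivAt
    (x : E n) h2
  refine HasFDerivAt.congr_fderiv h4 ?_
  ext v
  simp

/-- tangential part: `r ∂ᵥU(r x) = c ∂ᵥz(x) + ⟪x,v⟫ r ∂ₓU(r x)` -/
lemma harm_tang_eq {U : E n → ℝ} (hU : Differentiable ℝ U) {r c : ℝ} (hr : 0 < r) (z : W n)
    (hz : ∀ y : E n, ‖y‖ = r → U y = c * z y) (x : Sp n) (v : E n) :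
    r * fderiv ℝ U (r • (x : E n)) v =
      c * fderiv ℝ z x v + ⟪(x : E n), v⟫ * (r * fderiv ℝ U (r • (x : E n)) x) := by
  have hx := Sp.ne_zero x
  have h1 : (fun y : E n => U (r • ‖y‖⁻¹ • y)) =ᶠ[𝓝 (x : E n)] fun y => c * z y := by
    filter_upwards [isOpen_compl_singleton.mem_nhds hx] with y hy
    have hy' : 0 < ‖y‖ := norm_pos_iff.2 hy
    rw [hz, W.homog _ hr, W.homog _ (inv_pos.2 hy')]
    rw [norm_smul, norm_smul, norm_inv, norm_norm, inv_mul_cancel₀ hy'.ne', mul_one,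
      Real.norm_of_nonneg hr.le]
  have h2 := (((harm_inv_norm x).smul (hasFDerivAt_id (x : E n))).const_smul r)
  have h3 : r • ‖(x : E n)‖⁻¹ • (x : E n) = r • (x : E n) := by simp [Sp.norm_eq]
  have h4 : HasFDerivAt U (fderiv ℝ U (r • (x : E n))) (r • ‖(x : E n)‖⁻¹ • (x : E n)) := by
    rw [h3]; exact (hU _).hasFDerivAt
  have h5 := HasFDerivAt.comp (x : E n) (f := fun y : E n => r • ‖y‖⁻¹ • y) h4 h2
  have h6 := ((z.differentiableAt hx).hasFDerivAt.const_mul c).congr_of_eventuallyEq h1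
  have h7 := DFunLike.congr_fun (h5.unique h6) v
  simp [Sp.norm_eq] at h7
  linear_combination h7

lemma harm_Kf_tang (l : ℝ → ℝ) (b : ℝ → BB n) (t : ℝ) (x : Sp n) (j : Fin n) :
    ∑ i, Kf l b t i j x * (x : E n) i = 0 := by
  have h := congrFun (HX_tang (b t) x) j
  simp only [Matrix.mulVec, dotProduct, X.at, Matrix.of_apply, Pi.zero_apply] at h
  have : ∀ i, Kf l b t i j x * (x : E n) i =
      Real.exp (-2 * l t) * (HX (iota (b t)) j i x * (x : E n) i) := fun i => by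
    rw [HX_symm (b t) j i]
    simp [Kf, mul_assoc]
  simp only [this, ← Finset.mul_sum, h, mul_zero]

/-- vector-valued version of `integ_tendsto` -/
lemma harm_cm_tendsto {F : Type*} [NormedAddCommGroup F] (𝒰 : Ultrafilter ℕ) (D : ℕ → C(Sp n, F))
    (G : C(Sp n, F)) {C : ℝ} (hL : ∀ᶠ k in 𝒰, ∀ x y : Sp n, ‖D k x - D k y‖ ≤ C * dist x y)
    (h : ∀ x, Tendsto (fun k => D k x) 𝒰 (𝓝 (G x))) : Tendsto D 𝒰 (𝓝 G) := by
  have hG : ∀ x y : Sp n, ‖G x - G y‖ ≤ C * dist x y := fun x y =>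
    le_of_tendsto ((h x).sub (h y)).norm (hL.mono fun k hk => hk x y)
  let H : ℕ → CS n := fun k => ⟨fun x => ‖D k x - G x‖, by fun_prop⟩
  have hH : Tendsto H 𝒰 (𝓝 0) := by
    refine integ_tendsto 𝒰 H 0 (C := 2 * C) (hL.mono fun k hk x y => ?_) fun x => ?_
    · change |‖D k x - G x‖ - ‖D k y - G y‖| ≤ _
      refine (abs_norm_sub_norm_le _ _).trans ?_
      have : D k x - G x - (D k y - G y) = (D k x - D k y) - (G x - G y) := by abel
      rw [this]
      refine (norm_sub_le _ _).trans ?_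
      linarith [hk x y, hG x y]
    · exact tendsto_iff_norm_sub_tendsto_zero.1 (h x)
  rw [tendsto_iff_norm_sub_tendsto_zero]
  refine squeeze_zero (fun _ => norm_nonneg _) (fun k => ?_) (tendsto_zero_iff_norm_tendsto_zero.1 hH)
  refine (ContinuousMap.norm_le _ (norm_nonneg _)).2 fun x => ?_
  exact (le_abs_self _).trans ((H k).norm_coe_le_norm x)

/-- restriction of a continuous function to the sphere of radius `r` -/
def harmOnS {F : Type*} [TopologicalSpace F] (r : ℝ) (f : E n → F) (hf : Continuous f) : C(Sp n, F) :=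
  ⟨fun x => f (r • (x : E n)), by fun_prop⟩

lemma harmOnS_tendsto {F : Type*} [NormedAddCommGroup F] [NormedSpace ℝ F] (𝒰 : Ultrafilter ℕ) {r : ℝ}
    (hr : 0 < r) (g : ℕ → E n → F) (hg : ∀ k, Differentiable ℝ (g k)) (f : E n → F) (hf : Continuous f)
    {C C' : ℝ} (h0 : ∀ᶠ k in 𝒰, ∀ y : E n, ‖y‖ ≤ r → ‖g k y‖ ≤ C)
    (h1 : ∀ᶠ k in 𝒰, ∀ y : E n, ‖y‖ ≤ r → ‖fderiv ℝ (g k) y‖ ≤ C')
    (h : ∀ y, Tendsto (fun k => g k y) 𝒰 (𝓝 (f y))) :
    Tendsto (fun k => harmOnS r (g k) (hg k).continuous) 𝒰 (𝓝 (harmOnS r f hf)) := by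
  refine harm_cm_tendsto 𝒰 _ _ (C := (2 + r) * max C C') ?_ fun x => h _
  filter_upwards [h0, h1] with k hk0 hk1 x y
  exact lip_sphere hr (fun y _ hy => ⟨hg k y, (hk0 y hy).trans (le_max_left _ _),
    (hk1 y hy).trans (le_max_right _ _)⟩) x y

/-- the integrand `resid` as a function of the jets and the coefficient field -/
def harmResid (r p : ℝ) (w : W n)
    (q : C(Sp n, E n →L[ℝ] ℝ) × C(Sp n, E n →L[ℝ] E n →L[ℝ] ℝ) × X n) : CS n :=
  ⟨fun x => (q.2.1 x (r • (x : E n)) (r • (x : E n)) + (p + 1) * q.1 x (r • (x : E n))) * res w x -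
    ∑ i, ∑ j, q.2.2 i j x * (r * q.1 x (EuclideanSpace.single i 1) * grad j w x), by fun_prop⟩

lemma continuous_harmResid (r p : ℝ) (w : W n) : Continuous (harmResid r p w) := by
  refine ContinuousMap.continuous_of_continuous_uncurry _ ?_
  change Continuous fun a : (C(Sp n, E n →L[ℝ] ℝ) × C(Sp n, E n →L[ℝ] E n →L[ℝ] ℝ) × X n) × Sp n =>
    (a.1.2.1 a.2 (r • (a.2 : E n)) (r • (a.2 : E n)) + (p + 1) * a.1.1 a.2 (r • (a.2 : E n))) * res w a.2 -
    ∑ i, ∑ j, a.1.2.2 i j a.2 * (r * a.1.1 a.2 (EuclideanSpace.single i 1) * grad j w a.2)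
  fun_prop

lemma harm_norm_fderiv {F : Type*} [NormedAddCommGroup F] [NormedSpace ℝ F] (f : E n → F) (x : E n) :
    ‖fderiv ℝ f x‖ = ‖iteratedFDeriv ℝ 1 f x‖ := by
  rw [← norm_iteratedFDeriv_fderiv, norm_iteratedFDeriv_zero]

/-- the Galerkin equation in weak form: along the ray `τ ↦ U(e^τ x) = ϖ(τ) ũ(τ)(x)`, first and second derivatives are `DU(y)y` and `D²U(y,y) + DU(y)y`; `v = ϖũ` solves
`v'' + p v' = ϖ(ũ'' - qũ)`; `r ∂ᵢU(r x) = ϖ ∂ᵢ(ũ t)(x) + (…) xᵢ` and `K` is tangential (`HX_tang`, `HX_symm`); `inner_opA`. -/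
theorem weak_eq (hn : 2 ≤ n) {ε : ℝ} {l : ℝ → ℝ} {b : ℝ → BB n} (h : Adm ε l b) {M : ℕ} {u u' : ℝ → PM n M}
    (hu : Sol (BM M l b) u u') {U : E n → ℝ} (hU : ContDiff ℝ ∞ U)
    (hUe : ∀ x, x ≠ 0 → U x = varpi n l (Real.log ‖x‖) * incl M (u (Real.log ‖x‖)) x) (t : ℝ)
    {w : W n} (hw : w ∈ Plt n M) :
    ∫ x : Sp n, resid U (Real.exp t) (pf n l t) (Kf l b t) w x ∂sig n = 0 := by
  have _ := hn
  set K := Kf l b t with hK
  set z := incl M (u t) with hz
  have hr := Real.exp_pos t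
  have key : ∀ x : Sp n, resid U (Real.exp t) (pf n l t) K w x =
      (varpi n l t • (res (incl M (opA M K (u t))) * res w -
        ∑ i, ∑ j, K i j * (grad i z * grad j w)) : CS n) x := by
    intro x
    unfold resid
    rw [harm_radial h hu hU hUe t x]
    have h1 : ∀ i, Real.exp t * fderiv ℝ U (Real.exp t • (x : E n)) (EuclideanSpace.single i 1) =
        varpi n l t * grad i z x +
          (x : E n) i * (Real.exp t * fderiv ℝ U (Real.exp t • (x : E n)) x) := fun i => by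
      rw [harm_tang_eq (hU.differentiable (by simp)) hr z (c := varpi n l t) (fun y hy => by
        have hy0 : y ≠ 0 := norm_pos_iff.1 (hy ▸ hr)
        rw [hUe y hy0, hy, Real.log_exp]) x]
      simp [EuclideanSpace.inner_single_right]
    simp only [h1]
    set c := Real.exp t * fderiv ℝ U (Real.exp t • (x : E n)) x
    have h2 : ∑ i, ∑ j, K i j x * ((varpi n l t * grad i z x + (x : E n) i * c) * grad j w x) =
        varpi n l t * ∑ i, ∑ j, K i j x * (grad i z x * grad j w x) +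
          ∑ j, (∑ i, K i j x * (x : E n) i) * (c * grad j w x) := by
      simp only [Finset.mul_sum, Finset.sum_mul]
      rw [Finset.sum_comm (f := fun j i => K i j x * (x : E n) i * (c * grad j w x)),
        ← Finset.sum_add_distrib]
      refine Finset.sum_congr rfl fun i _ => ?_
      rw [← Finset.sum_add_distrib]
      exact Finset.sum_congr rfl fun j _ => by ring
    rw [h2]
    simp only [hK, harm_Kf_tang, zero_mul, Finset.sum_const_zero, add_zero]
    simp only [ContinuousMap.smul_apply, ContinuousMap.sub_apply, ContinuousMap.mul_apply,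
      ContinuousMap.sum_apply, res_apply, smul_eq_mul]
    ring
  simp only [key]
  rw [← integ_apply, map_smul, map_sub, ← inner_W, ← form_apply]
  have h3 := inner_opA M K (u t) (PM.mk w hw)
  rw [← (incl M).inner_map_map, incl_mk] at h3
  rw [h3, sub_self, smul_zero]

/-- pass to the limit in `weak_eq` (`lip_sphere`, `integ_tendsto` for the coordinates of `DU`, `D²U` on the sphere of radius `e^t`; `HX ∘ iota` is continuous at `bI t`), then `laplace_weak`,
`eq_zero_of_poly`, `mem_Poly_iff`; at the origin by `continuous_laplace`. -/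
theorem limit_harmonic_real (hn : 2 ≤ n) {ε : ℝ} {l : ℝ → ℝ} {bI : ℝ → BB n} (hI : Adm ε l bI) (𝒰 : Ultrafilter ℕ)
    (h𝒰 : (𝒰 : Filter ℕ) ≤ atTop) (b : ℕ → ℝ → BB n) (hb : ∀ t, Tendsto (fun M => b M t) 𝒰 (𝓝 (bI t)))
    (U : ℕ → E n → ℝ) (hU : ∀ M, ContDiff ℝ ∞ (U M))
    (hbd : ∀ m R, ∃ C : ℝ, ∀ᶠ M in 𝒰, ∀ x : E n, ‖x‖ ≤ R → ‖iteratedFDeriv ℝ m (U M) x‖ ≤ C)
    (hw : ∀ M t, ∀ w ∈ Plt n M, ∫ x : Sp n, resid (U M) (Real.exp t) (pf n l t) (Kf l (b M) t) w x ∂sig n = 0) :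
    ∃ f : E n → ℝ, IsHarmonicOn (metric l bI) univ f ∧ (∀ x, Tendsto (fun M => U M x) 𝒰 (𝓝 (f x))) ∧
      ∀ r > (0 : ℝ), ∀ η > 0, ∀ᶠ M in 𝒰, ∀ x : Sp n, |U M (r • (x : E n)) - f (r • (x : E n))| ≤ η := by
  obtain ⟨f, hf, hlim⟩ := ultra_smooth 𝒰 isOpen_univ U (fun k => (hU k).contDiffOn) (fun m x _ => by
    obtain ⟨C, hC⟩ := hbd m (‖x‖ + 1)
    refine ⟨1, one_pos, C, hC.mono fun k hk y hy => hk y ?_⟩
    have := mem_ball_iff_norm.1 hy
    linarith [norm_sub_norm_le y x])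
  have hf' : ContDiff ℝ ∞ f := contDiffOn_univ.1 hf
  have hf1 : ContDiff ℝ ∞ (fderiv ℝ f) := hf'.fderiv_right (by simp)
  have hf2 : ContDiff ℝ ∞ (fderiv ℝ (fderiv ℝ f)) := hf1.fderiv_right (by simp)
  have hU1 : ∀ k, ContDiff ℝ ∞ (fderiv ℝ (U k)) := fun k => (hU k).fderiv_right (by simp)
  have hU2 : ∀ k, ContDiff ℝ ∞ (fderiv ℝ (fderiv ℝ (U k))) := fun k => (hU1 k).fderiv_right (by simp)
  have T : ∀ r > 0,
      Tendsto (fun k => harmOnS r (U k) (hU k).continuous) 𝒰 (𝓝 (harmOnS r f hf'.continuous)) ∧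
      Tendsto (fun k => harmOnS r _ (hU1 k).continuous) 𝒰 (𝓝 (harmOnS r _ hf1.continuous)) ∧
      Tendsto (fun k => harmOnS r _ (hU2 k).continuous) 𝒰 (𝓝 (harmOnS r _ hf2.continuous)) := by
    intro r hr
    obtain ⟨C0, h0⟩ := hbd 0 r
    obtain ⟨C1, h1⟩ := hbd 1 r
    obtain ⟨C2, h2⟩ := hbd 2 r
    obtain ⟨C3, h3⟩ := hbd 3 r
    have h0' : ∀ᶠ k in 𝒰, ∀ y : E n, ‖y‖ ≤ r → ‖U k y‖ ≤ C0 := h0.mono fun k hk y hy => by
      simpa using hk y hy
    have h1' : ∀ᶠ k in 𝒰, ∀ y : E n, ‖y‖ ≤ r → ‖fderiv ℝ (U k) y‖ ≤ C1 := h1.mono fun k hk y hy => by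
      rw [harm_norm_fderiv]; exact hk y hy
    have h2' : ∀ᶠ k in 𝒰, ∀ y : E n, ‖y‖ ≤ r → ‖fderiv ℝ (fderiv ℝ (U k)) y‖ ≤ C2 :=
      h2.mono fun k hk y hy => by
        rw [harm_norm_fderiv, norm_iteratedFDeriv_fderiv]; exact hk y hy
    have h3' : ∀ᶠ k in 𝒰, ∀ y : E n, ‖y‖ ≤ r → ‖fderiv ℝ (fderiv ℝ (fderiv ℝ (U k))) y‖ ≤ C3 :=
      h3.mono fun k hk y hy => by
        rw [harm_norm_fderiv, norm_iteratedFDeriv_fderiv, norm_iteratedFDeriv_fderiv]; exact hk y hy
    exact ⟨harmOnS_tendsto 𝒰 hr U (fun k => (hU k).differentiable (by simp)) f _ h0' h1'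
        fun y => (hlim y trivial).1,
      harmOnS_tendsto 𝒰 hr _ (fun k => (hU1 k).differentiable (by simp)) _ _ h1' h2'
        fun y => (hlim y trivial).2.1,
      harmOnS_tendsto 𝒰 hr _ (fun k => (hU2 k).differentiable (by simp)) _ _ h2' h3'
        fun y => (hlim y trivial).2.2⟩
  have hΔ := continuous_laplace (hI.radial hn).riem hf'
  refine ⟨f, ⟨hf, ?_⟩, fun x => (hlim x trivial).1, fun r hr η hη => ?_⟩
  · have hsph : ∀ t (x : Sp n), laplaceBeltrami (metric l bI) f (Real.exp t • (x : E n)) = 0 := by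
      intro t
      have hr := Real.exp_pos t
      have hK : Tendsto (fun M => Kf l (b M) t) 𝒰 (𝓝 (Kf l bI t)) := by
        have hc := (analyticAt_HX (hI.good.detOK (hI.small t))).continuousAt
        exact (hc.tendsto.comp ((iota.continuous.tendsto _).comp (hb t))).const_smul _
      let G : CS n := ⟨fun x => Real.exp t ^ 2 * laplaceBeltrami (metric l bI) f (Real.exp t • (x : E n)),
        by fun_prop⟩
      have hG : G = 0 := by
        refine eq_zero_of_poly fun p => ?_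
        change ∫ x : Sp n, Real.exp t ^ 2 * laplaceBeltrami (metric l bI) f (Real.exp t • (x : E n)) *
          toW p x ∂sig n = 0
        rw [laplace_weak hn hI hf' t]
        have h1 := ((integ n).continuous.comp
          (continuous_harmResid (Real.exp t) (pf n l t) (toW p))).tendsto _ |>.comp
          ((T _ hr).2.1.prodMk_nhds ((T _ hr).2.2.prodMk_nhds hK))
        refine tendsto_nhds_unique h1 (tendsto_const_nhds.congr' ?_)
        filter_upwards [h𝒰 (eventually_gt_atTop p.totalDegree)] with M hM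
        exact (hw M t _ (toW_mem_Plt p hM)).symm
      intro x
      have := DFunLike.congr_fun hG x
      exact (mul_eq_zero.1 this).resolve_left (pow_pos hr 2).ne'
    haveI : Nonempty (Fin n) := ⟨⟨0, by omega⟩⟩
    have hz : laplaceBeltrami (metric l bI) f = fun _ => 0 := by
      refine Continuous.ext_on (dense_compl_singleton (0 : E n)) hΔ continuous_const fun y hy => ?_
      have hy0 : y ≠ 0 := hy
      have hy' : 0 < ‖y‖ := norm_pos_iff.2 hy0
      have := hsph (Real.log ‖y‖) ⟨‖y‖⁻¹ • y, by simp [norm_smul, hy0]⟩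
      rwa [Real.exp_log hy', smul_smul, mul_inv_cancel₀ hy'.ne', one_smul] at this
    intro x _
    rw [hz]
  · have h1 := Metric.tendsto_nhds.1 (T r hr).1 η hη
    filter_upwards [h1] with M hM x
    rw [← Real.dist_eq]
    exact (ContinuousMap.dist_apply_le_dist (f := harmOnS r (U M) (hU M).continuous)
      (g := harmOnS r f hf'.continuous) x).trans hM.le

/-- the statement as posted (here `r` elaborates to a natural number; `limit_harmonic_real` is the version with real `r`) -/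
theorem limit_harmonic (hn : 2 ≤ n) {ε : ℝ} {l : ℝ → ℝ} {bI : ℝ → BB n} (hI : Adm ε l bI) (𝒰 : Ultrafilter ℕ)
    (h𝒰 : (𝒰 : Filter ℕ) ≤ atTop) (b : ℕ → ℝ → BB n) (hb : ∀ t, Tendsto (fun M => b M t) 𝒰 (𝓝 (bI t)))
    (U : ℕ → E n → ℝ) (hU : ∀ M, ContDiff ℝ ∞ (U M))
    (hbd : ∀ m R, ∃ C : ℝ, ∀ᶠ M in 𝒰, ∀ x : E n, ‖x‖ ≤ R → ‖iteratedFDeriv ℝ m (U M) x‖ ≤ C)
    (hw : ∀ M t, ∀ w ∈ Plt n M, ∫ x : Sp n, resid (U M) (Real.exp t) (pf n l t) (Kf l (b M) t) w x ∂sig n = 0) :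
    ∃ f : E n → ℝ, IsHarmonicOn (metric l bI) univ f ∧ (∀ x, Tendsto (fun M => U M x) 𝒰 (𝓝 (f x))) ∧
      ∀ r > 0, ∀ η > 0, ∀ᶠ M in 𝒰, ∀ x : Sp n, |U M (r • (x : E n)) - f (r • (x : E n))| ≤ η := by
  obtain ⟨f, h1, h2, h3⟩ := limit_harmonic_real hn hI 𝒰 h𝒰 b hb U hU hbd hw
  refine ⟨f, h1, h2, fun r hr η hη => ?_⟩
  simpa only [Nat.cast_smul_eq_nsmul] using h3 r (by exact_mod_cast hr) η hη

end Crest.Agent.R202
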