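import Crest.Agent.R202.Defs

/-! # Row 202, Sph1: rotations, integration by parts on the sphere, commutators -/

set_option autoImplicit false
open scoped ContDiff RealInnerProductSpace
open Set Filter Topology MeasureTheory Crest.GeometryTopology.CoordMetric

noncomputable section
namespace Crest.Agent.R202

variable {n : ℕ}

theorem sph1a_map (g : E n ≃ₗᵢ[ℝ] E n) : (sig n).map (sphMap g) = sig n := by
  ext s hs
  have hm := (sphMap g).continuous.measurable
  rw [Measure.map_apply hm hs, sig, Measure.toSphere_apply' _ (hm hs), Measure.toSphere_apply' _ hs]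
  congr 1
  refine Eq.trans ?_ (g.measurePreserving.measure_preimage_emb g.toHomeomorph.measurableEmbedding _)
  congr 1
  ext x
  simp only [Set.mem_preimage, Set.mem_smul, Set.mem_image]
  constructor
  · rintro ⟨r, hr, _, ⟨y, hy, rfl⟩, rfl⟩
    exact ⟨r, hr, _, ⟨_, hy, rfl⟩, by simp⟩
  · rintro ⟨r, hr, _, ⟨y, hy, rfl⟩, e⟩
    have hy' : sphMap g (sphMap g.symm y) = y := Subtype.ext (by simp)
    refine ⟨r, hr, _, ⟨sphMap g.symm y, by rwa [hy'], rfl⟩, ?_⟩
    apply g.injective
    simp [e]

/-- invariance of the surface measure (`Measure.toSphere_apply'`, `LinearIsometryEquiv.measurePreserving`; see `R167/Defs`, `R322/Sphere`) -/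
theorem integ_actC (g : E n ≃ₗᵢ[ℝ] E n) (F : CS n) : integ n (actC g F) = integ n F := by
  rw [integ_apply, integ_apply]
  conv_rhs => rw [← sph1a_map g]
  rw [integral_map (sphMap g).continuous.measurable.aemeasurable F.continuous.aestronglyMeasurable]
  rfl

theorem integ_nonneg {F : CS n} (h : ∀ x, 0 ≤ F x) : 0 ≤ integ n F := by
  exact integral_nonneg h
theorem integ_mono {F G : CS n} (h : ∀ x, F x ≤ G x) : integ n F ≤ integ n G := by
  exact integral_mono (CS.integrable F) (CS.integrable G) h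
theorem integ_eq_zero {F : CS n} (h : ∀ x, 0 ≤ F x) (h0 : integ n F = 0) : F = 0 := by
  rw [integ_apply, integral_eq_zero_iff_of_nonneg h (CS.integrable _)] at h0
  have h1 := (Continuous.ae_eq_iff_eq (sig n) F.continuous continuous_zero).1 h0
  ext x
  exact congrFun h1 x

theorem inner_act (g : E n ≃ₗᵢ[ℝ] E n) (u w : W n) : ⟪act g u, act g w⟫ = ⟪u, w⟫ := by
  rw [inner_W, inner_W, ← integ_actC g (res u * res w)]
  rfl

theorem sph1a_expand {F : Type*} [AddCommMonoid F] [Module ℝ F] (L : E n →ₗ[ℝ] F) (v : E n) :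
    L v = ∑ k, v k • L (EuclideanSpace.single k 1) := by
  conv_lhs => rw [← (EuclideanSpace.basisFun (Fin n) ℝ).sum_repr v]
  simp

theorem sph1a_grad (g : E n ≃ₗᵢ[ℝ] E n) (u : W n) (i : Fin n) (x : Sp n) :
    grad i (act g u) x = fderiv ℝ u (g x) (g (EuclideanSpace.single i 1)) := by
  have := g.toContinuousLinearEquiv.comp_right_fderiv (f := u) (x := x)
  exact congrArg (fun L : E n →L[ℝ] ℝ => L (EuclideanSpace.single i 1)) this

theorem sph1a_ent_dot (g : E n ≃ₗᵢ[ℝ] E n) (i : Fin n) (v : E n) :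
    ∑ k, ent g k i * g v k = v i := by
  have := g.inner_map_map (EuclideanSpace.single i 1) v
  rw [EuclideanSpace.inner_single_left, PiLp.inner_apply] at this
  simpa [ent, mul_comm] using this

theorem sph1a_orth (g : E n ≃ₗᵢ[ℝ] E n) :
    (Matrix.of (ent g)).transpose * Matrix.of (ent g) = 1 := by
  ext i j
  have := sph1a_ent_dot g i (EuclideanSpace.single j 1)
  simp only [Matrix.mul_apply, Matrix.transpose_apply, Matrix.of_apply, Matrix.one_apply]
  rw [PiLp.single_apply] at this
  exact this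

theorem sph1a_at (g : E n ≃ₗᵢ[ℝ] E n) (K : X n) (x : Sp n) :
    (actX g K).at x = (Matrix.of (ent g)).transpose * K.at (sphMap g x) * Matrix.of (ent g) := by
  ext i j
  simp only [X.at, Matrix.of_apply, actX_apply, Matrix.mul_apply, Matrix.transpose_apply,
    Finset.sum_mul]
  rw [Finset.sum_comm]
  refine Finset.sum_congr rfl fun l _ => Finset.sum_congr rfl fun k _ => ?_
  ring

theorem sph1a_X_ext {K K' : X n} (h : ∀ x, K.at x = K'.at x) : K = K' := by
  funext i j
  ext x
  exact congrFun (congrFun (h x) i) j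

theorem sph1a_pt (K : X n) (u w : W n) (x : Sp n) :
    (∑ i, ∑ j, K i j * (grad i u * grad j w)) x = gv u x ⬝ᵥ (K.at x).mulVec (gv w x) := by
  simp only [ContinuousMap.coe_sum, Finset.sum_apply, ContinuousMap.mul_apply, dotProduct,
    Matrix.mulVec, gv, X.at, Matrix.of_apply, Finset.mul_sum]
  refine Finset.sum_congr rfl fun i _ => Finset.sum_congr rfl fun j _ => ?_
  ring

/-- `∇(u ∘ g)(x) = gᵀ ∇u (g x)` -/
theorem grad_act (g : E n ≃ₗᵢ[ℝ] E n) (u : W n) (i : Fin n) (x : Sp n) :
    grad i (act g u) x = ∑ k, ent g k i * grad k u (sphMap g x) := by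
  rw [sph1a_grad]
  exact sph1a_expand (fderiv ℝ u (g x) : E n →ₗ[ℝ] ℝ) _

theorem sph1a_gv (g : E n ≃ₗᵢ[ℝ] E n) (u : W n) (x : Sp n) :
    gv (act g u) x = (Matrix.of (ent g)).transpose.mulVec (gv u (sphMap g x)) := by
  funext i
  exact grad_act g u i x

theorem sph1a_form_pt (g : E n ≃ₗᵢ[ℝ] E n) (K : X n) (u w : W n) (x : Sp n) :
    (∑ i, ∑ j, actX g K i j * (grad i (act g u) * grad j (act g w))) x =
      (∑ i, ∑ j, K i j * (grad i u * grad j w)) (sphMap g x) := by
  have h := mul_eq_one_comm.1 (sph1a_orth g)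
  rw [sph1a_pt, sph1a_pt, sph1a_at, sph1a_gv, sph1a_gv, Matrix.mulVec_mulVec, Matrix.mul_assoc, h,
    Matrix.mul_one, ← Matrix.mulVec_mulVec, Matrix.dotProduct_mulVec, Matrix.vecMul_transpose,
    Matrix.mulVec_mulVec, h, Matrix.one_mulVec]

theorem form_act (g : E n ≃ₗᵢ[ℝ] E n) (K : X n) (u w : W n) :
    form (actX g K) (act g u) (act g w) = form K u w := by
  rw [form_apply, form_apply, ← integ_actC g (∑ i, ∑ j, K i j * (grad i u * grad j w))]
  congr 1
  ext x
  exact sph1a_form_pt g K u w x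

theorem actX_PiX (g : E n ≃ₗᵢ[ℝ] E n) : actX g (PiX n) = PiX n := by
  funext i j
  ext x
  have h1 := congrFun (congrFun (sph1a_orth g) i) j
  simp only [Matrix.mul_apply, Matrix.transpose_apply, Matrix.of_apply, Matrix.one_apply] at h1
  rw [actX_apply]
  change ∑ k, ∑ l, ent g k i * ent g l j * ((if k = l then 1 else 0) - g x k * g x l) =
    (if i = j then 1 else 0) - (x : E n) i * (x : E n) j
  rw [← h1, ← sph1a_ent_dot g i x, ← sph1a_ent_dot g j x, Finset.sum_mul_sum,
    ← Finset.sum_sub_distrib]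
  refine Finset.sum_congr rfl fun k _ => ?_
  simp only [mul_sub, Finset.sum_sub_distrib, mul_ite, mul_one, mul_zero, Finset.sum_ite_eq,
    Finset.mem_univ, if_true]
  congr 1
  exact Finset.sum_congr rfl fun l _ => by ring
theorem actX_trans (g h : E n ≃ₗᵢ[ℝ] E n) (K : X n) : actX g (actX h K) = actX (g.trans h) K := by
  have h1 : Matrix.of (ent (g.trans h)) = Matrix.of (ent h) * Matrix.of (ent g) := by
    ext a i
    have := congrArg (fun v : E n => v a)
      (sph1a_expand (h.toLinearEquiv : E n →ₗ[ℝ] E n) (g (EuclideanSpace.single i 1)))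
    simpa [ent, Matrix.mul_apply, mul_comm] using this
  refine sph1a_X_ext fun x => ?_
  rw [sph1a_at, sph1a_at, sph1a_at, h1, Matrix.transpose_mul]
  simp only [Matrix.mul_assoc]
  rfl
theorem actX_refl (K : X n) : actX (LinearIsometryEquiv.refl ℝ (E n)) K = K := by
  have h1 : Matrix.of (ent (LinearIsometryEquiv.refl ℝ (E n))) = 1 := by
    ext a i
    simp [ent, Matrix.one_apply, PiLp.single_apply]
  refine sph1a_X_ext fun x => ?_
  rw [sph1a_at, h1, Matrix.transpose_one, Matrix.one_mul, Matrix.mul_one]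
  rfl

theorem sph1a_inner (π : Plane n) (s : ℝ) (x : E n) :
    ⟪π.e, rot π s x⟫ = Real.cos s * ⟪π.e, x⟫ - Real.sin s * ⟪π.e', x⟫ ∧
    ⟪π.e', rot π s x⟫ = Real.cos s * ⟪π.e', x⟫ + Real.sin s * ⟪π.e, x⟫ := by
  have h1 : ⟪π.e, π.e⟫ = 1 := by rw [real_inner_self_eq_norm_sq, π.he]; norm_num
  have h2 : ⟪π.e', π.e'⟫ = 1 := by rw [real_inner_self_eq_norm_sq, π.he']; norm_num
  have h3 := π.orth
  have h4 : ⟪π.e', π.e⟫ = 0 := by rw [real_inner_comm]; exact h3
  simp only [rot_apply, Plane.gen, gen_apply, inner_add_right, inner_sub_right,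
    real_inner_smul_right, h1, h2, h3, h4]
  constructor <;> ring

theorem rot_zero (π : Plane n) : rot π 0 = LinearIsometryEquiv.refl ℝ (E n) := by
  ext1 x
  simp [rot_apply]
theorem rot_add (π : Plane n) (s t : ℝ) : rot π (s + t) = (rot π s).trans (rot π t) := by
  ext1 x
  rw [LinearIsometryEquiv.trans_apply, rot_apply π t, Plane.gen, gen_apply,
    (sph1a_inner π s x).1, (sph1a_inner π s x).2, rot_apply, rot_apply, Plane.gen, gen_apply,
    Real.cos_add, Real.sin_add]
  match_scalars <;> ring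
theorem hasDerivAt_rot (π : Plane n) (x : E n) (s : ℝ) :
    HasDerivAt (fun s => rot π s x) (π.gen (rot π s x)) s := by
  have h := ((((Real.hasDerivAt_cos s).sub_const 1).smul_const
    (⟪π.e, x⟫ • π.e + ⟪π.e', x⟫ • π.e')).const_add x).add
    ((Real.hasDerivAt_sin s).smul_const (π.gen x))
  refine h.congr_deriv ?_
  rw [Plane.gen, gen_apply, gen_apply, (sph1a_inner π s x).1, (sph1a_inner π s x).2]
  match_scalars <;> ring
/-- any two points of the sphere are joined by a plane rotation -/
theorem exists_rot (hn : 2 ≤ n) (x y : Sp n) : ∃ (π : Plane n) (s : ℝ), rot π s x = y := by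
  have hx := Sp.norm_eq x
  have hxx : ⟪(x : E n), (x : E n)⟫ = 1 := by rw [real_inner_self_eq_norm_sq, hx]; norm_num
  set c : ℝ := ⟪(x : E n), (y : E n)⟫ with hc
  set v : E n := y - c • (x : E n) with hv
  have hxv : ⟪(x : E n), v⟫ = 0 := by
    rw [hv, inner_sub_right, real_inner_smul_right, hxx, ← hc]; ring
  obtain ⟨e', he', ho, hve⟩ : ∃ e' : E n, ‖e'‖ = 1 ∧ ⟪(x : E n), e'⟫ = 0 ∧ v = ‖v‖ • e' := by
    by_cases h0 : v = 0
    · obtain ⟨z, hz, hz0⟩ := (Submodule.ne_bot_iff _).1
        ((innerSL ℝ (x : E n)).toLinearMap.ker_ne_bot_of_finrank_lt (by simp; omega))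
      have hz' : ⟪(x : E n), z⟫ = 0 := hz
      exact ⟨‖z‖⁻¹ • z, by simp [norm_smul, hz0], by rw [real_inner_smul_right, hz', mul_zero],
        by simp [h0]⟩
    · exact ⟨‖v‖⁻¹ • v, by simp [norm_smul, h0], by rw [real_inner_smul_right, hxv, mul_zero],
        by rw [smul_smul, mul_inv_cancel₀ (norm_ne_zero_iff.2 h0), one_smul]⟩
  have hc1 : |c| ≤ 1 := by
    have := abs_real_inner_le_norm (x : E n) (y : E n)
    rwa [hx, Sp.norm_eq y, one_mul] at this
  have hvn : ‖v‖ ^ 2 = 1 - c ^ 2 := by
    rw [hv, norm_sub_sq_real, real_inner_smul_right, real_inner_comm, ← hc, norm_smul, hx,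
      Sp.norm_eq y, mul_one, Real.norm_eq_abs, sq_abs]
    ring
  have hs : Real.sin (Real.arccos c) = ‖v‖ := by
    rw [Real.sin_arccos, ← hvn, Real.sqrt_sq (norm_nonneg _)]
  refine ⟨⟨x, e', hx, he', ho⟩, Real.arccos c, ?_⟩
  rw [rot_apply, Plane.gen, gen_apply, Real.cos_arccos (abs_le.1 hc1).1 (abs_le.1 hc1).2, hs]
  simp only [hxx, real_inner_comm (x : E n) e', ho, one_smul, zero_smul, add_zero, sub_zero]
  rw [← hve, hv]
  module

/-- **(Inv)**  `F(R_s x) - F(x) = ∫₀ˢ F'(R_τ x) dτ` (derivative at `τ` from the group law); integrate over the sphere, Fubini,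
invariance: `0 = s ∫ F'`. -/
theorem integ_orbit (π : Plane n) (F F' : CS n)
    (h : ∀ x : Sp n, HasDerivAt (fun s => F (sphMap (rot π s) x)) (F' x) 0) : integ n F' = 0 := by
  have h1 := (hasDerivAt_integral_of_dominated_loc_of_deriv_le (μ := sig n) (x₀ := (0 : ℝ))
    (F := fun s x => F (sphMap (rot π s) x)) (F' := fun s x => F' (sphMap (rot π s) x))
    (bound := fun _ => ‖F'‖) (s := univ) univ_mem
    (Eventually.of_forall fun s => (actC (rot π s) F).continuous.aestronglyMeasurable)
    (CS.integrable (actC (rot π 0) F)) (actC (rot π 0) F').continuous.aestronglyMeasurable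
    (Eventually.of_forall fun x s _ => F'.norm_coe_le_norm _) (integrable_const _)
    (Eventually.of_forall fun x s _ => by
      have h2 := HasDerivAt.comp_sub_const s s
        (f := fun t => F (sphMap (rot π t) (sphMap (rot π s) x)))
        (by rw [sub_self]; exact h (sphMap (rot π s) x))
      refine h2.congr_of_eventuallyEq (Eventually.of_forall fun t => ?_)
      have : sphMap (rot π t) x = sphMap (rot π (t - s)) (sphMap (rot π s) x) := by
        apply Subtype.ext
        simp only [sphMap_coe]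
        rw [← LinearIsometryEquiv.trans_apply, ← rot_add, add_sub_cancel]
      simp only [this])).2
  have h2 : (fun s => ∫ x, F (sphMap (rot π s) x) ∂sig n) = fun _ => integ n F :=
    funext fun s => integ_actC (rot π s) F
  rw [h2] at h1
  rw [← integ_actC (rot π 0) F']
  exact h1.unique (hasDerivAt_const _ _)

theorem sph1a_rot0 (π : Plane n) (x : E n) : rot π 0 x = x := by rw [rot_zero]; rfl

theorem sph1a_deriv0 (π : Plane n) (x : E n) : HasDerivAt (fun s => rot π s x) (π.gen x) 0 := by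
  have := hasDerivAt_rot π x 0
  rwa [sph1a_rot0] at this

theorem sph1a_act0 (π : Plane n) (u : W n) : act (rot π 0) u = u := by
  ext x
  rw [act_apply, sph1a_rot0]

theorem hasDerivAt_orbit (π : Plane n) (u : W n) (x : Sp n) :
    HasDerivAt (fun s => u (rot π s x)) (π.L u x) 0 := by
  exact (u.differentiableAt (Sp.ne_zero x)).hasFDerivAt.comp_hasDerivAt_of_eq 0
    (sph1a_deriv0 π x) (sph1a_rot0 π x).symm
/-- `d/ds ∇(u ∘ R_s)(x) = Ξᵀ∇u + D²u Ξx = ∇(L u)(x)` (symmetry of the second derivative) -/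
theorem hasDerivAt_grad_orbit (π : Plane n) (u : W n) (i : Fin n) (x : Sp n) :
    HasDerivAt (fun s => grad i (act (rot π s) u) x) (grad i (π.L u) x) 0 := by
  have hx := Sp.ne_zero x
  have hd := ((u.contDiffAt_fderiv hx).differentiableAt (by simp)).hasFDerivAt
  have h1 := (hd.comp_hasDerivAt_of_eq 0 (sph1a_deriv0 π x) (sph1a_rot0 π x).symm).clm_apply
    (sph1a_deriv0 π (EuclideanSpace.single i 1))
  simp only [sph1a_grad]
  refine h1.congr_deriv ?_
  have h2 := (hd.clm_apply π.gen.hasFDerivAt).fderiv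
  have h3 : grad i (π.L u) x =
      fderiv ℝ (fun y => fderiv ℝ u y (π.gen y)) x (EuclideanSpace.single i 1) := rfl
  have h4 := (u.contDiffAt hx).isSymmSndFDerivAt
    (by rw [minSmoothness_of_isRCLikeNormedField]
        exact WithTop.coe_le_coe.2 (le_top : (2 : ℕ∞) ≤ ⊤)) (π.gen x) (EuclideanSpace.single i 1)
  rw [h3, h2]
  simp only [Function.comp_apply, sph1a_rot0, ContinuousLinearMap.add_apply,
    ContinuousLinearMap.comp_apply, ContinuousLinearMap.flip_apply, h4]
  ring

/-- **commutator**: `integ_orbit` for `F = K(∇u,∇w)`, using `F(R_s x) = (R_s•K)(x)(∇(u∘R_s)(x), ∇(w∘R_s)(x))`. -/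
theorem comm_orbit (π : Plane n) {K K₁ : X n} (h : HasDerivAt (fun s => actX (rot π s) K) K₁ 0)
    (u w : W n) : form K (π.L u) w + form K u (π.L w) + form K₁ u w = 0 := by
  have h0 := integ_orbit π (∑ i, ∑ j, K i j * (grad i u * grad j w))
    (∑ i, ∑ j, K i j * (grad i (π.L u) * grad j w) + ∑ i, ∑ j, K i j * (grad i u * grad j (π.L w))
      + ∑ i, ∑ j, K₁ i j * (grad i u * grad j w)) fun x => by
    simp only [← sph1a_form_pt]
    simp only [ContinuousMap.coe_sum, Finset.sum_apply, ContinuousMap.mul_apply,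
      ContinuousMap.add_apply, ← Finset.sum_add_distrib]
    refine HasDerivAt.fun_sum fun i _ => HasDerivAt.fun_sum fun j _ => ?_
    have a1 : HasDerivAt (fun s => actX (rot π s) K i j x) (K₁ i j x) 0 :=
      (ContinuousMap.evalCLM ℝ x : CS n →L[ℝ] ℝ).hasFDerivAt.comp_hasDerivAt 0
        (hasDerivAt_pi.1 (hasDerivAt_pi.1 h i) j)
    refine (a1.fun_mul ((hasDerivAt_grad_orbit π u i x).fun_mul
      (hasDerivAt_grad_orbit π w j x))).congr_deriv ?_
    rw [sph1a_act0, sph1a_act0, rot_zero, actX_refl]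
    ring
  rwa [map_add, map_add] at h0

theorem orbD_zero (π : Plane n) (K : X n) : orbD π 0 K = K := by
  rw [orbD, iteratedDeriv_zero, rot_zero, actX_refl]

/-- `actX (rot π s) (orbD π j K) = iteratedDeriv j (fun s => actX (rot π s) K) s` by the group law, since continuous linear maps
commute with `iteratedDeriv` and `iteratedDeriv_comp_add_const` -/
theorem hasDerivAt_orbD (π : Plane n) {K : X n} (h : ContDiff ℝ ∞ fun s => actX (rot π s) K) (j : ℕ) :
    HasDerivAt (fun s => actX (rot π s) (orbD π j K)) (orbD π (j + 1) K) 0 := by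
  have h1 : (fun s => actX (rot π s) (orbD π j K)) =
      iteratedDeriv j (fun s => actX (rot π s) K) := by
    funext s
    have a1 := (actX (rot π s)).iteratedFDeriv_comp_left (h.contDiffAt (x := 0)) (i := j)
      (by exact_mod_cast le_top)
    have a2 : (actX (rot π s)) ∘ (fun t => actX (rot π t) K) =
        fun t => (fun r => actX (rot π r) K) (s + t) := by
      funext t
      simp only [Function.comp_apply, actX_trans, rot_add]
    have a3 := congrFun (iteratedDeriv_comp_const_add j (fun r => actX (rot π r) K) s) 0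
    rw [add_zero] at a3
    rw [← a3, ← a2, iteratedDeriv_eq_iteratedFDeriv, a1]
    rfl
  rw [h1, orbD, iteratedDeriv_succ]
  exact (h.differentiable_iteratedDeriv j (by exact_mod_cast ENat.coe_lt_top j) 0).hasDerivAt

/-- iterated commutator (induction on `k`, Pascal's rule) -/
theorem comm_iter (π : Plane n) {K : X n} (h : ContDiff ℝ ∞ fun s => actX (rot π s) K) (k : ℕ)
    (u w : W n) : form K u ((π.L ^ k) w) =
      (-1) ^ k * ∑ i ∈ Finset.range (k + 1),
        (k.choose i : ℝ) * form (orbD π i K) ((π.L ^ (k - i)) u) w := by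
  induction k generalizing w with
  | zero => simp [orbD_zero]
  | succ k ih =>
    have h1 : (π.L ^ (k + 1)) w = (π.L ^ k) (π.L w) := by rw [pow_succ]; rfl
    rw [h1, ih, Finset.sum_choose_succ_mul (fun i m => form (orbD π i K) ((π.L ^ m) u) w) k,
      pow_succ, mul_assoc, neg_one_mul, ← Finset.sum_add_distrib, ← Finset.sum_neg_distrib]
    congr 1
    refine Finset.sum_congr rfl fun i hi => ?_
    have hi' : k + 1 - i = (k - i) + 1 := by have := Finset.mem_range.1 hi; omega
    have h2 := comm_orbit π (hasDerivAt_orbD π h i) ((π.L ^ (k - i)) u) w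
    have h3 : (π.L ^ (k - i + 1)) u = π.L ((π.L ^ (k - i)) u) := by rw [pow_succ']; rfl
    rw [hi', h3]
    linear_combination (k.choose i : ℝ) * h2

end Crest.Agent.R202
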