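import Crest.Agent.R202.Defs
import Crest.Agent.R202.Sph1a

/-! # Row 202, Sph1: rotations, integration by parts on the sphere, commutators -/

set_option autoImplicit false
open scoped ContDiff RealInnerProductSpace
open Set Filter Topology MeasureTheory Crest.GeometryTopology.CoordMetric

noncomputable section
namespace Crest.Agent.R202

variable {n : ℕ}

theorem sph1_fderiv (A : E n →L[ℝ] ℝ) (v : E n) :
    A v = ∑ i, A (EuclideanSpace.single i 1) * v i := by
  conv_lhs => rw [← (EuclideanSpace.basisFun (Fin n) ℝ).sum_repr v]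
  simp [mul_comm]

theorem sph1_mul (u w : W n) (x : Sp n) (v : E n) :
    fderiv ℝ (mulW u w) x v = fderiv ℝ u x v * w x + u x * fderiv ℝ w x v := by
  have := fderiv_fun_mul (u.differentiableAt (Sp.ne_zero x)) (w.differentiableAt (Sp.ne_zero x))
  change fderiv ℝ (fun y => u y * w y) x v = _
  rw [this]
  simp only [add_apply, smul_apply, smul_eq_mul]
  ring

theorem sph1_sq (x : Sp n) : ∑ i, (x : E n) i * (x : E n) i = 1 := by
  have := EuclideanSpace.real_norm_sq_eq (x : E n)
  rw [Sp.norm_eq x] at this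
  simpa [sq] using this.symm

theorem sph1_cs {A B F c : ℝ} (hc : 0 ≤ c) (hA : 0 ≤ A)
    (h : ∀ t : ℝ, 0 ≤ c * A * (t * t) + 2 * F * t + c * B) : |F| ≤ c * (√A * √B) := by
  have := discrim_le_zero h
  rw [← Real.sqrt_mul hA, ← Real.sqrt_sq hc, ← Real.sqrt_mul (sq_nonneg c)]
  exact Real.abs_le_sqrt (by unfold discrim at this; nlinarith)

theorem Lv_mulW (Ξ : E n →L[ℝ] E n) (u w : W n) :
    Lv Ξ (mulW u w) = mulW (Lv Ξ u) w + mulW u (Lv Ξ w) :=
  W.eq_of_sphere fun x => sph1_mul u w x _
theorem grad_mulW (i : Fin n) (u w : W n) :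
    grad i (mulW u w) = grad i u * res w + res u * grad i w :=
  ContinuousMap.ext fun x => sph1_mul u w x _
theorem Lv_oneW (Ξ : E n →L[ℝ] E n) : Lv Ξ (oneW : W n) = 0 := by
  refine W.eq_of_sphere fun x => ?_
  have : (oneW : W n) =ᶠ[𝓝 (x : E n)] fun _ => 1 := by
    filter_upwards [isOpen_compl_singleton.mem_nhds (Sp.ne_zero x)] with y hy
    simp [oneW, toW_apply_of_ne _ hy]
  simp [this.fderiv_eq]
theorem Lv_sphere (Ξ : E n →L[ℝ] E n) (u : W n) (x : Sp n) :
    Lv Ξ u x = ∑ i, grad i u x * Ξ x i := sph1_fderiv _ _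
/-- Euler: the gradient is tangential -/
theorem grad_tang (u : W n) (x : Sp n) : ∑ i, grad i u x * (x : E n) i = 0 := by
  have h1 : HasDerivAt (fun c : ℝ => u (c • (x : E n))) (fderiv ℝ u x x) 1 := by
    have h := (u.differentiableAt (Sp.ne_zero x)).hasFDerivAt
    have h' := HasFDerivAt.comp_hasDerivAt_of_eq (1 : ℝ) h
      ((hasDerivAt_id (1 : ℝ)).smul_const (x : E n)) (by simp)
    rwa [one_smul] at h'
  have h2 : HasDerivAt (fun c : ℝ => u (c • (x : E n))) 0 1 := by
    refine (hasDerivAt_const (1 : ℝ) (u x)).congr_of_eventuallyEq ?_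
    filter_upwards [lt_mem_nhds one_pos] with c hc using u.homog hc x
  exact (sph1_fderiv _ _).symm.trans (h1.unique h2)

theorem Plane.L_skew (π : Plane n) (u w : W n) : ⟪π.L u, w⟫ = -⟪u, π.L w⟫ := by
  have := integ_orbit π (res u * res w) (res (π.L u) * res w + res u * res (π.L w)) fun x => by
    simpa [rot_zero] using (hasDerivAt_orbit π u x).fun_mul (hasDerivAt_orbit π w x)
  rw [map_add] at this
  exact eq_neg_of_add_eq_zero_left this
theorem sph1_self (i : Fin n) : (Lij i i : W n →ₗ[ℝ] W n) = 0 := by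
  ext u x
  simp [Lij]
theorem Lij_skew (i j : Fin n) (u w : W n) : ⟪Lij i j u, w⟫ = -⟪u, Lij i j w⟫ := by
  rcases eq_or_ne i j with rfl | h
  · simp [sph1_self]
  · exact (Plane.coord i j h).L_skew u w
theorem Lij_self (i : Fin n) : (Lij i i : W n →ₗ[ℝ] W n) = 0 := sph1_self i
theorem Lij_eq (i j : Fin n) (h : i ≠ j) : (Lij i j : W n →ₗ[ℝ] W n) = (Plane.coord i j h).L := rfl
theorem Lij_sphere (i j : Fin n) (u : W n) (x : Sp n) :
    Lij i j u x = (x : E n) i * grad j u x - (x : E n) j * grad i u x := by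
  simp [Lij, EuclideanSpace.inner_single_left]
/-- a reflection anticommutes with the rotation fields of its coordinate -/
theorem act_refl_Lij (i j : Fin n) (h : i ≠ j) (u : W n) :
    act (refl i) (Lij i j u) = -Lij i j (act (refl i) u) := by
  ext x
  have h1 := (refl i).toContinuousLinearEquiv.comp_right_fderiv (f := u) (x := x)
  change fderiv ℝ u (refl i x) _ = -fderiv ℝ (u ∘ (refl i).toContinuousLinearEquiv) x _
  rw [h1, ← map_neg]
  change _ = fderiv ℝ u (refl i x) (refl i _)
  congr 1
  ext k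
  by_cases hi : k = i <;> by_cases hj : k = j <;>
    simp_all [refl_apply, EuclideanSpace.inner_single_left, h.symm]
theorem act_refl_refl (i : Fin n) (u : W n) : act (refl i) (act (refl i) u) = u := by
  ext x
  rw [act_apply, act_apply]
  congr 1
  ext k
  by_cases h : k = i <;> simp [refl_apply, h]

theorem form_PiX (u w : W n) : form (PiX n) u w = integ n (∑ i, grad i u * grad i w) := by
  rw [form_apply]
  congr 1
  ext x
  have h := congrArg₂ (· * ·) (grad_tang u x) (grad_tang w x)
  simp only [Finset.sum_mul_sum, mul_zero] at h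
  simp only [ContinuousMap.sum_apply, ContinuousMap.mul_apply, PiX, ContinuousMap.coe_mk, sub_mul,
    Finset.sum_sub_distrib, ite_mul, one_mul, zero_mul, Finset.sum_ite_eq, Finset.mem_univ,
    if_true, sub_eq_self]
  rw [← h]
  exact Finset.sum_congr rfl fun i _ => Finset.sum_congr rfl fun j _ => by ring
/-- pointwise `Σ_{ij} L_{ij}u L_{ij}w = 2 ∇u·∇w` on the unit sphere -/
theorem form_PiX_Lij (u w : W n) : form (PiX n) u w = (1 / 2) * ∑ i, ∑ j, ⟪Lij i j u, Lij i j w⟫ := by
  simp only [form_PiX, inner_W, ← map_sum]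
  rw [← smul_eq_mul, ← map_smul]
  congr 1
  ext x
  have h := congrArg₂ (· * ·) (grad_tang u x) (grad_tang w x)
  have h2 := congrArg (· * ∑ i, grad i u x * grad i w x) (sph1_sq x)
  simp only [Finset.sum_mul_sum, mul_zero, one_mul] at h h2
  simp only [ContinuousMap.sum_apply, ContinuousMap.mul_apply, ContinuousMap.smul_apply, res_apply,
    Lij_sphere, smul_eq_mul]
  have e : ∀ i j, ((x : E n) i * grad j u x - (x : E n) j * grad i u x) *
      ((x : E n) i * grad j w x - (x : E n) j * grad i w x) =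
      (x : E n) i * (x : E n) i * (grad j u x * grad j w x) +
        (x : E n) j * (x : E n) j * (grad i u x * grad i w x) -
        grad i u x * (x : E n) i * (grad j w x * (x : E n) j) -
        grad j u x * (x : E n) j * (grad i w x * (x : E n) i) := fun i j => by ring
  simp only [e, Finset.sum_sub_distrib, Finset.sum_add_distrib]
  rw [h, h2, Finset.sum_comm, h2, Finset.sum_comm, h]
  ring
theorem form_PiX_nonneg (u : W n) : 0 ≤ form (PiX n) u u := by
  rw [form_PiX]
  refine integ_nonneg fun x => ?_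
  rw [ContinuousMap.sum_apply]
  exact Finset.sum_nonneg fun i _ => mul_self_nonneg _
theorem form_PiX_symm (u w : W n) : form (PiX n) u w = form (PiX n) w u := by
  simp only [form_PiX, mul_comm]
theorem gr_sq (u : W n) : gr u ^ 2 = form (PiX n) u u := Real.sq_sqrt (form_PiX_nonneg u)
theorem gr_add_le (u w : W n) : gr (u + w) ≤ gr u + gr w := by
  have h := sph1_cs (F := form (PiX n) u w) (B := form (PiX n) w w) zero_le_one
    (form_PiX_nonneg u) fun t => by
      have := form_PiX_nonneg (t • u + w)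
      simp only [map_add, map_smul, LinearMap.add_apply, LinearMap.smul_apply, smul_eq_mul,
        form_PiX_symm w u] at this
      linarith
  refine Real.sqrt_le_iff.2 ⟨add_nonneg (Real.sqrt_nonneg _) (Real.sqrt_nonneg _), ?_⟩
  simp only [map_add, LinearMap.add_apply, form_PiX_symm w u, add_sq, gr_sq]
  unfold gr
  linarith [le_abs_self (form (PiX n) u w)]
theorem gr_smul (c : ℝ) (u : W n) : gr (c • u) = |c| * gr u := by
  simp only [gr, map_smul, LinearMap.smul_apply, smul_eq_mul]
  rw [← mul_assoc, Real.sqrt_mul (mul_self_nonneg c), Real.sqrt_mul_self_eq_abs]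
/-- pointwise `|L u| ≤ |∇u|` because `|Ξ x| ≤ 1` -/
theorem Plane.L_sq_le (π : Plane n) (u : W n) (x : Sp n) : π.L u x ^ 2 ≤ ∑ i, grad i u x ^ 2 := by
  have h1 : ⟪π.e, π.e⟫ = 1 := by rw [real_inner_self_eq_norm_sq, π.he, one_pow]
  have h2 : ⟪π.e', π.e'⟫ = 1 := by rw [real_inner_self_eq_norm_sq, π.he', one_pow]
  have h3 := π.orth
  have h4 : ⟪π.e', π.e⟫ = 0 := by rw [real_inner_comm, h3]
  have h5 : ⟪(x : E n), (x : E n)⟫ = 1 := by rw [real_inner_self_eq_norm_sq, Sp.norm_eq x, one_pow]
  have h6 := real_inner_self_nonneg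
    (x := (x : E n) - (⟪π.e, (x : E n)⟫ • π.e + ⟪π.e', (x : E n)⟫ • π.e'))
  have h7 : ∑ i, π.gen x i ^ 2 ≤ 1 := by
    rw [← EuclideanSpace.real_norm_sq_eq, ← real_inner_self_eq_norm_sq]
    simp only [Plane.gen, gen_apply, inner_add_left, inner_add_right, inner_sub_left,
      inner_sub_right, real_inner_smul_left, real_inner_smul_right, h1, h2, h3, h4, h5,
      real_inner_comm π.e (x : E n), real_inner_comm π.e' (x : E n)] at h6 ⊢
    linarith
  rw [Plane.L, Lv_sphere]
  exact (Finset.sum_mul_sq_le_sq_mul_sq _ _ _).trans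
    (mul_le_of_le_one_right (Finset.sum_nonneg fun _ _ => sq_nonneg _) h7)
theorem Plane.norm_L_le (π : Plane n) (u : W n) : ‖π.L u‖ ≤ gr u := by
  refine Real.le_sqrt_of_sq_le ?_
  rw [← real_inner_self_eq_norm_sq, inner_W, form_PiX]
  refine integ_mono fun x => ?_
  simpa [sq] using π.L_sq_le u x
theorem form_le (K : X n) (u w : W n) : |form K u w| ≤ n * ‖K‖ * (gr u * gr w) := by
  refine sph1_cs (by positivity) (form_PiX_nonneg u) fun t => ?_
  have := integ_nonneg (F := (n * ‖K‖ * (t * t)) • ∑ i, grad i u * grad i u +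
    (2 * t) • ∑ i, ∑ j, K i j * (grad i u * grad j w) + (n * ‖K‖) • ∑ i, grad i w * grad i w)
    fun x => by
      have h : 0 ≤ ∑ i, ∑ j, (‖K‖ * (t * t) * (grad i u x * grad i u x) +
          2 * t * (K i j x * (grad i u x * grad j w x)) + ‖K‖ * (grad j w x * grad j w x)) := by
        refine Finset.sum_nonneg fun i _ => Finset.sum_nonneg fun j _ => ?_
        have h1 : |K i j x| ≤ ‖K‖ := ((K i j).norm_coe_le_norm x).trans
          ((norm_le_pi_norm (K i) j).trans (norm_le_pi_norm K i))
        obtain ⟨h2, h3⟩ := abs_le.1 h1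
        nlinarith [mul_nonneg (sub_nonneg.2 h2) (sq_nonneg (t * grad i u x + grad j w x)),
          mul_nonneg (sub_nonneg.2 h3) (sq_nonneg (t * grad i u x - grad j w x))]
      refine h.trans_eq ?_
      simp only [Finset.sum_add_distrib, Finset.sum_const, Finset.card_univ, Fintype.card_fin,
        nsmul_eq_mul, ← Finset.mul_sum, ContinuousMap.add_apply, ContinuousMap.smul_apply,
        ContinuousMap.sum_apply, ContinuousMap.mul_apply, smul_eq_mul]
      ring
  simp only [map_add, map_smul, smul_eq_mul, ← form_PiX, ← form_apply] at this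
  linarith
theorem form_symm {K : X n} (hK : ∀ i j, K i j = K j i) (u w : W n) : form K u w = form K w u := by
  rw [form_apply, form_apply, Finset.sum_comm]
  congr 1
  exact Finset.sum_congr rfl fun i _ => Finset.sum_congr rfl fun j _ => by
    rw [hK j i, mul_comm (grad j u)]
/-- pointwise comparison of matrix fields on tangent vectors -/
theorem form_mono {K K' : X n} (u : W n)
    (h : ∀ x : Sp n, gv u x ⬝ᵥ (K.at x).mulVec (gv u x) ≤ gv u x ⬝ᵥ (K'.at x).mulVec (gv u x)) :
    form K u u ≤ form K' u u := by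
  refine integ_mono fun x => ?_
  have e : ∀ K : X n, (∑ i, ∑ j, K i j * (grad i u * grad j u)) x =
      gv u x ⬝ᵥ (K.at x).mulVec (gv u x) := fun K => by
    simp only [ContinuousMap.sum_apply, ContinuousMap.mul_apply, dotProduct, Matrix.mulVec, gv,
      X.at, Matrix.of_apply, Finset.mul_sum]
    exact Finset.sum_congr rfl fun i _ => Finset.sum_congr rfl fun j _ => mul_left_comm _ _ _
  rw [e, e]
  exact h x
/-- a function with zero gradient is constant (connect points by `exists_rot`) -/
theorem eq_const_of_gr (hn : 2 ≤ n) {u : W n} (h : gr u = 0) : ∃ c : ℝ, u = c • oneW := by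
  let x₀ : Sp n := ⟨EuclideanSpace.single ⟨0, by omega⟩ 1, by simp⟩
  refine ⟨u x₀, W.eq_of_sphere fun y => ?_⟩
  obtain ⟨π, s, hs⟩ := exists_rot hn x₀ y
  have h0 : π.L u = 0 := norm_le_zero_iff.1 (h ▸ π.norm_L_le u)
  have hd : ∀ t, HasDerivAt (fun t => u (rot π t x₀)) 0 t := fun t => by
    have h1 := (u.differentiableAt (Sp.ne_zero (sphMap (rot π t) x₀))).hasFDerivAt.comp_hasDerivAt t
      (hasDerivAt_rot π x₀ t)
    have h2 : π.L u (rot π t x₀) = 0 := by rw [h0, W.zero_apply]
    exact h2 ▸ h1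
  have := is_const_of_deriv_eq_zero (fun t => (hd t).differentiableAt) (fun t => (hd t).deriv) s 0
  simpa [hs, rot_zero] using this

end Crest.Agent.R202
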