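import Crest.Agent.R202.Gen1a
import Crest.Agent.R202.Sph1

/-! # Row 202, helpers for `HypXa`: weak limits of approximate eigenfunctions, cutoffs -/

set_option autoImplicit false
open scoped ContDiff RealInnerProductSpace
open Set Filter Topology MeasureTheory

noncomputable section
namespace Crest.Agent.R202

section Abstract
variable {V : Type*} [NormedAddCommGroup V] [InnerProductSpace ℝ V]

/-- the remainder after removing the first `k` components is small in norm -/
theorem EigSys.rem_le {q : BF V} (hq : Nice q) {lam : ℕ → ℝ} {φ : ℕ → V} (h : EigSys q lam φ)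
    (k : ℕ) (y : V) :
    lam k * ‖y - ∑ j ∈ Finset.range k, ⟪φ j, y⟫ • φ j‖ ^ 2 ≤ q y y := by
  set p := ∑ j ∈ Finset.range k, ⟪φ j, y⟫ • φ j with hp
  set r := y - p with hr
  have ho : ∀ j < k, ⟪φ j, r⟫ = 0 := by
    intro j hj
    rw [hr, inner_sub_right, hp, inner_sum]
    have h1 : ∀ l ∈ Finset.range k, ⟪φ j, ⟪φ l, y⟫ • φ l⟫ = if j = l then ⟪φ j, y⟫ else 0 := by
      intro l _
      rw [real_inner_smul_right, orthonormal_iff_ite.1 h.orth j l]
      split_ifs with hjl
      · subst hjl; simp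
      · simp
    rw [Finset.sum_congr rfl h1, Finset.sum_ite_eq]
    simp [hj]
  have hpr : q p r = 0 := by
    rw [hp, map_sum, LinearMap.sum_apply]
    refine Finset.sum_eq_zero fun j hj => ?_
    rw [map_smul, LinearMap.smul_apply, mem_eigsp.1 (h.eig j) r, ho j (Finset.mem_range.1 hj)]
    simp
  have hy : y = p + r := by rw [hr]; abel
  have h2 : q y y = q p p + q r r := by
    conv_lhs => rw [hy]
    simp only [map_add, LinearMap.add_apply, hq.symm r p, hpr]
    ring
  have h3 := h.compl k r ho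
  have h4 := hq.nonneg p
  linarith

/-- bounded approximate eigenvectors are weakly asymptotically in the eigenspace -/
theorem Nice.tendsto_inner_zero {q : BF V} (hq : Nice q) {s : ℝ} {ι : Type*} {l : Filter ι}
    (w : ι → V) {C : ℝ} (hC : ∀ d, ‖w d‖ ≤ C)
    (hw : ∀ y, Tendsto (fun d => q (w d) y - s * ⟪w d, y⟫) l (𝓝 0)) {y : V}
    (hy : ∀ u ∈ eigsp q s, ⟪u, y⟫ = 0) : Tendsto (fun d => ⟪w d, y⟫) l (𝓝 0) := by
  obtain ⟨lam, φ, h⟩ := hq.eig
  have h1 : ∀ j, Tendsto (fun d => ⟪φ j, y⟫ * ⟪w d, φ j⟫) l (𝓝 0) := by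
    intro j
    by_cases hj : lam j = s
    · have : ⟪φ j, y⟫ = 0 := hy _ (hj ▸ h.eig j)
      simpa [this] using tendsto_const_nhds
    · have h2 := (hw (φ j)).const_mul (⟪φ j, y⟫ / (lam j - s))
      rw [mul_zero] at h2
      refine h2.congr fun d => ?_
      rw [hq.symm, mem_eigsp.1 (h.eig j), real_inner_comm (w d) (φ j)]
      have : lam j - s ≠ 0 := sub_ne_zero.2 hj
      field_simp
  rw [Metric.tendsto_nhds]
  intro e he
  have hC1 : 0 < |C| + 1 := by positivity
  set η := e / (2 * (|C| + 1)) with hη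
  have hη0 : 0 < η := by positivity
  obtain ⟨k, hk⟩ := (h.tend.eventually (eventually_gt_atTop (max 0 (q y y / η ^ 2)))).exists
  have hk0 : 0 < lam k := lt_of_le_of_lt (le_max_left _ _) hk
  have hk1 : q y y / η ^ 2 < lam k := lt_of_le_of_lt (le_max_right _ _) hk
  have hr := h.rem_le hq k y
  set r := y - ∑ j ∈ Finset.range k, ⟪φ j, y⟫ • φ j with hrd
  have hr2 : ‖r‖ ≤ η := by
    rw [div_lt_iff₀ (by positivity)] at hk1
    have : ‖r‖ ^ 2 ≤ η ^ 2 := by
      by_contra hc
      push Not at hc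
      nlinarith
    exact (pow_le_pow_iff_left₀ (norm_nonneg _) hη0.le two_ne_zero).1 this
  have h3 : Tendsto (fun d => ∑ j ∈ Finset.range k, ⟪φ j, y⟫ * ⟪w d, φ j⟫) l (𝓝 0) := by
    have := tendsto_finsetSum (Finset.range k) fun j _ => h1 j
    simpa using this
  filter_upwards [(Metric.tendsto_nhds.1 h3) (e / 2) (by positivity)] with d hd
  rw [Real.dist_eq, sub_zero] at hd ⊢
  have h4 : ⟪w d, y⟫ = ∑ j ∈ Finset.range k, ⟪φ j, y⟫ * ⟪w d, φ j⟫ + ⟪w d, r⟫ := by
    rw [hrd, inner_sub_right, inner_sum]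
    simp only [real_inner_smul_right]
    ring
  have h5 : |⟪w d, r⟫| ≤ (|C| + 1) * η := by
    refine (abs_real_inner_le_norm _ _).trans ?_
    have := (hC d).trans (le_abs_self C)
    exact mul_le_mul (by linarith) hr2 (norm_nonneg _) hC1.le
  have h6 : (|C| + 1) * η = e / 2 := by rw [hη]; field_simp
  rw [h4]
  have := abs_add_le (∑ j ∈ Finset.range k, ⟪φ j, y⟫ * ⟪w d, φ j⟫) ⟪w d, r⟫
  linarith

/-- a map that is definite on a finite-dimensional subspace `S` hits every class modulo `Sᗮ` -/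
theorem exists_sub_orth (S : Submodule ℝ V) [FiniteDimensional ℝ S] (T : V →ₗ[ℝ] V)
    (hT : ∀ u ∈ S, ⟪u, T u⟫ = 0 → u = 0) (z : V) : ∃ ψ ∈ S, ∀ u ∈ S, ⟪u, z - T ψ⟫ = 0 := by
  have : CompleteSpace S := FiniteDimensional.complete ℝ S
  let A : S →ₗ[ℝ] S := (S.orthogonalProjectionOnto : V →ₗ[ℝ] S) ∘ₗ T ∘ₗ S.subtype
  have hA : ∀ (u v : S), ⟪u, A v⟫ = ⟪(u : V), T v⟫ := fun u v =>
    Submodule.inner_orthogonalProjectionOnto_eq_of_mem_left (K := S) u (T v)
  have hinj : Function.Injective A := by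
    rw [← LinearMap.ker_eq_bot, LinearMap.ker_eq_bot']
    intro v hv
    have := hA v v
    rw [hv, inner_zero_right] at this
    exact Subtype.ext (hT v v.2 this.symm)
  obtain ⟨ψ, hψ⟩ := (LinearMap.injective_iff_surjective.1 hinj) (S.orthogonalProjectionOnto z)
  refine ⟨ψ, ψ.2, fun u hu => ?_⟩
  have h1 := hA ⟨u, hu⟩ ψ
  rw [hψ, Submodule.inner_orthogonalProjectionOnto_eq_of_mem_left (K := S) ⟨u, hu⟩ z] at h1
  rw [inner_sub_right]
  simp only at h1
  linarith

end Abstract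

variable {n : ℕ}

/-- post-composition with a smooth function vanishing at `0` -/
def compW (f : ℝ → ℝ) (hf : ContDiff ℝ ∞ f) (h0 : f 0 = 0) (u : W n) : W n :=
  W.mk (fun x => f (u x)) (hf.comp_contDiffOn u.smooth) (fun c hc x => by simp [u.homog hc])
    (by simp [h0])

lemma grad_compW (f : ℝ → ℝ) (hf : ContDiff ℝ ∞ f) (h0 : f 0 = 0) (u : W n) (j : Fin n) (x : Sp n) :
    grad j (compW f hf h0 u) x = deriv f (u x) * grad j u x := by
  have h1 : HasFDerivAt (fun y => f (u y)) (deriv f (u x) • fderiv ℝ u x) (x : E n) :=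
    ((hf.differentiable (by simp)) (u x)).hasDerivAt.comp_hasFDerivAt _
      (u.differentiableAt (Sp.ne_zero x)).hasFDerivAt
  simp only [grad_apply, compW, W.coe_mk]
  rw [h1.fderiv]
  simp

/-- the profile of the cutoff -/
def cf (δ t : ℝ) : ℝ := Real.smoothTransition (t / δ - 1)

lemma contDiff_cf (δ : ℝ) : ContDiff ℝ ∞ (cf δ) :=
  Real.smoothTransition.contDiff.comp ((contDiff_id.div_const δ).sub contDiff_const)

lemma cf_zero (δ : ℝ) : cf δ 0 = 0 := Real.smoothTransition.zero_of_nonpos (by simp)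

lemma cf_nonneg (δ t : ℝ) : 0 ≤ cf δ t := Real.smoothTransition.nonneg _
lemma cf_le_one (δ t : ℝ) : cf δ t ≤ 1 := Real.smoothTransition.le_one _

lemma cf_of_le {δ t : ℝ} (hδ : 0 < δ) (h : t ≤ δ) : cf δ t = 0 :=
  Real.smoothTransition.zero_of_nonpos (by rw [sub_nonpos, div_le_one hδ]; exact h)

lemma cf_of_ge {δ t : ℝ} (hδ : 0 < δ) (h : 2 * δ ≤ t) : cf δ t = 1 :=
  Real.smoothTransition.one_of_one_le (by rw [le_sub_iff_add_le, le_div_iff₀ hδ]; linarith)

lemma deriv_cf (δ t : ℝ) : deriv (cf δ) t = deriv Real.smoothTransition (t / δ - 1) / δ := by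
  have h1 : HasDerivAt (fun t : ℝ => t / δ - 1) (1 / δ) t := ((hasDerivAt_id t).div_const δ).sub_const 1
  have h2 := (((Real.smoothTransition.contDiff (n := 1)).differentiable (by simp))
    (t / δ - 1)).hasDerivAt.comp t h1
  have h3 : cf δ = Real.smoothTransition ∘ fun t : ℝ => t / δ - 1 := rfl
  rw [h3, h2.deriv]
  ring

lemma deriv_cf_lt {δ t : ℝ} (hδ : 0 < δ) (h : t < δ) : deriv (cf δ) t = 0 := by
  have : cf δ =ᶠ[𝓝 t] fun _ => 0 := by
    filter_upwards [Iio_mem_nhds h] with z hz using cf_of_le hδ (le_of_lt hz)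
  rw [this.deriv_eq, deriv_const]

lemma deriv_cf_gt {δ t : ℝ} (hδ : 0 < δ) (h : 2 * δ < t) : deriv (cf δ) t = 0 := by
  have : cf δ =ᶠ[𝓝 t] fun _ => 1 := by
    filter_upwards [Ioi_mem_nhds h] with z hz using cf_of_ge hδ (le_of_lt hz)
  rw [this.deriv_eq, deriv_const]

lemma exists_deriv_cf_bound : ∃ M : ℝ, 0 ≤ M ∧ ∀ δ t : ℝ, 0 < δ → |t| * |deriv (cf δ) t| ≤ M := by
  have hc : Continuous (deriv Real.smoothTransition) :=
    (Real.smoothTransition.contDiff (n := 1)).continuous_deriv (by simp)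
  obtain ⟨M, hM⟩ := (isCompact_Icc (a := (0 : ℝ)) (b := 1)).exists_bound_of_continuousOn hc.continuousOn
  have hM0 : 0 ≤ M := (norm_nonneg _).trans (hM 0 (by simp))
  refine ⟨2 * M, by positivity, fun δ t hδ => ?_⟩
  rcases lt_or_ge t δ with h1 | h1
  · rw [deriv_cf_lt hδ h1]; simpa using hM0
  rcases lt_or_ge (2 * δ) t with h2 | h2
  · rw [deriv_cf_gt hδ h2]; simpa using hM0
  have h3 := hM (t / δ - 1) ⟨by rw [sub_nonneg, one_le_div hδ]; exact h1, by
    rw [sub_le_iff_le_add, div_le_iff₀ hδ]; linarith⟩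
  rw [deriv_cf, abs_div, abs_of_pos hδ, abs_of_nonneg (by linarith : 0 ≤ t)]
  rw [Real.norm_eq_abs] at h3
  calc t * (|deriv Real.smoothTransition (t / δ - 1)| / δ) ≤ (2 * δ) * (M / δ) := by gcongr
    _ = 2 * M := by field_simp

/-- the cutoff `x ↦ cf δ (u x)` -/
def cut (δ : ℝ) (u : W n) : W n := compW (cf δ) (contDiff_cf δ) (cf_zero δ) u
lemma cut_apply (δ : ℝ) (u : W n) (x : E n) : cut δ u x = cf δ (u x) := rfl
lemma grad_cut (δ : ℝ) (u : W n) (j : Fin n) (x : Sp n) :
    grad j (cut δ u) x = deriv (cf δ) (u x) * grad j u x := grad_compW _ _ _ _ _ _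

/-- the commutator terms with the cutoff tend to zero -/
lemma tendsto_cut_term (c : W n) (j : Fin n) (A B : CS n) {L : ℝ}
    (hA : ∀ x : Sp n, |c x| ≤ 1 / 2 → |A x| ≤ L * |c x|) :
    Tendsto (fun δ => integ n (B * A * grad j (cut δ c))) (𝓝[>] 0) (𝓝 0) := by
  obtain ⟨M, hM0, hM⟩ := exists_deriv_cf_bound
  have h := tendsto_integral_filter_of_dominated_convergence (μ := sig n) (l := 𝓝[>] (0 : ℝ))
    (F := fun δ x => (B * A * grad j (cut δ c)) x) (f := fun _ => (0 : ℝ))
    (fun _ => ‖B‖ * (|L| * M) * ‖grad j c‖)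
    (Eventually.of_forall fun δ => (B * A * grad j (cut δ c)).continuous.aestronglyMeasurable)
    ?_ (integrable_const _) ?_
  · simpa only [integral_zero, integ_apply] using h
  · filter_upwards [Ioo_mem_nhdsGT (by norm_num : (0 : ℝ) < 1 / 4)] with δ hδ
    refine Eventually.of_forall fun x => ?_
    simp only [ContinuousMap.mul_apply, grad_cut, Real.norm_eq_abs, abs_mul]
    have h1 : |B x| ≤ ‖B‖ := B.norm_coe_le_norm x
    have h2 : |grad j c x| ≤ ‖grad j c‖ := (grad j c).norm_coe_le_norm x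
    have h3 : |A x| * |deriv (cf δ) (c x)| ≤ |L| * M := by
      rcases lt_or_ge (c x) δ with h4 | h4
      · rw [deriv_cf_lt hδ.1 h4]; simp; positivity
      rcases lt_or_ge (2 * δ) (c x) with h5 | h5
      · rw [deriv_cf_gt hδ.1 h5]; simp; positivity
      have h6 := hA x (by rw [abs_of_nonneg (by linarith [hδ.1])]; linarith [hδ.2])
      calc |A x| * |deriv (cf δ) (c x)| ≤ (|L| * |c x|) * |deriv (cf δ) (c x)| := by
            gcongr
            exact h6.trans (mul_le_mul_of_nonneg_right (le_abs_self L) (abs_nonneg _))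
        _ = |L| * (|c x| * |deriv (cf δ) (c x)|) := by ring
        _ ≤ |L| * M := mul_le_mul_of_nonneg_left (hM δ _ hδ.1) (abs_nonneg _)
    calc |B x| * |A x| * (|deriv (cf δ) (c x)| * |grad j c x|)
        = |B x| * (|A x| * |deriv (cf δ) (c x)|) * |grad j c x| := by ring
      _ ≤ ‖B‖ * (|L| * M) * ‖grad j c‖ := by gcongr
  · refine Eventually.of_forall fun x => ?_
    refine tendsto_const_nhds.congr' ?_
    rcases le_or_gt (c x) 0 with h1 | h1
    · filter_upwards [self_mem_nhdsWithin] with δ hδ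
      simp only [ContinuousMap.mul_apply, grad_cut]
      rw [deriv_cf_lt hδ (lt_of_le_of_lt h1 hδ)]; simp
    · filter_upwards [Ioo_mem_nhdsGT (half_pos h1)] with δ hδ
      simp only [ContinuousMap.mul_apply, grad_cut]
      rw [deriv_cf_gt hδ.1 (by linarith [hδ.2])]; simp

/-- the defect of `χ_δ g` tends to zero -/
lemma tendsto_cut_defect (K : X n) (c g y : W n) {L : ℝ}
    (h1 : ∀ x : Sp n, |c x| ≤ 1 / 2 → |g x| ≤ L * |c x|)
    (h2 : ∀ j, ∀ x : Sp n, |c x| ≤ 1 / 2 → |grad j g x| ≤ L * |c x|) :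
    Tendsto (fun δ => form K (mulW (cut δ c) g) y - form K g (mulW (cut δ c) y)) (𝓝[>] 0) (𝓝 0) := by
  have h3 : ∀ δ, form K (mulW (cut δ c) g) y - form K g (mulW (cut δ c) y) =
      ∑ j, ∑ k, (integ n ((K j k * grad k y) * res g * grad j (cut δ c)) -
        integ n ((K j k * res y) * grad j g * grad k (cut δ c))) := by
    intro δ
    simp only [form_apply, grad_mulW, map_sum, ← Finset.sum_sub_distrib, ← map_sub]
    refine Finset.sum_congr rfl fun j _ => Finset.sum_congr rfl fun k _ => ?_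
    congr 1
    ring
  simp only [h3]
  have h4 := tendsto_finsetSum (Finset.univ : Finset (Fin n)) fun j _ =>
    tendsto_finsetSum (Finset.univ : Finset (Fin n)) fun k _ =>
      (tendsto_cut_term c j (res g) (K j k * grad k y) h1).sub
        (tendsto_cut_term c k (grad j g) (K j k * res y) (h2 j))
  simpa using h4

/-- a smooth function vanishing on the hyperplane is `O(|xᵢ|)` on the sphere -/
lemma exists_lin_bound {F : Type*} [NormedAddCommGroup F] [NormedSpace ℝ F] (f : E n → F)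
    (hf : ContDiffOn ℝ ∞ f {0}ᶜ) (i : Fin n) (h0 : ∀ x : E n, x ≠ 0 → x i = 0 → f x = 0) :
    ∃ L : ℝ, 0 ≤ L ∧ ∀ x : Sp n, |(x : E n) i| ≤ 1 / 2 → ‖f x‖ ≤ L * |(x : E n) i| := by
  set S : Set (E n) := Metric.closedBall 0 2 \ Metric.ball 0 (1 / 2) with hS
  have hSc : IsCompact S := (isCompact_closedBall 0 2).diff Metric.isOpen_ball
  have hne : ∀ x ∈ S, x ≠ 0 := fun x hx h => hx.2 (by simp [h])
  have hl : LocallyLipschitzOn S f := by
    intro x hx
    have h1 : ContDiffAt ℝ 1 f x :=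
      (hf.contDiffAt (isOpen_compl_singleton.mem_nhds (hne x hx))).of_le (by simp)
    obtain ⟨K, t, ht, hK⟩ := h1.exists_lipschitzOnWith
    exact ⟨K, t, mem_nhdsWithin_of_mem_nhds ht, hK⟩
  obtain ⟨K, hK⟩ := hl.exists_lipschitzOnWith_of_compact hSc
  refine ⟨K, K.2, fun x hx => ?_⟩
  set z : E n := (x : E n) - EuclideanSpace.single i ((x : E n) i) with hz
  have hd : ‖(x : E n) - z‖ = |(x : E n) i| := by simp [hz]
  have hx1 := Sp.norm_eq x
  have hxS : (x : E n) ∈ S := by
    simp only [hS, Set.mem_sdiff, Metric.mem_closedBall, Metric.mem_ball, dist_zero_right, hx1]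
    norm_num
  have hzS : z ∈ S := by
    simp only [hS, Set.mem_sdiff, Metric.mem_closedBall, Metric.mem_ball, dist_zero_right, not_lt]
    have := abs_norm_sub_norm_le (x : E n) z
    rw [hd, hx1, abs_le] at this
    constructor <;> linarith [this.1, this.2]
  have hz0 : f z = 0 := h0 z (hne z hzS) (by simp [hz])
  have := hK.norm_sub_le hxS hzS
  rwa [hz0, sub_zero, hd] at this

end Crest.Agent.R202
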