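import Crest.Agent.R202.Forms1
import Crest.Agent.R202.Sph4

/-! # Row 202, Ucp: unique continuation through analyticity along rotations -/

set_option autoImplicit false
open scoped ContDiff RealInnerProductSpace
open Set Filter Topology MeasureTheory Crest.GeometryTopology.CoordMetric

noncomputable section
namespace Crest.Agent.R202

variable {n : ℕ}

/-- factorial bounds in `L²` and in `L¹` -/
def Ana (u : W n) : Prop :=
  ∀ π : Plane n, ∃ C K : ℝ, 0 ≤ C ∧ 0 ≤ K ∧ ∀ k : ℕ, ‖(π.L ^ k) u‖ ≤ C * K ^ k * k.factorial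
def Ana1 (u : W n) : Prop :=
  ∀ π : Plane n, ∃ C K : ℝ, 0 ≤ C ∧ 0 ≤ K ∧ ∀ k : ℕ,
    integ n |res ((π.L ^ k) u)| ≤ C * K ^ k * k.factorial

theorem ucpa_rec (e : ℕ → ℝ) (he : ∀ k, 0 ≤ e k) {A B K : ℝ} (hA : 0 ≤ A) (hB : 0 ≤ B) (hK : 0 ≤ K)
    (h : ∀ m, e (m + 1) ^ 2 ≤ A * e m ^ 2 + e (m + 1) * ∑ i ∈ Finset.range (m + 1),
      ((m + 1).choose (i + 1) : ℝ) * (B * K ^ (i + 1) * (i + 1).factorial) * e (m - i)) :
    ∃ K₁ : ℝ, 1 ≤ K₁ ∧ ∀ k, e k ≤ e 0 * K₁ ^ k * k.factorial := by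
  have hBK : 0 ≤ B * K := mul_nonneg hB hK
  obtain ⟨K₁, h1, h2⟩ : ∃ K₁ : ℝ, A + 2 * (B * K) + 1 ≤ K₁ ∧ 2 * K ≤ K₁ :=
    ⟨A + 2 * (B * K) + 1 + 2 * K, by linarith, by linarith⟩
  have h3 : 1 ≤ K₁ := by linarith
  have h4 : 0 ≤ K₁ := by linarith
  have he0 := he 0
  refine ⟨K₁, h3, fun k => ?_⟩
  induction k using Nat.strong_induction_on with
  | _ k ih =>
    rcases k with _ | m
    · simp
    set T : ℝ := e 0 * K₁ ^ m * (m + 1).factorial with hT
    have hT0 : 0 ≤ T := by positivity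
    have a1 : e m ≤ T := (ih m (Nat.lt_succ_self m)).trans (mul_le_mul_of_nonneg_left
      (by exact_mod_cast Nat.factorial_le (Nat.le_succ m)) (by positivity))
    have a2 : ∑ i ∈ Finset.range (m + 1),
        ((m + 1).choose (i + 1) : ℝ) * (B * K ^ (i + 1) * (i + 1).factorial) * e (m - i) ≤
        ∑ i ∈ Finset.range (m + 1), (B * K * T) * (1 / 2) ^ i := by
      refine Finset.sum_le_sum fun i hi => ?_
      have hi' : i ≤ m := Nat.lt_succ_iff.1 (Finset.mem_range.1 hi)
      have b1 : ((m + 1).choose (i + 1) : ℝ) * (i + 1).factorial * (m - i).factorial =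
          (m + 1).factorial := by
        have := Nat.choose_mul_factorial_mul_factorial (show i + 1 ≤ m + 1 by omega)
        rw [Nat.add_sub_add_right] at this
        exact_mod_cast this
      have b2 : K ^ i * K₁ ^ (m - i) ≤ K₁ ^ m * (1 / 2) ^ i := by
        have : K₁ ^ m = K₁ ^ i * K₁ ^ (m - i) := by rw [← pow_add]; congr 1; omega
        rw [this, mul_right_comm, ← mul_pow]
        exact mul_le_mul_of_nonneg_right (pow_le_pow_left₀ hK (by linarith) i) (by positivity)
      calc _ ≤ ((m + 1).choose (i + 1) : ℝ) * (B * K ^ (i + 1) * (i + 1).factorial) *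
            (e 0 * K₁ ^ (m - i) * (m - i).factorial) :=
            mul_le_mul_of_nonneg_left (ih _ (by omega)) (by positivity)
        _ = B * K * e 0 * (((m + 1).choose (i + 1) : ℝ) * (i + 1).factorial * (m - i).factorial) *
            (K ^ i * K₁ ^ (m - i)) := by ring
        _ ≤ B * K * e 0 * (m + 1).factorial * (K₁ ^ m * (1 / 2) ^ i) := by
            rw [b1]; exact mul_le_mul_of_nonneg_left b2 (by positivity)
        _ = _ := by rw [hT]; ring
    rw [← Finset.mul_sum] at a2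
    have a3 := a2.trans (mul_le_mul_of_nonneg_left (sum_geometric_two_le (m + 1)) (by positivity))
    have a4 : e (m + 1) ^ 2 ≤ A * T ^ 2 + e (m + 1) * (B * K * T * 2) :=
      (h m).trans (add_le_add (mul_le_mul_of_nonneg_left (pow_le_pow_left₀ (he m) a1 2) hA)
        (mul_le_mul_of_nonneg_left a3 (he _)))
    have e1 : e 0 * K₁ ^ (m + 1) * (m + 1).factorial = K₁ * T := by rw [hT]; ring
    rw [e1]
    by_contra hc
    rw [not_le] at hc
    have c0 := he (m + 1)
    have c1 : T ≤ e (m + 1) := (le_mul_of_one_le_left hT0 h3).trans hc.le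
    have c2 : (A + 2 * (B * K) + 1) * T < e (m + 1) := (mul_le_mul_of_nonneg_right h1 hT0).trans_lt hc
    have c3 : 0 < e (m + 1) := lt_of_le_of_lt (by positivity) hc
    nlinarith [mul_lt_mul_of_pos_right c2 c3, mul_le_mul_of_nonneg_left c1 (mul_nonneg hA hT0),
      mul_nonneg hT0 c0]

theorem ucpa_skew (π : Plane n) (k : ℕ) (u w : W n) :
    ⟪u, (π.L ^ k) w⟫ = (-1) ^ k * ⟪(π.L ^ k) u, w⟫ := by
  induction k generalizing u with
  | zero => simp
  | succ k ih =>
    have h := π.L_skew u ((π.L ^ k) w)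
    rw [ih] at h
    rw [pow_succ' π.L, Module.End.mul_apply, ← pow_succ' π.L, pow_succ π.L, Module.End.mul_apply,
      pow_succ]
    linarith

theorem ucpa_cs (u w : W n) : integ n |res u * res w| ≤ ‖u‖ * ‖w‖ := by
  have h : ∀ t : ℝ, 0 ≤ ‖u‖ ^ 2 * (t * t) + (-2 * integ n |res u * res w|) * t + ‖w‖ ^ 2 := by
    intro t
    have h1 := integ_nonneg (F := (t * t) • (res u * res u) + (-2 * t) • |res u * res w| +
      res w * res w) fun x => by
        have := sq_nonneg (t * |u x| - |w x|)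
        simp only [ContinuousMap.add_apply, ContinuousMap.smul_apply, ContinuousMap.mul_apply,
          ContinuousMap.abs_apply, res_apply, smul_eq_mul, abs_mul]
        nlinarith [abs_mul_abs_self (u x), abs_mul_abs_self (w x)]
    rw [map_add, map_add, map_smul, map_smul, ← inner_W, ← inner_W, real_inner_self_eq_norm_sq,
      real_inner_self_eq_norm_sq, smul_eq_mul, smul_eq_mul] at h1
    linarith
  have h2 := discrim_le_zero h
  rw [discrim] at h2
  exact (le_abs_self _).trans (abs_le_of_sq_le_sq (by nlinarith) (by positivity))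

theorem ucpa_add (u w : W n) : integ n |res (u + w)| ≤ integ n |res u| + integ n |res w| := by
  rw [← map_add (integ n)]
  exact integ_mono fun x => abs_add_le (u x) (w x)

theorem ucpa_bd {a b C K C' K' : ℝ} {k : ℕ} (hC : 0 ≤ C) (hK : 0 ≤ K) (hC' : 0 ≤ C') (hK' : 0 ≤ K')
    (ha : a ≤ C * K ^ k * k.factorial) (hb : b ≤ C' * K' ^ k * k.factorial) :
    a + b ≤ (C + C') * (K + K') ^ k * k.factorial := by
  have h1 : K ^ k ≤ (K + K') ^ k := pow_le_pow_left₀ hK (by linarith) k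
  have h2 : K' ^ k ≤ (K + K') ^ k := pow_le_pow_left₀ hK' (by linarith) k
  calc a + b ≤ C * (K + K') ^ k * k.factorial + C' * (K + K') ^ k * k.factorial :=
        add_le_add (ha.trans (by gcongr)) (hb.trans (by gcongr))
    _ = _ := by ring

/-- `comm_iter` and skewness: `aB b (L^kφ) w = λ⟪L^kφ,w⟫ - Σ_{i=1}^k binom(k,i) form(orbD i H)(L^{k-i}φ) w`.  With `w = L^kφ`, `e_k = gr (L^kφ)`,
`‖L^kφ‖ ≤ e_{k-1}`: `e_k²/3 ≤ |λ| e_{k-1}² + e_k Σ binom(k,i) n C K^i i! e_{k-i}` (`aB_coer`, `form_le`, `orbD_factorial`), so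
`e_k ≤ √(3|λ|) e_{k-1} + 3nC Σ_{i≥1} (k!/(k-i)!) K^i e_{k-i}` and `e_k ≤ C₁ K₁^k k!` by strong induction for large `K₁`. -/
theorem eig_ana (hn : 2 ≤ n) {ε : ℝ} (h : Good n ε) {b : BB n} (hb : ‖b‖ < ε) {s : ℝ} {φ : W n}
    (hφ : φ ∈ eigsp (aB b) s) : Ana φ := by
  intro π
  obtain ⟨C, K, hC, hK, hD⟩ := orbD_factorial h hb π
  have g0 : ∀ u : W n, 0 ≤ gr u := fun u => Real.sqrt_nonneg _
  obtain ⟨K₁, h1, h2⟩ := ucpa_rec (fun k => gr ((π.L ^ k) φ)) (fun k => g0 _) (A := 3 * |s|)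
    (B := 3 * n * C) (K := K) (by positivity) (by positivity) hK fun m => by
      set v := (π.L ^ (m + 1)) φ with hv
      have a1 := comm_iter π (orbSmooth_HX h hb π) (m + 1) φ v
      have a2 : form (HX (iota b)) φ ((π.L ^ (m + 1)) v) = s * ⟪φ, (π.L ^ (m + 1)) v⟫ := hφ _
      rw [a2, ucpa_skew, mul_left_comm, mul_right_inj' (by positivity), Finset.sum_range_succ',
        orbD_zero, Nat.choose_zero_right, Nat.cast_one, one_mul, Nat.sub_zero, ← hv,
        real_inner_self_eq_norm_sq] at a1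
      have a3 : 1 / 3 * form (PiX n) v v ≤ form (HX (iota b)) v v := (aB_coer hn h hb v).1
      rw [← gr_sq] at a3
      have a4 : ‖v‖ ≤ gr ((π.L ^ m) φ) := by
        rw [hv, pow_succ', Module.End.mul_apply]
        exact π.norm_L_le _
      have a5 : s * ‖v‖ ^ 2 ≤ |s| * gr ((π.L ^ m) φ) ^ 2 :=
        mul_le_mul (le_abs_self s) (pow_le_pow_left₀ (norm_nonneg _) a4 2) (sq_nonneg _)
          (abs_nonneg s)
      have a6 : -3 * ∑ i ∈ Finset.range (m + 1), ((m + 1).choose (i + 1) : ℝ) *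
          form (orbD π (i + 1) (HX (iota b))) ((π.L ^ (m + 1 - (i + 1))) φ) v ≤
          gr v * ∑ i ∈ Finset.range (m + 1), ((m + 1).choose (i + 1) : ℝ) *
            (3 * n * C * K ^ (i + 1) * (i + 1).factorial) * gr ((π.L ^ (m - i)) φ) := by
        rw [Finset.mul_sum, Finset.mul_sum]
        refine Finset.sum_le_sum fun i _ => ?_
        rw [Nat.add_sub_add_right]
        have b1 := (neg_le_abs _).trans
          (form_le (orbD π (i + 1) (HX (iota b))) ((π.L ^ (m - i)) φ) v)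
        have b2 := b1.trans (mul_le_mul_of_nonneg_right
          (mul_le_mul_of_nonneg_left (hD (i + 1)) (Nat.cast_nonneg n)) (mul_nonneg (g0 _) (g0 _)))
        have b3 := mul_le_mul_of_nonneg_left b2 (Nat.cast_nonneg (α := ℝ) ((m + 1).choose (i + 1)))
        linarith
      linarith
  refine ⟨gr φ + ‖φ‖, K₁, add_nonneg (g0 _) (norm_nonneg _), by linarith, fun k => ?_⟩
  rcases k with _ | m
  · simpa using g0 φ
  · have a1 : ‖(π.L ^ (m + 1)) φ‖ ≤ gr ((π.L ^ m) φ) := by
      rw [pow_succ', Module.End.mul_apply]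
      exact π.norm_L_le _
    have a2 := h2 m
    simp only [pow_zero, Module.End.one_apply] at a2
    have a3 := g0 φ
    refine a1.trans (a2.trans ?_)
    gcongr
    · linarith [norm_nonneg φ]
    · omega
    · omega

theorem Ana.ana1 {u : W n} (h : Ana u) : Ana1 u := by
  intro π
  obtain ⟨C, K, hC, hK, h⟩ := h π
  refine ⟨‖(oneW : W n)‖ * C, K, by positivity, hK, fun k => ?_⟩
  have e : res ((π.L ^ k) u) = res ((π.L ^ k) u) * res oneW := by ext x; simp
  rw [e]
  refine (ucpa_cs _ _).trans ?_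
  rw [mul_comm, mul_assoc, mul_assoc, ← mul_assoc C]
  exact mul_le_mul_of_nonneg_left (h k) (norm_nonneg _)
/-- Leibniz (`Lv_mulW`) and Cauchy–Schwarz: `Σ binom(k,i) i!(k-i)! = (k+1) k! ≤ 2^k k!` -/
theorem Ana.mul {u w : W n} (hu : Ana u) (hw : Ana w) : Ana1 (mulW u w) := by
  intro π
  obtain ⟨C, K, hC, hK, h⟩ := hu π
  obtain ⟨C', K', hC', hK', h'⟩ := hw π
  have key : ∀ k i j : ℕ, integ n |res ((π.L ^ k) (mulW ((π.L ^ i) u) ((π.L ^ j) w)))| ≤
      C * C' * 2 ^ k * (K + K') ^ (i + j + k) * (i + j + k).factorial := by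
    intro k
    induction k with
    | zero =>
      intro i j
      refine (ucpa_cs ((π.L ^ i) u) ((π.L ^ j) w)).trans ?_
      have h1 : K ^ i ≤ (K + K') ^ i := pow_le_pow_left₀ hK (by linarith) i
      have h2 : K' ^ j ≤ (K + K') ^ j := pow_le_pow_left₀ hK' (by linarith) j
      have h3 : (i.factorial : ℝ) * j.factorial ≤ (i + j).factorial := by
        exact_mod_cast Nat.le_of_dvd (Nat.factorial_pos _)
          (Nat.factorial_mul_factorial_dvd_factorial_add i j)
      calc _ ≤ (C * (K + K') ^ i * i.factorial) * (C' * (K + K') ^ j * j.factorial) :=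
            mul_le_mul ((h i).trans (by gcongr)) ((h' j).trans (by gcongr)) (norm_nonneg _)
              (by positivity)
        _ = C * C' * (K + K') ^ (i + j) * ((i.factorial : ℝ) * j.factorial) := by ring
        _ ≤ C * C' * (K + K') ^ (i + j) * (i + j).factorial := by gcongr
        _ = _ := by simp
    | succ k ih =>
      intro i j
      have h1 := ih (i + 1) j
      have h2 := ih i (j + 1)
      rw [pow_succ' π.L, Module.End.mul_apply] at h1 h2
      rw [show i + 1 + j + k = i + j + (k + 1) by ring] at h1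
      rw [show i + (j + 1) + k = i + j + (k + 1) by ring] at h2
      have e : π.L (mulW ((π.L ^ i) u) ((π.L ^ j) w)) = mulW (π.L ((π.L ^ i) u)) ((π.L ^ j) w) +
          mulW ((π.L ^ i) u) (π.L ((π.L ^ j) w)) := Lv_mulW _ _ _
      rw [pow_succ π.L, Module.End.mul_apply, e, map_add (π.L ^ k), pow_succ (2 : ℝ)]
      linarith [ucpa_add ((π.L ^ k) (mulW (π.L ((π.L ^ i) u)) ((π.L ^ j) w)))
        ((π.L ^ k) (mulW ((π.L ^ i) u) (π.L ((π.L ^ j) w))))]
  refine ⟨C * C', 2 * (K + K'), by positivity, by positivity, fun k => ?_⟩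
  have := key k 0 0
  simp only [pow_zero, Module.End.one_apply, zero_add] at this
  rw [mul_pow, ← mul_assoc]
  exact this
theorem Ana1.add {u w : W n} (hu : Ana1 u) (hw : Ana1 w) : Ana1 (u + w) := by
  intro π
  obtain ⟨C, K, hC, hK, h⟩ := hu π
  obtain ⟨C', K', hC', hK', h'⟩ := hw π
  refine ⟨C + C', K + K', by positivity, by positivity, fun k => ?_⟩
  rw [map_add (π.L ^ k)]
  exact (ucpa_add _ _).trans (ucpa_bd hC hK hC' hK' (h k) (h' k))
theorem Ana1.smul {u : W n} (hu : Ana1 u) (c : ℝ) : Ana1 (c • u) := by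
  intro π
  obtain ⟨C, K, hC, hK, h⟩ := hu π
  refine ⟨|c| * C, K, by positivity, hK, fun k => ?_⟩
  have e : |res ((π.L ^ k) (c • u))| = |c| • |res ((π.L ^ k) u)| := by
    ext x; simp [abs_mul]
  rw [e, map_smul, smul_eq_mul, mul_assoc, mul_assoc, ← mul_assoc C]
  exact mul_le_mul_of_nonneg_left (h k) (abs_nonneg c)
theorem ana1_oneW : Ana1 (oneW : W n) := by
  refine Ana.ana1 fun π => ⟨‖(oneW : W n)‖, 1, norm_nonneg _, zero_le_one, fun k => ?_⟩
  rcases k with _ | m
  · simp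
  · have e : π.L (oneW : W n) = 0 := Lv_oneW _
    rw [pow_succ π.L, Module.End.mul_apply, e, map_zero, norm_zero]
    positivity
theorem Ana.add {u w : W n} (hu : Ana u) (hw : Ana w) : Ana (u + w) := by
  intro π
  obtain ⟨C, K, hC, hK, h⟩ := hu π
  obtain ⟨C', K', hC', hK', h'⟩ := hw π
  refine ⟨C + C', K + K', by positivity, by positivity, fun k => ?_⟩
  rw [map_add (π.L ^ k)]
  exact (norm_add_le _ _).trans (ucpa_bd hC hK hC' hK' (h k) (h' k))
theorem Ana.smul {u : W n} (hu : Ana u) (c : ℝ) : Ana (c • u) := by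
  intro π
  obtain ⟨C, K, hC, hK, h⟩ := hu π
  refine ⟨|c| * C, K, by positivity, hK, fun k => ?_⟩
  rw [map_smul, norm_smul, Real.norm_eq_abs, mul_assoc, mul_assoc, ← mul_assoc C]
  exact mul_le_mul_of_nonneg_left (h k) (abs_nonneg c)

end Crest.Agent.R202
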