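import Crest.Agent.R202.Forms1
import Crest.Agent.R202.Sph4
import Crest.Agent.R202.Ucpa

/-! # Row 202, Ucp: unique continuation through analyticity along rotations -/

set_option autoImplicit false
open scoped ContDiff RealInnerProductSpace
open Set Filter Topology MeasureTheory Crest.GeometryTopology.CoordMetric

noncomputable section
namespace Crest.Agent.R202

variable {n : ℕ}

theorem ucp_taylor (f : ℕ → ℝ → ℝ) (hd : ∀ k s, HasDerivAt (f k) (f (k + 1) s) s) (s : ℝ)
    (h0 : ∀ k, f k s = 0) (B : ℝ) (m : ℕ) : ∀ j, (∀ τ, |f (j + m) τ| ≤ B) →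
      ∀ t, |f j t| ≤ B * |t - s| ^ m / m.factorial := by
  induction m with
  | zero => intro j h t; simpa using h t
  | succ m ih =>
    intro j h t
    have h1 := ih (j + 1) (fun τ => by rw [show j + 1 + m = j + (m + 1) by ring]; exact h τ)
    have hc : Continuous (f (j + 1)) := continuous_iff_continuousAt.2 fun x => (hd _ x).continuousAt
    have e : f j t = ∫ x in s..t, f (j + 1) x := by
      rw [intervalIntegral.integral_eq_sub_of_hasDerivAt (fun x _ => hd j x)
        (hc.intervalIntegrable _ _), h0, sub_zero]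
    have hg : Continuous fun x : ℝ => B / m.factorial * |x - s| ^ m := by fun_prop
    have h2 : ‖∫ x in s..t, f (j + 1) x‖ ≤ ∫ x in Set.uIoc s t, B / m.factorial * |x - s| ^ m := by
      rw [intervalIntegral.norm_intervalIntegral_eq]
      refine norm_integral_le_of_norm_le (hg.intervalIntegrable s t).def'
        (Eventually.of_forall fun x => ?_)
      rw [Real.norm_eq_abs]
      refine (h1 x).trans (le_of_eq (by ring))
    rw [integral_const_mul, integral_pow_abs_sub_uIoc, Real.norm_eq_abs, ← e] at h2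
    refine h2.trans (le_of_eq ?_)
    rw [Nat.factorial_succ]
    push_cast
    field_simp

theorem ucp_ana (f : ℕ → ℝ → ℝ) (hd : ∀ k s, HasDerivAt (f k) (f (k + 1) s) s) (C K : ℝ)
    (hK : 0 ≤ K) (hb : ∀ k s, |f k s| ≤ C * K ^ k * k.factorial) (h0 : ∀ k, f k 0 = 0) (t : ℝ) :
    f 0 t = 0 := by
  have hc : ∀ k, Continuous (f k) := fun k =>
    continuous_iff_continuousAt.2 fun x => (hd _ x).continuousAt
  have hcl : IsClosed {s | ∀ k, f k s = 0} := by
    rw [Set.ofPred_forall]
    exact isClosed_iInter fun k => isClosed_eq (hc k) continuous_const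
  have hop : IsOpen {s | ∀ k, f k s = 0} := by
    rw [Metric.isOpen_iff]
    intro s hs
    refine ⟨1 / (K + 1), by positivity, ?_⟩
    have hz : ∀ x ∈ Metric.ball s (1 / (K + 1)), f 0 x = 0 := by
      intro x hx
      rw [Metric.mem_ball, Real.dist_eq, lt_div_iff₀ (by positivity)] at hx
      have hr : K * |x - s| < 1 := by nlinarith [abs_nonneg (x - s)]
      have hr0 : 0 ≤ K * |x - s| := mul_nonneg hK (abs_nonneg _)
      have hl : Tendsto (fun m : ℕ => C * (K * |x - s|) ^ m) atTop (𝓝 (C * 0)) :=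
        (tendsto_pow_atTop_nhds_zero_of_lt_one hr0 hr).const_mul C
      have : |f 0 x| ≤ C * 0 := ge_of_tendsto' hl fun m => by
        refine (ucp_taylor f hd s hs (C * K ^ m * m.factorial) m 0
          (fun τ => by simpa using hb m τ) x).trans (le_of_eq ?_)
        have : (m.factorial : ℝ) ≠ 0 := by positivity
        rw [mul_pow]; field_simp
      simpa using this
    have hall : ∀ k, ∀ x ∈ Metric.ball s (1 / (K + 1)), f k x = 0 := by
      intro k
      induction k with
      | zero => exact hz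
      | succ k ih =>
        intro x hx
        have : f k =ᶠ[𝓝 x] fun _ => 0 := by
          filter_upwards [Metric.isOpen_ball.mem_nhds hx] with y hy using ih y hy
        exact (hd k x).unique ((hasDerivAt_const x (0 : ℝ)).congr_of_eventuallyEq this)
    exact fun x hx k => hall k x hx
  have : {s | ∀ k, f k s = 0} = univ := IsClopen.eq_univ ⟨hcl, hop⟩ ⟨0, h0⟩
  have ht : t ∈ {s | ∀ k, f k s = 0} := this ▸ mem_univ t
  exact ht 0

theorem ucp_deriv_pt (π : Plane n) (v : W n) (x : Sp n) (s : ℝ) :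
    HasDerivAt (fun s => v (rot π s x)) (π.L v (rot π s x)) s := by
  have hx : rot π s x ≠ 0 := by simpa using Sp.ne_zero x
  exact (v.differentiableAt hx).hasFDerivAt.comp_hasDerivAt s (hasDerivAt_rot π x s)

theorem ucp_deriv_int (π : Plane n) (v : W n) (G : CS n) (s : ℝ) :
    HasDerivAt (fun s => integ n (actC (rot π s) (res v) * G))
      (integ n (actC (rot π s) (res (π.L v)) * G)) s := by
  simp only [integ_apply]
  refine (hasDerivAt_integral_of_dominated_loc_of_deriv_le (μ := sig n) (s := univ) (x₀ := s)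
    (F := fun s x => (actC (rot π s) (res v) * G) x)
    (F' := fun s x => (actC (rot π s) (res (π.L v)) * G) x)
    (bound := fun _ => ‖res (π.L v)‖ * ‖G‖) univ_mem
    (Eventually.of_forall fun s => (CS.integrable _).aestronglyMeasurable) (CS.integrable _)
    (CS.integrable _).aestronglyMeasurable (Eventually.of_forall fun x s _ => ?_)
    (integrable_const _) (Eventually.of_forall fun x s _ => ?_)).2
  · rw [ContinuousMap.mul_apply, norm_mul, actC_apply]
    exact mul_le_mul ((res (π.L v)).norm_coe_le_norm _) (G.norm_coe_le_norm _) (norm_nonneg _)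
      (norm_nonneg _)
  · simpa using (ucp_deriv_pt π v x s).mul_const (G x)

theorem ucp_L_zero (π : Plane n) {v : W n} {O : Set (Sp n)} (hO : IsOpen O)
    (h0 : ∀ x ∈ O, v x = 0) : ∀ x ∈ O, π.L v x = 0 := by
  intro x hx
  have hc : Continuous fun s => sphMap (rot π s) x :=
    Continuous.subtype_mk (continuous_iff_continuousAt.2 fun s =>
      (hasDerivAt_rot π x s).continuousAt) _
  have hx0 : sphMap (rot π 0) x = x := Subtype.ext (by simp [rot_zero])
  have he : (fun s => v (rot π s x)) =ᶠ[𝓝 0] fun _ => 0 := by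
    filter_upwards [hc.continuousAt.preimage_mem_nhds (hO.mem_nhds (hx0.symm ▸ hx))] with s hs
    exact h0 _ hs
  exact (hasDerivAt_orbit π v x).unique ((hasDerivAt_const (0 : ℝ) (0 : ℝ)).congr_of_eventuallyEq he)

/-- if `L u = 0` on the open set `O`, then `u` is constant along the orbits through `O` -/
theorem ucp_key (π : Plane n) {u : W n} (hu : Ana1 u) {O : Set (Sp n)} (hO : IsOpen O)
    (h1 : ∀ x ∈ O, π.L u x = 0) {x₀ : Sp n} (hx₀ : x₀ ∈ O) (s : ℝ) : u (rot π s x₀) = u x₀ := by
  obtain ⟨C, K, hC, hK, hb⟩ := hu π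
  have hk : ∀ k : ℕ, ∀ x ∈ O, (π.L ^ (k + 1)) u x = 0 := by
    intro k
    induction k with
    | zero => simpa using h1
    | succ k ih =>
      rw [pow_succ', Module.End.mul_apply]
      exact ucp_L_zero π hO ih
  obtain ⟨ψ, hψ0, hψ1, hψ⟩ := exists_continuous_zero_one_of_isClosed hO.isClosed_compl
    (isClosed_singleton (x := x₀)) (by simpa using hx₀)
  obtain ⟨D, hD⟩ : ∃ D : CS n, D = actC (rot π s) (res u) - res u := ⟨_, rfl⟩
  obtain ⟨G, hG⟩ : ∃ G : CS n, G = ψ * D := ⟨_, rfl⟩
  obtain ⟨f, hf⟩ : ∃ f : ℕ → ℝ → ℝ, f = fun k s => integ n (actC (rot π s) (res ((π.L ^ k) u)) * G) :=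
    ⟨_, rfl⟩
  have hr0 : ∀ F : CS n, actC (rot π 0) F = F := fun F => by
    ext x
    rw [actC_apply]
    congr 1
    exact Subtype.ext (by simp [rot_zero])
  have hd : ∀ k s, HasDerivAt (f k) (f (k + 1) s) s := fun k s => by
    rw [hf]
    simp only [pow_succ', Module.End.mul_apply]
    exact ucp_deriv_int π _ G s
  have hz : ∀ k, f (k + 1) 0 = 0 := fun k => by
    rw [hf]
    simp only [hr0]
    have : res ((π.L ^ (k + 1)) u) * G = 0 := by
      ext x
      by_cases hx : x ∈ O
      · simp [hk k x hx]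
      · have : ψ x = 0 := hψ0 hx
        simp [hG, this]
    rw [this, map_zero]
  have hbd : ∀ k s, |f k s| ≤ ‖G‖ * (C * K ^ k * k.factorial) := fun k s => by
    have h2 : integ n (‖G‖ • actC (rot π s) |res ((π.L ^ k) u)|) ≤ ‖G‖ * (C * K ^ k * k.factorial) := by
      rw [map_smul, integ_actC, smul_eq_mul]
      exact mul_le_mul_of_nonneg_left (hb k) (norm_nonneg _)
    have hpt : ∀ x, |(actC (rot π s) (res ((π.L ^ k) u)) * G) x| ≤
        (‖G‖ • actC (rot π s) |res ((π.L ^ k) u)|) x := fun x => by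
      simp only [ContinuousMap.mul_apply, actC_apply, ContinuousMap.smul_apply,
        ContinuousMap.abs_apply, smul_eq_mul, abs_mul]
      rw [mul_comm]
      exact mul_le_mul_of_nonneg_right (G.norm_coe_le_norm x) (abs_nonneg _)
    refine le_trans ?_ h2
    rw [hf, abs_le]
    constructor
    · rw [← map_neg]
      exact integ_mono fun x => (abs_le.1 (hpt x)).1
    · exact integ_mono fun x => (abs_le.1 (hpt x)).2
  have hmain := ucp_ana (fun k t => f k t - f k 0)
    (fun k t => by simpa [hz k] using (hd k t).sub_const (f k 0)) (2 * (‖G‖ * C)) K hK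
    (fun k t => by
      have := abs_sub (f k t) (f k 0)
      have h1 := hbd k t
      have h2 := hbd k 0
      linarith) (fun k => sub_self _) s
  have hI : integ n (D * G) = 0 := by
    rw [← hmain, hf, hD]
    simp only [hr0, pow_zero, Module.End.one_apply, sub_mul, map_sub]
  have hDG := integ_eq_zero (F := D * G) (fun x => by
    simp only [hG, ContinuousMap.mul_apply]
    have := (hψ x).1
    nlinarith [mul_nonneg this (mul_self_nonneg (D x))]) hI
  have h3 := DFunLike.congr_fun hDG x₀
  have h4 : ψ x₀ = 1 := hψ1 rfl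
  simp only [hG, ContinuousMap.mul_apply, h4, one_mul, ContinuousMap.zero_apply,
    mul_self_eq_zero] at h3
  rw [hD] at h3
  simpa [sub_eq_zero] using h3

/-- Let `u = 0` near `x₀ ∈ O`, `y = rot π s₀ x₀` (`exists_rot`).  For `G ∈ CS n` supported in a small cap around `x₀`, `f(s) = ∫ u(R_s x) G(x)` has
`f^{(k)}(s) = ∫ (L^k u)(R_s x) G(x)` (differentiate under the integral), `|f^{(k)}| ≤ ‖G‖ C K^k k!` (`integ_actC`).  By Taylor's theorem with Lagrange remainder
(`taylor_mean_remainder_bound`), if all derivatives vanish at `s` then `f = 0` on `(s - 1/(K+1), s + 1/(K+1))`; so `f ≡ 0`.  Take `G = (bump) · u(R_{s₀} ·)`,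
`integ_eq_zero`. -/
theorem Ana1.eq_zero (hn : 2 ≤ n) {u : W n} (hu : Ana1 u) {O : Set (Sp n)} (hO : IsOpen O)
    (hne : O.Nonempty) (h0 : ∀ x ∈ O, u x = 0) : u = 0 := by
  obtain ⟨x₀, hx₀⟩ := hne
  refine W.eq_of_sphere fun y => ?_
  obtain ⟨π, s, hs⟩ := exists_rot hn x₀ y
  rw [← hs, ucp_key π hu hO (ucp_L_zero π hO h0) hx₀ s, h0 x₀ hx₀, W.zero_apply]

theorem Ana.mul_eq_zero (hn : 2 ≤ n) {u w : W n} (hu : Ana u) (hw : Ana w)
    (h : ∀ x : Sp n, u x * w x = 0) : u = 0 ∨ w = 0 := by
  by_cases hu0 : ∀ x : Sp n, u x = 0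
  · exact Or.inl (W.eq_of_sphere fun x => by simpa using hu0 x)
  · push Not at hu0
    refine Or.inr (hw.ana1.eq_zero hn (O := {x : Sp n | res u x ≠ 0})
      (isOpen_ne_fun (res u).continuous continuous_const) hu0 fun x hx => ?_)
    exact (_root_.mul_eq_zero.1 (h x)).resolve_left hx

/-- on a small Euclidean ball around a point of `O` (avoiding `0`, with radial projection inside `O`) `fderiv q = 0` by homogeneity, so `q` is constant there; apply
`Ana1.eq_zero` to `q - c • oneW` -/
theorem Ana1.const_of_grad (hn : 2 ≤ n) {q : W n} (hq : Ana1 q) {O : Set (Sp n)} (hO : IsOpen O)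
    (hne : O.Nonempty) (h0 : ∀ x ∈ O, gv q x = 0) : ∃ c : ℝ, q = c • oneW := by
  obtain ⟨x₀, hx₀⟩ := hne
  refine ⟨q x₀, W.eq_of_sphere fun y => ?_⟩
  obtain ⟨π, s, hs⟩ := exists_rot hn x₀ y
  rw [W.smul_apply, oneW_sphere, mul_one, ← hs]
  refine ucp_key π hq hO (fun x hx => ?_) hx₀ s
  rw [Plane.L, Lv_sphere]
  exact Finset.sum_eq_zero fun i _ => by
    have : grad i q x = 0 := congrFun (h0 x hx) i
    rw [this, zero_mul]

end Crest.Agent.R202
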