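import Crest.Agent.R202.Forms2
import Crest.Agent.R202.Ucp
import Crest.Agent.R202.Gen2
import Crest.Agent.R202.HypXaAux

/-! # Row 202, HypX: the hypothesis (X) -/

set_option autoImplicit false
open scoped ContDiff RealInnerProductSpace
open Set Filter Topology MeasureTheory Crest.GeometryTopology.CoordMetric

noncomputable section
namespace Crest.Agent.R202

variable {n : ℕ}

/-- the equator is null (`Measure.toSphere_apply'`, `Measure.addHaar_submodule`), so the strips shrink in measure -/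
theorem strip_tendsto (i : Fin n) :
    Tendsto (fun δ : ℝ => (sig n).real {x : Sp n | |(x : E n) i| ≤ δ}) (𝓝[>] 0) (𝓝 0) := by
  have hc : Continuous fun x : Sp n => |(x : E n) i| := by fun_prop
  have h1 := tendsto_measure_biInter_gt (μ := sig n) (a := (0 : ℝ))
    (s := fun δ : ℝ => {x : Sp n | |(x : E n) i| ≤ δ})
    (fun r _ => (isClosed_le hc continuous_const).measurableSet.nullMeasurableSet)
    (fun a b _ hab x hx => le_trans hx hab) ⟨1, one_pos, measure_ne_top _ _⟩
  have h2 : (⋂ r > (0 : ℝ), {x : Sp n | |(x : E n) i| ≤ r}) = {x : Sp n | (x : E n) i = 0} := by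
    ext x
    simp only [mem_iInter, mem_ofPred_eq]
    constructor
    · intro hx
      exact abs_nonpos_iff.1 (le_of_forall_pos_le_add fun r hr => by simpa using hx r hr)
    · intro hx r hr
      rw [hx, abs_zero]; exact le_of_lt hr
  have h3 : sig n {x : Sp n | (x : E n) i = 0} = 0 := by
    have hm : MeasurableSet {x : Sp n | (x : E n) i = 0} :=
      (isClosed_eq (by fun_prop) continuous_const).measurableSet
    unfold sig
    rw [Measure.toSphere_apply' _ hm]
    refine mul_eq_zero_of_right _ (measure_mono_null (t := (LinearMap.ker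
      (EuclideanSpace.proj i : E n →L[ℝ] ℝ).toLinearMap : Submodule ℝ (E n))) ?_ ?_)
    · rintro _ ⟨c, -, _, ⟨x, hx, rfl⟩, rfl⟩
      have hx' : (x : E n) i = 0 := hx
      simp [hx']
    · refine Measure.addHaar_submodule _ _ fun htop => ?_
      have : EuclideanSpace.single i (1 : ℝ) ∈ (LinearMap.ker
        (EuclideanSpace.proj i : E n →L[ℝ] ℝ).toLinearMap : Submodule ℝ (E n)) := by
        rw [htop]; trivial
      simp at this
  rw [h2, h3] at h1
  simpa [Measure.real, Function.comp_def] using (ENNReal.tendsto_toReal ENNReal.zero_ne_top).comp h1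

/-- multiplication by a fixed function -/
def mulL (χ : W n) : W n →ₗ[ℝ] W n where
  toFun u := mulW χ u
  map_add' u w := by ext x; simp [mul_add]
  map_smul' c u := by ext x; simp; ring

/-- an eigenfunction vanishing where a cutoff of `± xᵢ` is positive vanishes -/
lemma eq_zero_of_cut (hn : 2 ≤ n) {ε : ℝ} (h : Good n ε) {b : BB n} (hb : ‖b‖ < ε) {s : ℝ}
    {u : W n} (hu : u ∈ eigsp (aB b) s) (c : W n) (hc : ∃ x : Sp n, c x = 1)
    (h0 : ⟪u, mulW (cut (1 / 4) c) u⟫ = 0) : u = 0 := by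
  rw [inner_W] at h0
  have h1 := integ_eq_zero (fun x => by
    simp only [ContinuousMap.mul_apply, res_apply, mulW_apply, cut_apply]
    have := cf_nonneg (1 / 4) (c x)
    nlinarith [mul_self_nonneg (u x)]) h0
  refine (eig_ana hn h hb hu).ana1.eq_zero hn (O := {x : Sp n | 1 / 2 < c x})
    (isOpen_lt continuous_const (res c).continuous) ?_ fun x hx => ?_
  · obtain ⟨x, hx⟩ := hc
    exact ⟨x, by simp only [mem_ofPred_eq, hx]; norm_num⟩
  · have h2 := DFunLike.congr_fun h1 x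
    simp only [ContinuousMap.mul_apply, res_apply, mulW_apply, cut_apply, ContinuousMap.zero_apply] at h2
    rw [cf_of_ge (by norm_num) (by simp only [mem_ofPred_eq] at hx; linarith), one_mul] at h2
    exact mul_self_eq_zero.1 h2

/-- **Cauchy uniqueness.**  `χ_δ(x) = smoothTransition (x̂ᵢ/δ - 1)` (an element of `W n`; `0` for `x̂ᵢ ≤ δ`, `1` for `x̂ᵢ ≥ 2δ`, `|∇χ_δ| ≤ C/δ`, supported in the strip
`|x̂ᵢ| ≤ 2δ`), `w_δ = χ_δ g`.  `|∇g| ≤ C|xᵢ|`, `|g| ≤ C xᵢ²` on the sphere (mean value inequality on the segment from `x` to `x - xᵢeᵢ` for `|xᵢ| ≤ 1/2`, homogeneity).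
`aB b w_δ y - s⟪w_δ,y⟫ = aB b (χg) y - aB b g (χy) = ∫ g H(∇χ,∇y) - y H(∇g,∇χ)`, of size `≤ C(δ + √(σ strip))(‖y‖ + gr y)`.  `dk` (with the first `k` eigenfunctions of
an eigen-system, `lam k ≥ s+1`, `I = {lam = s}`) gives `φ_δ ∈ eigsp` with `‖w_δ - φ_δ‖ → 0`; `w_δ` vanishes on the half sphere `xᵢ < 0`.  On the finite-dimensional eigenspace the
functional `φ ↦ ∫ φ² · max(-xᵢ,0)` is a definite quadratic form (`eig_ana`, `Ana1.eq_zero`), so `φ_δ → 0`, `w_δ → 0`, and `g = 0` on `xᵢ > 0`. -/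
theorem cauchy_ucp (hn : 2 ≤ n) {ε : ℝ} (h : Good n ε) (hF : Fam (aB : BB n → BF (W n)) daB ε)
    {b : BB n} (hb : ‖b‖ < ε) (i : Fin n) {s : ℝ} {g : W n} (hg : g ∈ eigsp (aB b) s)
    (h0 : ∀ x : Sp n, (x : E n) i = 0 → g x = 0 ∧ gv g x = 0) : g = 0 := by
  have hq := hF.nice b hb
  set c : W n := toW (MvPolynomial.X i) with hcd
  have hc : ∀ x : Sp n, c x = (x : E n) i := fun x => by simp [hcd, toW_apply_sphere]
  -- first-order vanishing
  have hnorm : ∀ x : E n, x ≠ 0 → x i = 0 → ∃ (t : ℝ) (z : Sp n), 0 < t ∧ (z : E n) = t • x ∧ (z : E n) i = 0 :=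
    fun x hx hxi => ⟨‖x‖⁻¹, ⟨‖x‖⁻¹ • x, by simp [norm_smul, hx]⟩, inv_pos.2 (norm_pos_iff.2 hx), rfl,
      by simp [hxi]⟩
  obtain ⟨L₁, hL₁, h1⟩ := exists_lin_bound g g.smooth i fun x hx hxi => by
    obtain ⟨t, z, ht, hz, hzi⟩ := hnorm x hx hxi
    rw [← g.homog ht x, ← hz]; exact (h0 z hzi).1
  obtain ⟨L₂, hL₂, h2⟩ := exists_lin_bound (fderiv ℝ g) g.smooth_fderiv i fun x hx hxi => by
    obtain ⟨t, z, ht, hz, hzi⟩ := hnorm x hx hxi
    rw [← g.fderiv_homog ht x, ← hz]
    have : fderiv ℝ g z = 0 := by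
      refine ContinuousLinearMap.coe_injective ((EuclideanSpace.basisFun (Fin n) ℝ).toBasis.ext fun j => ?_)
      simpa [gv] using congrFun (h0 z hzi).2 j
    rw [this, smul_zero]
  have hdef : ∀ y, Tendsto (fun δ => aB b (mulW (cut δ c) g) y - s * ⟪mulW (cut δ c) g, y⟫)
      (𝓝[>] 0) (𝓝 0) := by
    intro y
    refine (tendsto_cut_defect (HX (iota b)) c g y (L := L₁ + L₂) (fun x hx => ?_)
      (fun j x hx => ?_)).congr fun δ => ?_
    · rw [hc] at hx ⊢
      have := h1 x hx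
      rw [Real.norm_eq_abs] at this
      nlinarith [abs_nonneg ((x : E n) i)]
    · rw [hc] at hx ⊢
      have h3 := h2 x hx
      have h4 : |grad j g x| ≤ ‖fderiv ℝ g x‖ := by
        have := (fderiv ℝ g x).le_opNorm (EuclideanSpace.single j 1)
        simpa using this
      nlinarith [abs_nonneg ((x : E n) i)]
    · have h3 : aB b g (mulW (cut δ c) y) = s * ⟪g, mulW (cut δ c) y⟫ := mem_eigsp.1 hg _
      have h4 : ⟪g, mulW (cut δ c) y⟫ = ⟪mulW (cut δ c) g, y⟫ := by
        rw [inner_W, inner_W]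
        congr 1
        ext x
        simp only [ContinuousMap.mul_apply, res_apply, mulW_apply]
        ring
      rw [← h4, ← h3]
      rfl
  have hbd : ∀ δ, ‖mulW (cut δ c) g‖ ≤ ‖g‖ := by
    intro δ
    rw [← pow_le_pow_iff_left₀ (norm_nonneg _) (norm_nonneg _) two_ne_zero,
      ← real_inner_self_eq_norm_sq, ← real_inner_self_eq_norm_sq, inner_W, inner_W]
    refine integ_mono fun x => ?_
    simp only [ContinuousMap.mul_apply, res_apply, mulW_apply, cut_apply]
    have h3 := cf_nonneg δ (c x)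
    have h4 := cf_le_one δ (c x)
    have h5 : cf δ (c x) * cf δ (c x) ≤ 1 := by nlinarith
    nlinarith [mul_self_nonneg (g x)]
  have := hq.finite_eigsp s
  have he1 : ‖(EuclideanSpace.single i (1 : ℝ) : E n)‖ = 1 := by simp
  obtain ⟨ψ, -, hψ⟩ := exists_sub_orth (eigsp (aB b) s) (mulL (cut (1 / 4) (-c)))
    (fun u hu hu0 => eq_zero_of_cut hn h hb hu (-c)
      ⟨⟨-EuclideanSpace.single i 1, by simp⟩, by rw [W.neg_apply, hc]; simp⟩ hu0)
    (mulW (cut (1 / 4) c) g)
  have hlim := hq.tendsto_inner_zero (fun δ => mulW (cut δ c) g) hbd hdef hψ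
  refine eq_zero_of_cut hn h hb hg c ⟨⟨EuclideanSpace.single i 1, by simp⟩, by rw [hc]; simp⟩ ?_
  refine tendsto_nhds_unique (tendsto_const_nhds.congr' ?_) hlim
  filter_upwards [Ioo_mem_nhdsGT (by norm_num : (0 : ℝ) < 1 / 8)] with δ hδ
  rw [inner_W, inner_W]
  congr 1
  ext x
  simp only [ContinuousMap.mul_apply, res_apply, mulW_apply, cut_apply, W.sub_apply, mulL,
    LinearMap.coe_mk, AddHom.coe_mk, W.neg_apply]
  rcases le_or_gt (c x) δ with h3 | h3
  · rw [cf_of_le hδ.1 h3, cf_of_le (by norm_num) (by linarith [hδ.2] : c x ≤ 1 / 4)]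
    ring
  · rw [cf_of_le (by norm_num) (by linarith [hδ.1] : -c x ≤ 1 / 4)]
    rcases le_or_gt (c x) (1 / 4) with h4 | h4
    · rw [cf_of_le (by norm_num) h4]; ring
    · rw [cf_of_ge hδ.1 (by linarith [hδ.2])]; ring

end Crest.Agent.R202
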