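import Crest.Agent.R202.Forms2
import Crest.Agent.R202.Ucp
import Crest.Agent.R202.Gen2
import Crest.Agent.R202.HypXa

/-! # Row 202, HypX: the hypothesis (X) -/

set_option autoImplicit false
open scoped ContDiff RealInnerProductSpace
open Set Filter Topology MeasureTheory Crest.GeometryTopology.CoordMetric

noncomputable section
namespace Crest.Agent.R202

variable {n : ℕ}

theorem hypX_refl_fix {i : Fin n} {x : Sp n} (hx : (x : E n) i = 0) : sphMap (refl i) x = x := by
  ext j
  rw [sphMap_coe, refl_apply]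
  split_ifs with h
  · rw [h, hx, neg_zero]
  · rfl

theorem hypX_grad {i : Fin n} {x : Sp n} (hx : (x : E n) i = 0) (u : W n) (j : Fin n) :
    grad j (act (refl i) u) x = (if j = i then -1 else 1) * grad j u x := by
  rw [grad_act, hypX_refl_fix hx, Finset.sum_eq_single j]
  · congr 1
    unfold ent
    rw [refl_apply]
    split_ifs <;> simp
  · intro k _ hk
    unfold ent
    rw [refl_apply]
    split_ifs <;> simp [hk]
  · simp

/-- `ann` for the family `u ⊕ g` with coefficients `±1` (index `Fin (m+m)`).  At a point `x` of the equator `xᵢ = 0` (fixed by `refl i`): `grad_act` gives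
`∂ᵢu = 0`, `∇g = (∂ᵢg) eᵢ`; symmetry of `b` gives `H_{ij} = 0` for `j ≠ i` and `H_{ii} > 0` (`HX_coer`).  `ξ = η = eᵢ`: `μ = -2Σ(∂ᵢg)²H_{ii} ≤ 0`; `AnnEq.trace`:
`2ΣH(∇u,∇u) + μ = (n-1)μ`, so `(n-2)μ ≥ 0`, `μ = 0`, `∇g = 0`; `cauchy_ucp`. -/
theorem hypX (hn : 3 ≤ n) {ε : ℝ} (h : Good n ε) (hF : Fam (aB : BB n → BF (W n)) daB ε) (i : Fin n) :
    HypX (aB : BB n → BF (W n)) daB ε (act (refl i)) (reflB i) := by
  intro b hb _ s m u g hu hg h0 k
  have hn2 : 2 ≤ n := by omega
  refine cauchy_ucp hn2 h hF hb i (hg k).1 fun x hx => ⟨?_, ?_⟩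
  · have h1 := congrArg (fun z : W n => z x) (hg k).2
    have h2 : refl i x = x := congrArg Subtype.val (hypX_refl_fix hx)
    simp only [act_apply, h2, W.neg_apply] at h1
    linarith
  set e : Fin n → ℝ := Pi.single i 1 with he
  set H := (HX (iota b)).at x with hH
  have hue : ∀ k, gv (u k) x ⬝ᵥ e = 0 := fun k => by
    have h1 := hypX_grad hx (u k) i
    rw [(hu k).2, if_pos rfl] at h1
    rw [he, dotProduct_single, mul_one]
    change grad i (u k) x = 0
    linarith
  have hge : ∀ k, gv (g k) x = grad i (g k) x • e := fun k => by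
    funext j
    by_cases hj : j = i
    · subst hj
      simp [he, gv]
    · have h1 := hypX_grad hx (g k) j
      rw [(hg k).2, if_neg hj, map_neg, ContinuousMap.neg_apply] at h1
      have h2 : grad j (g k) x = 0 := by linarith
      change grad j (g k) x = _
      rw [h2]
      simp [he, hj]
  have hee : e ⬝ᵥ e = 1 := by simp [he]
  have hxe : (fun i => (x : E n) i) ⬝ᵥ e = 0 := by rw [he, dotProduct_single, mul_one]; exact hx
  have hpos : 1 / 3 ≤ e ⬝ᵥ H.mulVec e := by
    have := (HX_coer hn2 h hb x e (by rw [dotProduct_comm]; exact hxe)).1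
    rwa [hee, mul_one] at this
  obtain ⟨μ, hμ⟩ := ann hn2 h hb (Fin.append (fun _ : Fin m => (1 : ℝ)) (fun _ : Fin m => (-1 : ℝ)))
    (Fin.append u g) (Fin.append u g) (fun v => by
      rw [Fin.sum_univ_add]
      simp only [Fin.append_left, Fin.append_right, one_mul, neg_mul, Finset.sum_neg_distrib]
      rw [h0 v, add_neg_cancel]) x
  have t1 := hμ e e
  have t2 := hμ.trace
  rw [Fin.sum_univ_add] at t1 t2
  simp only [Fin.append_left, Fin.append_right, one_mul, neg_mul, Finset.sum_neg_distrib, hue,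
    mul_zero, add_zero, Finset.sum_const_zero, zero_add, hee, hxe, sub_zero, mul_one, ← hH] at t1 t2
  have e1 : ∀ k, (gv (g k) x ⬝ᵥ H.mulVec e) * (gv (g k) x ⬝ᵥ e) =
      grad i (g k) x ^ 2 * (e ⬝ᵥ H.mulVec e) := fun k => by
    rw [hge k, smul_dotProduct, smul_dotProduct, hee]
    simp only [smul_eq_mul]
    ring
  have e2 : ∀ k, gv (g k) x ⬝ᵥ H.mulVec (gv (g k) x) =
      grad i (g k) x ^ 2 * (e ⬝ᵥ H.mulVec e) := fun k => by
    rw [hge k, smul_dotProduct, Matrix.mulVec_smul, dotProduct_smul]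
    simp only [smul_eq_mul]
    ring
  simp only [e1, e2, Finset.sum_add_distrib] at t1 t2
  set S := ∑ k, grad i (g k) x ^ 2 * (e ⬝ᵥ H.mulVec e) with hS
  have hterm : ∀ k, 0 ≤ grad i (g k) x ^ 2 * (e ⬝ᵥ H.mulVec e) := fun k =>
    mul_nonneg (sq_nonneg _) (by linarith)
  have hS0 : 0 ≤ S := Finset.sum_nonneg fun k _ => hterm k
  have hU : 0 ≤ ∑ k, gv (u k) x ⬝ᵥ H.mulVec (gv (u k) x) := Finset.sum_nonneg fun k _ => by
    have h1 := (HX_coer hn2 h hb x (gv (u k) x) (forms2_gv_tang _ x)).1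
    have h2 : 0 ≤ gv (u k) x ⬝ᵥ gv (u k) x := Finset.sum_nonneg fun j _ => mul_self_nonneg _
    linarith
  have hn' : (3 : ℝ) ≤ n := by exact_mod_cast hn
  have hS1 : S = 0 := by
    have : S * ((n : ℝ) - 2) ≤ 0 := by
      rw [← t1] at t2
      nlinarith
    nlinarith
  have h3 := (Finset.sum_eq_zero_iff_of_nonneg fun k _ => hterm k).1 hS1 k (Finset.mem_univ _)
  have h4 : grad i (g k) x = 0 := by
    rcases mul_eq_zero.1 h3 with h5 | h5
    · exact pow_eq_zero_iff (by norm_num) |>.1 h5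
    · linarith
  rw [hge k, h4, zero_smul]

end Crest.Agent.R202
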