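import Crest.Agent.R202.Flow

/-! # Row 202, TokensAux: helper lemmas for `dyn_tokens` -/

set_option autoImplicit false
open scoped RealInnerProductSpace
open Set Filter

noncomputable section
namespace Crest.Agent.R202
namespace Tok

section basic
variable {V : Type*} [NormedAddCommGroup V] [InnerProductSpace ℝ V] {D : ℕ}

lemma hiB_add_loB (φ : OrthonormalBasis (Fin D) ℝ V) (q : ℕ) (x : V) :
    hiB φ q x + loB φ q x = ‖x‖ ^ 2 := by
  unfold hiB loB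
  rw [← Finset.sum_add_distrib, ← φ.sum_sq_inner_right x]
  refine Finset.sum_congr rfl fun i _ => ?_
  by_cases h : q ≤ (i : ℕ)
  · simp [h, not_lt.mpr h]
  · simp [h, not_le.mp h]

lemma hiB_nonneg (φ : OrthonormalBasis (Fin D) ℝ V) (q : ℕ) (x : V) : 0 ≤ hiB φ q x :=
  Finset.sum_nonneg fun i _ => by split_ifs <;> positivity

lemma loB_nonneg (φ : OrthonormalBasis (Fin D) ℝ V) (q : ℕ) (x : V) : 0 ≤ loB φ q x :=
  Finset.sum_nonneg fun i _ => by split_ifs <;> positivity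

/-- a sum over `Fin D` supported on `i < N` is a sum over `Fin N` -/
lemma sum_castLE {N : ℕ} (hND : N ≤ D) (f : Fin D → ℝ) :
    ∑ j : Fin N, f (Fin.castLE hND j) = ∑ i : Fin D, if (i : ℕ) < N then f i else 0 := by
  rw [← Finset.sum_filter]
  refine Finset.sum_bij (fun j _ => Fin.castLE hND j) ?_ ?_ ?_ ?_
  · intro j _; simp
  · intro j _ k _ h; exact Fin.castLE_injective hND h
  · intro i hi
    simp only [Finset.mem_filter, Finset.mem_univ, true_and] at hi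
    exact ⟨⟨i, hi⟩, Finset.mem_univ _, Fin.ext rfl⟩
  · intro j _; rfl

lemma loN_eq {N : ℕ} (hND : N ≤ D) (φ : OrthonormalBasis (Fin D) ℝ V) (z : V)
    (c : EuclideanSpace ℝ (Fin N)) (hc : ∀ j, c j = ⟪φ (Fin.castLE hND j), z⟫) (q : ℕ) (hq : q ≤ N) :
    loN q c = loB φ q z := by
  unfold loN loB
  have := sum_castLE hND (fun i => if (i : ℕ) < q then ⟪φ i, z⟫ ^ 2 else 0)
  simp only [Fin.val_castLE] at this
  simp only [hc]
  rw [this]
  refine Finset.sum_congr rfl fun i _ => ?_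
  by_cases h : (i : ℕ) < q
  · simp [h, lt_of_lt_of_le h hq]
  · simp [h]

lemma hiN_le {N : ℕ} (hND : N ≤ D) (φ : OrthonormalBasis (Fin D) ℝ V) (z : V)
    (c : EuclideanSpace ℝ (Fin N)) (hc : ∀ j, c j = ⟪φ (Fin.castLE hND j), z⟫) (q : ℕ) :
    hiN q c ≤ hiB φ q z := by
  unfold hiN hiB
  have := sum_castLE hND (fun i => if q ≤ (i : ℕ) then ⟪φ i, z⟫ ^ 2 else 0)
  simp only [Fin.val_castLE] at this
  simp only [hc]
  rw [this]
  refine Finset.sum_le_sum fun i _ => ?_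
  split_ifs <;> first | exact le_rfl | positivity

lemma normsq_eq {N : ℕ} (hND : N ≤ D) (φ : OrthonormalBasis (Fin D) ℝ V) (z : V)
    (c : EuclideanSpace ℝ (Fin N)) (hc : ∀ j, c j = ⟪φ (Fin.castLE hND j), z⟫) :
    ‖c‖ ^ 2 = loB φ N z := by
  rw [← loN_eq hND φ z c hc N le_rfl, EuclideanSpace.real_norm_sq_eq]
  unfold loN
  refine Finset.sum_congr rfl fun i _ => ?_
  simp

lemma split3 (φ : OrthonormalBasis (Fin D) ℝ V) (p : Fin D) (x : V) :
    loB φ p x + ⟪φ p, x⟫ ^ 2 + hiB φ (p + 1) x = ‖x‖ ^ 2 := by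
  unfold hiB loB
  rw [← φ.sum_sq_inner_right x]
  have h : ⟪φ p, x⟫ ^ 2 = ∑ i : Fin D, if i = p then ⟪φ i, x⟫ ^ 2 else 0 := by simp
  rw [h, ← Finset.sum_add_distrib, ← Finset.sum_add_distrib]
  refine Finset.sum_congr rfl fun i _ => ?_
  rcases lt_trichotomy (i : ℕ) p with h | h | h
  · have h1 : i ≠ p := fun e => by simp [e] at h
    have h2 : ¬((p : ℕ) + 1 ≤ i) := by omega
    simp [h, h1, h2]
  · have h1 : i = p := Fin.ext h
    subst h1
    simp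
  · have h1 : i ≠ p := fun e => by simp [e] at h
    have h2 : (p : ℕ) + 1 ≤ i := h
    have h3 : ¬((i : ℕ) < p) := by omega
    simp [h1, h2, h3]

lemma sign_aux (φ : OrthonormalBasis (Fin D) ℝ V) (p : Fin D) (u ψ : V) (hu : 0 < ‖u‖)
    (h1 : loB φ p u ≤ 1 / 4000 * ‖u‖ ^ 2) (h2 : hiB φ (p + 1) u ≤ 1 / 4000 * ‖u‖ ^ 2)
    (hψ : ‖ψ‖ ≤ 2) (hb : 1 / 4 ≤ |⟪φ p, ψ⟫|) :
    0 < ⟪u, ψ⟫ * (⟪φ p, u⟫ * ⟪φ p, ψ⟫) := by
  have h3 := split3 φ p u
  set a := ⟪φ p, u⟫ with ha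
  set b := ⟪φ p, ψ⟫ with hb'
  have hn : ‖φ p‖ = 1 := φ.orthonormal.1 p
  have hw : ‖u - a • φ p‖ ^ 2 = ‖u‖ ^ 2 - a ^ 2 := by
    rw [norm_sub_sq_real, norm_smul, hn, real_inner_smul_right, real_inner_comm, ← ha,
      Real.norm_eq_abs, mul_one, sq_abs]
    ring
  have hr : ⟪u, ψ⟫ = a * b + ⟪u - a • φ p, ψ⟫ := by
    rw [inner_sub_left, real_inner_smul_left, ← hb']; ring
  set r := ⟪u - a • φ p, ψ⟫ with hr'
  have hr2 : r ^ 2 ≤ 4 * (‖u‖ ^ 2 - a ^ 2) := by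
    have h4 : |r| ≤ ‖u - a • φ p‖ * 2 :=
      (abs_real_inner_le_norm _ _).trans (mul_le_mul_of_nonneg_left hψ (norm_nonneg _))
    have h5 : r ^ 2 ≤ (‖u - a • φ p‖ * 2) ^ 2 := by
      rw [← sq_abs r]; exact pow_le_pow_left₀ (abs_nonneg _) h4 2
    rw [mul_pow, hw] at h5
    linarith
  have hb2 : 1 / 16 ≤ b ^ 2 := by
    have : (1 / 4 : ℝ) ^ 2 ≤ |b| ^ 2 := pow_le_pow_left₀ (by norm_num) hb 2
    rw [sq_abs] at this
    linarith
  have hu2 : 0 < ‖u‖ ^ 2 := by positivity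
  have ha2 : (1 - 1 / 2000) * ‖u‖ ^ 2 ≤ a ^ 2 := by linarith
  have hab : r ^ 2 < (a * b) ^ 2 := by
    have : a ^ 2 * (1 / 16) ≤ a ^ 2 * b ^ 2 := mul_le_mul_of_nonneg_left hb2 (sq_nonneg _)
    rw [mul_pow]
    linarith
  rw [hr]
  generalize a * b = s at hab ⊢
  nlinarith [sq_nonneg (r + s), sq_nonneg (r - s)]

lemma thr_mono {β : ℝ → Fin D → ℝ} {q : ℕ} {γ γ' : ℝ → ℝ} {μ Γ ε s t s' t' : ℝ}
    (h : Thr β q γ γ' μ Γ ε s t) (hs : s ≤ s') (ht : t' ≤ t) : Thr β q γ γ' μ Γ ε s' t' := by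
  have hI : Icc s' t' ⊆ Icc s t := Icc_subset_Icc hs ht
  exact ⟨fun τ hτ => h.der τ (hI hτ), fun τ hτ => h.slow τ (hI hτ), fun τ hτ => h.rng τ (hI hτ),
    fun τ hτ => h.gap τ (hI hτ)⟩

lemma thr_concat {β : ℝ → Fin D → ℝ} {q : ℕ} {γ γ' : ℝ → ℝ} {μ Γ ε s t r : ℝ}
    (h : Thr β q γ γ' μ Γ ε s t) (h' : Thr β q γ γ' μ Γ ε t r) : Thr β q γ γ' μ Γ ε s r := by
  have hI : ∀ τ ∈ Icc s r, τ ∈ Icc s t ∨ τ ∈ Icc t r := fun τ hτ => by
    rcases le_total τ t with h | h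
    · exact Or.inl ⟨hτ.1, h⟩
    · exact Or.inr ⟨h, hτ.2⟩
  refine ⟨fun τ hτ => ?_, fun τ hτ => ?_, fun τ hτ => ?_, fun τ hτ => ?_⟩
  · rcases hI τ hτ with h1 | h1
    exacts [h.der τ h1, h'.der τ h1]
  · rcases hI τ hτ with h1 | h1
    exacts [h.slow τ h1, h'.slow τ h1]
  · rcases hI τ hτ with h1 | h1
    exacts [h.rng τ h1, h'.rng τ h1]
  · rcases hI τ hτ with h1 | h1
    exacts [h.gap τ h1, h'.gap τ h1]

lemma thr_chain {β : ℝ → Fin D → ℝ} {q : ℕ} {γ γ' : ℝ → ℝ} {μ Γ ε : ℝ} (a : ℕ → ℝ) (J : ℕ)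
    (h : ∀ m ≤ J, Thr β q γ γ' μ Γ ε (a m) (a (m + 1))) :
    Thr β q γ γ' μ Γ ε (a 0) (a (J + 1)) := by
  induction J with
  | zero => exact h 0 le_rfl
  | succ J ih => exact thr_concat (ih fun m hm => h m (by omega)) (h (J + 1) le_rfl)

end basic

lemma same_sign {f : ℝ → ℝ} {s t : ℝ} (hst : s ≤ t) (hf : ContinuousOn f (Icc s t))
    (h0 : ∀ τ ∈ Icc s t, f τ ≠ 0) : 0 < f s * f t := by
  have hs := h0 s ⟨le_rfl, hst⟩
  have ht := h0 t ⟨hst, le_rfl⟩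
  rcases lt_or_gt_of_ne hs with h1 | h1 <;> rcases lt_or_gt_of_ne ht with h2 | h2
  · exact mul_pos_of_neg_of_neg h1 h2
  · obtain ⟨τ, hτ, h⟩ := intermediate_value_Icc hst hf ⟨h1.le, h2.le⟩
    exact absurd h (h0 τ hτ)
  · obtain ⟨τ, hτ, h⟩ := intermediate_value_Icc' hst hf ⟨h2.le, h1.le⟩
    exact absurd h (h0 τ hτ)
  · exact mul_pos h1 h2

lemma pos_of_mul_pos_of_nonneg_right' {x y : ℝ} (h : 0 < x * y) (hy : 0 ≤ y) : 0 < x := by
  by_contra hx
  exact absurd h (not_lt.mpr (mul_nonpos_of_nonpos_of_nonneg (not_lt.mp hx) hy))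

lemma sign_flip {σ b₀ b₁ d₀ d₁ : ℝ} (h : 0 < σ * (b₀ * b₁)) (h0 : 0 < b₀ * d₀) (h1 : b₁ * d₁ < 0) :
    0 < σ * -1 * (d₀ * d₁) := by
  have h2 : 0 < (σ * (b₀ * b₁)) * ((b₀ * d₀) * -(b₁ * d₁)) :=
    mul_pos h (mul_pos h0 (neg_pos.mpr h1))
  have h3 : (σ * (b₀ * b₁)) * ((b₀ * d₀) * -(b₁ * d₁)) = (σ * -1 * (d₀ * d₁)) * (b₀ * b₁) ^ 2 := by
    ring
  rw [h3] at h2
  exact pos_of_mul_pos_of_nonneg_right' h2 (sq_nonneg _)

lemma sign_final {s b₀ b₁ f₀ f₁ A₀ A₁ : ℝ} (h : 0 < s * (b₀ * b₁)) (k0 : 0 < f₀ * (A₀ * b₀))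
    (k1 : 0 < f₁ * (A₁ * b₁)) (hf : 0 < f₀ * f₁) : 0 < s * (A₀ * A₁) := by
  have h2 := mul_pos (mul_pos h hf) (mul_pos k0 k1)
  have h3 : s * (b₀ * b₁) * (f₀ * f₁) * (f₀ * (A₀ * b₀) * (f₁ * (A₁ * b₁))) =
      (s * (A₀ * A₁)) * (b₀ * b₁ * f₀ * f₁) ^ 2 := by ring
  rw [h3] at h2
  exact pos_of_mul_pos_of_nonneg_right' h2 (sq_nonneg _)

section family
variable {V : Type*} [NormedAddCommGroup V] [InnerProductSpace ℝ V] [FiniteDimensional ℝ V] {D : ℕ}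

/-- the solution operators with regular initial data -/
lemma sol_ops (B : (ℕ → ℝ) → ℝ → V →L[ℝ] V)
    (hB : ContinuousOn (fun p : (ℕ → ℝ) × ℝ => B p.1 p.2) (cube ×ˢ univ))
    (φ₀ : OrthonormalBasis (Fin D) ℝ V) (β₀ : Fin D → ℝ) :
    ∃ U U' : (ℕ → ℝ) → ℝ → V →L[ℝ] V, (∀ t, ContinuousOn (fun θ => U θ t) cube) ∧
      ∀ θ ∈ cube, ∀ x, Sol (B θ) (fun t => U θ t x) (fun t => U' θ t x) ∧ U θ 0 x = x ∧
        Reg0 φ₀ β₀ (U θ 0 x) (U' θ 0 x) := by
  have : CompleteSpace V := FiniteDimensional.complete ℝ V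
  let A : (ℕ → ℝ) → ℝ → (V × V) →L[ℝ] (V × V) := fun θ t =>
    (ContinuousLinearMap.inl ℝ V V).comp (ContinuousLinearMap.snd ℝ V V) +
      (ContinuousLinearMap.inr ℝ V V).comp ((B θ t).comp (ContinuousLinearMap.fst ℝ V V))
  have hA : ContinuousOn (fun p : (ℕ → ℝ) × ℝ => A p.1 p.2) (cube ×ˢ univ) :=
    continuousOn_const.add (continuousOn_const.clm_comp (hB.clm_comp continuousOn_const))
  obtain ⟨Φ, hΦ, hΦc⟩ := flow_exists cube A hA
  let R : V →L[ℝ] V := ∑ i, √(β₀ i) • (innerSL ℝ (φ₀ i)).smulRight (φ₀ i)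
  let I : V →L[ℝ] V × V := (ContinuousLinearMap.id ℝ V).prod R
  refine ⟨fun θ t => (ContinuousLinearMap.fst ℝ V V).comp ((Φ θ t).comp I),
    fun θ t => (ContinuousLinearMap.snd ℝ V V).comp ((Φ θ t).comp I),
    fun t => continuousOn_const.clm_comp ((hΦc t).clm_comp continuousOn_const), ?_⟩
  intro θ hθ x
  obtain ⟨h0, hd⟩ := hΦ θ hθ
  refine ⟨fun t => ?_, ?_, ?_⟩
  · have h1 : HasDerivAt (fun t => Φ θ t (I x)) ((A θ t * Φ θ t) (I x)) t := by
      have := (hd t).clm_apply (hasDerivAt_const t (I x))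
      simpa using this
    have h2 := (ContinuousLinearMap.fst ℝ V V).hasFDerivAt.comp_hasDerivAt t h1
    have h3 := (ContinuousLinearMap.snd ℝ V V).hasFDerivAt.comp_hasDerivAt t h1
    constructor
    · refine HasDerivAt.congr_deriv h2 ?_
      simp [A]
    · refine HasDerivAt.congr_deriv h3 ?_
      simp [A]
  · simp [h0, I]
  · intro i
    simp only [h0, I, R, ContinuousLinearMap.comp_apply, one_apply_eq_self,
      ContinuousLinearMap.prod_apply, ContinuousLinearMap.coe_fst', ContinuousLinearMap.coe_snd',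
      ContinuousLinearMap.id_apply, sum_apply, smul_apply,
      ContinuousLinearMap.smulRight_apply, innerSL_apply_apply, inner_sum, real_inner_smul_right]
    rw [Finset.sum_eq_single i]
    · simp
    · intro j _ hj
      rw [φ₀.orthonormal.inner_eq_zero hj.symm]; simp
    · simp

/-- solving the two-point boundary value problem, continuously in the parameter -/
lemma shoot {N : ℕ} (hND : N ≤ D) (U₀ U₁ : (ℕ → ℝ) → V →L[ℝ] V)
    (h₀ : ContinuousOn U₀ cube) (h₁ : ContinuousOn U₁ cube)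
    (e₀ e₁ : OrthonormalBasis (Fin D) ℝ V)
    (hinj : ∀ θ ∈ cube, ∀ x, (∀ i : Fin D, (i : ℕ) < N → ⟪e₀ i, U₀ θ x⟫ = 0) →
      (∀ i : Fin D, N ≤ (i : ℕ) → ⟪e₁ i, U₁ θ x⟫ = 0) → x = 0) :
    ∃ X : (ℕ → ℝ) → EuclideanSpace ℝ (Fin N) →L[ℝ] V, ContinuousOn X cube ∧
      ∀ θ ∈ cube, ∀ y, (∀ j : Fin N, ⟪e₀ (Fin.castLE hND j), U₀ θ (X θ y)⟫ = y j) ∧
        ∀ i : Fin D, N ≤ (i : ℕ) → ⟪e₁ i, U₁ θ (X θ y)⟫ = 0 := by
  have : CompleteSpace V := FiniteDimensional.complete ℝ V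
  let P : V →L[ℝ] V := ∑ i : Fin D,
    if (i : ℕ) < N then (innerSL ℝ (e₀ i)).smulRight (e₀ i) else 0
  let Q : V →L[ℝ] V := ∑ i : Fin D,
    if (i : ℕ) < N then 0 else (innerSL ℝ (e₁ i)).smulRight (e₀ i)
  have hP : ∀ (i : Fin D) z, ⟪e₀ i, P z⟫ = if (i : ℕ) < N then ⟪e₀ i, z⟫ else 0 := by
    intro i z
    simp only [P, sum_apply, inner_sum]
    rw [Finset.sum_eq_single i]
    · split_ifs <;> simp [real_inner_smul_right]
    · intro j _ hj
      split_ifs <;> simp [real_inner_smul_right, e₀.orthonormal.inner_eq_zero hj.symm]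
    · simp
  have hQ : ∀ (i : Fin D) z, ⟪e₀ i, Q z⟫ = if (i : ℕ) < N then 0 else ⟪e₁ i, z⟫ := by
    intro i z
    simp only [Q, sum_apply, inner_sum]
    rw [Finset.sum_eq_single i]
    · split_ifs <;> simp [real_inner_smul_right]
    · intro j _ hj
      split_ifs <;> simp [real_inner_smul_right, e₀.orthonormal.inner_eq_zero hj.symm]
    · simp
  let G : (ℕ → ℝ) → V →L[ℝ] V := fun θ => P.comp (U₀ θ) + Q.comp (U₁ θ)
  have hGc : ContinuousOn G cube :=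
    (continuousOn_const.clm_comp h₀).add (continuousOn_const.clm_comp h₁)
  have hG : ∀ θ (i : Fin D) x, ⟪e₀ i, G θ x⟫ =
      if (i : ℕ) < N then ⟪e₀ i, U₀ θ x⟫ else ⟪e₁ i, U₁ θ x⟫ := by
    intro θ i x
    simp only [G, add_apply, ContinuousLinearMap.comp_apply, inner_add_right,
      hP, hQ]
    split_ifs <;> simp
  have hU : ∀ θ ∈ cube, IsUnit (G θ) := by
    intro θ hθ
    have hi : Function.Injective (G θ) := by
      rw [injective_iff_map_eq_zero]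
      intro x hx
      refine hinj θ hθ x (fun i hi => ?_) (fun i hi => ?_)
      · have := hG θ i x
        rw [hx, inner_zero_right, if_pos hi] at this
        exact this.symm
      · have := hG θ i x
        rw [hx, inner_zero_right, if_neg (not_lt.mpr hi)] at this
        exact this.symm
    have hb : Function.Bijective (G θ) :=
      ⟨hi, (LinearMap.injective_iff_surjective (f := (G θ : V →ₗ[ℝ] V))).mp hi⟩
    exact ContinuousLinearMap.isUnit_iff_bijective.mpr hb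
  let ι : EuclideanSpace ℝ (Fin N) →L[ℝ] V :=
    ∑ j : Fin N, (EuclideanSpace.proj j : EuclideanSpace ℝ (Fin N) →L[ℝ] ℝ).smulRight
      (e₀ (Fin.castLE hND j))
  have hι1 : ∀ y (j : Fin N), ⟪e₀ (Fin.castLE hND j), ι y⟫ = y j := by
    intro y j
    simp only [ι, sum_apply, inner_sum]
    rw [Finset.sum_eq_single j]
    · simp [real_inner_smul_right]
    · intro k _ hk
      have : Fin.castLE hND j ≠ Fin.castLE hND k := fun h => hk (Fin.castLE_injective hND h).symm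
      simp [real_inner_smul_right, e₀.orthonormal.inner_eq_zero this]
    · simp
  have hι2 : ∀ y (i : Fin D), N ≤ (i : ℕ) → ⟪e₀ i, ι y⟫ = 0 := by
    intro y i hi
    simp only [ι, sum_apply, inner_sum]
    refine Finset.sum_eq_zero fun k _ => ?_
    have : i ≠ Fin.castLE hND k := fun h => by
      have := k.2
      simp [h] at hi
      omega
    simp [real_inner_smul_right, e₀.orthonormal.inner_eq_zero this]
  refine ⟨fun θ => (Ring.inverse (G θ)).comp ι, ?_, ?_⟩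
  · refine ContinuousOn.clm_comp ?_ continuousOn_const
    intro θ hθ
    obtain ⟨u, hu⟩ := hU θ hθ
    have h1 : ContinuousAt (Ring.inverse : (V →L[ℝ] V) → (V →L[ℝ] V)) (G θ) := by
      rw [← hu]; exact NormedRing.inverse_continuousAt u
    exact h1.comp_continuousWithinAt (hGc θ hθ)
  · intro θ hθ y
    have hx : G θ ((Ring.inverse (G θ)).comp ι y) = ι y := by
      have := Ring.mul_inverse_cancel _ (hU θ hθ)
      have h2 : (G θ * Ring.inverse (G θ)) (ι y) = ι y := by rw [this]; rfl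
      exact h2
    refine ⟨fun j => ?_, fun i hi => ?_⟩
    · have := hG θ (Fin.castLE hND j) ((Ring.inverse (G θ)).comp ι y)
      rw [hx, hι1, if_pos (by simp)] at this
      exact this.symm
    · have := hG θ i ((Ring.inverse (G θ)).comp ι y)
      rw [hx, hι2 y i hi, if_neg (not_lt.mpr hi)] at this
      exact this.symm

/-- coordinates `< N` as a continuous linear map -/
lemma coords {N : ℕ} (hND : N ≤ D) (e : OrthonormalBasis (Fin D) ℝ V) :
    ∃ π : V →L[ℝ] EuclideanSpace ℝ (Fin N), ∀ z j, π z j = ⟪e (Fin.castLE hND j), z⟫ := by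
  refine ⟨∑ j : Fin N, (innerSL ℝ (e (Fin.castLE hND j))).smulRight
    (EuclideanSpace.single j (1 : ℝ)), fun z j => ?_⟩
  simp [sum_apply, Pi.single_apply]

end family

end Tok
end Crest.Agent.R202
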