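import Crest.Agent.R202.Dyn3
import Crest.Agent.R202.Flow
import Crest.Agent.R202.Flags
import Crest.Agent.R202.TokensAux

/-! # Row 202, Tokens: controlled solutions of `u'' = B_θ(t) u` -/

set_option autoImplicit false
open scoped RealInnerProductSpace
open Set Filter

noncomputable section
namespace Crest.Agent.R202

/-- Take `η₀ = 1/4000`, `ε,L,C` from `dyn_basic q₀ μ Γ η₀` (answer `2C`), `T₀ = a 0`, `T₁ = a (J+1)`.  With `flow_exists` on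
`V × V` for `(x,y) ↦ (y, B x)` and `β₀ x = Σ √(β θ 0 i) ⟪φ θ 0 i, x⟫ φ θ 0 i` (independent of `θ`), let `u_x` be the solution
with data `(x, β₀ x)` at `0`.  The linear map `G θ : x ↦ (coordinates < N of u_x(a 0), coordinates ≥ N of u_x(T₁))`
(write it as `V →L V` through the fixed basis `φ θ (a 0)`, or into `EuclideanSpace ℝ (Fin D)`) is injective (`dyn_basic`: `hiB N ≤ η₀‖·‖²` and
monotonicity give `u_x 0 = 0`), continuous in `θ`, so is its inverse (`Ring.inverse`/`ContinuousLinearMap.inverse`,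
`contDiffAt_map_inverse`, or matrices).  `c θ m y :=` coordinates `< N` of `u_x(a m)`, `x = (G θ)⁻¹ (y, 0)`.
Since `hiB N ≤ η₀‖u‖²` at every `a m`, `m ≤ J`: `(1-η₀)‖u‖² ≤ ‖c‖² ≤ ‖u‖²`, `hiN q c ≤ hiB q u`, `loN q c = loB q u`, so `flags`
applies with `η = 2η₀`.  `Thr` on consecutive intervals concatenates.  `sign`: for `τ ∈ [a m, a (m+1)]`,
`loB p ≤ η₀‖u‖²` (cone on `[a (m-1), τ]`) and `hiB (p+1) ≤ η₀‖u‖²` (contrapositive of cone on `[τ, a (m+2)]`, or top), so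
`⟪u τ, ψ m (θ m)⟫ ≠ 0` has the sign of `⟪u τ, φ p⟫⟪φ p, ψ⟫` (`|⟪φ p,ψ⟫| ≥ 1/4`, `‖ψ‖ ≤ 2`) and keeps its sign (IVT);
`σ` = the sign of `⟪φ (a m) p, ψ m 1⟫ ⟪φ (a (m+1)) p, ψ m 1⟫` (independent of `θ`). -/
theorem dyn_tokens (N : ℕ) (hN : 1 ≤ N) (q₀ μ Γ : ℝ) (hq : 0 < q₀) (hμ : 0 < μ) :
    ∃ ε L C : ℝ, 0 < ε ∧ 1 ≤ L ∧ 1 ≤ C ∧
      ∀ {V : Type} [NormedAddCommGroup V] [InnerProductSpace ℝ V] [FiniteDimensional ℝ V] {D : ℕ}
        (B B' : (ℕ → ℝ) → ℝ → V →L[ℝ] V) (φ : (ℕ → ℝ) → ℝ → OrthonormalBasis (Fin D) ℝ V)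
        (β : (ℕ → ℝ) → ℝ → Fin D → ℝ) (a : ℕ → ℝ) (J : ℕ) (sw : ℕ → Prop) (pos : ℕ → ℕ)
        (γ γ' : (ℕ → ℝ) → ℕ → ℝ → ℝ) (ψ : ℕ → ℝ → V) (γb : ℕ → ℕ → ℝ) (Eb : ℕ → ℕ → ℝ),
        N ≤ D →
        (∀ θ ∈ cube, Slow (B θ) (B' θ) (φ θ) (β θ) q₀ ε) →
        ContinuousOn (fun p : (ℕ → ℝ) × ℝ => B p.1 p.2) (cube ×ˢ univ) →
        (∀ θ ∈ cube, ∀ θ' ∈ cube, φ θ 0 = φ θ' 0 ∧ β θ 0 = β θ' 0 ∧ ∀ m, φ θ (a m) = φ θ' (a m)) →
        L ≤ a 0 → (∀ m, a m + L ≤ a (m + 1)) →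
        (∀ m ≤ J, sw m → 1 ≤ pos m ∧ pos m < N ∧ 1 ≤ m ∧ m + 2 ≤ J ∧ ¬sw (m - 1) ∧ ¬sw (m + 1)) →
        (∀ θ ∈ cube, ∀ m ≤ J, ∀ q, 1 ≤ q → q ≤ N → (¬(sw m ∧ q = pos m) ∨ |θ m| = 1) →
          Thr (β θ) q (γ θ q) (γ' θ q) μ Γ ε (a m) (a (m + 1))) →
        (∀ θ ∈ cube, ∀ m ≤ J, ∀ q, 1 ≤ q → q ≤ N → ¬(sw m ∧ q = pos m) →
          ∀ τ ∈ Icc (a m) (a (m + 1)), γ θ q τ ≤ γb m q) →
        (∀ m ≤ J, sw m → (∀ s, ‖ψ m s‖ ≤ 2) ∧ ∀ θ ∈ cube, ∀ i : Fin D, (i : ℕ) = pos m →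
          (|θ m| = 1 → ∀ τ ∈ Icc (a m) (a (m + 1)), 1 / 4 ≤ |⟪φ θ τ i, ψ m (θ m)⟫|) ∧
          0 < ⟪φ θ (a m) i, ψ m 1⟫ * ⟪φ θ (a m) i, ψ m (-1)⟫ ∧
          ⟪φ θ (a (m + 1)) i, ψ m 1⟫ * ⟪φ θ (a (m + 1)) i, ψ m (-1)⟫ < 0) →
        Rec N sw pos (fun m q => C * Real.exp (γb m q * (a (m + 1) - a m))) Eb →
        ∃ θ ∈ cube, ∃ u u' : Fin N → ℝ → V,
          (∀ j, Sol (B θ) (u j) (u' j) ∧ Reg0 (φ θ 0) (β θ 0) (u j 0) (u' j 0)) ∧
          (∀ (j : Fin N) (i : Fin D), ((i : ℕ) = j → ⟪φ θ (a 0) i, u j (a 0)⟫ = 1) ∧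
            ((i : ℕ) < j → ⟪φ θ (a 0) i, u j (a 0)⟫ = 0)) ∧
          ∀ j, ∀ m ≤ J, ∀ t, 0 ≤ t → t ≤ a m → ‖u j t‖ ≤ 2 * ∑ k ∈ Finset.range N, Eb m k := by
  obtain ⟨ε, L, C, hε, hL, hC, H⟩ := dyn_basic q₀ μ Γ (1 / 4000) hq hμ (by norm_num)
  refine ⟨ε, L, 2 * C, hε, hL, by linarith, ?_⟩
  intro V _ _ _ D B B' φ β a J sw pos γ γ' ψ γb Eb hND hslow hBc hind ha0 ha hsw hthr hγb hψ hE
  have hD : 0 < D := by omega
  have h0c : (0 : ℕ → ℝ) ∈ cube := fun m => by simp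
  have hmono : Monotone a := monotone_nat_of_le_succ fun m => by linarith [ha m]
  have hapos : ∀ m, 0 ≤ a m := fun m => by linarith [hmono (Nat.zero_le m)]
  have haL : ∀ m m', m < m' → a m + L ≤ a m' := fun m m' h => (ha m).trans (hmono h)
  have hφ0 : ∀ θ ∈ cube, φ θ 0 = φ 0 0 := fun θ hθ => (hind θ hθ 0 h0c).1
  have hβ0 : ∀ θ ∈ cube, β θ 0 = β 0 0 := fun θ hθ => (hind θ hθ 0 h0c).2.1
  have hφm : ∀ θ ∈ cube, ∀ m, φ θ (a m) = φ 0 (a m) := fun θ hθ => (hind θ hθ 0 h0c).2.2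
  have hthrN : ∀ θ ∈ cube, Thr (β θ) N (γ θ N) (γ' θ N) μ Γ ε (a 0) (a (J + 1)) := by
    intro θ hθ
    refine Tok.thr_chain a J fun m hm => hthr θ hθ m hm N hN le_rfl (Or.inl ?_)
    rintro ⟨h1, h2⟩
    have := (hsw m hm h1).2.1
    omega
  obtain ⟨U, U', hUc, hU⟩ := Tok.sol_ops B hBc (φ 0 0) (β 0 0)
  have hReg : ∀ θ ∈ cube, ∀ x, Reg0 (φ θ 0) (β θ 0) (U θ 0 x) (U' θ 0 x) := fun θ hθ x => by
    rw [hφ0 θ hθ, hβ0 θ hθ]; exact (hU θ hθ x).2.2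
  have HD := fun θ (hθ : θ ∈ cube) x
      (hx : ∀ i : Fin D, N ≤ (i : ℕ) → ⟪φ θ (a (J + 1)) i, U θ (a (J + 1)) x⟫ = 0) =>
    H (B θ) (B' θ) (φ θ) (β θ) hD (hslow θ hθ) (fun t => U θ t x) (fun t => U' θ t x)
      (hU θ hθ x).1 (hReg θ hθ x) N (a 0) (a (J + 1)) (γ θ N) (γ' θ N) hN ha0
      (hmono (Nat.zero_le _)) (hthrN θ hθ) hx
  obtain ⟨X, hXc, hX⟩ := Tok.shoot hND (fun θ => U θ (a 0)) (fun θ => U θ (a (J + 1))) (hUc _) (hUc _)
    (φ 0 (a 0)) (φ 0 (a (J + 1))) (by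
      intro θ hθ x h1 h2
      rw [← hφm θ hθ] at h1 h2
      obtain ⟨hm, -, -, htop, -⟩ := HD θ hθ x h2
      have h3 := htop (a 0) le_rfl (haL 0 (J + 1) (by omega))
      have h4 := Tok.hiB_add_loB (φ θ (a 0)) N (U θ (a 0) x)
      have h5 : loB (φ θ (a 0)) N (U θ (a 0) x) = 0 := by
        refine Finset.sum_eq_zero fun i _ => ?_
        split_ifs with h
        · rw [h1 i h]; simp
        · rfl
      have h6 : ‖U θ (a 0) x‖ ^ 2 ≤ 0 := by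
        beta_reduce at h3
        linarith
      have h7 : ‖U θ (a 0) x‖ = 0 := by
        have := sq_nonneg ‖U θ (a 0) x‖
        exact pow_eq_zero_iff (two_ne_zero) |>.mp (le_antisymm h6 this)
      have h8 := hm (mem_Ici.mpr le_rfl) (mem_Ici.mpr (hapos 0)) (hapos 0)
      beta_reduce at h8
      rw [(hU θ hθ x).2.1, h7] at h8
      exact norm_le_zero_iff.mp h8)
  choose π hπ using fun m => Tok.coords hND (φ 0 (a m))
  let c : (ℕ → ℝ) → ℕ → EuclideanSpace ℝ (Fin N) →L[ℝ] EuclideanSpace ℝ (Fin N) := fun θ m =>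
    (π m).comp ((U θ (a m)).comp (X θ))
  have hc : ∀ θ ∈ cube, ∀ m y j, c θ m y j = ⟪φ θ (a m) (Fin.castLE hND j), U θ (a m) (X θ y)⟫ := by
    intro θ hθ m y j
    rw [hφm θ hθ]
    exact hπ m _ j
  have HX := fun θ (hθ : θ ∈ cube) y => HD θ hθ (X θ y) (by
    rw [hφm θ hθ]; exact (hX θ hθ y).2)
  beta_reduce at HX
  clear HD H
  have hc0 : ∀ θ ∈ cube, ∀ y, c θ 0 y = y := by
    intro θ hθ y
    ext j
    rw [hc θ hθ, hφm θ hθ]
    exact (hX θ hθ y).1 j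
  have hle : ∀ θ ∈ cube, ∀ m y, ‖c θ m y‖ ^ 2 ≤ ‖U θ (a m) (X θ y)‖ ^ 2 := by
    intro θ hθ m y
    rw [Tok.normsq_eq hND (φ θ (a m)) _ _ (hc θ hθ m y), ← Tok.hiB_add_loB (φ θ (a m)) N]
    linarith [Tok.hiB_nonneg (φ θ (a m)) N (U θ (a m) (X θ y))]
  have hge : ∀ θ ∈ cube, ∀ m ≤ J, ∀ y,
      (1 - 1 / 4000) * ‖U θ (a m) (X θ y)‖ ^ 2 ≤ ‖c θ m y‖ ^ 2 := by
    intro θ hθ m hm y
    rw [Tok.normsq_eq hND (φ θ (a m)) _ _ (hc θ hθ m y)]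
    have h1 := Tok.hiB_add_loB (φ θ (a m)) N (U θ (a m) (X θ y))
    have h2 := (HX θ hθ y).2.2.2.1 (a m) (hmono (Nat.zero_le _)) (haL m (J + 1) (by omega))
    linarith
  have hge' : ∀ θ ∈ cube, ∀ m ≤ J, ∀ y,
      1 / 4000 * ‖U θ (a m) (X θ y)‖ ^ 2 ≤ 1 / 2000 * ‖c θ m y‖ ^ 2 := by
    intro θ hθ m hm y
    have := hge θ hθ m hm y
    have h2 := sq_nonneg ‖U θ (a m) (X θ y)‖
    linarith
  have hge2 : ∀ θ ∈ cube, ∀ m ≤ J, ∀ y, ‖U θ (a m) (X θ y)‖ ≤ 2 * ‖c θ m y‖ := by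
    intro θ hθ m hm y
    have := hge θ hθ m hm y
    have h2 := sq_nonneg ‖U θ (a m) (X θ y)‖
    have h3 := sq_nonneg ‖c θ m y‖
    refine le_of_sq_le_sq (by rw [mul_pow]; linarith) (by positivity)
  have hle1 : ∀ θ ∈ cube, ∀ m y, ‖c θ m y‖ ≤ ‖U θ (a m) (X θ y)‖ := fun θ hθ m y =>
    le_of_sq_le_sq (hle θ hθ m y) (norm_nonneg _)
  have hhi : ∀ θ ∈ cube, ∀ m y q, hiN q (c θ m y) ≤ hiB (φ θ (a m)) q (U θ (a m) (X θ y)) :=
    fun θ hθ m y q => Tok.hiN_le hND _ _ _ (hc θ hθ m y) q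
  have hlo : ∀ θ ∈ cube, ∀ m y q, q ≤ N →
      loN q (c θ m y) = loB (φ θ (a m)) q (U θ (a m) (X θ y)) :=
    fun θ hθ m y q hq => Tok.loN_eq hND _ _ _ (hc θ hθ m y) q hq
  obtain ⟨θ, hθ, y, hy, hb⟩ := flags N J (1 / 2000) (by norm_num) (by norm_num) c hc0
    (fun m _ => continuousOn_const.clm_comp ((hUc _).clm_comp hXc))
    (by
      intro θ hθ m hm
      rw [injective_iff_map_eq_zero]
      intro y hy
      have h1 := hge2 θ hθ m hm y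
      rw [hy, norm_zero, mul_zero] at h1
      have h2 := (HX θ hθ y).1 (mem_Ici.mpr (hapos 0)) (mem_Ici.mpr (hapos m))
        (hmono (Nat.zero_le m))
      have h3 := hle1 θ hθ 0 y
      rw [hc0 θ hθ] at h3
      beta_reduce at h2
      exact norm_le_zero_iff.mp (h3.trans (h2.trans h1)))
    sw pos (fun m hm => hsw m hm.le)
    (by
      intro θ hθ m hm q hq1 hqN hs x hx
      have h1 := (HX θ hθ x).2.1 q (γ θ q) (γ' θ q) (a m) (a (m + 1)) hq1 (hmono (Nat.zero_le _))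
        (ha m) (hmono (by omega)) (hthr θ hθ m hm.le q hq1 hqN.le hs)
        (lt_of_le_of_lt (hge' θ hθ m hm.le x) (hx.trans_le (hhi θ hθ m x q)))
      rw [hlo θ hθ _ _ _ hqN.le]
      exact h1.trans (hge' θ hθ (m + 1) hm x))
    (fun m q => 2 * C * Real.exp (γb m q * (a (m + 1) - a m))) (fun m q => by positivity)
    (by
      intro θ hθ m hm q hq1 hqN hs x hx
      have h1 : ‖U θ (a (m + 1)) (X θ x)‖ ≤
          C * Real.exp (γb m q * (a (m + 1) - a m)) * ‖U θ (a m) (X θ x)‖ := by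
        rcases hqN.lt_or_eq with hq' | hq'
        · refine (HX θ hθ x).2.2.1 q (γ θ q) (γ' θ q) (a m) (a (m + 1)) (γb m q) hq1
            (hmono (Nat.zero_le _)) (hmono (by omega)) (hmono (by omega))
            (hthr θ hθ m hm.le q hq1 hqN (Or.inl hs)) (hγb θ hθ m hm.le q hq1 hqN hs) ?_
          rw [← hlo θ hθ _ _ _ hqN]
          exact lt_of_le_of_lt (hge' θ hθ (m + 1) hm x) (hx hq')
        · subst hq'
          exact (HX θ hθ x).2.2.2.2 (a m) (a (m + 1)) (γb m q) (hmono (Nat.zero_le _))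
            (hmono (by omega)) (hmono (by omega)) (hγb θ hθ m hm.le q hq1 hqN hs)
      have h2 := hge2 θ hθ m hm.le x
      have h3 : 0 ≤ C * Real.exp (γb m q * (a (m + 1) - a m)) := by positivity
      calc ‖c θ (m + 1) x‖ ≤ _ := hle1 θ hθ _ x
        _ ≤ _ := h1
        _ ≤ C * Real.exp (γb m q * (a (m + 1) - a m)) * (2 * ‖c θ m x‖) :=
          mul_le_mul_of_nonneg_left h2 h3
        _ = _ := by ring)
    (by
      intro m hm hs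
      obtain ⟨hp1, hpN, hm1, hm2, hs1, hs2⟩ := hsw m hm.le hs
      obtain ⟨hψ2, hψ'⟩ := hψ m hm.le hs
      let p : Fin D := ⟨pos m, by omega⟩
      obtain ⟨-, he0, he1⟩ := hψ' 0 h0c p rfl
      set b₀ := ⟪φ 0 (a m) p, ψ m 1⟫ with hb₀
      set b₁ := ⟪φ 0 (a (m + 1)) p, ψ m 1⟫ with hb₁
      have hb0 : b₀ ≠ 0 := left_ne_zero_of_mul he0.ne'
      have hb1 : b₁ ≠ 0 := left_ne_zero_of_mul he1.ne
      obtain ⟨σ, hσ, hσb⟩ : ∃ σ : ℝ, |σ| = 1 ∧ 0 < σ * (b₀ * b₁) := by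
        rcases lt_or_gt_of_ne (mul_ne_zero hb0 hb1) with h | h
        · exact ⟨-1, by simp, by linarith⟩
        · exact ⟨1, by simp, by linarith⟩
      refine ⟨σ, hσ, ?_⟩
      intro θ hθ hθm i hi x hx1 hx2
      have hip : Fin.castLE hND i = p := Fin.ext hi
      obtain ⟨hbig, -, -⟩ := hψ' θ hθ p rfl
      have hbig := hbig hθm
      obtain ⟨hmon, hcone, -, htop, -⟩ := HX θ hθ x
      have hm' : m - 1 + 1 = m := by omega
      have hT1 : Thr (β θ) (pos m) (γ θ (pos m)) (γ' θ (pos m)) μ Γ ε (a (m - 1)) (a (m + 1)) := by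
        have h1 := hthr θ hθ (m - 1) (by omega) (pos m) hp1 hpN.le (Or.inl fun h => hs1 h.1)
        rw [hm'] at h1
        exact Tok.thr_concat h1 (hthr θ hθ m hm.le (pos m) hp1 hpN.le (Or.inr hθm))
      have hT2 : Thr (β θ) (pos m + 1) (γ θ (pos m + 1)) (γ' θ (pos m + 1)) μ Γ ε (a m)
          (a (m + 2)) :=
        Tok.thr_concat (hthr θ hθ m hm.le (pos m + 1) (by omega) hpN (Or.inl fun h => by
            have := h.2; omega))
          (hthr θ hθ (m + 1) (by omega) (pos m + 1) (by omega) hpN (Or.inl fun h => hs2 h.1))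
      have hup : 1 / 4000 * ‖U θ (a (m - 1)) (X θ x)‖ ^ 2 <
          hiB (φ θ (a (m - 1))) (pos m) (U θ (a (m - 1)) (X θ x)) :=
        lt_of_le_of_lt (hge' θ hθ (m - 1) (by omega) x) (hx1.trans_le (hhi θ hθ _ x _))
      have hne : 0 < ‖U θ (a (m - 1)) (X θ x)‖ := by
        rcases (norm_nonneg (U θ (a (m - 1)) (X θ x))).lt_or_eq with h | h
        · exact h
        · have h1 := Tok.hiB_add_loB (φ θ (a (m - 1))) (pos m) (U θ (a (m - 1)) (X θ x))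
          have h2 := Tok.loB_nonneg (φ θ (a (m - 1))) (pos m) (U θ (a (m - 1)) (X θ x))
          rw [← h] at h1 hup
          linarith
      have key : ∀ τ ∈ Icc (a m) (a (m + 1)),
          0 < ⟪U θ τ (X θ x), ψ m (θ m)⟫ * (⟪φ θ τ p, U θ τ (X θ x)⟫ * ⟪φ θ τ p, ψ m (θ m)⟫) := by
        intro τ hτ
        have hτ1 : a (m - 1) + L ≤ τ := (haL _ _ (by omega)).trans hτ.1
        have hτ2 : τ + L ≤ a (m + 2) := by linarith [hτ.2, ha (m + 1)]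
        have hτ3 : a (m + 2) ≤ a (J + 1) := hmono (by omega)
        have hτ0 : a 0 ≤ τ := (hmono (Nat.zero_le _)).trans hτ.1
        refine Tok.sign_aux (φ θ τ) p _ _ ?_ ?_ ?_ (hψ2 _) (hbig τ hτ)
        · exact hne.trans_le (hmon (mem_Ici.mpr (hapos _)) (mem_Ici.mpr ((hapos 0).trans hτ0))
            (by linarith))
        · exact hcone (pos m) _ _ (a (m - 1)) τ hp1 (hmono (Nat.zero_le _)) hτ1 (by linarith)
            (Tok.thr_mono hT1 le_rfl hτ.2) hup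
        · change hiB (φ θ τ) (pos m + 1) _ ≤ _
          rcases (Nat.succ_le_of_lt hpN).lt_or_eq with h | h
          · by_contra hcon
            have h1 := hcone (pos m + 1) _ _ τ (a (m + 2)) (by omega) hτ0 hτ2 hτ3
              (Tok.thr_mono hT2 hτ.1 le_rfl) (not_le.mp hcon)
            have h2 := hx2 h
            rw [hlo θ hθ _ _ _ hpN] at h2
            linarith [hge' θ hθ (m + 2) hm2 x]
          · rw [show pos m + 1 = N from h]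
            exact htop τ hτ0 (by linarith)
      have hcont : ContinuousOn (fun τ => ⟪U θ τ (X θ x), ψ m (θ m)⟫) (Icc (a m) (a (m + 1))) := by
        have : Continuous (fun τ => U θ τ (X θ x)) :=
          continuous_iff_continuousAt.mpr fun τ => ((hU θ hθ (X θ x)).1 τ).1.continuousAt
        exact (this.inner continuous_const).continuousOn
      have hsame := Tok.same_sign (hmono (Nat.le_succ m)) hcont
        (fun τ hτ => left_ne_zero_of_mul (key τ hτ).ne')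
      have k0 := key (a m) ⟨le_rfl, hmono (Nat.le_succ m)⟩
      have k1 := key (a (m + 1)) ⟨hmono (Nat.le_succ m), le_rfl⟩
      rw [hc θ hθ, hc θ hθ, hip]
      have hs' : 0 < σ * θ m * (⟪φ θ (a m) p, ψ m (θ m)⟫ * ⟪φ θ (a (m + 1)) p, ψ m (θ m)⟫) := by
        rw [hφm θ hθ, hφm θ hθ]
        rcases eq_or_eq_neg_of_abs_eq hθm with h | h
        · rw [h, mul_one]; exact hσb
        · rw [h]
          exact Tok.sign_flip hσb he0 he1
      beta_reduce at hsame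
      exact Tok.sign_final hs' k0 k1 hsame)
    Eb hE
  refine ⟨θ, hθ, fun j t => U θ t (X θ (y j)), fun j t => U' θ t (X θ (y j)),
    fun j => ⟨(hU θ hθ _).1, hReg θ hθ _⟩, fun j i => ⟨fun hij => ?_, fun hij => ?_⟩, ?_⟩
  · have h1 := hc θ hθ 0 (y j) j
    rw [hc0 θ hθ, (hy j).1, show Fin.castLE hND j = i from Fin.ext hij.symm] at h1
    exact h1.symm
  · have hi : (i : ℕ) < N := hij.trans j.2
    have h1 := hc θ hθ 0 (y j) ⟨i, hi⟩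
    rw [hc0 θ hθ, (hy j).2 ⟨i, hi⟩ hij, show Fin.castLE hND ⟨i, hi⟩ = i from Fin.ext rfl] at h1
    exact h1.symm
  · intro j m hm t ht htm
    have h1 := (HX θ hθ (y j)).1 (mem_Ici.mpr ht) (mem_Ici.mpr (hapos m)) htm
    have h2 := hge2 θ hθ m hm (y j)
    have h3 := hb j m hm
    beta_reduce at h1 ⊢
    linarith

end Crest.Agent.R202
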