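import Crest.Agent.R202.Harm
import Crest.Agent.R202.Gal
import Crest.Agent.R202.Tokens

/-! # Row 202, Inst: the Galerkin systems satisfy the hypotheses of `dyn_tokens` -/

set_option autoImplicit false
open scoped ContDiff RealInnerProductSpace
open Set Filter Topology MeasureTheory Crest.GeometryTopology.CoordMetric

noncomputable section
namespace Crest.Agent.R202

variable {n : ℕ}

lemma opA_symm (M : ℕ) (b : BB n) (x y : PM n M) :
    ⟪opA M (HX (iota b)) x, y⟫ = ⟪x, opA M (HX (iota b)) y⟫ := by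
  rw [inner_opA, real_inner_comm, inner_opA, form_symm (HX_symm b)]

/-- chosen sorted eigenbasis of the Galerkin operator -/
def gφ (M : ℕ) (b : BB n) : OrthonormalBasis (Fin (nl n M)) ℝ (PM n M) :=
  (exists_eigB (finrank_PM M) (opA M (HX (iota b))) (opA_symm M b)).choose
def gl (M : ℕ) (b : BB n) : Fin (nl n M) → ℝ :=
  (exists_eigB (finrank_PM M) (opA M (HX (iota b))) (opA_symm M b)).choose_spec.choose
lemma g_eig (M : ℕ) (b : BB n) : EigB (opA M (HX (iota b))) (gφ M b) (gl M b) :=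
  (exists_eigB (finrank_PM M) (opA M (HX (iota b))) (opA_symm M b)).choose_spec.choose_spec

def gβ (M : ℕ) (l : ℝ → ℝ) (b : ℝ → BB n) (t : ℝ) (i : Fin (nl n M)) : ℝ :=
  Real.exp (-2 * l t) * gl M (b t) i + qf n l t

lemma BM_eig (M : ℕ) (l : ℝ → ℝ) (b : ℝ → BB n) (t : ℝ) :
    EigB (BM M l b t) (gφ M (b t)) (gβ M l b t) := by
  refine ⟨fun i j hij => ?_, fun i => ?_⟩
  · unfold gβ
    have := (g_eig M (b t)).1 hij
    have := Real.exp_pos (-2 * l t)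
    nlinarith
  · simp only [BM, Kf, map_smul, gβ, add_apply, smul_apply, (g_eig M (b t)).2 i,
      one_apply_eq_self, add_smul, smul_smul]

lemma gl_nonneg (hn : 2 ≤ n) {ε : ℝ} (h : Good n ε) {b : BB n} (hb : ‖b‖ < ε) (M : ℕ)
    (i : Fin (nl n M)) : 0 ≤ gl M b i := by
  have h1 := inner_opA M (HX (iota b)) (gφ M b i) (gφ M b i)
  rw [(g_eig M b).2 i, real_inner_smul_left, real_inner_self_eq_norm_sq, (gφ M b).orthonormal.1 i] at h1
  have h2 := (aB_coer hn h hb (incl M (gφ M b i))).1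
  have h3 := form_PiX_nonneg (incl M (gφ M b i))
  unfold aB at h2
  linarith

lemma inner_BM (M : ℕ) (l : ℝ → ℝ) (b : ℝ → BB n) (t : ℝ) (x y : PM n M) :
    ⟪BM M l b t x, y⟫ = form (Kf l b t) (incl M x) (incl M y) + qf n l t * ⟪x, y⟫ := by
  simp only [BM, add_apply, smul_apply, one_apply_eq_self, inner_add_left, inner_opA,
    real_inner_smul_left]

lemma Adm.BM_smooth (hn : 2 ≤ n) {ε : ℝ} {l : ℝ → ℝ} {b : ℝ → BB n} (h : Adm ε l b) (M : ℕ) :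
    ContDiff ℝ ∞ (BM M l b) :=
  ((opA M).contDiff.comp h.Kf_smooth).add ((qf_props hn h.smooth).1.smul contDiff_const)

lemma slow_BM (hn : 2 ≤ n) {ε : ℝ} {l : ℝ → ℝ} {b : ℝ → BB n} (h : Adm ε l b) (hl : ∀ t, l t ≤ 0)
    {q₀ ε' : ℝ} (hq₀ : 0 ≤ q₀) (hq : ∀ t, q₀ ≤ qf n l t ∧ |deriv (qf n l) t| ≤ ε')
    (hK : ∀ t, 2 * n * ‖deriv (Kf l b) t‖ ≤ ε') (M : ℕ) :
    Slow (BM M l b) (fun t => opA M (deriv (Kf l b) t) + deriv (qf n l) t • (1 : PM n M →L[ℝ] PM n M))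
      (fun t => gφ M (b t)) (gβ M l b) q₀ ε' := by
  refine ⟨fun t => ?_, fun t => BM_eig M l b t, fun t i => ?_, fun t x y => ?_⟩
  · have h1 : HasDerivAt (Kf l b) (deriv (Kf l b) t) t :=
      ((h.Kf_smooth.differentiable (by simp)) t).hasDerivAt
    have h2 : HasDerivAt (qf n l) (deriv (qf n l) t) t :=
      (((qf_props hn h.smooth).1.differentiable (by simp)) t).hasDerivAt
    exact ((opA M).hasFDerivAt.comp_hasDerivAt t h1).add (h2.smul_const (1 : PM n M →L[ℝ] PM n M))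
  · have := gl_nonneg hn h.good (h.small t) M i
    have := Real.exp_pos (-2 * l t)
    have := (hq t).1
    unfold gβ
    nlinarith
  · simp only [add_apply, smul_apply, one_apply_eq_self, inner_add_left, inner_opA,
      real_inner_smul_left, inner_BM, real_inner_self_eq_norm_sq]
    have h1 := form_le (deriv (Kf l b) t) (incl M x) (incl M y)
    have h2 := h.Kf_coer hn hl t (incl M x)
    have h3 := h.Kf_coer hn hl t (incl M y)
    rw [← gr_sq] at h2 h3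
    have h4 := abs_real_inner_le_norm x y
    have h5 := (hq t).2
    have h6 := hK t
    have h7 := (hq t).1
    have hε : 0 ≤ ε' := (abs_nonneg _).trans h5
    set a := gr (incl M x)
    set c := gr (incl M y)
    set fx := form (Kf l b t) (incl M x) (incl M x)
    set fy := form (Kf l b t) (incl M y) (incl M y)
    set κ := (n : ℝ) * ‖deriv (Kf l b) t‖
    have hκ : 0 ≤ κ := by positivity
    have e1 : κ * (a * c) ≤ ε' * (fx + fy) := by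
      have : a * c ≤ 2 * (fx + fy) := by nlinarith [sq_nonneg (a - c)]
      have hf : 0 ≤ fx + fy := by nlinarith [sq_nonneg a, sq_nonneg c]
      calc κ * (a * c) ≤ κ * (2 * (fx + fy)) := mul_le_mul_of_nonneg_left this hκ
        _ = (2 * κ) * (fx + fy) := by ring
        _ ≤ ε' * (fx + fy) := mul_le_mul_of_nonneg_right (by linarith [h6]) hf
    have e2 : |deriv (qf n l) t * ⟪x, y⟫| ≤ ε' * (‖x‖ ^ 2 + ‖y‖ ^ 2) := by
      rw [abs_mul]
      have : |⟪x, y⟫| ≤ ‖x‖ ^ 2 + ‖y‖ ^ 2 := by nlinarith [sq_nonneg (‖x‖ - ‖y‖), norm_nonneg x, norm_nonneg y]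
      exact mul_le_mul h5 this (abs_nonneg _) hε
    have e3 : 0 ≤ ε' * (qf n l t * ‖x‖ ^ 2 + qf n l t * ‖y‖ ^ 2) := by
      have : 0 ≤ qf n l t := hq₀.trans h7
      positivity
    refine (abs_add_le _ _).trans ?_
    nlinarith

/-- threshold for `√β` -/
def gam (n : ℕ) (l s : ℝ → ℝ) (t : ℝ) : ℝ := √(Real.exp (-2 * l t) * s t + qf n l t)

lemma thr_gam (hn : 2 ≤ n) {l : ℝ → ℝ} (hl : ContDiff ℝ ∞ l) {Z η q₀ μ Γ ε' S δ : ℝ} (hq₀ : 0 < q₀)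
    (hμ : 0 ≤ μ) (hlZ : ∀ t, -Z ≤ l t ∧ l t ≤ 0 ∧ |deriv l t| ≤ η)
    (hq : ∀ t, q₀ ≤ qf n l t ∧ |deriv (qf n l) t| ≤ δ) {s : ℝ → ℝ} (hs : Differentiable ℝ s)
    {M : ℕ} {b : ℝ → BB n} {q : ℕ} {t₁ t₂ : ℝ}
    (hsS : ∀ τ ∈ Icc t₁ t₂, 0 ≤ s τ ∧ s τ ≤ S ∧ |deriv s τ| ≤ δ)
    (hΓ : ∀ τ ∈ Icc t₁ t₂, Real.exp (-2 * l τ) * s τ + qf n l τ ≤ Γ ^ 2) (hΓ0 : 0 ≤ Γ)
    (hε : Real.exp (2 * Z) * (2 * η * S + δ) + δ ≤ 2 * √q₀ * ε')
    (hgap : ∀ τ ∈ Icc t₁ t₂, ∀ i : Fin (nl n M),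
      ((i : ℕ) < q → gl M (b τ) i ≤ s τ - μ) ∧ (q ≤ (i : ℕ) → s τ + μ ≤ gl M (b τ) i)) :
    Thr (gβ M l b) q (gam n l s) (deriv (gam n l s)) μ Γ ε' t₁ t₂ := by
  have hpos : ∀ τ ∈ Icc t₁ t₂, q₀ ≤ Real.exp (-2 * l τ) * s τ + qf n l τ := fun τ hτ => by
    have := (hsS τ hτ).1
    have := Real.exp_pos (-2 * l τ)
    have := (hq τ).1
    nlinarith
  have hder : ∀ τ ∈ Icc t₁ t₂, HasDerivAt (gam n l s)
      ((Real.exp (-2 * l τ) * (-2 * deriv l τ) * s τ + Real.exp (-2 * l τ) * deriv s τ +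
        deriv (qf n l) τ) / (2 * gam n l s τ)) τ := fun τ hτ => by
    have h1 : HasDerivAt l (deriv l τ) τ := (hl.differentiable (by simp) τ).hasDerivAt
    have h2 : HasDerivAt (qf n l) (deriv (qf n l) τ) τ :=
      (((qf_props hn hl).1.differentiable (by simp)) τ).hasDerivAt
    have h3 := (((h1.const_mul (-2)).exp).mul (hs τ).hasDerivAt).add h2
    exact h3.sqrt (hq₀.trans_le (hpos τ hτ)).ne'
  have hsq : ∀ τ ∈ Icc t₁ t₂, gam n l s τ ^ 2 = Real.exp (-2 * l τ) * s τ + qf n l τ := fun τ hτ =>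
    Real.sq_sqrt (hq₀.le.trans (hpos τ hτ))
  refine ⟨fun τ hτ => (hder τ hτ).differentiableAt.hasDerivAt, fun τ hτ => ?_, fun τ hτ => ?_,
    fun τ hτ i => ?_⟩
  · rw [(hder τ hτ).deriv]
    have hg : √q₀ ≤ gam n l s τ := Real.sqrt_le_sqrt (hpos τ hτ)
    have hs0 : 0 < √q₀ := Real.sqrt_pos.2 hq₀
    rw [abs_div, abs_of_pos (by linarith : 0 < 2 * gam n l s τ), div_le_iff₀ (by linarith)]
    obtain ⟨s0, s1, s2⟩ := hsS τ hτ
    obtain ⟨l0, l1, l2⟩ := hlZ τ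
    have he : Real.exp (-2 * l τ) ≤ Real.exp (2 * Z) := Real.exp_le_exp.2 (by linarith)
    have he0 := Real.exp_pos (-2 * l τ)
    have hδ : 0 ≤ δ := (abs_nonneg _).trans s2
    have hη : 0 ≤ η := (abs_nonneg _).trans l2
    have a1 : |Real.exp (-2 * l τ) * (-2 * deriv l τ) * s τ| ≤ Real.exp (2 * Z) * (2 * η * S) := by
      rw [abs_mul, abs_mul, abs_mul, abs_of_pos he0, abs_of_nonneg s0, mul_assoc]
      refine mul_le_mul he ?_ (by positivity) (by positivity)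
      refine mul_le_mul ?_ s1 s0 (by positivity)
      norm_num; linarith
    have a2 : |Real.exp (-2 * l τ) * deriv s τ| ≤ Real.exp (2 * Z) * δ := by
      rw [abs_mul, abs_of_pos he0]
      exact mul_le_mul he s2 (abs_nonneg _) (by positivity)
    have a3 := (hq τ).2
    have hε' : 0 ≤ ε' := by
      have : 0 ≤ 2 * √q₀ * ε' := le_trans (by have := s0.trans s1; positivity) hε
      by_contra hc
      push Not at hc
      nlinarith
    calc _ ≤ _ := abs_add_three _ _ _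
      _ ≤ 2 * √q₀ * ε' := by linarith
      _ ≤ ε' * (2 * gam n l s τ) := by nlinarith
  · exact ⟨Real.sqrt_nonneg _, by
      rw [← abs_of_nonneg hΓ0]
      exact Real.sqrt_le_iff.2 ⟨abs_nonneg _, by rw [sq_abs]; exact hΓ τ hτ⟩⟩
  · rw [hsq τ hτ]
    have he : 1 ≤ Real.exp (-2 * l τ) := Real.one_le_exp (by linarith [(hlZ τ).2.1])
    unfold gβ
    refine ⟨fun hi => ?_, fun hi => ?_⟩
    · have := (hgap τ hτ i).1 hi
      nlinarith
    · have := (hgap τ hτ i).2 hi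
      nlinarith

/-- threshold curve of the gap `q` -/
def scurve (A ρ : ℝ) (Q : Plan (BB n) (W n)) (q : ℕ) (θ : ℕ → ℝ) : ℝ → ℝ :=
  glue A ρ (fun m => Q.s m q) (fun m => Q.se m q) θ

lemma tl_zero (A ρ : ℝ) : tl A ρ 0 = A := by simp [tl]

lemma cube_mem {θ : ℕ → ℝ} (h : θ ∈ cube) (m : ℕ) : θ m ∈ Icc (-1 : ℝ) 1 := abs_le.1 (h m)

lemma pt_zero {B : Type*} [AddCommGroup B] [Module ℝ B] (w w' e : B) (θ : ℝ) : pt w w' e 0 θ = w := by
  simp [pt]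
lemma pt_one {B : Type*} [AddCommGroup B] [Module ℝ B] (w w' e : B) (θ : ℝ) : pt w w' e 1 θ = w' := by
  simp [pt]

theorem gal_tokens (hn : 2 ≤ n) (N : ℕ) (hN : 1 ≤ N) (q₀ μ Γ : ℝ) (hq₀ : 0 < q₀) (hμ : 0 < μ)
    (hΓ0 : 0 ≤ Γ) : ∃ ε' L C : ℝ, 0 < ε' ∧ 1 ≤ L ∧ 1 ≤ C ∧
      ∀ (ε Z η S δ A ρ : ℝ) (l : ℝ → ℝ) (Q : Plan (BB n) (W n)) (M J : ℕ) (γb Eb : ℕ → ℕ → ℝ),
        0 < A → 1 < ρ → (∀ θ ∈ cube, Adm ε l (bcurve A ρ Q.w Q.e θ)) →
        (∀ t, -Z ≤ l t ∧ l t ≤ 0 ∧ |deriv l t| ≤ η) →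
        (∀ t, q₀ ≤ qf n l t ∧ |deriv (qf n l) t| ≤ δ) → δ ≤ ε' →
        (∀ θ ∈ cube, ∀ t, 2 * n * ‖deriv (Kf l (bcurve A ρ Q.w Q.e θ)) t‖ ≤ ε') →
        (∀ θ ∈ cube, ∀ q, 1 ≤ q → q ≤ N → ∀ t, 0 ≤ scurve A ρ Q q θ t ∧ scurve A ρ Q q θ t ≤ S ∧
          |deriv (scurve A ρ Q q θ) t| ≤ δ ∧
          Real.exp (-2 * l t) * scurve A ρ Q q θ t + qf n l t ≤ Γ ^ 2) →
        Real.exp (2 * Z) * (2 * η * S + δ) + δ ≤ 2 * √q₀ * ε' →
        (∀ m, GalOK M N μ (Q.w m) (Q.w (m + 1)) (Q.e m) (Q.s m) (Q.s (m + 1)) (Q.se m) (Q.sw m)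
          (Q.pos m) (Q.ψ m)) →
        (∀ m, Q.sw m → ∀ s, ‖Q.ψ m s‖ ≤ 2) → L ≤ A → L ≤ A * (ρ - 1) →
        (∀ m ≤ J, Q.sw m → 1 ≤ Q.pos m ∧ Q.pos m < N ∧ 1 ≤ m ∧ m + 2 ≤ J ∧ ¬Q.sw (m - 1) ∧
          ¬Q.sw (m + 1)) →
        (∀ θ ∈ cube, ∀ m q, 1 ≤ q → q ≤ N → ∀ τ ∈ Icc (tl A ρ m) (tl A ρ (m + 1)),
          gam n l (scurve A ρ Q q θ) τ ≤ γb m q) →
        Rec N Q.sw Q.pos (fun m q => C * Real.exp (γb m q * (tl A ρ (m + 1) - tl A ρ m))) Eb →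
        ∃ θ ∈ cube, ∃ u u' : Fin N → ℝ → PM n M,
          (∀ j, Sol (BM M l (bcurve A ρ Q.w Q.e θ)) (u j) (u' j) ∧ RegLev M (u j 0) (u' j 0)) ∧
          (∀ (c : Fin N → ℝ) (j₀ : Fin N), (∀ j < j₀, c j = 0) → |c j₀| ≤ ‖∑ j, c j • u j A‖) ∧
          ∀ j, ∀ m ≤ J, ∀ t, 0 ≤ t → t ≤ tl A ρ m → ‖u j t‖ ≤ 2 * ∑ k ∈ Finset.range N, Eb m k := by
  obtain ⟨ε', L, C, h1, h2, h3, hdyn⟩ := dyn_tokens N hN q₀ μ Γ hq₀ hμ
  refine ⟨ε', L, C, h1, h2, h3, fun ε Z η S δ A ρ l Q M J γb Eb hA hρ hadm hl hq hδ hK hs hε hgal hψ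
    hLA hLρ hadj hγb hrec => ?_⟩
  have h0c : (0 : ℕ → ℝ) ∈ cube := fun m => by simp
  have hls : ContDiff ℝ ∞ l := (hadm 0 h0c).smooth
  have hgood : Good n ε := (hadm 0 h0c).good
  have hAtl : ∀ m, A ≤ tl A ρ m := fun m => by
    have := (tl_strictMono hA hρ).monotone (Nat.zero_le m)
    rwa [tl_zero] at this
  have hb : ∀ θ m, ∀ τ ∈ Icc (tl A ρ m) (tl A ρ (m + 1)), bcurve A ρ Q.w Q.e θ τ =
      pt (Q.w m) (Q.w (m + 1)) (Q.e m) (prog A ρ m τ) (θ m) := fun θ m τ hτ => by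
    rw [bcurve_of_ge hA hρ _ _ _ ((hAtl m).trans hτ.1), glue_eq hA hρ _ _ _ m hτ]
  have hbtl : ∀ θ m, bcurve A ρ Q.w Q.e θ (tl A ρ m) = Q.w m := fun θ m => by
    rw [bcurve_of_ge hA hρ _ _ _ (hAtl m), glue_tl hA hρ]
  have hsc : ∀ θ q m, ∀ τ ∈ Icc (tl A ρ m) (tl A ρ (m + 1)), scurve A ρ Q q θ τ =
      pt (Q.s m q) (Q.s (m + 1) q) (Q.se m q) (prog A ρ m τ) (θ m) := fun θ q m τ hτ =>
    glue_eq hA hρ _ _ _ m hτ
  obtain ⟨θ, hθ, u, u', hu, htri, hbd⟩ := hdyn (V := PM n M) (D := nl n M)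
    (fun θ => BM M l (bcurve A ρ Q.w Q.e θ))
    (fun θ t => opA M (deriv (Kf l (bcurve A ρ Q.w Q.e θ)) t) +
      deriv (qf n l) t • (1 : PM n M →L[ℝ] PM n M))
    (fun θ t => gφ M (bcurve A ρ Q.w Q.e θ t)) (fun θ => gβ M l (bcurve A ρ Q.w Q.e θ))
    (tl A ρ) J Q.sw Q.pos (fun θ q => gam n l (scurve A ρ Q q θ))
    (fun θ q => deriv (gam n l (scurve A ρ Q q θ))) (fun m s => toPM M (Q.ψ m s)) γb Eb
    (hgal 0).dim
    (fun θ hθ => slow_BM hn (hadm θ hθ) (fun t => (hl t).2.1) hq₀.le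
      (fun t => ⟨(hq t).1, (hq t).2.trans hδ⟩) (hK θ hθ) M)
    (by
      have c1 : ContinuousOn (fun p : (ℕ → ℝ) × ℝ => HX (iota (bcurve A ρ Q.w Q.e p.1 p.2)))
          (cube ×ˢ univ) := fun p hp =>
        ((analyticAt_HX (hgood.detOK ((hadm p.1 hp.1).small p.2))).continuousAt.comp (f := fun p : (ℕ → ℝ) × ℝ => iota (bcurve A ρ Q.w Q.e p.1 p.2))
          (iota.continuous.comp (bcurve_continuous hA hρ Q.w Q.e)).continuousAt).continuousWithinAt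
      have c2 : Continuous fun p : (ℕ → ℝ) × ℝ => Real.exp (-2 * l p.2) :=
        Real.continuous_exp.comp (continuous_const.mul (hls.continuous.comp continuous_snd))
      have c3 : Continuous fun p : (ℕ → ℝ) × ℝ => qf n l p.2 :=
        (qf_props hn hls).1.continuous.comp continuous_snd
      exact ((opA M).continuous.comp_continuousOn (c2.continuousOn.smul c1)).add
        (c3.smul (continuous_const (y := (1 : PM n M →L[ℝ] PM n M)))).continuousOn)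
    (fun θ hθ θ' hθ' => by
      have e0 : bcurve A ρ Q.w Q.e θ 0 = bcurve A ρ Q.w Q.e θ' 0 := by
        rw [(hadm θ hθ).b0 0 le_rfl, (hadm θ' hθ').b0 0 le_rfl]
      refine ⟨by simp only [e0], ?_, fun m => by simp only [hbtl]⟩
      funext i
      simp only [gβ, e0])
    (by rwa [tl_zero])
    (fun m => by
      have : 1 ≤ ρ ^ m := one_le_pow₀ hρ.le
      unfold tl
      rw [pow_succ]
      nlinarith [mul_nonneg (mul_nonneg hA.le (sub_nonneg.2 hρ.le)) (sub_nonneg.2 this)])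
    hadj
    (fun θ hθ m _ q hq1 hqN hsw => by
      refine thr_gam hn hls hq₀ hμ.le hl hq
        ((glue_locFin hA hρ _ _ θ).contDiff.differentiable (by simp))
        (fun τ _ => ⟨(hs θ hθ q hq1 hqN τ).1, (hs θ hθ q hq1 hqN τ).2.1, (hs θ hθ q hq1 hqN τ).2.2.1⟩)
        (fun τ _ => (hs θ hθ q hq1 hqN τ).2.2.2) hΓ0 hε fun τ hτ i => ?_
      have := (hgal m).gap (prog A ρ m τ) (prog_mem m τ) _ (cube_mem hθ m) _ _ (g_eig M _) q hq1 hqN hsw i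
      rw [← hb θ m τ hτ, ← hsc θ q m τ hτ] at this
      exact this)
    (fun θ hθ m _ q hq1 hqN _ τ hτ => hγb θ hθ m q hq1 hqN τ hτ)
    (fun m _ hsw => by
      refine ⟨fun s => ?_, fun θ hθ i hi => ⟨fun h1 τ hτ => ?_, ?_, ?_⟩⟩
      · refine le_trans ?_ (hψ m hsw s)
        rw [← (incl M).norm_map, incl_toPM]
        exact (Plt n M).norm_starProjection_apply_le _
      · have := (hgal m).sgn hsw (prog A ρ m τ) (prog_mem m τ) _ h1 _ _ (g_eig M _) i hi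
        rw [← hb θ m τ hτ] at this
        rwa [inner_toPM]
      · simp only [hbtl, inner_toPM]
        exact (hgal m).ent hsw _ _ (g_eig M _) i hi
      · simp only [hbtl, inner_toPM]
        exact (hgal m).ext hsw _ _ (g_eig M _) i hi)
    hrec
  refine ⟨θ, hθ, u, u', fun j => ⟨(hu j).1, regLev_of_reg0 hn (hadm θ hθ) (BM_eig M l _ 0) (hu j).2⟩,
    fun c j₀ hc => ?_, hbd⟩
  rw [tl_zero] at htri
  let i : Fin (nl n M) := ⟨j₀, lt_of_lt_of_le j₀.2 (hgal 0).dim⟩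
  set φ := gφ M (bcurve A ρ Q.w Q.e θ A)
  have h4 : ⟪φ i, ∑ j, c j • u j A⟫ = c j₀ := by
    rw [inner_sum, Finset.sum_eq_single j₀]
    · rw [real_inner_smul_right, (htri j₀ i).1 rfl, mul_one]
    · intro j _ hj
      rcases lt_or_gt_of_ne hj with h | h
      · simp [hc j h]
      · rw [real_inner_smul_right, (htri j i).2 h, mul_zero]
    · simp
  rw [← h4]
  refine (abs_real_inner_le_norm _ _).trans ?_
  rw [φ.orthonormal.1 i, one_mul]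

end Crest.Agent.R202
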