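import Crest.Agent.R202.GDefs

/-! # Row 202, Sched: the cyclic schedule averages the growth rates -/

set_option autoImplicit false
open scoped RealInnerProductSpace
open Set Filter

noncomputable section
namespace Crest.Agent.R202

lemma sched_pow_sub {ρ : ℝ} (hρ : 1 ≤ ρ) (K : ℕ) : ρ ^ K - 1 ≤ K * ρ ^ K * (ρ - 1) := by
  induction K with
  | zero => simp
  | succ K ih =>
    have h1 : 1 ≤ ρ ^ (K + 1) := one_le_pow₀ hρ
    have h2 : ρ * (ρ ^ K - 1) ≤ ρ * (K * ρ ^ K * (ρ - 1)) := by gcongr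
    have h3 : (ρ - 1) * 1 ≤ (ρ - 1) * ρ ^ (K + 1) := by gcongr
    rw [pow_succ] at *
    push_cast
    nlinarith

lemma sched_lin {ρ δ l : ℝ} (hρ : 1 < ρ) (hδ : 0 < δ) :
    ∃ c : ℝ, ∀ m : ℕ, (m : ℝ) * l ≤ δ * ρ ^ m + c := by
  have hl : 0 < Real.log ρ := Real.log_pos hρ
  refine ⟨l ^ 2 / (2 * δ * Real.log ρ ^ 2), fun m => ?_⟩
  have h1 : ρ ^ m = Real.exp (m * Real.log ρ) := by
    rw [Real.exp_nat_mul, Real.exp_log (by linarith)]
  have h2 := Real.quadratic_le_exp_of_nonneg (x := m * Real.log ρ) (by positivity)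
  have h3 : (0 : ℝ) ≤ m * Real.log ρ := by positivity
  have h4 : (m * Real.log ρ) ^ 2 / 2 ≤ ρ ^ m := by rw [h1]; linarith
  have h5 : (m : ℝ) * l ≤ δ * ((m * Real.log ρ) ^ 2 / 2) + l ^ 2 / (2 * δ * Real.log ρ ^ 2) := by
    have h6 : δ * ((m * Real.log ρ) ^ 2 / 2) + l ^ 2 / (2 * δ * Real.log ρ ^ 2) - m * l =
        (δ * m * Real.log ρ ^ 2 - l) ^ 2 / (2 * δ * Real.log ρ ^ 2) := by
      field_simp
      ring
    have h7 : 0 ≤ (δ * m * Real.log ρ ^ 2 - l) ^ 2 / (2 * δ * Real.log ρ ^ 2) := by positivity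
    linarith
  have h8 : δ * ((m * Real.log ρ) ^ 2 / 2) ≤ δ * ρ ^ m := by gcongr
  linarith

lemma sched_step {u T T' γ d C c x : ℝ} (hu : 0 ≤ u) (hC : 0 < C) (h : T + γ * d ≤ T') :
    4 * (C * Real.exp (γ * (u * d)) * Real.exp (u * T + x * Real.log (4 * C) + c)) ≤
      Real.exp (u * T' + (x + 1) * Real.log (4 * C) + c) := by
  have h1 : 4 * (C * Real.exp (γ * (u * d)) * Real.exp (u * T + x * Real.log (4 * C) + c)) =
      Real.exp (Real.log (4 * C) + (γ * (u * d) + (u * T + x * Real.log (4 * C) + c))) := by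
    rw [Real.exp_add (Real.log (4 * C)), Real.exp_add (γ * (u * d)), Real.exp_log (by positivity)]
    ring
  rw [h1]
  have h2 : u * (T + γ * d) ≤ u * T' := by gcongr
  exact Real.exp_le_exp.2 (by nlinarith)

/-- abstract form: a profile `T s k` over one period -/
lemma sched_aux (N R K : ℕ) (hR : 1 ≤ R) (sw : ℕ → Prop) (pos : ℕ → ℕ) (r : ℕ → ℝ)
    (Γ κ κ₂ ρ B : ℝ) (hρ : 1 < ρ) (hκ : κ₂ < κ) (T : ℕ → ℕ → ℝ)
    (h1 : ∀ s < R, ∀ k < N, T s k + r k * (ρ ^ (s + 1) - ρ ^ s) ≤ T (s + 1) k)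
    (h2 : ∀ s, R ≤ s → s < R + K → ¬sw (s - R) → ∀ k < N,
      T s k + Γ * (ρ ^ (s + 1) - ρ ^ s) ≤ T (s + 1) k)
    (h3 : ∀ s, R ≤ s → s < R + K → sw (s - R) → pos (s - R) < N ∧
      (∀ k < N, k ≠ pos (s - R) → k + 1 ≠ pos (s - R) →
        T s k + Γ * (ρ ^ (s + 1) - ρ ^ s) ≤ T (s + 1) k) ∧
      T s (pos (s - R)) + Γ * (ρ ^ (s + 1) - ρ ^ s) ≤ T (s + 1) (pos (s - R) - 1) ∧
      T s (pos (s - R) - 1) + Γ * (ρ ^ (s + 1) - ρ ^ s) ≤ T (s + 1) (pos (s - R) - 1) ∧
      T s (pos (s - R) - 1) + Γ * (ρ ^ (s + 1) - ρ ^ s) ≤ T (s + 1) (pos (s - R)))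
    (h4 : ∀ k < N, T (R + K) k ≤ ρ ^ (R + K) * T 0 k)
    (h5 : ∀ s < R + K, ∀ k < N, T s k ≤ κ₂ / ρ) (hκ₂ : 0 ≤ κ₂)
    (h6 : ∀ k < N, -B ≤ T 0 k) (hB : 0 ≤ B) (A C : ℝ) (hA : 1 ≤ A) (hC : 1 ≤ C) :
    ∃ (C' : ℝ) (Eb : ℕ → ℕ → ℝ),
      Rec N (extSw sw R K) (extF pos R K)
        (fun m q => C * Real.exp ((if m % (R + K) < R then r (q - 1) else Γ) *
          (tl A ρ (m + 1) - tl A ρ m))) Eb ∧
      ∀ k < N, Eb 0 k ≤ C' ∧ ∀ m, Eb (m + 1) k ≤ C' * Real.exp (κ * tl A ρ m) := by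
  have hP : 0 < R + K := by omega
  have hρ0 : 0 < ρ := by linarith
  have hC0 : 0 < C := by linarith
  set l := Real.log (4 * C) with hl
  have hl0 : 0 ≤ l := Real.log_nonneg (by linarith)
  set c := A * B + 1 with hc
  set u : ℕ → ℝ := fun m => A * ρ ^ ((R + K) * (m / (R + K))) with hu
  have hu0 : ∀ m, 0 ≤ u m := fun m => by simp only [hu]; positivity
  set Eb : ℕ → ℕ → ℝ := fun m k => Real.exp (u m * T (m % (R + K)) k + m * l + c) with hEb
  have htl : ∀ m, tl A ρ m = u m * ρ ^ (m % (R + K)) := by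
    intro m
    simp only [hu, tl]
    rw [mul_assoc, ← pow_add, Nat.div_add_mod]
  have hd : ∀ m, tl A ρ (m + 1) - tl A ρ m =
      u m * (ρ ^ (m % (R + K) + 1) - ρ ^ (m % (R + K))) := by
    intro m
    have : tl A ρ (m + 1) = tl A ρ m * ρ := by simp only [tl]; ring
    rw [this, htl]; ring
  have hs : ∀ m, m % (R + K) < R + K := fun m => Nat.mod_lt _ hP
  have hnext : ∀ m, ∀ k < N,
      Real.exp (u m * T (m % (R + K) + 1) k + ((m : ℝ) + 1) * l + c) ≤ Eb (m + 1) k := by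
    intro m k hk
    simp only [hEb]
    push_cast
    refine Real.exp_le_exp.2 ?_
    have e0 := Nat.div_add_mod m (R + K)
    by_cases hw : m % (R + K) + 1 < R + K
    · have e1 : (m + 1) / (R + K) = m / (R + K) ∧ (m + 1) % (R + K) = m % (R + K) + 1 :=
        (Nat.div_mod_unique hP).2 ⟨by omega, hw⟩
      simp only [hu, e1.1, e1.2, le_refl]
    · have hw' : m % (R + K) + 1 = R + K := by have := hs m; omega
      have e1 : (m + 1) / (R + K) = m / (R + K) + 1 ∧ (m + 1) % (R + K) = 0 :=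
        (Nat.div_mod_unique hP).2 ⟨by rw [mul_add, mul_one]; omega, hP⟩
      have e2 : u (m + 1) = u m * ρ ^ (R + K) := by
        simp only [hu, e1.1]; ring
      rw [hw', e1.2, e2]
      have := mul_le_mul_of_nonneg_left (h4 k hk) (hu0 m)
      nlinarith
  have key : ∀ m (γ : ℝ) (k k' : ℕ), k' < N →
      T (m % (R + K)) k + γ * (ρ ^ (m % (R + K) + 1) - ρ ^ (m % (R + K))) ≤
        T (m % (R + K) + 1) k' →
      4 * (C * Real.exp (γ * (tl A ρ (m + 1) - tl A ρ m)) * Eb m k) ≤ Eb (m + 1) k' := by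
    intro m γ k k' hk' h
    rw [hd]
    exact (sched_step (hu0 m) hC0 h).trans (hnext m k' hk')
  have hpos : ∀ m (γ : ℝ) (k : ℕ),
      0 ≤ C * Real.exp (γ * (tl A ρ (m + 1) - tl A ρ m)) * Eb m k := by
    intro m γ k
    simp only [hEb]; positivity
  obtain ⟨c', hc'⟩ := sched_lin (l := l) hρ (sub_pos.2 hκ)
  refine ⟨Real.exp (A * κ₂ + |c'| + l + c), Eb, ⟨?_, ?_, ?_, ?_, ?_⟩, fun k hk => ⟨?_, fun m => ?_⟩⟩
  · intro k hk
    simp only [hEb, hu]
    have h7 := h6 k hk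
    have h8 : (1 : ℝ) ≤ A * ρ ^ ((R + K) * (0 / (R + K))) * T (0 % (R + K)) k +
        ((0 : ℕ) : ℝ) * l + c := by
      simp only [Nat.zero_div, mul_zero, pow_zero, mul_one, Nat.zero_mod, Nat.cast_zero, zero_mul,
        add_zero, hc]
      nlinarith
    have h9 := Real.add_one_le_exp (1 : ℝ)
    linarith [Real.exp_le_exp.2 h8]
  · intro m hm k hk
    by_cases hr : m % (R + K) < R
    · simp only [if_pos hr, Nat.add_sub_cancel]
      have := key m (r k) k k hk (h1 _ hr k hk)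
      linarith [hpos m (r k) k]
    · simp only [if_neg hr]
      have hsw : ¬sw (m % (R + K) - R) := fun h => hm ⟨not_lt.1 hr, h⟩
      have := key m Γ k k hk (h2 _ (not_lt.1 hr) (hs m) hsw k hk)
      linarith [hpos m Γ k]
  · intro m hm k hk hk1 hk2
    simp only [if_neg (not_lt.2 hm.1)]
    have := key m Γ k k hk ((h3 _ hm.1 (hs m) hm.2).2.1 k hk hk1 hk2)
    linarith [hpos m Γ k]
  · intro m hm
    simp only [if_neg (not_lt.2 hm.1)]
    obtain ⟨a1, -, a2, a3, -⟩ := h3 _ hm.1 (hs m) hm.2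
    have b1 := key m Γ _ _ (by omega) a2
    have b2 := key m Γ _ _ (by omega) a3
    simp only [extF]
    linarith
  · intro m hm
    simp only [if_neg (not_lt.2 hm.1)]
    obtain ⟨a1, -, -, -, a4⟩ := h3 _ hm.1 (hs m) hm.2
    have b1 := key m Γ _ _ a1 a4
    have b2 := hpos m Γ (pos (m % (R + K) - R) - 1)
    simp only [extF]
    linarith
  · simp only [hEb, hu]
    refine Real.exp_le_exp.2 ?_
    simp only [Nat.zero_div, mul_zero, pow_zero, mul_one, Nat.zero_mod, Nat.cast_zero, zero_mul,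
      add_zero]
    have h7 := h5 0 hP k hk
    have h8 : κ₂ / ρ ≤ κ₂ := div_le_self hκ₂ hρ.le
    have h9 : A * T 0 k ≤ A * κ₂ := by gcongr; linarith
    linarith [abs_nonneg c']
  · rw [← Real.exp_add]
    refine Real.exp_le_exp.2 ?_
    have h7 := h5 _ (hs (m + 1)) k hk
    have h8 : u (m + 1) ≤ tl A ρ m * ρ := by
      have e : tl A ρ m * ρ = tl A ρ (m + 1) := by simp only [tl]; ring
      rw [e, htl]
      exact le_mul_of_one_le_right (hu0 _) (one_le_pow₀ hρ.le)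
    have h9 : u (m + 1) * T ((m + 1) % (R + K)) k ≤ κ₂ * tl A ρ m := by
      calc u (m + 1) * T ((m + 1) % (R + K)) k ≤ u (m + 1) * (κ₂ / ρ) := by
            gcongr
        _ ≤ tl A ρ m * ρ * (κ₂ / ρ) := by gcongr
        _ = κ₂ * tl A ρ m := by field_simp
    have h10 : (κ - κ₂) * ρ ^ m ≤ (κ - κ₂) * tl A ρ m := by
      have : ρ ^ m ≤ tl A ρ m := le_mul_of_one_le_left (by positivity) hA
      gcongr
    have h11 := hc' m
    have h12 : 0 ≤ A * κ₂ := by positivity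
    push_cast
    linarith [le_abs_self c']

/-- Let `ᾱ` = average of `r` over `[p₀,N)` (`< κ`), `ψ k = Σ_{p₀ ≤ i < k} (r i - ᾱ)` (`= 0` for `k ≤ p₀`; `ψ k ≤ 0` for
`k ≤ N` by monotonicity, `r k ≤ ᾱ` for `k ≤ p₀`), `Ψ = max |ψ|`, `Per = R+K`, `a m = A ρ^m`, `R_j` = total rest time of cycle `j`.
Define `Eb` by the recursion with equality (`max`/sum), or directly; in logarithmic terms `G = log Eb`: at the start of
cycle `j`, `G k ≤ 𝒜_j + ψ k R_j`.  After the rests `G k ≤ 𝒜_j + (ψ k + r k) R_j + R log C`.  During the active moves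
with pointer `p = pos`, up to the additive error `Γ·(active time) + K log(6C)`: the positions `k > p` carry the old bound of
`k-1`, the position `p` carries the maximum of the old bounds of `p..N-1`, the positions `< p` are unchanged.  As
`ψ k + r k = ψ (k+1) + ᾱ ≤ ᾱ` for `p₀ ≤ k < N`, the invariant is restored with
`𝒜_{j+1} = 𝒜_j + ᾱ R_j + Γ·act_j + Per·log(6C) + Ψ (R_{j+1} - R_j)`.  Summing, for `m` in cycle `j`:
`G ≤ C' + ᾱ a + Γ·(total active time) + Ψ R_j + Γ·(length of the cycle) + m log (6C)`.  Choose `R` large (active fraction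
`≤ 2K/Per` when `ρ^Per ≤ 2`), then `ρ` so close to `1` that `(ρ^{Per+1} - 1)(Ψ+2Γ)` is small; `m log(6C) ≤ small·a m + C'`. -/
theorem sched (N p₀ K : ℕ) (hp : p₀ < N) (sw : ℕ → Prop) (pos : ℕ → ℕ) (hc : Cyc sw pos K N p₀)
    (r : ℕ → ℝ) (Γ κ : ℝ) (hmono : ∀ i j, i ≤ j → j < N → r i ≤ r j)
    (hr : ∀ i < N, 0 ≤ r i ∧ r i ≤ Γ)
    (havg : ∑ i ∈ Finset.Ico p₀ N, r i < κ * ((N : ℝ) - p₀)) :
    ∃ (R : ℕ) (ρ : ℝ), 1 ≤ R ∧ 1 < ρ ∧ ∀ A C : ℝ, 1 ≤ A → 1 ≤ C → ∃ (C' : ℝ) (Eb : ℕ → ℕ → ℝ),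
      Rec N (extSw sw R K) (extF pos R K)
        (fun m q => C * Real.exp ((if m % (R + K) < R then r (q - 1) else Γ) *
          (tl A ρ (m + 1) - tl A ρ m))) Eb ∧
      ∀ k < N, Eb 0 k ≤ C' ∧ ∀ m, Eb (m + 1) k ≤ C' * Real.exp (κ * tl A ρ m) := by
  have hNp : (0 : ℝ) < (N : ℝ) - p₀ := by
    have : (p₀ : ℝ) < N := by exact_mod_cast hp
    linarith
  have hcard : ((Finset.Ico p₀ N).card : ℝ) = (N : ℝ) - p₀ := by
    rw [Nat.card_Ico, Nat.cast_sub hp.le]
  set α := (∑ i ∈ Finset.Ico p₀ N, r i) / ((N : ℝ) - p₀) with hα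
  have hsum : ∑ i ∈ Finset.Ico p₀ N, r i = α * ((N : ℝ) - p₀) := by
    rw [hα]; field_simp
  have hακ : α < κ := by rw [hα, div_lt_iff₀ hNp]; exact havg
  have hlow : ∀ k ≤ p₀, r k ≤ α := by
    intro k hk
    rw [hα, le_div_iff₀ hNp, ← hcard, mul_comm, ← nsmul_eq_mul]
    exact Finset.card_nsmul_le_sum _ _ _ fun i hi =>
      hmono k i (hk.trans (Finset.mem_Ico.1 hi).1) (Finset.mem_Ico.1 hi).2
  have hα0 : 0 ≤ α := (hr p₀ hp).1.trans (hlow p₀ le_rfl)
  have hαΓ : α ≤ Γ := by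
    rw [hα, div_le_iff₀ hNp, ← hcard, mul_comm, ← nsmul_eq_mul]
    exact Finset.sum_le_card_nsmul _ _ _ fun i hi => (hr i (Finset.mem_Ico.1 hi).2).2
  have hΓ : 0 ≤ Γ := hα0.trans hαΓ
  set ψ : ℕ → ℝ := fun k => ∑ i ∈ Finset.Ico p₀ k, (r i - α) with hψ
  have hψ0 : ∀ k ≤ p₀, ψ k = 0 := fun k hk => by
    simp only [hψ]; rw [Finset.Ico_eq_empty_of_le hk, Finset.sum_empty]
  have hψs : ∀ k, p₀ ≤ k → ψ (k + 1) = ψ k + (r k - α) := fun k hk =>
    Finset.sum_Ico_succ_top hk _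
  have hψN : ψ N = 0 := by
    simp only [hψ]
    rw [Finset.sum_sub_distrib, Finset.sum_const, nsmul_eq_mul, hcard, hsum]; ring
  have hψneg : ∀ k ≤ N, ψ k ≤ 0 := by
    intro k hk
    rcases le_or_gt k p₀ with h | h
    · exact (hψ0 k h).le
    · rcases le_or_gt (r (k - 1)) α with h' | h'
      · refine Finset.sum_nonpos fun i hi => ?_
        have := hmono i (k - 1) (by have := (Finset.mem_Ico.1 hi).2; omega) (by omega)
        linarith
      · have e : ψ k + ∑ i ∈ Finset.Ico k N, (r i - α) = ψ N :=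
          Finset.sum_Ico_consecutive _ h.le hk
        have : 0 ≤ ∑ i ∈ Finset.Ico k N, (r i - α) := Finset.sum_nonneg fun i hi => by
          have := hmono (k - 1) i (by have := (Finset.mem_Ico.1 hi).1; omega)
            (Finset.mem_Ico.1 hi).2
          linarith
        linarith
  have hψlow : ∀ k ≤ N, -(N * Γ) ≤ ψ k := by
    intro k hk
    have h1 : (Finset.Ico p₀ k).card • (-Γ) ≤ ψ k :=
      Finset.card_nsmul_le_sum _ _ _ fun i hi => by
        have := (hr i (by have := (Finset.mem_Ico.1 hi).2; omega)).1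
        linarith
    have h2 : ((Finset.Ico p₀ k).card : ℝ) ≤ N := by
      rw [Nat.card_Ico]; exact_mod_cast (by omega : k - p₀ ≤ N)
    rw [nsmul_eq_mul] at h1
    nlinarith
  have ho : ∀ k < N, ψ k + r k ≤ α := by
    intro k hk
    rcases le_or_gt k p₀ with h | h
    · rw [hψ0 k h, zero_add]; exact hlow k h
    · have := hψs k h.le
      have := hψneg (k + 1) hk
      linarith
  set χ : ℕ → ℕ → ℝ := fun p k =>
    if k < p then ψ k + r k else if k = p then α else ψ (k - 1) + r (k - 1) with hχ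
  have hχα : ∀ p, ∀ k < N, χ p k ≤ α := by
    intro p k hk
    simp only [hχ]
    split_ifs
    · exact ho k hk
    · exact le_rfl
    · exact ho _ (by omega)
  have hposN : ∀ m ≤ K, pos m < N := by
    intro m
    induction m with
    | zero => intro _; rw [hc.first]; omega
    | succ m ih =>
      intro hm
      have := ih (by omega)
      by_cases hs : sw m
      · rw [(hc.swap m hm hs).2.1]; omega
      · rw [hc.stay m hm hs]; exact this
  -- the parameters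
  set δ := (κ - α) / 3 with hδ
  have hδ0 : 0 < δ := by rw [hδ]; linarith
  obtain ⟨R, hR⟩ := exists_nat_ge (4 * Γ * K / δ + 1)
  have hR0 : 0 ≤ 4 * Γ * K / δ := by positivity
  have hR1 : 1 ≤ R := by
    have : (1 : ℝ) ≤ R := by linarith
    exact_mod_cast this
  have hR2 : 4 * Γ * K ≤ δ * R := by
    have : 4 * Γ * K / δ ≤ R := by linarith
    rw [div_le_iff₀ hδ0] at this
    linarith
  set Z := N * Γ + (α + δ) + 2 * Γ + 1 with hZ
  have hNΓ : 0 ≤ N * Γ := by positivity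
  have hZ0 : 0 < Z := by rw [hZ]; linarith
  set η := min 1 (δ / (2 * Z)) with hη
  have hη0 : 0 < η := lt_min one_pos (by positivity)
  have hη1 : η ≤ 1 := min_le_left _ _
  have hη2 : η * Z ≤ δ / 2 := by
    have : η ≤ δ / (2 * Z) := min_le_right _ _
    rw [le_div_iff₀ (by positivity)] at this
    linarith
  obtain ⟨ρ, hρ, hρP⟩ : ∃ ρ : ℝ, 1 < ρ ∧ ρ ^ (R + K) = 1 + η :=
    ⟨(1 + η) ^ (((R + K : ℕ) : ℝ)⁻¹), Real.one_lt_rpow (by linarith) (by
      have : 0 < R + K := by omega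
      positivity), Real.rpow_inv_natCast_pow (by linarith) (by omega)⟩
  have hρs : ∀ s ≤ R + K, 1 ≤ ρ ^ s ∧ ρ ^ s ≤ 1 + η := fun s hs =>
    ⟨one_le_pow₀ hρ.le, hρP ▸ pow_le_pow_right₀ hρ.le hs⟩
  have hρ1 : ρ ≤ 1 + η := by simpa using (hρs 1 (by omega)).2
  have hRR := hρs R (by omega)
  set T : ℕ → ℕ → ℝ := fun s k => (α + δ) +
    if s < R then ψ k * (ρ ^ R - 1) + r k * (ρ ^ s - 1)
    else χ (pos (s - R)) k * (ρ ^ R - 1) + Γ * (ρ ^ s - ρ ^ R) with hT
  have hact : ∀ s, R ≤ s → ∀ k k', χ (pos (s - R)) k ≤ χ (pos (s - R + 1)) k' →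
      T s k + Γ * (ρ ^ (s + 1) - ρ ^ s) ≤ T (s + 1) k' := by
    intro s hs k k' h
    have e : s + 1 - R = s - R + 1 := by omega
    simp only [hT, if_neg (not_lt.2 hs), if_neg (not_lt.2 (hs.trans (Nat.le_succ s))), e]
    have : χ (pos (s - R)) k * (ρ ^ R - 1) ≤ χ (pos (s - R + 1)) k' * (ρ ^ R - 1) := by
      gcongr; linarith [hRR.1]
    linarith
  refine ⟨R, ρ, hR1, hρ, fun A C hA hC => sched_aux N R K hR1 sw pos r Γ κ (α + 2 * δ) ρ
    (N * Γ) hρ (by rw [hδ]; linarith) T ?_ ?_ ?_ ?_ ?_ (by linarith) ?_ hNΓ A C hA hC⟩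
  · intro s hs k hk
    by_cases h : s + 1 < R
    · simp only [hT, if_pos hs, if_pos h]
      linarith
    · have e : s + 1 = R := by omega
      simp only [hT, if_pos hs, if_neg h]
      rw [e, Nat.sub_self, hc.first]
      have h1 : ψ k + r k ≤ χ (N - 1) k := by
        simp only [hχ]
        split_ifs
        · exact le_rfl
        · exact ho k hk
        · omega
      have h2 : (ψ k + r k) * (ρ ^ R - 1) ≤ χ (N - 1) k * (ρ ^ R - 1) := by
        gcongr; linarith [hRR.1]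
      linarith
  · intro s hs hs' hsw k hk
    refine hact s hs k k ?_
    rw [hc.stay _ (by omega) hsw]
  · intro s hs hs' hsw
    obtain ⟨a1, a2, -⟩ := hc.swap _ (by omega : s - R < K) hsw
    have a3 := hposN (s - R) (by omega)
    refine ⟨a3, fun k hk hk1 hk2 => hact s hs _ _ ?_, hact s hs _ _ ?_, hact s hs _ _ ?_,
      hact s hs _ _ ?_⟩
    · rw [a2]
      simp only [hχ]
      split_ifs <;> first | exact le_rfl | omega
    · rw [a2]
      simp [hχ]
    · rw [a2]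
      refine (hχα _ _ (by omega)).trans ?_
      simp [hχ]
    · rw [a2]
      simp only [hχ]
      split_ifs <;> first | exact le_rfl | omega
  · intro k hk
    have h0 : 0 < R := hR1
    simp only [hT, if_neg (not_lt.2 (Nat.le_add_right R K)), if_pos h0, Nat.add_sub_cancel_left,
      hc.last, pow_zero, sub_self, mul_zero, add_zero]
    have h1 : χ p₀ k ≤ α + ψ k := by
      simp only [hχ]
      split_ifs with b1 b2
      · have := hlow k b1.le
        linarith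
      · rw [hψ0 k b2.le]; simp
      · have := hψs (k - 1) (by omega)
        have e : k - 1 + 1 = k := by omega
        rw [e] at this
        linarith
    have h2 : χ p₀ k * (ρ ^ R - 1) ≤ (α + ψ k) * (ρ ^ R - 1) := by
      gcongr; linarith [hRR.1]
    have h3 : ρ ^ (R + K) - ρ ^ R ≤ 2 * K * (ρ - 1) := by
      have b1 := sched_pow_sub hρ.le K
      have b2 : ρ ^ R * (ρ ^ K - 1) ≤ ρ ^ R * (K * ρ ^ K * (ρ - 1)) := by gcongr
      have b3 : ρ ^ R * (K * ρ ^ K * (ρ - 1)) = K * (ρ - 1) * ρ ^ (R + K) := by ring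
      have b4 : K * (ρ - 1) * ρ ^ (R + K) ≤ K * (ρ - 1) * 2 :=
        mul_le_mul_of_nonneg_left (by linarith) (mul_nonneg (Nat.cast_nonneg _) (by linarith))
      have b5 : ρ ^ (R + K) - ρ ^ R = ρ ^ R * (ρ ^ K - 1) := by ring
      linarith
    have h4 : R * (ρ - 1) ≤ η := by
      have := one_add_mul_le_pow (a := ρ - 1) (by linarith) R
      rw [add_sub_cancel] at this
      linarith [hRR.2]
    have h5 : Γ * (ρ ^ (R + K) - ρ ^ R) ≤ δ / 2 * η := by
      calc Γ * (ρ ^ (R + K) - ρ ^ R) ≤ Γ * (2 * K * (ρ - 1)) := by gcongr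
        _ = (4 * Γ * K) * (ρ - 1) / 2 := by ring
        _ ≤ (δ * R) * (ρ - 1) / 2 := by gcongr
        _ = δ / 2 * (R * (ρ - 1)) := by ring
        _ ≤ δ / 2 * η := by gcongr
    have h6 : -(ψ k) * (ρ ^ R - 1) ≤ δ / 2 := by
      have b1 : -(ψ k) ≤ Z := by
        have := hψlow k hk.le
        rw [hZ]; linarith
      have b2 : 0 ≤ -(ψ k) := by linarith [hψneg k hk.le]
      calc -(ψ k) * (ρ ^ R - 1) ≤ Z * η := by
            gcongr
            · linarith [hRR.1]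
            · linarith [hRR.2]
        _ ≤ δ / 2 := by linarith
    have h7 : α * (ρ ^ R - 1) ≤ α * η := by gcongr; linarith [hRR.2]
    have h8 : -(ψ k) * (ρ ^ R - 1) * η ≤ δ / 2 * η := by gcongr
    rw [hρP] at h5 ⊢
    nlinarith
  · intro s hs k hk
    have hs' := hρs s hs.le
    have h1 : T s k ≤ (α + δ) + Γ * η := by
      simp only [hT]
      split_ifs with b
      · have b1 : ψ k * (ρ ^ R - 1) ≤ 0 :=
          mul_nonpos_of_nonpos_of_nonneg (hψneg k hk.le) (by linarith [hRR.1])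
        have b2 : r k * (ρ ^ s - 1) ≤ Γ * η := by
          gcongr
          · linarith [hs'.1]
          · exact (hr k hk).2
          · linarith [hs'.2]
        linarith
      · have b1 : χ (pos (s - R)) k * (ρ ^ R - 1) ≤ Γ * (ρ ^ R - 1) := by
          gcongr
          · linarith [hRR.1]
          · exact (hχα _ k hk).trans hαΓ
        have b2 : Γ * (ρ ^ s - 1) ≤ Γ * η := by gcongr; linarith [hs'.2]
        linarith
    rw [le_div_iff₀ (by linarith)]
    have h2 : 0 ≤ (α + δ) + Γ * η := by positivity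
    have h3 : T s k * ρ ≤ ((α + δ) + Γ * η) * (1 + η) := by
      calc T s k * ρ ≤ ((α + δ) + Γ * η) * ρ := by gcongr
        _ ≤ _ := by gcongr
    have h4 : Γ * η * η ≤ Γ * η * 1 := by gcongr
    have h5 : 0 ≤ η * (N * Γ) := by positivity
    rw [hZ] at hη2
    nlinarith
  · intro k hk
    have h0 : 0 < R := hR1
    simp only [hT, if_pos h0, pow_zero, sub_self, mul_zero, add_zero]
    have b1 := hψlow k hk.le
    have b2 := hψneg k hk.le
    have b3 : ψ k * 1 ≤ ψ k * (ρ ^ R - 1) :=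
      mul_le_mul_of_nonpos_left (by linarith [hRR.2]) b2
    linarith

end Crest.Agent.R202
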