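import Crest.Agent.R202.Maina
import Crest.Agent.R202.Geo5
import Crest.Agent.R202.Geo5a
import Crest.Agent.R202.Sched

/-! # Row 202, Main: assembly -/

set_option autoImplicit false
open scoped ContDiff RealInnerProductSpace
open Set Filter Topology MeasureTheory Crest.GeometryTopology.CoordMetric
open Crest.GeometryTopology.ChartCurvature

noncomputable section
namespace Crest.Agent.R202

variable {n : ℕ}

/-- the conclusion of both statements -/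
def Concl (n : ℕ) (v : ℝ) (N k : ℕ) : Prop :=
  ∃ g : MetricField n, IsRiemannianOn g univ ∧ IsCompleteOn g univ ∧
    (∃ r : ℝ, 0 < r ∧ ∀ x : E n, ‖x‖ < r → g x = 1) ∧ RicciNonnegOn g univ ∧
    (∃ R : ℝ, ∀ x : E n, R < ‖x‖ → ∀ w : E n, w ≠ 0 → 0 < ∑ i, ∑ j, ricci g x i j * w i * w j) ∧
    HasAsymptoticVolumeRatio g v ∧
    (∃ p : ℕ → E n, Tendsto (fun j => ‖p j‖) atTop atTop ∧
      ∀ j, ∃ w : E n, 0 < gramDet g (p j) (p j) w ∧ secNumer g (p j) (p j) w < 0) ∧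
    ∃ u : Fin N → E n → ℝ, LinearIndependent ℝ u ∧ ∀ i, IsHarmonicOn g univ (u i) ∧
      ∃ C : ℝ, ∀ x, |u i x| ≤ C * (1 + riemDist g univ 0 x) ^ k

lemma Adm.avr (hn : 2 ≤ n) {ε Z : ℝ} {l : ℝ → ℝ} {b : ℝ → BB n} (h : Adm ε l b) (hl : ∀ t, l t ≤ 0)
    (hZ : Tendsto l atTop (𝓝 (-Z))) :
    HasAsymptoticVolumeRatio (metric l b) (Real.exp (-Z) ^ (n - 1)) := by
  have hn' : (2 : ℝ) ≤ n := by exact_mod_cast hn
  refine R202.avr (by omega) (h.radial hn) (fun r => Real.exp (((n : ℝ) - 1) * l (Real.log r))) _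
    (fun x => ?_) (fun r => ?_) ?_
  · rw [h.det hn, show 2 * ((n : ℝ) - 1) * l (Real.log ‖x‖) =
      ((n : ℝ) - 1) * l (Real.log ‖x‖) + ((n : ℝ) - 1) * l (Real.log ‖x‖) by ring, Real.exp_add,
      Real.sqrt_mul_self (Real.exp_pos _).le]
  · exact Real.exp_le_one_iff.2 (mul_nonpos_of_nonneg_of_nonpos (by linarith) (hl _))
  · rw [← Real.exp_nat_mul, Nat.cast_sub (by omega), Nat.cast_one]
    exact (Real.continuous_exp.tendsto _).comp ((hZ.comp Real.tendsto_log_atTop).const_mul _)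

/-- negative radial curvature from a swap of the cycle -/
lemma neg_curv_per (hn : 2 ≤ n) {ε Z A ρ C : ℝ} (hε : Good n ε) (hA : 0 < A) (hρ : 1 < ρ) {l : ℝ → ℝ}
    (P : Plan (BB n) (W n)) {R K N p₀ : ℕ} (hc : Cyc P.sw P.pos K N p₀) (hp : p₀ + 1 < N)
    (hOK : ∀ m < K, P.OK aB ε N m) {θ : ℕ → ℝ}
    (h : Adm ε l (bcurve A ρ (P.per R K).w (P.per R K).e θ)) (hZ : ∀ t, -Z ≤ l t ∧ l t ≤ 0)
    (hl : Tendsto l atTop (𝓝 (-Z)))
    (hd : ∀ t, 1 ≤ t → |deriv l t| ≤ C / t ∧ ‖deriv (bcurve A ρ (P.per R K).w (P.per R K).e θ) t‖ ≤ C / t) :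
    ∃ p : ℕ → E n, Tendsto (fun j => ‖p j‖) atTop atTop ∧
      ∀ j, ∃ v : E n, 0 < gramDet (metric l (bcurve A ρ (P.per R K).w (P.per R K).e θ)) (p j) (p j) v ∧
        secNumer (metric l (bcurve A ρ (P.per R K).w (P.per R K).e θ)) (p j) (p j) v < 0 := by
  obtain ⟨m₀, hm₀, hsw⟩ := hc.exists_swap hp
  have hm₁ : m₀ + 1 < K := (hc.swap m₀ hm₀ hsw).2.2.2.1
  have hmono := (tl_strictMono hA hρ).monotone
  have hbtl : ∀ m, bcurve A ρ (P.per R K).w (P.per R K).e θ (tl A ρ m) = (P.per R K).w m := fun m => by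
    rw [bcurve_of_ge hA hρ _ _ _ ((tl_zero A ρ).symm.le.trans (hmono (Nat.zero_le m))), glue_tl hA hρ]
  have hw : ∀ j m, m < K → (P.per R K).w (R + m + (R + K) * j) = P.w m := fun j m hm => by
    simp only [Plan.per, extF]
    rw [Nat.add_mul_mod_self_left, Nat.mod_eq_of_lt (by omega), Nat.add_sub_cancel_left]
  refine neg_curv hn (C := max C (ρ ^ (R + K))) h hZ hl (fun t ht => ?_) (swap_ne hn hε (hOK m₀ hm₀) hsw)
    (fun j => tl A ρ (R + m₀ + (R + K) * j)) (fun j => tl A ρ (R + (m₀ + 1) + (R + K) * j))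
    (fun j => tl A ρ (R + m₀ + (R + K) * (j + 1))) ?_ fun j => ⟨hmono (by omega), hmono ?_, ?_, ?_, ?_, ?_⟩
  · have : C / t ≤ max C (ρ ^ (R + K)) / t := div_le_div_of_nonneg_right (le_max_left _ _) (by linarith)
    exact ⟨(hd t ht).1.trans this, (hd t ht).2.trans this⟩
  · refine (tl_tendsto hA hρ).comp (tendsto_atTop_mono (fun j => ?_) tendsto_id)
    have : j ≤ (R + K) * j := Nat.le_mul_of_pos_left j (by omega)
    simp only [id]; omega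
  · rw [mul_add]; omega
  · have : tl A ρ (R + m₀ + (R + K) * (j + 1)) = ρ ^ (R + K) * tl A ρ (R + m₀ + (R + K) * j) := by
      unfold tl; ring
    rw [this]
    exact mul_le_mul_of_nonneg_right (le_max_right _ _) (by unfold tl; positivity)
  · rw [hbtl, hw j m₀ hm₀]
  · rw [hbtl, hw j _ hm₁]
  · rw [hbtl, hw _ m₀ hm₀]

theorem main (hn : n = 3 ∨ 6 ≤ n) {f : ℝ} (hf : 0 < f) (hf1 : f < 1) : ∃ p₀ : ℕ, ∀ N k : ℕ, p₀ + 1 < N →
    ∑ i ∈ Finset.Ico p₀ N, alpha n f (levOf n i) < k * ((N : ℝ) - p₀) → Concl n (f ^ (n - 1)) N k := by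
  have hn3 : 3 ≤ n := by omega
  have hn2 : 2 ≤ n := by omega
  have hn' : (3 : ℝ) ≤ n := by exact_mod_cast hn3
  obtain ⟨Z, hZe⟩ : ∃ Z, Z = -Real.log f := ⟨_, rfl⟩
  have hZ : 0 < Z := by rw [hZe]; linarith [Real.log_neg hf hf1]
  have hfZ : Real.exp (-Z) = f := by rw [hZe, neg_neg, Real.exp_log hf]
  obtain ⟨ε₁, C₁, hε₁, hC₁, hric⟩ := ricci_pos hn3 hZ
  obtain ⟨ε₀, hε₀⟩ := exists_good n
  obtain ⟨ε, hε, hεε⟩ : ∃ ε, Good n ε ∧ ε ≤ ε₁ :=
    ⟨min ε₀ ε₁, hε₀.mono (lt_min hε₀.1 hε₁) (min_le_left _ _), min_le_right _ _⟩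
  obtain ⟨CK, hCK, hKd⟩ := Kf_deriv hε Z
  obtain ⟨p₀, hp₀⟩ := plan_exists hn hε
  refine ⟨p₀, fun N k hN hsum => ?_⟩
  obtain ⟨η, hη, hrate⟩ := exists_eta hf (by omega) hsum
  rw [← hZe] at hrate
  obtain ⟨κ, hκ⟩ : ∃ κ : ℝ, κ = k + ((n : ℝ) - 2) / 2 := ⟨_, rfl⟩
  have hκ0 : 0 ≤ κ := by rw [hκ]; have : (0 : ℝ) ≤ k := Nat.cast_nonneg k; linarith
  rw [← hκ] at hrate
  obtain ⟨P, K, hK, hcyc, hPw, hPs, hOK, hs0⟩ := hp₀ N (by omega) η hη
  obtain ⟨S₀, Cb, hS₀, hbd⟩ := plan_bounds P hK N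
  obtain ⟨G, hG⟩ : ∃ G : ℝ, G = Real.exp (2 * Z) * (2 * S₀) + (((n : ℝ) - 2) ^ 2 / 4 + η) := ⟨_, rfl⟩
  have hG0 : 0 ≤ G := by rw [hG]; positivity
  have hr0 : ∀ i, 0 ≤ rate n Z η i := fun i => Real.sqrt_nonneg _
  obtain ⟨Γ, hΓG, hΓr⟩ : ∃ Γ : ℝ, √G ≤ Γ ∧ ∀ i < N, rate n Z η i ≤ Γ :=
    ⟨√G + ∑ i ∈ Finset.range N, rate n Z η i,
      le_add_of_nonneg_right (Finset.sum_nonneg fun i _ => hr0 i), fun i hi =>
      (Finset.single_le_sum (fun i _ => hr0 i) (Finset.mem_range.2 hi)).trans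
        (le_add_of_nonneg_left (Real.sqrt_nonneg _))⟩
  have hΓ0 : 0 ≤ Γ := (Real.sqrt_nonneg _).trans hΓG
  have hΓ2 : G ≤ Γ ^ 2 := by
    rw [← Real.sq_sqrt hG0]; exact pow_le_pow_left₀ (Real.sqrt_nonneg _) hΓG 2
  obtain ⟨R, ρ, hR, hρ, hsched⟩ := sched N p₀ K (by omega) P.sw P.pos hcyc (rate n Z η) Γ κ
    (fun i j hij _ => Real.sqrt_le_sqrt (by
      have := (ev_mono hn2 (levOf_mono hn2 hij)).2
      have := Real.exp_pos (2 * Z)
      nlinarith))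
    (fun i hi => ⟨hr0 i, hΓr i hi⟩) hrate
  have hQ : ∀ m, (P.per R K).OK aB ε N m := Plan.per_OK hK hcyc hPw hPs hOK
  obtain ⟨hfw, hfe⟩ := per_finite P hK R
  obtain ⟨μ, hμ, hgal⟩ := per_gal hn2 hε P hK hQ
  obtain ⟨q₀, hq₀e⟩ : ∃ q₀ : ℝ, q₀ = ((n : ℝ) - 2) ^ 2 / 8 := ⟨_, rfl⟩
  have hq₀ : 0 < q₀ := by rw [hq₀e]; have : 0 < (n : ℝ) - 2 := by linarith
                          positivity
  obtain ⟨ε', L, C, hε', hL, hC, htok⟩ := gal_tokens hn2 N (by omega) q₀ μ Γ hq₀ hμ hΓ0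
  obtain ⟨Cg, hCg, hgd⟩ := glue_deriv (B := BB n) hρ Cb
  obtain ⟨Cs, hCs, hsd⟩ := glue_deriv (B := ℝ) hρ S₀
  -- the small parameter
  obtain ⟨τ, ⟨⟨⟨⟨⟨⟨t1, t2⟩, t3⟩, t4⟩, t5⟩, t6⟩, t7⟩, hτ⟩ :=
    ((((((((small_ev (2 * (n : ℝ) ^ 2) hε').and
      (small_ev (Real.exp (2 * Z) * (4 * S₀ + 2 * n ^ 2) + 2 * n ^ 2)
        (show 0 < 2 * √q₀ * ε' by positivity))).and (small_ev (4 * n * CK) hε')).and
      (small_ev (2 * (n : ℝ) ^ 2) hq₀)).and (small_ev (2 * (n : ℝ) ^ 2) hη)).and (small_ev 1 hε₁)).and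
      (small_ev 2 one_pos)).and self_mem_nhdsWithin).exists
  have hτ0 : 0 < τ := hτ
  obtain ⟨l, t₁, Cl, ht₁, hls, hl0, hlim, hl, hlC, hlt⟩ :=
    profile (C := 2 * C₁ + 4 * C₁ * Cg ^ 2) hZ hτ0
  obtain ⟨A, ⟨⟨⟨⟨a1, a2⟩, a3⟩, a4⟩, a5⟩, a6⟩ :=
    ((((((eventually_ge_atTop (1 : ℝ)).and (eventually_ge_atTop (t₁ * ρ))).and
      (eventually_ge_atTop L)).and (eventually_ge_atTop (L / (ρ - 1)))).and
      (eventually_ge_atTop (Cs / τ))).and (eventually_ge_atTop (Cg / τ))).exists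
  have hA : 0 < A := by linarith
  have hρ0 : 0 < ρ := by linarith
  have hdiv : ∀ {c : ℝ}, 0 < c → c / τ ≤ A → ∀ t, c / max t A ≤ τ := fun hc h t => by
    rw [div_le_iff₀ (hA.trans_le (le_max_right _ _))]
    rw [div_le_iff₀ hτ0] at h
    nlinarith [le_max_right t A]
  obtain ⟨C', Eb, hrec, hEb⟩ := hsched A C a1 hC
  have hC' : 0 ≤ C' := by
    have := (hrec.init 0 (by omega)).trans (hEb 0 (by omega)).1
    linarith
  have hQs : ∀ m, ∀ x ∈ Icc (0 : ℝ) 1, ∀ θ ∈ Icc (-1 : ℝ) 1,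
      ‖pt ((P.per R K).w m) ((P.per R K).w (m + 1)) ((P.per R K).e m) x θ‖ < ε := fun m => (hQ m).mem
  have hadm : ∀ θ ∈ cube, Adm ε l (bcurve A ρ (P.per R K).w (P.per R K).e θ) := fun θ hθ =>
    adm_bcurve hε hA hρ hls hl0 (fun t => (hl t).1) _ _ hfw hfe hQs hθ
  have hqf := (qf_props hn2 hls).2.1 τ (by linarith) fun t => (hl t).2.2.2.2
  have hqf1 : ∀ t, q₀ ≤ qf n l t ∧ qf n l t ≤ ((n : ℝ) - 2) ^ 2 / 4 + η := fun t => by
    have := abs_le.1 (hqf t).1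
    constructor <;> linarith [this.1, this.2]
  have hexp : ∀ t, Real.exp (-2 * l t) ≤ Real.exp (2 * Z) := fun t =>
    Real.exp_le_exp.2 (by linarith [(hl t).1])
  have hn2τ : τ ≤ 2 * (n : ℝ) ^ 2 * τ := le_mul_of_one_le_left hτ0.le (by nlinarith)
  have hsc : ∀ θ ∈ cube, ∀ q, 1 ≤ q → q ≤ N → ∀ t, 0 ≤ scurve A ρ (P.per R K) q θ t ∧
      scurve A ρ (P.per R K) q θ t ≤ 2 * S₀ ∧ |deriv (scurve A ρ (P.per R K) q θ) t| ≤ 2 * n ^ 2 * τ ∧
      Real.exp (-2 * l t) * scurve A ρ (P.per R K) q θ t + qf n l t ≤ Γ ^ 2 := fun θ hθ q h1 h2 t => by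
    obtain ⟨m, x, hx, he⟩ := scurve_cases hA hρ (P.per R K) q θ t
    have b1 : 0 ≤ scurve A ρ (P.per R K) q θ t := he ▸ (hQ m).s_nonneg hn2 hε hx (cube_mem hθ m) h1 h2
    have b2 : scurve A ρ (P.per R K) q θ t ≤ 2 * S₀ :=
      he ▸ pt_le ((hbd R m).2 q h2).1 ((hbd R (m + 1)).2 q h2).1 ((hbd R m).2 q h2).2 hx (cube_mem hθ m)
    refine ⟨b1, b2, ?_, le_trans ?_ hΓ2⟩
    · exact ((hsd A _ _ θ a1 (fun m => (hbd R m).2 q h2) hθ t).1.trans (hdiv hCs a5 t)).trans hn2τ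
    · rw [hG]
      exact add_le_add (mul_le_mul (hexp t) b2 b1 (Real.exp_pos _).le) (hqf1 t).2
  have hsol : ∀ M, ∃ θ ∈ cube, ∃ u u' : Fin N → ℝ → PM n M,
      (∀ j, Sol (BM M l (bcurve A ρ (P.per R K).w (P.per R K).e θ)) (u j) (u' j) ∧
        RegLev M (u j 0) (u' j 0)) ∧
      (∀ j t, 0 ≤ t → t ≤ tl A ρ (M * (R + K)) → ‖u j t‖ ≤ 2 * N * C' * Real.exp (κ * t)) ∧
      ((∀ m, GalOK M N μ ((P.per R K).w m) ((P.per R K).w (m + 1)) ((P.per R K).e m) ((P.per R K).s m)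
        ((P.per R K).s (m + 1)) ((P.per R K).se m) ((P.per R K).sw m) ((P.per R K).pos m)
        ((P.per R K).ψ m)) → ∀ (c : Fin N → ℝ) (j₀ : Fin N), (∀ j < j₀, c j = 0) →
          |c j₀| ≤ ‖∑ j, c j • u j A‖) := fun M => by
    by_cases hM : ∀ m, GalOK M N μ ((P.per R K).w m) ((P.per R K).w (m + 1)) ((P.per R K).e m)
        ((P.per R K).s m) ((P.per R K).s (m + 1)) ((P.per R K).se m) ((P.per R K).sw m)
        ((P.per R K).pos m) ((P.per R K).ψ m)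
    · obtain ⟨θ, hθ, u, u', h1, h2, h3⟩ := htok ε Z τ (2 * S₀) (2 * n ^ 2 * τ) A ρ l (P.per R K) M
        (M * (R + K)) (fun m q => if m % (R + K) < R then rate n Z η (q - 1) else Γ) Eb hA hρ hadm
        (fun t => ⟨(hl t).1, (hl t).2.1, (hl t).2.2.2.2.1⟩) (fun t => ⟨(hqf1 t).1, (hqf t).2⟩) t1
        (fun θ hθ t => by
          have h1 := hKd l _ (hadm θ hθ) (fun t => (hl t).1) t
          have h2 := (hgd A _ _ θ a1 (fun m => (hbd R m).1) hθ t).2.1.trans (hdiv hCg a6 t)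
          have h3 := (hl t).2.2.2.2.1
          have h4 : CK * (|deriv l t| + ‖deriv (bcurve A ρ (P.per R K).w (P.per R K).e θ) t‖) ≤
              CK * (2 * τ) := mul_le_mul_of_nonneg_left (by linarith) hCK.le
          calc _ ≤ 2 * n * (CK * (2 * τ)) := mul_le_mul_of_nonneg_left (h1.trans h4) (by positivity)
            _ = 4 * n * CK * τ := by ring
            _ ≤ ε' := t3)
        hsc (le_trans (le_of_eq (by ring)) t2) hM (fun m hm => (hQ m).nrm hm) a3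
        ((div_le_iff₀ (sub_pos.2 hρ)).1 a4)
        (fun m hm hsw => ⟨((hQ m).rng hsw).1, ((hQ m).rng hsw).2, extSw_adj hcyc hR M m hm hsw⟩)
        (fun θ hθ m q h1 h2 t ht => by
          split_ifs with h
          · rw [gam, scurve_rest hA hρ P hK q θ h ht]
            refine Real.sqrt_le_sqrt (add_le_add (mul_le_mul (hexp t) (hs0 q h1 h2) ?_
              (Real.exp_pos _).le) (hqf1 t).2)
            rw [← scurve_rest hA hρ P hK q θ h ht]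
            exact (hsc θ hθ q h1 h2 t).1
          · exact Real.sqrt_le_iff.2 ⟨hΓ0, (hsc θ hθ q h1 h2 t).2.2.2⟩)
        hrec
      exact ⟨θ, hθ, u, u', h1, fun j t ht0 ht =>
        bound_of_tl hA hρ hκ0 hC' hEb (fun m hm h => h3 j m hm t ht0 h) ht0 ht, fun _ => h2⟩
    · refine ⟨0, fun m => by simp, fun _ _ => 0, fun _ _ => 0, fun j => ⟨fun t => ⟨hasDerivAt_const _ _, ?_⟩,
        fun i => by simp⟩, fun j t _ _ => ?_, fun h => absurd h hM⟩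
      · rw [map_zero]; exact hasDerivAt_const _ _
      · rw [norm_zero]; positivity
  choose θ hθ u u' hu hub hind using hsol
  obtain ⟨θI, hθI, F, hF1, hF2⟩ := harm_family hn2 hε hA hρ hls hl0 (fun t => ⟨(hl t).1, (hl t).2.1⟩)
    (fun t => hq₀.le.trans (hqf1 t).1) _ _ hfw hfe hQs N k θ hθ u u' (fun M => tl A ρ (M * (R + K)))
    ((tl_tendsto hA hρ).comp (tendsto_atTop_mono (fun M => Nat.le_mul_of_pos_right M (by omega))
      tendsto_id)) hu (2 * N * C') (fun M => by unfold tl; positivity)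
    (fun M j t h0 h1 => hκ ▸ hub M j t h0 h1) (hgal.mono fun M hM => hind M hM)
  have hI := hadm θI hθI
  have hgI := fun t => hgd A _ _ θI a1 (fun m => (hbd R m).1) hθI t
  obtain ⟨r1, r2⟩ := hric ε l _ (A / ρ) hεε hI
    (fun t => ⟨(hl t).1, (hl t).2.1, by linarith [(abs_le.1 (hl t).2.2.2.2.1).1], (hl t).2.2.1,
      (hl t).2.2.2.1⟩)
    (fun t ht => bcurve_zero hA hρ _ _ θI ht)
    (fun t ht => by
      have h1 : t₁ ≤ t := le_trans (by rwa [le_div_iff₀ hρ0]) ht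
      have ht0 : 0 < t := by linarith
      obtain ⟨b1, b2, b3, b4⟩ := hlt t h1
      obtain ⟨-, c1, c2⟩ := hgI t
      have hm1 : 1 ≤ max t A := a1.trans (le_max_right _ _)
      have c3 : Cg / max t A ^ 2 ≤ Cg / max t A :=
        div_le_div_of_nonneg_left hCg.le (by linarith) (by nlinarith)
      have c4 : Cg / max t A ≤ Cg / t := div_le_div_of_nonneg_left hCg.le ht0 (le_max_left _ _)
      have c5 := hdiv hCg a6 t
      refine ⟨by linarith, by linarith [(hl t).2.2.2.2.1], by linarith [(hl t).2.2.2.2.2.1],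
        by linarith, by linarith, b3, ?_⟩
      have d1 := pow_le_pow_left₀ (norm_nonneg _) (c1.trans c4) 2
      have d2 := pow_le_pow_left₀ (norm_nonneg _) (c2.trans (c3.trans c4)) 2
      have d3 : (2 * C₁ + 4 * C₁ * Cg ^ 2) / t ^ 2 = 2 * C₁ / t ^ 2 + 4 * C₁ * (Cg / t) ^ 2 := by ring
      have d4 : 0 ≤ 2 * C₁ / t ^ 2 := by positivity
      have d5 : 0 ≤ 4 * C₁ * Cg ^ 2 * (deriv l t ^ 2 + deriv (deriv l) t ^ 2) := by positivity
      nlinarith [mul_le_mul_of_nonneg_left d1 hC₁.le, mul_le_mul_of_nonneg_left d2 hC₁.le])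
  refine ⟨metric l _, (hI.radial hn2).riem,
    complete_of_quad (hI.radial hn2).riem (by positivity) (hI.quad hn2 fun t => ⟨(hl t).1, (hl t).2.1⟩),
    ⟨1, one_pos, fun x hx => hI.one hx.le⟩, r1, ⟨_, r2⟩, hfZ ▸ hI.avr hn2 (fun t => (hl t).2.1) hlim,
    neg_curv_per hn2 (C := max Cl Cg) hε hA hρ P hcyc hN hOK hI (fun t => ⟨(hl t).1, (hl t).2.1⟩) hlim
      fun t ht => ⟨?_, ?_⟩, F, hF1, fun i => ⟨(hF2 i).1, ?_⟩⟩
  · exact (hlC t ht).trans (div_le_div_of_nonneg_right (le_max_left _ _) (by linarith))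
  · exact (hgI t).2.1.trans ((div_le_div_of_nonneg_left hCg.le (by linarith) (le_max_left _ _)).trans
      (div_le_div_of_nonneg_right (le_max_right _ _) (by linarith)))
  · simp only [(hI.radial hn2).riemDist_zero]
    exact (hF2 i).2

end Crest.Agent.R202
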