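import Crest.Agent.R202.Sph2

/-! # Row 202, Num: the two counting computations -/

set_option autoImplicit false
open Set Filter

noncomputable section
namespace Crest.Agent.R202

/-- growth exponent of level `l` on the cone with `f∞ = f` -/
def alpha (n : ℕ) (f : ℝ) (l : ℕ) : ℝ := -(((n : ℝ) - 2) / 2) + √((((n : ℝ) - 2) / 2) ^ 2 + ev n l / f ^ 2)

theorem num_levOf_le {n i l : ℕ} (h : i < nl n (l + 1)) : levOf n i ≤ l :=
  Nat.sInf_le h

theorem num_nl3 (l : ℕ) : nl 3 (l + 1) = (l + 1) ^ 2 := by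
  rcases l with _ | l
  · simpa using nl_one (n := 3) (by norm_num)
  · rw [nl_succ (n := 3) (by norm_num) (l + 1) (by omega)]
    have e1 : (3 + (l + 1) - 1).choose (l + 1) = (l + 3).choose 2 := by
      rw [show 3 + (l + 1) - 1 = (l + 1) + 2 by omega, Nat.choose_symm_add]
    have e2 : (3 + (l + 1) - 2).choose (l + 1 - 1) = (l + 2).choose 2 := by
      rw [show 3 + (l + 1) - 2 = l + 2 by omega, show l + 1 - 1 = l by omega, Nat.choose_symm_add]
    rw [e1, e2]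
    have h : (((l + 3).choose 2 + (l + 2).choose 2 : ℕ) : ℝ) = (((l + 1 + 1) ^ 2 : ℕ) : ℝ) := by
      push_cast [Nat.cast_choose_two]
      ring
    exact_mod_cast h

theorem num_alpha3 {v : ℝ} (hv : 0 < v) (l : ℕ) : alpha 3 (√v) l ≤ ((l : ℝ) + 1 / 2) / √v := by
  have hs : 0 < √v := Real.sqrt_pos.2 hv
  have ha : 0 ≤ ((l : ℝ) + 1 / 2) / √v := by positivity
  have h1 : ev 3 l / √v ^ 2 ≤ (((l : ℝ) + 1 / 2) / √v) ^ 2 := by
    rw [div_pow]
    gcongr
    unfold ev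
    push_cast
    nlinarith
  have h3 : √(((((3 : ℕ) : ℝ) - 2) / 2) ^ 2 + ev 3 l / √v ^ 2) ≤
      1 / 2 + ((l : ℝ) + 1 / 2) / √v := by
    apply Real.sqrt_le_iff.2
    refine ⟨by positivity, ?_⟩
    push_cast
    nlinarith
  unfold alpha
  push_cast at h3 ⊢
  linarith

theorem num_sum3 (L : ℕ) :
    ∑ i ∈ Finset.range (L ^ 2), ((levOf 3 i : ℝ) + 1 / 2) ≤ 2 / 3 * (L : ℝ) ^ 3 := by
  induction L with
  | zero => simp
  | succ L ih =>
    have hle : L ^ 2 ≤ (L + 1) ^ 2 := Nat.pow_le_pow_left (Nat.le_succ L) 2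
    rw [← Finset.sum_range_add_sum_Ico _ hle]
    have h1 : ∑ i ∈ Finset.Ico (L ^ 2) ((L + 1) ^ 2), ((levOf 3 i : ℝ) + 1 / 2) ≤
        (Finset.Ico (L ^ 2) ((L + 1) ^ 2)).card • ((L : ℝ) + 1 / 2) := by
      refine Finset.sum_le_card_nsmul _ _ _ fun i hi => ?_
      have : levOf 3 i ≤ L := num_levOf_le (by rw [num_nl3]; exact (Finset.mem_Ico.1 hi).2)
      have : (levOf 3 i : ℝ) ≤ L := by exact_mod_cast this
      linarith
    rw [Nat.card_Ico, nsmul_eq_mul, Nat.cast_sub hle] at h1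
    push_cast at h1 ⊢
    nlinarith

theorem num_alpha8 (l : ℕ) : alpha 8 (99 / 100) l ≤ ((l : ℝ) + 3) * (100 / 99) - 3 := by
  have h3 : √(((((8 : ℕ) : ℝ) - 2) / 2) ^ 2 + ev 8 l / (99 / 100) ^ 2) ≤
      ((l : ℝ) + 3) * (100 / 99) := by
    apply Real.sqrt_le_iff.2
    refine ⟨by positivity, ?_⟩
    unfold ev
    push_cast
    have e : (l : ℝ) * (l + 8 - 2) / (99 / 100) ^ 2 = ((l + 3) * (100 / 99)) ^ 2 - 90000 / 9801 := by
      ring
    rw [e]
    linarith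
  unfold alpha
  push_cast at h3 ⊢
  linarith

theorem num_asc (m r : ℕ) :
    9 ^ r * (10 * m + 1).ascFactorial r ≤ 10 ^ r * (9 * m + 1).ascFactorial r := by
  induction r with
  | zero => simp
  | succ r ih =>
    rw [Nat.ascFactorial_succ, Nat.ascFactorial_succ]
    calc 9 ^ (r + 1) * ((10 * m + 1 + r) * (10 * m + 1).ascFactorial r)
        = (9 * (10 * m + 1 + r)) * (9 ^ r * (10 * m + 1).ascFactorial r) := by ring
      _ ≤ (10 * (9 * m + 1 + r)) * (10 ^ r * (9 * m + 1).ascFactorial r) :=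
          Nat.mul_le_mul (by omega) ih
      _ = _ := by ring

theorem num_choose (m : ℕ) : (10 * m + 7).choose 7 ≤ 3 * (9 * m + 7).choose 7 := by
  have h := num_asc m 7
  rw [Nat.ascFactorial_eq_factorial_mul_choose, Nat.ascFactorial_eq_factorial_mul_choose] at h
  norm_num [Nat.factorial] at h
  omega

theorem num_nl8_le (k : ℕ) (hk : 1 ≤ k) : nl 8 (k + 1) ≤ 2 * (k + 7).choose 7 := by
  obtain ⟨j, rfl⟩ : ∃ j, k = j + 1 := ⟨k - 1, by omega⟩
  rw [nl_succ (n := 8) (by norm_num) (j + 1) hk, show 8 + (j + 1) - 1 = (j + 1) + 7 by omega,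
    show 8 + (j + 1) - 2 = j + 7 by omega, show j + 1 - 1 = j by omega, Nat.choose_symm_add,
    Nat.choose_symm_add]
  have : (j + 7).choose 7 ≤ (j + 1 + 7).choose 7 := Nat.choose_le_choose 7 (by omega)
  omega

theorem num_nl8_ge (k : ℕ) (hk : 1 ≤ k) : (k + 7).choose 7 ≤ nl 8 (k + 1) := by
  rw [nl_succ (n := 8) (by norm_num) k hk, show 8 + k - 1 = k + 7 by omega, Nat.choose_symm_add]
  omega

/-- `n = 3`: `nl 3 l = l²` (`nl_succ`), `alpha 3 f l ≤ (l+1/2)/f`, `Σ_{i<L²} (levOf i + 1/2) = Σ_{l<L} (2l+1)²/2 ≤ (2/3)L³`.  Take `L = ⌈√c (k+1)⌉`, `N = L²`;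
need `(2/3)L³/√v < k (L² - p₀)`, true for large `k` because `(2/3)√c/√v < 1`. -/
theorem num3 {v c : ℝ} (hv : 0 < v) (hc : 1 < c) (hc' : c < 9 * v / 4) (p₀ : ℕ) :
    ∃ k₀ : ℕ, ∀ k : ℕ, k₀ ≤ k → ∃ N : ℕ, p₀ + 1 < N ∧ c * ((k : ℝ) + 1) ^ 2 ≤ N ∧
      ∑ i ∈ Finset.Ico p₀ N, alpha 3 (√v) (levOf 3 i) < k * ((N : ℝ) - p₀) := by
  have hs : 0 < √v := Real.sqrt_pos.2 hv
  have hc0 : 0 < c := by linarith
  have hsc : 1 < √c := by
    rw [Real.lt_sqrt zero_le_one]; linarith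
  have hθ : 2 / 3 * √c / √v < 1 := by
    rw [div_lt_one hs]
    have : √c < 3 / 2 * √v := by
      rw [Real.sqrt_lt' (by positivity), mul_pow, Real.sq_sqrt hv.le]; linarith
    linarith
  set θ := 2 / 3 * √c / √v with hθdef
  obtain ⟨k₁, hk₁⟩ := exists_nat_ge ((θ + 2 / 3 / √v + 1) / (1 - θ))
  refine ⟨max (max k₁ p₀) 1, fun k hk => ?_⟩
  have hk1 : k₁ ≤ k := (le_max_left _ _).trans ((le_max_left _ _).trans hk)
  have hkp : p₀ ≤ k := (le_max_right _ _).trans ((le_max_left _ _).trans hk)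
  have hk0 : 1 ≤ k := (le_max_right _ _).trans hk
  set L := ⌈√c * ((k : ℝ) + 1)⌉₊ with hL
  have hL1 : √c * ((k : ℝ) + 1) ≤ L := Nat.le_ceil _
  have hL2 : (L : ℝ) < √c * ((k : ℝ) + 1) + 1 := Nat.ceil_lt_add_one (by positivity)
  have hkR : (0 : ℝ) ≤ k := Nat.cast_nonneg k
  have hL3 : (k : ℝ) + 1 ≤ L := by nlinarith
  have hL4 : k + 1 ≤ L := by exact_mod_cast hL3
  refine ⟨L ^ 2, by nlinarith, ?_, ?_⟩
  · have := pow_le_pow_left₀ (by positivity) hL1 2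
    rw [mul_pow, Real.sq_sqrt hc0.le] at this
    exact_mod_cast this
  · have h1 : ∑ i ∈ Finset.Ico p₀ (L ^ 2), alpha 3 (√v) (levOf 3 i) ≤
        (∑ i ∈ Finset.range (L ^ 2), ((levOf 3 i : ℝ) + 1 / 2)) / √v := by
      rw [Finset.sum_div]
      refine (Finset.sum_le_sum fun i _ => num_alpha3 hv _).trans ?_
      refine Finset.sum_le_sum_of_subset_of_nonneg (fun i hi => ?_) fun i _ _ => by positivity
      exact Finset.mem_range.2 (Finset.mem_Ico.1 hi).2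
    have h2 : (∑ i ∈ Finset.range (L ^ 2), ((levOf 3 i : ℝ) + 1 / 2)) / √v ≤
        (2 / 3 * (L : ℝ) / √v) * (L : ℝ) ^ 2 := by
      refine (div_le_div_of_nonneg_right (num_sum3 L) hs.le).trans (le_of_eq ?_)
      ring
    have h3 : 2 / 3 * (L : ℝ) / √v ≤ θ * ((k : ℝ) + 1) + 2 / 3 / √v := by
      have e : θ * ((k : ℝ) + 1) + 2 / 3 / √v = 2 / 3 * (√c * ((k : ℝ) + 1) + 1) / √v := by
        rw [hθdef]; ring
      rw [e]
      gcongr
    have h4 : θ + 2 / 3 / √v + 1 ≤ (k : ℝ) * (1 - θ) := by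
      have h5 : (k₁ : ℝ) ≤ k := by exact_mod_cast hk1
      exact (div_le_iff₀ (by linarith)).1 (hk₁.trans h5)
    have h6 : 2 / 3 * (L : ℝ) / √v ≤ (k : ℝ) - 1 := by nlinarith
    have h7 : (2 / 3 * (L : ℝ) / √v) * (L : ℝ) ^ 2 ≤ ((k : ℝ) - 1) * (L : ℝ) ^ 2 := by gcongr
    have h8 : (p₀ : ℝ) ≤ k := by exact_mod_cast hkp
    have h9 : (k : ℝ) * p₀ < (L : ℝ) ^ 2 := by nlinarith
    push_cast
    nlinarith

/-- `n = 8`, `f = 99/100`: `alpha 8 f l ≤ (l+3)/f - 3`.  `N = nl 8 (k+1) + 1` (`nl_succ` identifies `nl 8 (k+1)` with the Euclidean count), all `i < N` have level `≤ k+1`,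
and the `i < nl 8 (j+1)`, `j = ⌊9k/10⌋`, have level `≤ j`.  Since `nl 8 (l+1)` lies between `l⁷/7!` and `2(l+7)⁷/7!`, a fraction `≥ (9/10)⁷/2 - o(1) > 1/5` of the indices has level `≤ 9k/10`:
the average is `≤ (1 - 1/50 + o(1)) k/f < k`. -/
theorem num8 (p₀ : ℕ) : ∃ k N : ℕ, 2 ≤ k ∧ p₀ + 1 < N ∧
    Nat.choose (8 + k - 1) k + Nat.choose (8 + k - 2) (k - 1) < N ∧
    ∑ i ∈ Finset.Ico p₀ N, alpha 8 (99 / 100) (levOf 8 i) < k * ((N : ℝ) - p₀) := by
  set m := p₀ + 100 with hm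
  have hsm : StrictMono (nl 8) := nl_strictMono (by norm_num)
  set A := nl 8 (9 * m + 1) with hA
  set B := nl 8 (10 * m + 1) with hB
  have hA1 : 9 * m + 1 ≤ A := hsm.id_le _
  have hAB : A ≤ B := hsm.monotone (by omega)
  have hB6 : B ≤ 6 * A := by
    have h1 := num_nl8_le (10 * m) (by omega)
    have h2 := num_nl8_ge (9 * m) (by omega)
    have h3 := num_choose m
    omega
  refine ⟨10 * m, B + 1, by omega, by omega, ?_, ?_⟩
  · rw [hB, nl_succ (n := 8) (by norm_num) (10 * m) (by omega)]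
    omega
  · have hpA : p₀ ≤ A := by omega
    rw [← Finset.sum_Ico_consecutive _ hpA (by omega : A ≤ B + 1)]
    have h1 : ∑ i ∈ Finset.Ico p₀ A, alpha 8 (99 / 100) (levOf 8 i) ≤
        (Finset.Ico p₀ A).card • ((9 * (m : ℝ) + 3) * (100 / 99) - 3) := by
      refine Finset.sum_le_card_nsmul _ _ _ fun i hi => (num_alpha8 _).trans ?_
      have : levOf 8 i ≤ 9 * m := num_levOf_le (Finset.mem_Ico.1 hi).2
      have : (levOf 8 i : ℝ) ≤ 9 * m := by exact_mod_cast this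
      linarith
    have h2 : ∑ i ∈ Finset.Ico A (B + 1), alpha 8 (99 / 100) (levOf 8 i) ≤
        (Finset.Ico A (B + 1)).card • ((10 * (m : ℝ) + 4) * (100 / 99) - 3) := by
      refine Finset.sum_le_card_nsmul _ _ _ fun i hi => (num_alpha8 _).trans ?_
      have h3 : B < nl 8 (10 * m + 1 + 1) := hsm (Nat.lt_succ_self _)
      have : levOf 8 i ≤ 10 * m + 1 :=
        num_levOf_le (by have := (Finset.mem_Ico.1 hi).2; omega)
      have : (levOf 8 i : ℝ) ≤ 10 * m + 1 := by exact_mod_cast this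
      linarith
    rw [Nat.card_Ico, nsmul_eq_mul, Nat.cast_sub hpA] at h1
    rw [Nat.card_Ico, nsmul_eq_mul, Nat.cast_sub (by omega : A ≤ B + 1)] at h2
    have h4 : ((B : ℝ) + 1) - A ≤ 8 * ((A : ℝ) - p₀) := by
      have : B + 1 + 8 * p₀ ≤ 9 * A := by omega
      have : (B : ℝ) + 1 + 8 * p₀ ≤ 9 * A := by exact_mod_cast this
      linarith
    have h5 : (0 : ℝ) < (A : ℝ) - p₀ := by
      have : p₀ < A := by omega
      have : (p₀ : ℝ) < A := by exact_mod_cast this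
      linarith
    have h6 : (100 : ℝ) ≤ m := by
      have : 100 ≤ m := by omega
      exact_mod_cast this
    have h7 : (((B : ℝ) + 1) - A) * (10 * m + 103) ≤ 8 * ((A : ℝ) - p₀) * (10 * m + 103) := by
      gcongr
    have h8 : 0 < ((A : ℝ) - p₀) * (10 * m - 827) := mul_pos h5 (by linarith)
    push_cast at h1 h2 ⊢
    nlinarith

end Crest.Agent.R202
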