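import Crest.Agent.R202.Forms2
import Crest.Agent.R202.Ucp
import Crest.Agent.R202.Gen2

/-! # Row 202, PDD: the hypotheses (P) and (DD) -/

set_option autoImplicit false
open scoped ContDiff RealInnerProductSpace
open Set Filter Topology MeasureTheory Crest.GeometryTopology.CoordMetric

noncomputable section
namespace Crest.Agent.R202

variable {n : ℕ}

/-- an eigenvalue carrying an orthonormal pair is positive: `s = aB b φ φ ≥ 0`, and `s = 0` forces `gr φ = gr ψ = 0` (`aB_coer`), both constant. -/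
theorem pos_of_pair (hn : 2 ≤ n) {ε : ℝ} (h : Good n ε) {b : BB n} (hb : ‖b‖ < ε) {s : ℝ} {φ ψ : W n}
    (hφ : φ ∈ eigsp (aB b) s) (hψ : ψ ∈ eigsp (aB b) s) (n₁ : ‖φ‖ = 1) (n₂ : ‖ψ‖ = 1)
    (o : ⟪φ, ψ⟫ = 0) : 0 < s := by
  by_contra hs
  have key : ∀ u ∈ eigsp (aB b) s, ∃ c : ℝ, u = c • oneW := fun u hu => by
    refine eq_const_of_gr hn (Real.sqrt_eq_zero'.2 ?_)
    have h1 := (aB_coer hn h hb u).1
    rw [hu u] at h1
    nlinarith [real_inner_self_nonneg (x := u)]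
  obtain ⟨c, rfl⟩ := key φ hφ
  obtain ⟨c', rfl⟩ := key ψ hψ
  rw [real_inner_smul_left, real_inner_smul_right, inner_self_eq_norm_sq_to_K] at o
  rw [norm_smul] at n₁ n₂
  have h1 := left_ne_zero_of_mul_eq_one n₁
  have h2 := left_ne_zero_of_mul_eq_one n₂
  have h3 := right_ne_zero_of_mul_eq_one n₂
  simp_all

/-- `ann` with one term, `AnnEq.zero` (`k = 2`) if `n ≠ 3`, `stress`: `φψ` is constant, `= 0` by orthogonality, `Ana.mul_eq_zero`. -/
theorem hypP (hn : n = 3 ∨ 6 ≤ n) {ε : ℝ} (h : Good n ε) : HypP (aB : BB n → BF (W n)) daB ε := by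
  intro b hb s φ hφ ψ hψ n₁ n₂ o
  have hn2 : 2 ≤ n := by omega
  by_contra h0
  push Not at h0
  have hs := pos_of_pair hn2 h hb hφ hψ n₁ n₂ o
  obtain ⟨C, hC⟩ := stress hn2 h hb (m := 1) (fun _ => 1) (fun _ => s) (fun _ => φ) (fun _ => ψ)
    (fun _ => hφ) (fun _ => hψ) fun x => by
      obtain ⟨μ, hμ⟩ := ann hn2 h hb (m := 1) (fun _ => 1) (fun _ => φ) (fun _ => ψ)
        (fun v => by simp [h0 v]) x
      exact ⟨μ, hμ, hn.imp id fun h6 => hμ.zero (k := 2) (by omega) ![gv φ x, gv ψ x] fun _ =>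
        ⟨Submodule.subset_span ⟨0, rfl⟩, Submodule.subset_span ⟨1, rfl⟩⟩⟩
  have h1 : (res φ * res ψ) * (res φ * res ψ) = (C / s) • (res φ * res ψ) := by
    ext x
    rw [← hC x]
    simp [hs.ne']
  have h2 := integ_eq_zero (F := (res φ * res ψ) * (res φ * res ψ)) (fun x => mul_self_nonneg _)
    (by rw [h1, map_smul, ← inner_W, o, smul_zero])
  rcases (eig_ana hn2 h hb hφ).mul_eq_zero hn2 (eig_ana hn2 h hb hψ)
    (fun x => mul_self_eq_zero.1 (DFunLike.congr_fun h2 x)) with rfl | rfl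
  · simp at n₁
  · simp at n₂

end Crest.Agent.R202
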