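import Crest.Agent.R202.Forms2
import Crest.Agent.R202.Ucp
import Crest.Agent.R202.Gen2
import Crest.Agent.R202.PDDa

/-! # Row 202, PDD: the hypotheses (P) and (DD) -/

set_option autoImplicit false
open scoped ContDiff RealInnerProductSpace
open Set Filter Topology MeasureTheory Crest.GeometryTopology.CoordMetric

noncomputable section
namespace Crest.Agent.R202

variable {n : ℕ}

/-- the complex algebra behind (DD) -/
theorem pdd_alg (p q r t ρ : ℝ) (hρ0 : ρ ≠ 0) (hρ1 : ρ ≠ 1) :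
    ∃ j1 j2 : ℝ, (j1 ≠ 0 ∨ j2 ≠ 0) ∧ ∀ a b c d μ1 μ2 : ℝ, ∃ ν : ℝ, ∀ a' b' c' d' h : ℝ,
      c ^ 2 - d ^ 2 = ρ * (p * (a ^ 2 - b ^ 2) + q * (2 * a * b)) →
      2 * c * d = ρ * (r * (a ^ 2 - b ^ 2) + t * (2 * a * b)) →
      c * c' - d * d' = ρ * (p * (a * a' - b * b') + q * (a * b' + b * a')) →
      c * d' + d * c' = ρ * (r * (a * a' - b * b') + t * (a * b' + b * a')) →
      c' ^ 2 - d' ^ 2 = p * (a' ^ 2 - b' ^ 2) + q * (2 * a' * b') + μ1 * h →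
      2 * c' * d' = r * (a' ^ 2 - b' ^ 2) + t * (2 * a' * b') + μ2 * h →
      ((j1 * p - j2 * r) * (a * a' - b * b') + (j1 * q - j2 * t) * (a * b' + b * a')) *
        ((j1 * r + j2 * p) * (a * a' - b * b') + (j1 * t + j2 * q) * (a * b' + b * a')) = ν * h := by
  set P : ℂ := ⟨p, r⟩ with hP
  set Q : ℂ := ⟨q, t⟩ with hQ
  have hρ1' : ((ρ : ℂ) - 1) ≠ 0 := by
    rw [sub_ne_zero]; exact_mod_cast hρ1
  obtain ⟨j, hj0, e, hje⟩ : ∃ j : ℂ, j ≠ 0 ∧ ∃ e : ℝ, j ^ 2 * (P ^ 2 + Q ^ 2) = e * ((ρ : ℂ) - 1) := by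
    by_cases h0 : P ^ 2 + Q ^ 2 = 0
    · exact ⟨1, one_ne_zero, 0, by simp [h0]⟩
    · obtain ⟨j, hj⟩ := IsAlgClosed.exists_pow_nat_eq (((ρ : ℂ) - 1) / (P ^ 2 + Q ^ 2))
        (show 0 < 2 by norm_num)
      refine ⟨j, fun hj0 => ?_, 1, ?_⟩
      · rw [hj0] at hj
        have : ((ρ : ℂ) - 1) / (P ^ 2 + Q ^ 2) ≠ 0 := div_ne_zero hρ1' h0
        exact this (by rw [← hj]; simp)
      · rw [hj]; field_simp; simp
  refine ⟨j.re, j.im, ?_, fun a b c d μ1 μ2 => ?_⟩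
  · by_contra hcon
    push Not at hcon
    exact hj0 (Complex.ext hcon.1 hcon.2)
  set μ : ℂ := ⟨μ1, μ2⟩ with hμ
  set Rz : ℂ := P * ((a ^ 2 - b ^ 2 : ℝ) : ℂ) + Q * ((2 * a * b : ℝ) : ℂ) with hRz
  refine ⟨(j ^ 2 * μ * Rz).im / (2 * (ρ - 1)), fun a' b' c' d' h h1 h2 h3 h4 h5 h6 => ?_⟩
  set l : ℂ := P * ((a * a' - b * b' : ℝ) : ℂ) + Q * ((a * b' + b * a' : ℝ) : ℂ) with hl
  set Rz' : ℂ := P * ((a' ^ 2 - b' ^ 2 : ℝ) : ℂ) + Q * ((2 * a' * b' : ℝ) : ℂ) with hRz'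
  set y : ℂ := ⟨c, d⟩ with hy
  set y' : ℂ := ⟨c', d'⟩ with hy'
  have e1 : y * y = (ρ : ℂ) * Rz := by
    apply Complex.ext
    · simp only [hy, hRz, hP, hQ, Complex.mul_re, Complex.add_re, Complex.ofReal_re,
        Complex.ofReal_im, Complex.mul_im, Complex.add_im]
      linear_combination h1
    · simp only [hy, hRz, hP, hQ, Complex.mul_re, Complex.add_re, Complex.ofReal_re,
        Complex.ofReal_im, Complex.mul_im, Complex.add_im]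
      linear_combination h2
  have e2 : y * y' = (ρ : ℂ) * l := by
    apply Complex.ext
    · simp only [hy, hy', hl, hP, hQ, Complex.mul_re, Complex.add_re, Complex.ofReal_re,
        Complex.ofReal_im, Complex.mul_im, Complex.add_im]
      linear_combination h3
    · simp only [hy, hy', hl, hP, hQ, Complex.mul_re, Complex.add_re, Complex.ofReal_re,
        Complex.ofReal_im, Complex.mul_im, Complex.add_im]
      linear_combination h4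
  have e3 : y' * y' = Rz' + μ * (h : ℂ) := by
    apply Complex.ext
    · simp only [hy', hRz', hμ, hP, hQ, Complex.mul_re, Complex.add_re, Complex.ofReal_re,
        Complex.ofReal_im]
      linear_combination h5
    · simp only [hy', hRz', hμ, hP, hQ, Complex.ofReal_re,
        Complex.ofReal_im, Complex.mul_im, Complex.add_im]
      linear_combination h6
  have e4 : Rz * Rz' = l ^ 2 - (P ^ 2 + Q ^ 2) * (((a * b' - b * a') ^ 2 : ℝ) : ℂ) := by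
    rw [hRz, hRz', hl]; push_cast; ring
  have hρ0' : (ρ : ℂ) ≠ 0 := by exact_mod_cast hρ0
  have e5 : Rz * (Rz' + μ * (h : ℂ)) = (ρ : ℂ) * l ^ 2 := by
    apply mul_left_cancel₀ hρ0'
    linear_combination (-(Rz' + μ * (h : ℂ))) * e1 - (y * y) * e3 + (y * y' + (ρ : ℂ) * l) * e2
  have e6 : ((ρ - 1 : ℝ) : ℂ) * ((j * l) * (j * l) + ((e * (a * b' - b * a') ^ 2 : ℝ) : ℂ)) =
      j ^ 2 * μ * Rz * (h : ℂ) := by
    push_cast at e4 ⊢
    linear_combination (-j ^ 2) * e5 + j ^ 2 * e4 - ((a : ℂ) * b' - b * a') ^ 2 * hje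
  have e7 := congrArg Complex.im e6
  rw [Complex.im_ofReal_mul, Complex.add_im, Complex.ofReal_im, add_zero, Complex.mul_im,
    Complex.im_mul_ofReal] at e7
  have hre : (j * l).re =
      (j.re * p - j.im * r) * (a * a' - b * b') + (j.re * q - j.im * t) * (a * b' + b * a') := by
    simp only [hl, hP, hQ, Complex.mul_re, Complex.add_re, Complex.ofReal_re,
      Complex.ofReal_im, Complex.mul_im, Complex.add_im]
    ring
  have him : (j * l).im =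
      (j.re * r + j.im * p) * (a * a' - b * b') + (j.re * t + j.im * q) * (a * b' + b * a') := by
    simp only [hl, hP, hQ, Complex.mul_re, Complex.add_re, Complex.ofReal_re,
      Complex.ofReal_im, Complex.mul_im, Complex.add_im]
    ring
  rw [← hre, ← him]
  have hρ1'' : ρ - 1 ≠ 0 := sub_ne_zero.2 hρ1
  field_simp
  linear_combination e7

/-- a product of two linear forms that is a multiple of a positive form has a zero factor -/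
theorem pdd_point (hn : 3 ≤ n) (H : Matrix (Fin n) (Fin n) ℝ) (x g₁ g₂ : Fin n → ℝ) (ν : ℝ)
    (hH : ∀ ξ, ξ ⬝ᵥ x = 0 → (1 / 3) * (ξ ⬝ᵥ ξ) ≤ ξ ⬝ᵥ H.mulVec ξ)
    (h₁ : g₁ ⬝ᵥ x = 0) (h₂ : g₂ ⬝ᵥ x = 0)
    (h : ∀ ξ, ξ ⬝ᵥ x = 0 → (g₁ ⬝ᵥ H.mulVec ξ) * (g₂ ⬝ᵥ H.mulVec ξ) = ν * (ξ ⬝ᵥ H.mulVec ξ)) :
    g₁ = 0 ∨ g₂ = 0 := by
  have hpos : ∀ ξ, ξ ⬝ᵥ x = 0 → ξ ≠ 0 → 0 < ξ ⬝ᵥ H.mulVec ξ := fun ξ hξ h0 => by
    have h1 : 0 ≤ ξ ⬝ᵥ ξ := Finset.sum_nonneg fun i _ => mul_self_nonneg _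
    have h2 : ξ ⬝ᵥ ξ ≠ 0 := fun h => h0 (dotProduct_self_eq_zero.1 h)
    have h3 := hH ξ hξ
    have h4 : 0 < ξ ⬝ᵥ ξ := lt_of_le_of_ne h1 h2.symm
    linarith
  let L : (Fin n → ℝ) →ₗ[ℝ] ℝ × ℝ :=
    { toFun := fun ξ => (ξ ⬝ᵥ x, g₁ ⬝ᵥ H.mulVec ξ)
      map_add' := fun ξ η => by simp [Matrix.mulVec_add]
      map_smul' := fun c ξ => by simp [Matrix.mulVec_smul] }
  have hker : LinearMap.ker L ≠ ⊥ := LinearMap.ker_ne_bot_of_finrank_lt (by simp; omega)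
  obtain ⟨ξ₀, hξ₀, hne⟩ := Submodule.exists_mem_ne_zero_of_ne_bot hker
  have hξ₀' : ξ₀ ⬝ᵥ x = 0 ∧ g₁ ⬝ᵥ H.mulVec ξ₀ = 0 := Prod.mk_eq_zero.1 (LinearMap.mem_ker.1 hξ₀)
  have hν : ν = 0 := by
    have h1 := h ξ₀ hξ₀'.1
    rw [hξ₀'.2, zero_mul] at h1
    exact (mul_eq_zero.1 h1.symm).resolve_right (hpos ξ₀ hξ₀'.1 hne).ne'
  by_contra hcon
  push Not at hcon
  have p1 := hpos g₁ h₁ hcon.1
  have p2 := hpos g₂ h₂ hcon.2
  have q1 := h g₁ h₁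
  have q2 := h g₂ h₂
  have q3 := h (g₁ + g₂) (by rw [add_dotProduct, h₁, h₂, add_zero])
  rw [hν, zero_mul] at q1 q2 q3
  have r1 : g₂ ⬝ᵥ H.mulVec g₁ = 0 := (mul_eq_zero.1 q1).resolve_left p1.ne'
  have r2 : g₁ ⬝ᵥ H.mulVec g₂ = 0 := (mul_eq_zero.1 q2).resolve_right p2.ne'
  rw [Matrix.mulVec_add, dotProduct_add, dotProduct_add, r1, r2, add_zero, zero_add] at q3
  exact (mul_pos p1 p2).ne' q3

/-- the quadratic expression `r₁ (a² - b²) + 2 r₂ a b` -/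
def pddQ (r₁ r₂ : ℝ) (a b : W n) : W n :=
  r₁ • mulW a a + (-r₁) • mulW b b + (2 * r₂) • mulW a b

theorem pddQ_apply (r₁ r₂ : ℝ) (a b : W n) (x : E n) :
    pddQ r₁ r₂ a b x = r₁ * (a x ^ 2 - b x ^ 2) + r₂ * (2 * a x * b x) := by
  simp only [pddQ, W.add_apply, W.smul_apply, mulW_apply]; ring

theorem pdd_gv_smul (c : ℝ) (u : W n) (x : Sp n) : gv (c • u) x = c • gv u x := by
  funext i; simp [gv]

theorem pddQ_gv (r₁ r₂ : ℝ) (a b : W n) (x : Sp n) (η : Fin n → ℝ) :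
    gv (pddQ r₁ r₂ a b) x ⬝ᵥ η = 2 * (r₁ * (a x * (gv a x ⬝ᵥ η) - b x * (gv b x ⬝ᵥ η)) +
      r₂ * (a x * (gv b x ⬝ᵥ η) + b x * (gv a x ⬝ᵥ η))) := by
  have : gv (pddQ r₁ r₂ a b) x = (2 * (r₁ * a x + r₂ * b x)) • gv a x +
      (2 * (r₂ * a x - r₁ * b x)) • gv b x := by
    funext i
    simp only [gv, pddQ, map_add, map_smul, grad_mulW, ContinuousMap.add_apply,
      ContinuousMap.smul_apply, ContinuousMap.mul_apply, res_apply, smul_eq_mul, Pi.add_apply,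
      Pi.smul_apply]
    ring
  rw [this, add_dotProduct, smul_dotProduct, smul_dotProduct, smul_eq_mul, smul_eq_mul]
  ring

theorem pdd_res_mulW (a b : W n) : res (mulW a b) = res a * res b := rfl

theorem pddQ_integ (r₁ r₂ : ℝ) {a b : W n} (n₁ : ‖a‖ = 1) (n₂ : ‖b‖ = 1) (o : ⟪a, b⟫ = 0) :
    integ n (res (pddQ r₁ r₂ a b)) = 0 := by
  simp only [pddQ, map_add, map_smul, pdd_res_mulW, ← inner_W, real_inner_self_eq_norm_sq, n₁, n₂,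
    o, smul_eq_mul]
  ring

theorem pdd_zero_of_const {Q : W n} {C : ℝ} (h : ∀ x : Sp n, Q x = C) (hi : integ n (res Q) = 0) :
    Q = 0 := by
  have : res Q * res Q = C • res Q := by
    ext x; simp [h x]
  rw [← inner_self_eq_zero (𝕜 := ℝ), inner_W, this, map_smul, hi, smul_zero]

theorem pdd_final (hn : 2 ≤ n) {r₁ r₂ : ℝ} (hr : r₁ ≠ 0 ∨ r₂ ≠ 0) {a b : W n} (ha : Ana a)
    (hb : Ana b) (n₁ : ‖a‖ = 1) (n₂ : ‖b‖ = 1) (o : ⟪a, b⟫ = 0) {O : Set (Sp n)} (hO : IsOpen O)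
    (hne : O.Nonempty) (h0 : ∀ x ∈ O, gv (pddQ r₁ r₂ a b) x = 0) : False := by
  have hq : Ana1 (pddQ r₁ r₂ a b) :=
    (((ha.mul ha).smul _).add ((hb.mul hb).smul _)).add ((ha.mul hb).smul _)
  obtain ⟨c, hc⟩ := hq.const_of_grad hn hO hne h0
  have hz : pddQ r₁ r₂ a b = 0 :=
    pdd_zero_of_const (C := c) (fun x => by rw [hc]; simp) (pddQ_integ r₁ r₂ n₁ n₂ o)
  have hv : ∀ x : Sp n, r₁ * (a x ^ 2 - b x ^ 2) + r₂ * (2 * a x * b x) = 0 := fun x => by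
    rw [← pddQ_apply, hz]; rfl
  by_cases h1 : r₁ = 0
  · have h2 : r₂ ≠ 0 := hr.resolve_left fun h => h h1
    have : ∀ x : Sp n, a x * b x = 0 := fun x => by
      have := hv x
      rw [h1, zero_mul, zero_add] at this
      have h3 := (mul_eq_zero.1 this).resolve_left h2
      linarith
    rcases ha.mul_eq_zero hn hb this with h | h
    · rw [h, norm_zero] at n₁; exact zero_ne_one n₁
    · rw [h, norm_zero] at n₂; exact zero_ne_one n₂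
  · set R := √(r₁ ^ 2 + r₂ ^ 2) with hR
    have hR2 : R ^ 2 = r₁ ^ 2 + r₂ ^ 2 := Real.sq_sqrt (by positivity)
    have key : ∀ k : ℝ, r₁ • a + k • b ≠ 0 := fun k hk => by
      have := congrArg (fun u => ⟪a, u⟫) hk
      simp only [inner_add_right, real_inner_smul_right, o, real_inner_self_eq_norm_sq, n₁,
        inner_zero_right] at this
      exact h1 (by linarith)
    have : ∀ x : Sp n, (r₁ • a + (r₂ - R) • b : W n) x * (r₁ • a + (r₂ + R) • b : W n) x = 0 :=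
      fun x => by
        simp only [W.add_apply, W.smul_apply]
        linear_combination r₁ * hv x - b x ^ 2 * hR2
    rcases ((ha.smul _).add (hb.smul _)).mul_eq_zero hn ((ha.smul _).add (hb.smul _)) this with h | h
    · exact key _ h
    · exact key _ h

/-- consequences of one linear relation between the splittings of two pairs -/
theorem pdd_rel (hn : n = 3 ∨ 6 ≤ n) {ε : ℝ} (h : Good n ε) {b : BB n} (hb : ‖b‖ < ε) {s s' : ℝ}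
    {φ₁ φ₂ ψ₁ ψ₂ : W n} (h₁ : φ₁ ∈ eigsp (aB b) s) (h₂ : φ₂ ∈ eigsp (aB b) s)
    (h₃ : ψ₁ ∈ eigsp (aB b) s') (h₄ : ψ₂ ∈ eigsp (aB b) s') (n₁ : ‖φ₁‖ = 1) (n₂ : ‖φ₂‖ = 1)
    (o : ⟪φ₁, φ₂⟫ = 0) (n₃ : ‖ψ₁‖ = 1) (n₄ : ‖ψ₂‖ = 1) (o' : ⟪ψ₁, ψ₂⟫ = 0) (e₁ e₂ k₁ k₂ : ℝ)
    (hrel : ∀ v, e₁ * (daB b v ψ₁ ψ₁ - daB b v ψ₂ ψ₂) + e₂ * (2 * daB b v ψ₁ ψ₂) =
      k₁ * (daB b v φ₁ φ₁ - daB b v φ₂ φ₂) + k₂ * (2 * daB b v φ₁ φ₂)) :
    s' • pddQ e₁ e₂ ψ₁ ψ₂ = s • pddQ k₁ k₂ φ₁ φ₂ ∧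
    ∀ x : Sp n, ∃ μ : ℝ, ∀ ξ η : Fin n → ℝ, ξ ⬝ᵥ (fun i => (x : E n) i) = 0 →
      η = ((HX (iota b)).at x).mulVec ξ →
      e₁ * ((gv ψ₁ x ⬝ᵥ η) ^ 2 - (gv ψ₂ x ⬝ᵥ η) ^ 2) + e₂ * (2 * (gv ψ₁ x ⬝ᵥ η) * (gv ψ₂ x ⬝ᵥ η)) =
        k₁ * ((gv φ₁ x ⬝ᵥ η) ^ 2 - (gv φ₂ x ⬝ᵥ η) ^ 2) +
          k₂ * (2 * (gv φ₁ x ⬝ᵥ η) * (gv φ₂ x ⬝ᵥ η)) + μ * (ξ ⬝ᵥ η) := by
  have hn2 : 2 ≤ n := by omega
  let c : Fin 6 → ℝ := ![e₁, -e₁, 2 * e₂, -k₁, k₁, -(2 * k₂)]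
  let lam : Fin 6 → ℝ := ![s', s', s', s, s, s]
  let u : Fin 6 → W n := ![ψ₁, ψ₂, ψ₁, φ₁, φ₂, φ₁]
  let w : Fin 6 → W n := ![ψ₁, ψ₂, ψ₂, φ₁, φ₂, φ₂]
  have h0 : ∀ v, ∑ a, c a * daB b v (u a) (w a) = 0 := fun v => by
    simp only [Fin.sum_univ_six, c, u, w, Matrix.cons_val]
    linear_combination hrel v
  have hA := ann hn2 h hb c u w h0
  constructor
  · have hu : ∀ a, u a ∈ eigsp (aB b) (lam a) := fun a => by
      fin_cases a <;> assumption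
    have hw : ∀ a, w a ∈ eigsp (aB b) (lam a) := fun a => by
      fin_cases a <;> assumption
    obtain ⟨C, hC⟩ := stress hn2 h hb c lam u w hu hw fun x => by
      obtain ⟨μ, hμ⟩ := hA x
      refine ⟨μ, hμ, ?_⟩
      rcases hn with hn | hn
      · exact Or.inl hn
      · right
        let z : Fin 4 → Fin n → ℝ := ![gv φ₁ x, gv φ₂ x, gv ψ₁ x, gv ψ₂ x]
        have z0 : gv φ₁ x ∈ Submodule.span ℝ (range z) := Submodule.subset_span ⟨0, rfl⟩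
        have z1 : gv φ₂ x ∈ Submodule.span ℝ (range z) := Submodule.subset_span ⟨1, rfl⟩
        have z2 : gv ψ₁ x ∈ Submodule.span ℝ (range z) := Submodule.subset_span ⟨2, rfl⟩
        have z3 : gv ψ₂ x ∈ Submodule.span ℝ (range z) := Submodule.subset_span ⟨3, rfl⟩
        refine hμ.zero (k := 4) (by omega) z fun a => ?_
        fin_cases a <;> constructor <;> assumption
    rw [← sub_eq_zero]
    refine pdd_zero_of_const (C := C) (fun x => ?_) ?_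
    · rw [← hC x]
      simp only [Fin.sum_univ_six, c, u, w, lam, Matrix.cons_val, W.sub_apply, W.smul_apply,
        pddQ_apply]
      ring
    · rw [map_sub, map_sub, map_smul, map_smul, map_smul, map_smul, pddQ_integ _ _ n₁ n₂ o,
        pddQ_integ _ _ n₃ n₄ o']
      simp
  · intro x
    obtain ⟨μ, hμ⟩ := hA x
    refine ⟨μ / 2, fun ξ η hξ hη => ?_⟩
    have := hμ ξ η
    rw [← hη, dotProduct_comm (fun i => (x : E n) i) ξ, hξ] at this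
    simp only [Fin.sum_univ_six, c, u, w, Matrix.cons_val] at this
    linear_combination this / 2

/-- Suppose not.  Write `A(v) = N₁₁-N₂₂`, `B(v) = 2N₁₂` (`N = daB b v` on `φ`), `A', B'` for `ψ`.  Linear algebra: `(A',B') = 𝐑 (A,B)` for a real-linear
`𝐑 : ℂ → ℂ`, onto by `HypP.surj` for `ψ`, hence invertible.  `ann` for the two relations (terms `ψ₁ψ₁, ψ₂ψ₂, φ₁φ₁, φ₂φ₂, φ₁φ₂` and `ψ₁ψ₂, …`),
`AnnEq.zero` (`k = 4`) if `n ≠ 3`, and `stress` give, with `z = φ₁+iφ₂`, `y = ψ₁+iψ₂`, `ρ = s/s' ≠ 1` (constants vanish by orthonormality):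
`y² = ρ 𝐑(z²)`, so `y y_η = ρ 𝐑(z z_η)` for tangent `η`; and taking `ξ` tangent with `Hξ = η` in `AnnEq`: `y_η² = 𝐑(z_η²) + μ h(η)`, `μ ∈ ℂ`,
`h(η) = ξ·η > 0` for `η ≠ 0`.  With `𝐑 w = αw + γ w̄`, `ℓ = 𝐑(z z_η)`, `m = Im(z̄ z_η)`: `𝐑(z²)𝐑(z_η²) = ℓ² - 4αγ m²`, so
`(ρ-1)ℓ² + 4αγ m² = μ 𝐑(z²) h(η)`.  Let `κ² = 4αγ/(ρ-1)`, `k = κ` (or `1` if `κ = 0`), `ℓ/k = α₁(η) + iβ₁(η)` with real linear forms: imaginary parts give
`2α₁β₁ = ν h`; a nonzero tangent `η ∈ ker α₁` (`n-1 ≥ 2`) gives `ν = 0`, so at each point `α₁ ≡ 0` or `β₁ ≡ 0`.  But `α₁, β₁` are half the gradients of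
`q₁ = Re(𝐑(z²)/k)`, `q₂ = Im(𝐑(z²)/k)`, each of the form `r₁(φ₁²-φ₂²) + 2r₂φ₁φ₂` with `(r₁,r₂) ≠ 0` (invertibility).  The two closed sets `{∇qᵢ = 0}` cover the
sphere, so one has interior (the complement of one is open and inside the other); `Ana1.const_of_grad`; the constant is `0` (integrate), and
`qᵢ` = a nonzero multiple of the product of two nonzero combinations of `φ₁,φ₂`; `Ana.mul_eq_zero`. -/
theorem hypDD (hn : n = 3 ∨ 6 ≤ n) {ε : ℝ} (h : Good n ε) (hF : Fam (aB : BB n → BF (W n)) daB ε) :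
    HypDD (aB : BB n → BF (W n)) daB ε := by
  intro b hb s s' hss φ₁ h₁ φ₂ h₂ ψ₁ h₃ ψ₂ h₄ n₁ n₂ o n₃ n₄ o'
  have hn2 : 2 ≤ n := by omega
  have hn3 : 3 ≤ n := by omega
  by_contra hcon
  push Not at hcon
  have hP := hypP hn h
  have hs : 0 < s := pos_of_pair hn2 h hb h₁ h₂ n₁ n₂ o
  have hs' : 0 < s' := pos_of_pair hn2 h hb h₃ h₄ n₃ n₄ o'
  obtain ⟨v₁, hv₁⟩ := hP.surj hF hb h₁ h₂ n₁ n₂ o (0, -1)
  obtain ⟨v₂, hv₂⟩ := hP.surj hF hb h₁ h₂ n₁ n₂ o (1 / 2, 0)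
  obtain ⟨w₁, hw₁⟩ := hP.surj hF hb h₃ h₄ n₃ n₄ o' (0, -1)
  obtain ⟨w₂, hw₂⟩ := hP.surj hF hb h₃ h₄ n₃ n₄ o' (1 / 2, 0)
  rw [Prod.mk.injEq] at hv₁ hv₂ hw₁ hw₂
  set p := daB b v₁ ψ₁ ψ₁ - daB b v₁ ψ₂ ψ₂ with hp
  set q := daB b v₂ ψ₁ ψ₁ - daB b v₂ ψ₂ ψ₂ with hq
  set r := 2 * daB b v₁ ψ₁ ψ₂ with hr
  set t := 2 * daB b v₂ ψ₁ ψ₂ with ht
  have hlin : ∀ v, daB b v ψ₁ ψ₁ - daB b v ψ₂ ψ₂ =
        p * (daB b v φ₁ φ₁ - daB b v φ₂ φ₂) + q * (2 * daB b v φ₁ φ₂) ∧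
      2 * daB b v ψ₁ ψ₂ = r * (daB b v φ₁ φ₁ - daB b v φ₂ φ₂) + t * (2 * daB b v φ₁ φ₂) := by
    intro v
    set A := daB b v φ₁ φ₁ - daB b v φ₂ φ₂ with hA
    set B := 2 * daB b v φ₁ φ₂ with hB
    have := hcon (v - A • v₁ - B • v₂)
      (by
        simp only [map_sub, map_smul, LinearMap.sub_apply, LinearMap.smul_apply, smul_eq_mul]
        linear_combination (-A) * hv₁.1 - B * hv₂.1 - hB / 2)
      (by
        simp only [map_sub, map_smul, LinearMap.sub_apply, LinearMap.smul_apply, smul_eq_mul]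
        linear_combination A * hv₁.2 + B * hv₂.2 - hA)
    simp only [map_sub, map_smul, LinearMap.sub_apply, LinearMap.smul_apply, smul_eq_mul] at this
    constructor
    · linear_combination this.2 - A * hp - B * hq
    · linear_combination 2 * this.1 - A * hr - B * ht
  have hdet : ∀ i j : ℝ, i * p + j * r = 0 → i * q + j * t = 0 → i = 0 ∧ j = 0 := by
    intro i j e1 e2
    obtain ⟨a1, a2⟩ := hlin w₁
    obtain ⟨a3, a4⟩ := hlin w₂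
    constructor
    · linear_combination (daB b w₁ φ₁ φ₁ - daB b w₁ φ₂ φ₂) * e1 + (2 * daB b w₁ φ₁ φ₂) * e2 +
        i * a1 + j * a2 + i * hw₁.2 - 2 * j * hw₁.1
    · linear_combination (daB b w₂ φ₁ φ₁ - daB b w₂ φ₂ φ₂) * e1 + (2 * daB b w₂ φ₁ φ₂) * e2 +
        i * a3 + j * a4 + i * hw₂.2 - 2 * j * hw₂.1
  obtain ⟨S1, G1⟩ := pdd_rel hn h hb h₁ h₂ h₃ h₄ n₁ n₂ o n₃ n₄ o' 1 0 p q fun v => by
    linear_combination (hlin v).1
  obtain ⟨S2, G2⟩ := pdd_rel hn h hb h₁ h₂ h₃ h₄ n₁ n₂ o n₃ n₄ o' 0 1 r t fun v => by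
    linear_combination (hlin v).2
  obtain ⟨j1, j2, hj, halg⟩ := pdd_alg p q r t (s / s') (div_pos hs hs').ne'
    (fun h1 => hss ((div_eq_one_iff_eq hs'.ne').1 h1))
  have hcover : ∀ x : Sp n, gv (pddQ (j1 * p - j2 * r) (j1 * q - j2 * t) φ₁ φ₂) x = 0 ∨
      gv (pddQ (j1 * r + j2 * p) (j1 * t + j2 * q) φ₁ φ₂) x = 0 := by
    intro x
    obtain ⟨μ1, hμ1⟩ := G1 x
    obtain ⟨μ2, hμ2⟩ := G2 x
    obtain ⟨ν, hν⟩ := halg (φ₁ x) (φ₂ x) (ψ₁ x) (ψ₂ x) μ1 μ2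
    refine pdd_point hn3 ((HX (iota b)).at x) (fun i => (x : E n) i) _ _ (4 * ν)
      (fun ξ hξ => (HX_coer hn2 h hb x ξ hξ).1) (grad_tang _ x) (grad_tang _ x) fun ξ hξ => ?_
    set η := ((HX (iota b)).at x).mulVec ξ with hη
    have v1 := congrArg (fun u : W n => u x) S1
    have v2 := congrArg (fun u : W n => u x) S2
    have g1 := congrArg (fun u : W n => gv u x ⬝ᵥ η) S1
    have g2 := congrArg (fun u : W n => gv u x ⬝ᵥ η) S2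
    simp only [W.smul_apply, pddQ_apply] at v1 v2
    simp only [pdd_gv_smul, smul_dotProduct, smul_eq_mul, pddQ_gv] at g1 g2
    have hs0 : s' ≠ 0 := hs'.ne'
    have := hν (gv φ₁ x ⬝ᵥ η) (gv φ₂ x ⬝ᵥ η) (gv ψ₁ x ⬝ᵥ η) (gv ψ₂ x ⬝ᵥ η) (ξ ⬝ᵥ η)
      (by field_simp; linear_combination v1) (by field_simp; linear_combination v2)
      (by field_simp; linear_combination g1 / 2) (by field_simp; linear_combination g2 / 2)
      (by linear_combination hμ1 ξ η hξ hη) (by linear_combination hμ2 ξ η hξ hη)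
    rw [pddQ_gv, pddQ_gv]
    linear_combination 4 * this
  have a₁ := eig_ana hn2 h hb h₁
  have a₂ := eig_ana hn2 h hb h₂
  have r1 : j1 * p - j2 * r ≠ 0 ∨ j1 * q - j2 * t ≠ 0 := by
    by_contra hc
    push Not at hc
    obtain ⟨e1, e2⟩ := hdet j1 (-j2) (by linear_combination hc.1) (by linear_combination hc.2)
    rcases hj with hj | hj
    · exact hj e1
    · exact hj (by linarith)
  have r2 : j1 * r + j2 * p ≠ 0 ∨ j1 * t + j2 * q ≠ 0 := by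
    by_contra hc
    push Not at hc
    obtain ⟨e1, e2⟩ := hdet j2 j1 (by linear_combination hc.1) (by linear_combination hc.2)
    rcases hj with hj | hj
    · exact hj e2
    · exact hj e1
  by_cases hO : {x : Sp n | gv (pddQ (j1 * p - j2 * r) (j1 * q - j2 * t) φ₁ φ₂) x ≠ 0}.Nonempty
  · refine pdd_final hn2 r2 a₁ a₂ n₁ n₂ o ?_ hO fun x hx => (hcover x).resolve_left hx
    exact isOpen_ne_fun (continuous_pi fun i => (grad i _).continuous) continuous_const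
  · have hne : (univ : Set (Sp n)).Nonempty :=
      ⟨⟨EuclideanSpace.single ⟨0, by omega⟩ 1, by simp⟩, trivial⟩
    refine pdd_final hn2 r1 a₁ a₂ n₁ n₂ o isOpen_univ hne fun x _ => ?_
    by_contra hx
    exact hO ⟨x, hx⟩

end Crest.Agent.R202
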