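import Crest.Agent.R202.Forms1
import Crest.Agent.R202.Sph4
import Crest.Agent.R202.Gen6

/-! # Row 202, Start: starting points for every gap above a fixed level -/

set_option autoImplicit false
open scoped ContDiff RealInnerProductSpace
open Set Filter Topology MeasureTheory Crest.GeometryTopology.CoordMetric

noncomputable section
namespace Crest.Agent.R202

variable {n : ℕ}

/-- an isotropic vector -/
def start_nu (i j : Fin n) : Fin n → ℂ := fun a => if a = i then Complex.I else if a = j then 1 else 0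

theorem start_nu_sq {i j : Fin n} (h : i ≠ j) : ∑ a, start_nu i j a ^ 2 = 0 := by
  have : ∀ a, start_nu i j a ^ 2 = (if a = i then -1 else 0) + if a = j then 1 else 0 := by
    intro a
    unfold start_nu
    by_cases h1 : a = i
    · subst h1; simp [h]
    · by_cases h2 : a = j
      · subst h2; simp [h1]
      · simp [h1, h2]
  simp [this, Finset.sum_add_distrib]

theorem start_act_toW (g : E n ≃ₗᵢ[ℝ] E n) (p : MvPolynomial (Fin n) ℝ) (x : Sp n) :
    act g (toW p) x = MvPolynomial.eval (fun a => g x a) p :=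
  toW_apply_sphere p (sphMap g x)

theorem start_Lij_toW (i j : Fin n) (p : MvPolynomial (Fin n) ℝ) :
    Lij i j (toW p) = toW (MvPolynomial.X i * MvPolynomial.pderiv j p -
      MvPolynomial.X j * MvPolynomial.pderiv i p) := by
  unfold Lij
  rw [Lv_gen_toW]
  congr 1
  simp [sub_mul, Finset.sum_sub_distrib, apply_ite (MvPolynomial.C (σ := Fin n) (R := ℝ)),
    ite_mul]

/-- real and imaginary part of `(x_i + i x_j) ^ k` -/
def start_cs (i j : Fin n) : ℕ → MvPolynomial (Fin n) ℝ × MvPolynomial (Fin n) ℝ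
  | 0 => (1, 0)
  | k + 1 => (MvPolynomial.X i * (start_cs i j k).1 - MvPolynomial.X j * (start_cs i j k).2,
      MvPolynomial.X j * (start_cs i j k).1 + MvPolynomial.X i * (start_cs i j k).2)

theorem start_cs_hom (i j : Fin n) (k : ℕ) :
    (start_cs i j k).1.IsHomogeneous k ∧ (start_cs i j k).2.IsHomogeneous k := by
  induction k with
  | zero => exact ⟨MvPolynomial.isHomogeneous_one _ _, MvPolynomial.isHomogeneous_zero _ _ _⟩
  | succ k ih =>
    rw [start_cs, add_comm k 1]
    exact ⟨((MvPolynomial.isHomogeneous_X ℝ i).mul ih.1).sub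
        ((MvPolynomial.isHomogeneous_X ℝ j).mul ih.2),
      ((MvPolynomial.isHomogeneous_X ℝ j).mul ih.1).add
        ((MvPolynomial.isHomogeneous_X ℝ i).mul ih.2)⟩

theorem start_cs_eval {i j : Fin n} (y : Fin n → ℝ) (hi : y i = 1) (hj : y j = 0) (k : ℕ) :
    MvPolynomial.eval y (start_cs i j k).1 = 1 ∧ MvPolynomial.eval y (start_cs i j k).2 = 0 := by
  induction k with
  | zero => simp [start_cs]
  | succ k ih => simp [start_cs, ih.1, ih.2, hi, hj]

theorem start_cs_D {i j : Fin n} (h : i ≠ j) (k : ℕ) :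
    MvPolynomial.X i * MvPolynomial.pderiv j (start_cs i j k).1 -
        MvPolynomial.X j * MvPolynomial.pderiv i (start_cs i j k).1 =
      -(k : MvPolynomial (Fin n) ℝ) * (start_cs i j k).2 ∧
    MvPolynomial.X i * MvPolynomial.pderiv j (start_cs i j k).2 -
        MvPolynomial.X j * MvPolynomial.pderiv i (start_cs i j k).2 =
      (k : MvPolynomial (Fin n) ℝ) * (start_cs i j k).1 := by
  induction k with
  | zero => simp [start_cs]
  | succ k ih =>
    obtain ⟨h1, h2⟩ := ih
    simp only [start_cs, map_sub, map_add, Derivation.leibniz, smul_eq_mul,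
      MvPolynomial.pderiv_X_self, MvPolynomial.pderiv_X_of_ne h,
      MvPolynomial.pderiv_X_of_ne h.symm, Nat.cast_succ]
    constructor
    · linear_combination MvPolynomial.X i * h1 - MvPolynomial.X j * h2
    · linear_combination MvPolynomial.X j * h1 + MvPolynomial.X i * h2

/-- in-level gaps: `z = 0`; `lev l (toW (X 1 ^ l))` is even and `lev l (toW (X 0 * X 1 ^ (l-1)))` is odd under `x₀ ↦ -x₀`, both nonzero (`lev_ne_zero` with
`ν = (i,1,0,…)`, `lev_act`); here `l = levOf n p ≥ 1` because `nl n 1 = 1`. -/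
theorem start_in (hn : 3 ≤ n) {ε : ℝ} (h : Good n ε) {p : ℕ} (hp : 1 ≤ p)
    (hl : levOf n (p - 1) = levOf n p) :
    Start (aB : BB n → BF (W n)) ε (act (refl ⟨0, by omega⟩)) (reflB ⟨0, by omega⟩) p 0 := by
  have hn2 : 2 ≤ n := by omega
  set i : Fin n := ⟨0, by omega⟩
  set j : Fin n := ⟨1, by omega⟩
  have hij : i ≠ j := by simp [i, j, Fin.ext_iff]
  obtain ⟨l, hlp⟩ : ∃ l, levOf n p = l + 1 := by
    refine Nat.exists_eq_succ_of_ne_zero fun h0 => ?_
    have := ((levOf_spec hn2 p 0).1 h0).2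
    rw [zero_add, nl_one (by omega)] at this
    omega
  refine ⟨by simpa using h.1, map_zero _, ?_, ?_, ?_⟩
  · rw [aB_zero, round_lamv hn2, round_lamv hn2, hl]
  · rw [aB_zero, round_lamv hn2, hlp]
    refine ⟨lev (l + 1) (toW (MvPolynomial.X j ^ (l + 1))), Lev_le_eigsp _ (lev_mem _ _),
      lev_ne_zero (by omega) (MvPolynomial.isHomogeneous_X_pow j (l + 1)) (start_nu i j)
        (start_nu_sq hij) (by simp [start_nu, hij.symm]), ?_⟩
    rw [← lev_act]
    congr 1
    refine W.eq_of_sphere fun x => ?_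
    rw [start_act_toW, toW_apply_sphere]
    simp [refl_apply, hij.symm]
  · rw [aB_zero, round_lamv hn2, hlp]
    have hh : (MvPolynomial.X i * MvPolynomial.X j ^ l : MvPolynomial (Fin n) ℝ).IsHomogeneous
        (l + 1) := by
      rw [add_comm]
      exact (MvPolynomial.isHomogeneous_X ℝ i).mul (MvPolynomial.isHomogeneous_X_pow j l)
    refine ⟨lev (l + 1) (toW (MvPolynomial.X i * MvPolynomial.X j ^ l)),
      Lev_le_eigsp _ (lev_mem _ _),
      lev_ne_zero (by omega) hh (start_nu i j) (start_nu_sq hij)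
        (by simp [start_nu, hij.symm]), ?_⟩
    rw [← lev_act, ← map_neg]
    congr 1
    refine W.eq_of_sphere fun x => ?_
    rw [start_act_toW, W.neg_apply, toW_apply_sphere]
    simp [refl_apply, hij.symm]

/-- a weight vector: `c₀ = 1, s₀ = 0`, `c_{k+1} = x₀c_k - x₁s_k`, `s_{k+1} = x₁c_k + x₀s_k` as polynomials of degree `≤ k`; `L c_k = -k s_k`, `L s_k = k c_k`, `c_k(e₀) = 1`. -/
theorem exists_weight (hn : 3 ≤ n) (w : ℕ) : ∃ c ∈ Plt n (w + 1), c ≠ 0 ∧
    Lij ⟨0, by omega⟩ ⟨1, by omega⟩ (Lij ⟨0, by omega⟩ ⟨1, by omega⟩ c) = -((w : ℝ) ^ 2) • c := by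
  set i : Fin n := ⟨0, by omega⟩
  set j : Fin n := ⟨1, by omega⟩
  have hij : i ≠ j := by simp [i, j, Fin.ext_iff]
  refine ⟨toW (start_cs i j w).1, Hom_le_Plt (Nat.lt_succ_self w)
    ⟨_, (start_cs_hom i j w).1, rfl⟩, fun h0 => ?_, ?_⟩
  · have h1 := toW_apply_sphere (start_cs i j w).1 ⟨EuclideanSpace.single i 1, by simp⟩
    rw [h0, (start_cs_eval _ (by simp) (by simp [hij.symm]) w).1] at h1
    simp at h1
  · have e : ∀ q : MvPolynomial (Fin n) ℝ, (w : MvPolynomial (Fin n) ℝ) * q = (w : ℝ) • q := by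
      intro q
      rw [← nsmul_eq_mul, Nat.cast_smul_eq_nsmul]
    rw [start_Lij_toW, (start_cs_D hij w).1, neg_mul, e, map_neg, map_smul, map_neg, map_smul,
      start_Lij_toW, (start_cs_D hij w).2, e, map_smul, smul_smul, neg_smul, sq]

/-- the components of the rotation field as polynomials -/
def start_xi (i j a : Fin n) : MvPolynomial (Fin n) ℝ :=
  (if a = j then MvPolynomial.X i else 0) - if a = i then MvPolynomial.X j else 0

theorem start_xi_eval (i j a : Fin n) (y : Fin n → ℝ) : MvPolynomial.eval y (start_xi i j a) =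
    (if a = j then y i else 0) - if a = i then y j else 0 := by
  unfold start_xi
  split_ifs <;> simp

theorem start_gen (i j a : Fin n) (x : E n) :
    gen (EuclideanSpace.single i 1) (EuclideanSpace.single j 1) x a =
      (if a = j then x i else 0) - if a = i then x j else 0 := by
  simp [EuclideanSpace.inner_single_left]

/-- the tensor `(Ξ x)(Ξ x)ᵀ` -/
def start_v (i j : Fin n) : BB n :=
  BB.mk (fun a b => toW (start_xi i j a * start_xi i j b)) (fun _ _ => ⟨_, rfl⟩)
    (fun a b => by rw [mul_comm])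
    (fun a x => by
      by_cases hx : x = 0
      · simp [hx]
      · simp only [toW_apply_of_ne _ hx, map_mul, mul_assoc, ← Finset.mul_sum]
        refine mul_eq_zero_of_right _ ?_
        simp [start_xi_eval, sub_mul, Finset.sum_sub_distrib]
        ring)

theorem start_v_apply (i j a b : Fin n) (x : Sp n) : (start_v i j).e a b x =
    gen (EuclideanSpace.single i 1) (EuclideanSpace.single j 1) x a *
      gen (EuclideanSpace.single i 1) (EuclideanSpace.single j 1) x b := by
  rw [start_gen, start_gen, start_v, BB.mk_e, toW_apply_sphere, map_mul, start_xi_eval,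
    start_xi_eval]

theorem start_v_refl {i j : Fin n} (h : i ≠ j) : reflB i (start_v i j) = start_v i j := by
  refine BB.ext fun a b => W.eq_of_sphere fun x => ?_
  have e : ∀ a, gen (EuclideanSpace.single i 1) (EuclideanSpace.single j 1) (refl i x) a =
      -(sg i a) * gen (EuclideanSpace.single i 1) (EuclideanSpace.single j 1) x a := by
    intro a
    rw [start_gen, start_gen, refl_apply, refl_apply, sg]
    by_cases h1 : a = i
    · subst h1; simp [h, h.symm]
    · simp [h1]
  have e2 : ∀ a, sg i a * sg i a = 1 := by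
    intro a
    unfold sg
    split_ifs <;> norm_num
  change (sg i a * sg i b) * (start_v i j).e a b (sphMap (refl i) x) = _
  rw [start_v_apply, start_v_apply, sphMap_coe, e, e]
  linear_combination (sg i b * sg i b * gen (EuclideanSpace.single i 1) (EuclideanSpace.single j 1) x a *
      gen (EuclideanSpace.single i 1) (EuclideanSpace.single j 1) x b) * e2 a +
    (gen (EuclideanSpace.single i 1) (EuclideanSpace.single j 1) x a *
      gen (EuclideanSpace.single i 1) (EuclideanSpace.single j 1) x b) * e2 b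

theorem start_gen_rot (π : Plane n) (s : ℝ) (x : E n) :
    π.gen (rot π s x) = rot π s (π.gen x) := by
  have h1 : ⟪π.e, π.e⟫ = 1 := by rw [real_inner_self_eq_norm_sq, π.he]; norm_num
  have h2 : ⟪π.e', π.e'⟫ = 1 := by rw [real_inner_self_eq_norm_sq, π.he']; norm_num
  have h3 := π.orth
  have h4 : ⟪π.e', π.e⟫ = 0 := by rw [real_inner_comm]; exact h3
  rw [rot_apply, rot_apply, map_add, map_add, map_smul, map_smul]
  congr 3
  simp only [Plane.gen, gen_apply, inner_add_right, inner_sub_right, real_inner_smul_right,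
    h1, h2, h3, h4]
  module

theorem start_ent (g : E n ≃ₗᵢ[ℝ] E n) (y : E n) (a : Fin n) : ∑ k, ent g k a * g y k = y a := by
  have h := g.inner_map_map (EuclideanSpace.single a 1) y
  rw [EuclideanSpace.inner_single_left, PiLp.inner_apply] at h
  simp only [conj_trivial, one_mul, RCLike.inner_apply] at h
  rw [← h]
  exact Finset.sum_congr rfl fun k _ => mul_comm _ _

theorem start_v_rot {i j : Fin n} (h : i ≠ j) (s : ℝ) :
    actX (rot (Plane.coord i j h) s) (iota (start_v i j)) = iota (start_v i j) := by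
  funext a b
  ext x
  rw [actX_apply, iota_apply, start_v_apply]
  have e : gen (EuclideanSpace.single i 1) (EuclideanSpace.single j 1)
      (rot (Plane.coord i j h) s x) = rot (Plane.coord i j h) s
        (gen (EuclideanSpace.single i 1) (EuclideanSpace.single j 1) x) :=
    start_gen_rot (Plane.coord i j h) s x
  have e2 : ∀ k l, iota (start_v i j) k l (sphMap (rot (Plane.coord i j h) s) x) =
      rot (Plane.coord i j h) s (gen (EuclideanSpace.single i 1) (EuclideanSpace.single j 1) x) k *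
      rot (Plane.coord i j h) s (gen (EuclideanSpace.single i 1) (EuclideanSpace.single j 1) x) l :=
    fun k l => by rw [iota_apply, start_v_apply, sphMap_coe, e]
  simp only [e2]
  rw [← start_ent (rot (Plane.coord i j h) s) _ a, ← start_ent (rot (Plane.coord i j h) s) _ b,
    Finset.sum_mul_sum]
  exact Finset.sum_congr rfl fun k _ => Finset.sum_congr rfl fun l _ => by ring

theorem start_pt (hn : 3 ≤ n) {i j : Fin n} (h : i ≠ j) {τ : ℝ} (h0 : 0 ≤ τ) (h1 : τ ≤ 1 / 2)
    (u : W n) (x : Sp n) : ∃ w0 : ℝ, 1 ≤ w0 ∧ √(1 - τ) * w0 ≤ 1 ∧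
      0 ≤ (∑ a, grad a u * grad a u) x - τ * (Lij i j u x * Lij i j u x) ∧
      (∑ a, ∑ b, HX (iota ((-τ) • start_v i j)) a b * (grad a u * grad b u)) x =
        w0 * ((∑ a, grad a u * grad a u) x - τ * (Lij i j u x * Lij i j u x)) := by
  set ξ : Fin n → ℝ := fun a => gen (EuclideanSpace.single i 1) (EuclideanSpace.single j 1) x a
    with hξ
  have hβ : ∀ a b, iota ((-τ) • start_v i j) a b x = -τ * ξ a * ξ b := by
    intro a b
    rw [iota_apply, BB.e_smul, W.smul_apply, start_v_apply, mul_assoc]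
  have hr : ∑ a, ξ a * ξ a = (x : E n) i ^ 2 + (x : E n) j ^ 2 := by
    have : ∀ a, ξ a * ξ a = (if a = j then (x : E n) i ^ 2 else 0) +
        if a = i then (x : E n) j ^ 2 else 0 := by
      intro a
      rw [hξ]
      simp only [start_gen]
      by_cases h1 : a = i
      · subst h1; simp [h, sq]
      · by_cases h2 : a = j
        · subst h2; simp [h1, sq]
        · simp [h1, h2]
    simp [this, Finset.sum_add_distrib]
  have hr1 : (x : E n) i ^ 2 + (x : E n) j ^ 2 ≤ 1 := by
    have e1 : ∑ a, (x : E n) a ^ 2 = 1 := by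
      rw [← EuclideanSpace.real_norm_sq_eq, Sp.norm_eq, one_pow]
    rw [← e1, ← Finset.sum_pair (f := fun a => (x : E n) a ^ 2) h]
    exact Finset.sum_le_sum_of_subset_of_nonneg (Finset.subset_univ _) fun _ _ _ => sq_nonneg _
  set d : ℝ := 1 - τ * ((x : E n) i ^ 2 + (x : E n) j ^ 2) with hd
  have hdet : (1 + (iota ((-τ) • start_v i j)).at x).det = d := by
    have e : (iota ((-τ) • start_v i j)).at x =
        Matrix.replicateCol Unit (fun a => -τ * ξ a) * Matrix.replicateRow Unit ξ := by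
      rw [← Matrix.vecMulVec_eq]
      ext a b
      rw [X.at, Matrix.of_apply, hβ, Matrix.vecMulVec_apply]
    rw [e, Matrix.det_one_add_replicateCol_mul_replicateRow, hd, ← hr, dotProduct,
      Finset.mul_sum, sub_eq_add_neg, ← Finset.sum_neg_distrib]
    congr 1
    exact Finset.sum_congr rfl fun a _ => by ring
  have hd1 : d ≤ 1 := by
    have : 0 ≤ τ * ((x : E n) i ^ 2 + (x : E n) j ^ 2) := by positivity
    linarith
  have hd2 : 1 - τ ≤ d := by nlinarith
  have hd0 : 0 < d := by linarith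
  have hn' : (2 : ℝ) ≤ (n : ℝ) - 1 := by
    have : (3 : ℝ) ≤ n := by exact_mod_cast hn
    linarith
  have hom : om ((iota ((-τ) • start_v i j)).at x) = d ^ (-(1 / ((n : ℝ) - 1))) := by
    rw [om, hdet, max_eq_left (by linarith)]
  have hL : Lij i j u x = ∑ a, grad a u x * ξ a := Lv_sphere _ u x
  refine ⟨d ^ (-(1 / ((n : ℝ) - 1))), ?_, ?_, ?_, ?_⟩
  · exact Real.one_le_rpow_of_pos_of_le_one_of_nonpos hd0 hd1
      (neg_nonpos.2 (by positivity))
  · have e1 : d ^ (-(1 / ((n : ℝ) - 1))) ≤ d ^ (-(1 / 2 : ℝ)) :=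
      Real.rpow_le_rpow_of_exponent_ge hd0 hd1
        (neg_le_neg (one_div_le_one_div_of_le (by norm_num) hn'))
    have e2 : √d * d ^ (-(1 / 2 : ℝ)) = 1 := by
      rw [Real.sqrt_eq_rpow, ← Real.rpow_add hd0]
      simp
    exact (mul_le_mul (Real.sqrt_le_sqrt hd2) e1 (by positivity) (Real.sqrt_nonneg _)).trans e2.le
  · have e1 := (Plane.coord i j h).L_sq_le u x
    rw [← Lij_eq i j h] at e1
    simp only [ContinuousMap.sum_apply, ContinuousMap.mul_apply]
    simp only [← sq]
    nlinarith [sq_nonneg (Lij i j u x)]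
  · simp only [ContinuousMap.sum_apply, ContinuousMap.mul_apply, HX_apply, hom, hβ]
    have ht := grad_tang u x
    have e1 : ∀ a b, d ^ (-(1 / ((n : ℝ) - 1))) * (PiX n a b x + -τ * ξ a * ξ b) *
        (grad a u x * grad b u x) = d ^ (-(1 / ((n : ℝ) - 1))) *
          ((if a = b then grad a u x * grad b u x else 0) -
            (grad a u x * (x : E n) a) * (grad b u x * (x : E n) b) -
            τ * ((grad a u x * ξ a) * (grad b u x * ξ b))) := by
      intro a b
      have : PiX n a b x = (if a = b then 1 else 0) - (x : E n) a * (x : E n) b := rfl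
      rw [this]
      split_ifs <;> ring
    simp only [e1, ← Finset.mul_sum, Finset.sum_sub_distrib, Finset.sum_ite_eq, Finset.mem_univ,
      if_true, ← Finset.sum_mul, ht, hL, mul_zero, sub_zero]

theorem start_form_le (hn : 2 ≤ n) {l : ℕ} {u : W n} (hu : u ∈ Plt n (l + 1)) :
    form (PiX n) u u ≤ ev n l * ‖u‖ ^ 2 := by
  rw [← gr_sq, gr_sq_Plt hu, norm_sq_eq_sum_lev hu, Finset.mul_sum]
  refine Finset.sum_le_sum fun k hk => mul_le_mul_of_nonneg_right
    ((ev_strictMono hn).monotone (Nat.lt_succ_iff.1 (Finset.mem_range.1 hk))) (sq_nonneg _)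

theorem start_norm_L {i j : Fin n} {u : W n} {w0 : ℝ} (h : Lij i j (Lij i j u) = -(w0 ^ 2) • u) :
    ‖Lij i j u‖ ^ 2 = w0 ^ 2 * ‖u‖ ^ 2 := by
  rw [← real_inner_self_eq_norm_sq, Lij_skew, h, real_inner_smul_right, real_inner_self_eq_norm_sq]
  ring

/-- the squashing tensor `v_R = -(Ξx̂)(Ξx̂)ᵀ`, `Ξ = gen e₀ e₁`.  For `0 ≤ τ ≤ 3/4`, `det(1 + τ v_R) = 1 - τ|Ξx|² ∈ [1/4… ,1]` (`Matrix.det_one_add_replicateCol_mul_replicateRow`), so
when `‖τ v_R‖ < ε` (truncation inactive) `1 ≤ om ≤ (1-τ)^{-1/2}` and `H(∇u,∇u) = om · (|∇u|² - τ (Lu)²)`.  Invariance under `rot` gives the commutation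
(`comm_orbit` with `K₁ = 0`, `HX_actX`). -/
theorem exists_squash (hn : 3 ≤ n) {ε : ℝ} (h : Good n ε) : ∃ (v : BB n) (τ : ℝ), 0 < τ ∧ τ ≤ 1 / 2 ∧ ‖v‖ < ε ∧
    reflB ⟨0, by omega⟩ v = v ∧
    (∀ t ∈ Icc (0 : ℝ) 1, ∀ u w : W n, aB (t • v) (Lij ⟨0, by omega⟩ ⟨1, by omega⟩ u) w =
      -aB (t • v) u (Lij ⟨0, by omega⟩ ⟨1, by omega⟩ w)) ∧
    (∀ u : W n, Lij ⟨0, by omega⟩ ⟨1, by omega⟩ u = 0 → form (PiX n) u u ≤ aB v u u) ∧
    ∀ u : W n, √(1 - τ) * aB v u u ≤
      form (PiX n) u u - τ * ‖Lij ⟨0, by omega⟩ ⟨1, by omega⟩ u‖ ^ 2 := by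
  set i : Fin n := ⟨0, by omega⟩
  set j : Fin n := ⟨1, by omega⟩
  have hij : i ≠ j := by simp [i, j, Fin.ext_iff]
  set v : BB n := start_v i j with hv
  have hε := h.1
  set τ : ℝ := min (1 / 2) (ε / (‖v‖ + 1)) with hτ
  have hτ0 : 0 < τ := lt_min (by norm_num) (by positivity)
  have hτ1 : τ ≤ 1 / 2 := min_le_left _ _
  have hpt := fun u x => start_pt hn hij hτ0.le hτ1 u x
  refine ⟨(-τ) • v, τ, hτ0, hτ1, ?_, by rw [map_smul, hv, start_v_refl hij], ?_, ?_, ?_⟩
  · rw [norm_smul, norm_neg, Real.norm_of_nonneg hτ0.le]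
    have h1 : τ ≤ ε / (‖v‖ + 1) := min_le_right _ _
    rw [le_div_iff₀ (by positivity)] at h1
    nlinarith
  · intro t _ u w
    have h1 : HasDerivAt (fun s => actX (rot (Plane.coord i j hij) s) (HX (iota (t • (-τ) • v))))
        0 0 := by
      have : (fun s => actX (rot (Plane.coord i j hij) s) (HX (iota (t • (-τ) • v)))) =
          fun _ => HX (iota (t • (-τ) • v)) := by
        funext s
        rw [← HX_actX, map_smul, map_smul, map_smul, map_smul, hv, start_v_rot hij]
      rw [this]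
      exact hasDerivAt_const _ _
    have h2 := comm_orbit (Plane.coord i j hij) h1 u w
    have h3 : form (0 : X n) u w = 0 := by rw [← formK_apply, map_zero]
    rw [h3, add_zero] at h2
    exact eq_neg_of_add_eq_zero_left h2
  · intro u hu
    rw [form_PiX]
    refine integ_mono fun x => ?_
    obtain ⟨w0, h1, -, h3, h4⟩ := hpt u x
    rw [h4]
    rw [hu] at h3 ⊢
    simp only [W.zero_apply, mul_zero, sub_zero] at h3 ⊢
    nlinarith
  · intro u
    rw [form_PiX, ← real_inner_self_eq_norm_sq, inner_W, ← smul_eq_mul τ, ← map_smul, ← map_sub,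
      aB, form_apply, ← smul_eq_mul, ← map_smul]
    refine integ_mono fun x => ?_
    obtain ⟨w0, -, h2, h3, h4⟩ := hpt u x
    rw [ContinuousMap.smul_apply, h4]
    simp only [ContinuousMap.sub_apply, ContinuousMap.smul_apply, ContinuousMap.mul_apply,
      res_apply, smul_eq_mul]
    nlinarith [mul_le_mul_of_nonneg_right h2 h3]

/-- level boundaries `p = nl n (l+1)`, `l ≥ l₀`: `cross_level` with `L = L₀₁`, `v` from `exists_squash`, `k = lev l (toW (X 2 ^ l))` (`ν = (i,0,1,…)`), `ω = w = l+n`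
(`‖Lu‖² ≤ gr u ² ≤ ev n l ‖u‖² < ω²‖u‖²` on `Plt n (l+1) = low …`, `round_low`), `c` from `exists_weight`:
`aB v c c ≤ (ev n w - τ w²)/√(1-τ) ‖c‖² ≤ ((1-τ/2)w² + 2w(n-2))‖c‖² < ev n l ‖c‖²` for large `l`.  Other `p` are in-level (`levOf_spec`). -/
theorem start_all (hn : 3 ≤ n) {ε : ℝ} (h : Good n ε) (hF : Fam (aB : BB n → BF (W n)) daB ε) :
    ∃ p₀ : ℕ, ∀ p, p₀ < p →
      ∃ z, Start (aB : BB n → BF (W n)) ε (act (refl ⟨0, by omega⟩)) (reflB ⟨0, by omega⟩) p z := by
  have hn2 : 2 ≤ n := by omega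
  obtain ⟨v, τ, hτ0, hτ1, hv, hvs, hcomm, hK, hsq⟩ := exists_squash hn h
  set i : Fin n := ⟨0, by omega⟩ with hi
  set j : Fin n := ⟨1, by omega⟩ with hj
  have hij : i ≠ j := by simp [i, j, Fin.ext_iff]
  set σ : ℝ := √(1 - τ) with hσ
  have hσ0 : 0 < σ := Real.sqrt_pos.2 (by linarith)
  have hσ2 : σ ^ 2 = 1 - τ := Real.sq_sqrt (by linarith)
  have hσ1 : σ < 1 := by nlinarith
  have hg : 0 < σ - σ ^ 2 := by nlinarith
  obtain ⟨l₀, hl₀⟩ := exists_nat_gt ((3 * (n : ℝ) + 2 * n ^ 2) / (σ - σ ^ 2))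
  rw [div_lt_iff₀ hg] at hl₀
  refine ⟨nl n (l₀ + 1), fun p hp => ?_⟩
  have hp1 : 1 ≤ p := by omega
  by_cases hl : levOf n (p - 1) = levOf n p
  · exact ⟨0, start_in hn h hp1 hl⟩
  set l := levOf n (p - 1) with hldef
  obtain ⟨h1, h2⟩ := (levOf_spec hn2 (p - 1) l).1 rfl
  have hpe : p = nl n (l + 1) := by
    by_contra hne
    exact hl ((levOf_spec hn2 p l).2 ⟨by omega, by omega⟩).symm
  have hl1 : levOf n p = l + 1 :=
    (levOf_spec hn2 p (l + 1)).2 ⟨hpe.ge, hpe ▸ nl_strictMono hn2 (Nat.lt_succ_self _)⟩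
  have hl0 : l₀ < l := by
    have := (nl_strictMono hn2).lt_iff_lt.1 (hpe ▸ hp : nl n (l₀ + 1) < nl n (l + 1))
    omega
  have hlam1 : lamv (aB (0 : BB n)) (p - 1) = ev n l := by rw [aB_zero, round_lamv hn2]
  have hlam2 : lamv (aB (0 : BB n)) p = ev n (l + 1) := by rw [aB_zero, round_lamv hn2, hl1]
  obtain ⟨c, hcP, hc0, hc⟩ := exists_weight hn (l + n)
  have hnR : (3 : ℝ) ≤ n := by exact_mod_cast hn
  have hlR : (l₀ : ℝ) + 1 ≤ l := by exact_mod_cast hl0
  have hl0R : (0 : ℝ) ≤ l₀ := Nat.cast_nonneg _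
  let k : Fin n := ⟨2, by omega⟩
  have hik : i ≠ k := by simp [i, k, Fin.ext_iff]
  have hjk : j ≠ k := by simp [j, k, Fin.ext_iff]
  refine cross_level hF (symData i h) hp1 v hv hvs (Lij i j) (Lij_skew i j) hcomm
    (act_refl_Lij i j hij) ?_ (lev l (toW (MvPolynomial.X k ^ l))) ?_ ?_ ?_ ?_
    ((l + n : ℕ) : ℝ) (by push_cast; linarith) ?_ c hc0 hc ?_
  · unfold Gap
    rw [hlam1, hlam2]
    exact ev_strictMono hn2 (Nat.lt_succ_self l)
  · rw [hlam1, aB_zero]
    exact Lev_le_eigsp _ (lev_mem _ _)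
  · exact lev_ne_zero (by omega) (MvPolynomial.isHomogeneous_X_pow k l) (start_nu i k)
      (start_nu_sq hik) (by simp [start_nu, hik.symm])
  · have e := lev_Lv_gen (EuclideanSpace.single i 1) (EuclideanSpace.single j 1) l
      (toW (MvPolynomial.X k ^ l))
    change lev l (Lij i j _) = Lij i j _ at e
    rw [← e, start_Lij_toW]
    simp [Derivation.leibniz_pow, MvPolynomial.pderiv_X_of_ne hik.symm,
      MvPolynomial.pderiv_X_of_ne hjk.symm]
  · intro u hu
    rw [aB_zero]
    exact hK u hu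
  · intro u hu hLu
    rw [hlam2, aB_zero, round_low hn2] at hu
    have e1 := start_norm_L hLu
    have e2 := start_form_le hn2 hu
    have e3 : ‖Lij i j u‖ ^ 2 ≤ gr u ^ 2 :=
      pow_le_pow_left₀ (norm_nonneg _) ((Plane.coord i j hij).norm_L_le u) 2
    rw [gr_sq] at e3
    have e4 : ev n l < ((l + n : ℕ) : ℝ) ^ 2 := by
      unfold ev
      push_cast
      nlinarith
    by_contra hu0
    have e5 : 0 < ‖u‖ ^ 2 := by positivity
    nlinarith [mul_lt_mul_of_pos_right e4 e5]
  · rw [hlam1]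
    have e1 := start_norm_L hc
    have e2 := start_form_le hn2 hcP
    have e3 := hsq c
    have e4 : ev n (l + n) - τ * ((l + n : ℕ) : ℝ) ^ 2 < σ * ev n l := by
      unfold ev
      push_cast
      have f1 : τ = 1 - σ ^ 2 := by linarith
      have f2 : (3 * (n : ℝ) + 2 * n ^ 2) * l < (σ - σ ^ 2) * (l * l) := by
        have : 3 * (n : ℝ) + 2 * n ^ 2 < l * (σ - σ ^ 2) := by nlinarith
        nlinarith
      have f3 : σ ^ 2 * (2 * l * n + (n : ℝ) ^ 2) ≤ 2 * l * n + (n : ℝ) ^ 2 :=
        mul_le_of_le_one_left (by positivity) (by linarith)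
      have f4 : 0 ≤ σ * (l * ((n : ℝ) - 2)) := mul_nonneg hσ0.le (mul_nonneg (by linarith) (by linarith))
      have f5 : (n : ℝ) ^ 2 ≤ n ^ 2 * l := le_mul_of_one_le_right (by positivity) (by linarith)
      rw [f1]
      nlinarith
    have e5 : 0 < ‖c‖ ^ 2 := by positivity
    have e6 : σ * aB v c c < σ * (ev n l * ‖c‖ ^ 2) := by
      nlinarith [mul_lt_mul_of_pos_right e4 e5]
    exact lt_of_mul_lt_mul_left e6 hσ0.le

end Crest.Agent.R202
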