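import Crest.Agent.R202.Fam
import Crest.Agent.R202.Gen7
import Crest.Agent.R202.Num
import Crest.Agent.R202.Start
import Crest.Agent.R202.PDD
import Crest.Agent.R202.HypX
import Crest.Agent.R202.Eig

/-! # Row 202, Maina: the periodic plan and its bounds -/

set_option autoImplicit false
open scoped ContDiff RealInnerProductSpace
open Set Filter Topology MeasureTheory Crest.GeometryTopology.CoordMetric

noncomputable section
namespace Crest.Agent.R202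

variable {n : ℕ}

lemma plan_exists (hn : n = 3 ∨ 6 ≤ n) {ε : ℝ} (hε : Good n ε) : ∃ p₀ : ℕ, ∀ N, p₀ < N → ∀ η : ℝ, 0 < η →
    ∃ (P : Plan (BB n) (W n)) (K : ℕ), 1 ≤ K ∧ Cyc P.sw P.pos K N p₀ ∧ P.w K = P.w 0 ∧ P.s K = P.s 0 ∧
      (∀ m < K, P.OK aB ε N m) ∧ ∀ q, 1 ≤ q → q ≤ N → P.s 0 q ≤ ev n (levOf n (q - 1)) + η := by
  have hn3 : 3 ≤ n := by omega
  have hF := fam (by omega : 2 ≤ n) hε
  obtain ⟨p₀, hp⟩ := start_all hn3 hε hF
  refine ⟨p₀, fun N hN η hη => ?_⟩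
  obtain ⟨P, K, h1, h2, h3, h4, h5, h6⟩ := cycle hF (symData _ hε) (hypP hn hε) (hypDD hn hε hF)
    (hypX hn3 hε hF _) hN (fun p hp' _ => hp p hp') hη
  refine ⟨P, K, h1, h2, h3, h4, h5, fun q a b => ?_⟩
  have := h6 q a b
  rwa [aB_zero, round_lamv (by omega)] at this

lemma per_idx {R K : ℕ} (hK : 1 ≤ K) (m : ℕ) : m % (R + K) - R < K := by
  have := Nat.mod_lt m (show 0 < R + K by omega)
  omega

lemma plan_bounds (P : Plan (BB n) (W n)) {K : ℕ} (hK : 1 ≤ K) (N : ℕ) : ∃ S₀ Cb : ℝ, 0 ≤ S₀ ∧ ∀ R m,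
    (‖(P.per R K).w m‖ ≤ Cb ∧ ‖(P.per R K).e m‖ ≤ Cb) ∧
      ∀ q ≤ N, ‖(P.per R K).s m q‖ ≤ S₀ ∧ ‖(P.per R K).se m q‖ ≤ S₀ := by
  refine ⟨∑ j ∈ Finset.range K, ∑ q ∈ Finset.range (N + 1), (‖P.s j q‖ + ‖P.se j q‖),
    ∑ j ∈ Finset.range K, (‖P.w j‖ + ‖P.e j‖), by positivity, fun R m => ?_⟩
  have hj := Finset.mem_range.2 (per_idx (R := R) hK m)
  have h1 := Finset.single_le_sum (f := fun j => ‖P.w j‖ + ‖P.e j‖) (fun _ _ => by positivity) hj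
  refine ⟨⟨?_, ?_⟩, fun q hq => ?_⟩
  · exact le_trans (le_add_of_nonneg_right (norm_nonneg _)) h1
  · simp only [Plan.per]
    split_ifs
    · rw [norm_zero]; positivity
    · exact le_trans (le_add_of_nonneg_left (norm_nonneg _)) h1
  · have h2 := Finset.single_le_sum (f := fun j => ∑ q ∈ Finset.range (N + 1), (‖P.s j q‖ + ‖P.se j q‖))
      (fun _ _ => by positivity) hj
    have h3 := Finset.single_le_sum (f := fun q => ‖P.s (m % (R + K) - R) q‖ + ‖P.se (m % (R + K) - R) q‖)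
      (fun _ _ => by positivity) (Finset.mem_range.2 (Nat.lt_succ_of_le hq))
    refine ⟨le_trans (le_add_of_nonneg_right (norm_nonneg _)) (h3.trans h2), ?_⟩
    simp only [Plan.per]
    split_ifs
    · rw [Pi.zero_apply, norm_zero]; positivity
    · exact le_trans (le_add_of_nonneg_left (norm_nonneg _)) (h3.trans h2)

lemma per_finite (P : Plan (BB n) (W n)) {K : ℕ} (hK : 1 ≤ K) (R : ℕ) :
    (range (P.per R K).w).Finite ∧ (range (P.per R K).e).Finite := by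
  refine ⟨((finite_lt_nat K).image P.w).subset ?_, (((finite_lt_nat K).image P.e).insert 0).subset ?_⟩
  · rintro _ ⟨m, rfl⟩
    exact ⟨_, per_idx hK m, rfl⟩
  · rintro _ ⟨m, rfl⟩
    simp only [Plan.per]
    split_ifs
    · exact Or.inl rfl
    · exact Or.inr ⟨_, per_idx hK m, rfl⟩

lemma per_gal (hn : 2 ≤ n) {ε : ℝ} (hε : Good n ε) (P : Plan (BB n) (W n)) {K N R : ℕ} (hK : 1 ≤ K)
    (hOK : ∀ m, (P.per R K).OK aB ε N m) : ∃ μ > 0, ∀ᶠ M in atTop, ∀ m,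
      GalOK M N μ ((P.per R K).w m) ((P.per R K).w (m + 1)) ((P.per R K).e m) ((P.per R K).s m)
        ((P.per R K).s (m + 1)) ((P.per R K).se m) ((P.per R K).sw m) ((P.per R K).pos m)
        ((P.per R K).ψ m) := by
  choose μ hμ h using fun m => gal hn hε (hOK m)
  obtain ⟨m₀, -, hm₀⟩ := (Finset.range (R + K)).exists_min_image μ ⟨0, Finset.mem_range.2 (by omega)⟩
  refine ⟨μ m₀, hμ m₀, ?_⟩
  filter_upwards [(Finset.eventually_all (Finset.range (R + K))).2 fun m _ => h m] with M hM m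
  have hm := Finset.mem_range.2 (Nat.mod_lt m (show 0 < R + K by omega))
  have := (hM _ hm).mono (hm₀ _ hm)
  simpa only [Plan.per, extF, extSw, Nat.mod_mod, Nat.mod_add_mod] using this

lemma MoveOK.s_nonneg (hn : 2 ≤ n) {ε : ℝ} (hε : Good n ε) {N : ℕ} {w w' e : BB n} {s s' se : ℕ → ℝ}
    {sw : Prop} {p : ℕ} {ψ : ℝ → W n} (h : MoveOK (aB : BB n → BF (W n)) ε N w w' e s s' se sw p ψ)
    {x θ : ℝ} (hx : x ∈ Icc (0 : ℝ) 1) (hθ : θ ∈ Icc (-1 : ℝ) 1) {q : ℕ} (h1 : 1 ≤ q) (h2 : q ≤ N) :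
    0 ≤ pt (s q) (s' q) (se q) x θ := by
  have key : ∀ θ : ℝ, |θ| = 1 → 0 ≤ pt (s q) (s' q) (se q) x θ := fun θ hθ => by
    have hθ' : θ ∈ Icc (-1 : ℝ) 1 := abs_le.1 hθ.le
    have hq := (fam hn hε).nice _ (h.mem x hx θ hθ')
    obtain ⟨φ, hφ⟩ := hq.eigSys
    exact (hφ.nonneg hq _).trans (h.gap x hx θ hθ' q h1 h2 (Or.inr hθ)).1.le
  have a := key 1 (by simp)
  have b := key (-1) (by simp)
  have : pt (s q) (s' q) (se q) x θ =
      (1 + θ) / 2 * pt (s q) (s' q) (se q) x 1 + (1 - θ) / 2 * pt (s q) (s' q) (se q) x (-1) := by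
    simp only [pt, smul_eq_mul]; ring
  rw [this]
  have := hθ.1
  have := hθ.2
  have : 0 ≤ (1 + θ) / 2 := by linarith
  have : 0 ≤ (1 - θ) / 2 := by linarith
  positivity

lemma pt_le {a b c x θ S : ℝ} (ha : ‖a‖ ≤ S) (hb : ‖b‖ ≤ S) (hc : ‖c‖ ≤ S) (hx : x ∈ Icc (0 : ℝ) 1)
    (hθ : θ ∈ Icc (-1 : ℝ) 1) : pt a b c x θ ≤ 2 * S := by
  simp only [pt, smul_eq_mul, Real.norm_eq_abs, abs_le] at *
  obtain ⟨x0, x1⟩ := hx
  have h1 : 0 ≤ 4 * x * (1 - x) := by have := sub_nonneg.2 x1; positivity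
  have h2 : 4 * x * (1 - x) ≤ 1 := by nlinarith [sq_nonneg (2 * x - 1)]
  have h3 : |θ * (4 * x * (1 - x))| ≤ 1 := by
    rw [abs_mul, abs_of_nonneg h1]
    exact mul_le_one₀ (abs_le.2 hθ) h1 h2
  have h4 : θ * (4 * x * (1 - x)) * c ≤ S := by
    refine (le_abs_self _).trans ?_
    rw [abs_mul]
    exact (mul_le_of_le_one_left (abs_nonneg _) h3).trans (abs_le.2 hc)
  nlinarith [ha.2, hb.2]

lemma scurve_cases {A ρ : ℝ} (hA : 0 < A) (hρ : 1 < ρ) (Q : Plan (BB n) (W n)) (q : ℕ) (θ : ℕ → ℝ) (t : ℝ) :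
    ∃ m, ∃ x ∈ Icc (0 : ℝ) 1, scurve A ρ Q q θ t = pt (Q.s m q) (Q.s (m + 1) q) (Q.se m q) x (θ m) := by
  rcases le_total t A with h | h
  · exact ⟨0, 0, ⟨le_rfl, zero_le_one⟩, by rw [pt_zero, scurve, glue_pre hA hρ _ _ _ h]⟩
  · obtain ⟨m, hm⟩ := exists_tl hA hρ h
    exact ⟨m, _, prog_mem m t, glue_eq hA hρ _ _ _ m hm⟩

/-- thresholds are frozen during the rests -/
lemma scurve_rest {A ρ : ℝ} (hA : 0 < A) (hρ : 1 < ρ) (P : Plan (BB n) (W n)) {R K : ℕ} (hK : 1 ≤ K)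
    (q : ℕ) (θ : ℕ → ℝ) {m : ℕ} (hm : m % (R + K) < R) {t : ℝ} (ht : t ∈ Icc (tl A ρ m) (tl A ρ (m + 1))) :
    scurve A ρ (P.per R K) q θ t = P.s 0 q := by
  rw [scurve, glue_eq hA hρ _ _ _ m ht]
  have h1 : (m + 1) % (R + K) - R = 0 := by
    rw [← Nat.mod_add_mod, Nat.mod_eq_of_lt (by omega)]; omega
  have h2 : m % (R + K) - R = 0 := by omega
  simp [pt, Plan.per, extF, hm, h1, h2]

lemma levOf_mono (hn : 2 ≤ n) {i j : ℕ} (h : i ≤ j) : levOf n i ≤ levOf n j :=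
  num_levOf_le (h.trans_lt ((levOf_spec hn j _).1 rfl).2)

lemma ev_mono (hn : 2 ≤ n) {i j : ℕ} (h : i ≤ j) : 0 ≤ ev n i ∧ ev n i ≤ ev n j := by
  have : (2 : ℝ) ≤ n := by exact_mod_cast hn
  have : (i : ℝ) ≤ j := by exact_mod_cast h
  have : (0 : ℝ) ≤ i := Nat.cast_nonneg i
  unfold ev
  constructor <;> nlinarith

/-- the growth rate during the rests -/
def rate (n : ℕ) (Z η : ℝ) (i : ℕ) : ℝ :=
  √(Real.exp (2 * Z) * (ev n (levOf n i) + η) + (((n : ℝ) - 2) ^ 2 / 4 + η))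

lemma exists_eta {f : ℝ} (hf : 0 < f) {p₀ N k : ℕ} (hp : p₀ ≤ N)
    (h : ∑ i ∈ Finset.Ico p₀ N, alpha n f (levOf n i) < k * ((N : ℝ) - p₀)) :
    ∃ η : ℝ, 0 < η ∧ ∑ i ∈ Finset.Ico p₀ N, rate n (-Real.log f) η i <
      (k + ((n : ℝ) - 2) / 2) * ((N : ℝ) - p₀) := by
  have hc : Continuous fun η : ℝ => ∑ i ∈ Finset.Ico p₀ N, rate n (-Real.log f) η i := by
    unfold rate; fun_prop
  have h0 : ∑ i ∈ Finset.Ico p₀ N, rate n (-Real.log f) 0 i < (k + ((n : ℝ) - 2) / 2) * ((N : ℝ) - p₀) := by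
    have e : ∀ i, rate n (-Real.log f) 0 i = alpha n f (levOf n i) + ((n : ℝ) - 2) / 2 := fun i => by
      have : Real.exp (2 * -Real.log f) = 1 / f ^ 2 := by
        rw [show 2 * -Real.log f = -(Real.log f + Real.log f) by ring, Real.exp_neg, Real.exp_add,
          Real.exp_log hf, one_div, sq]
      unfold rate alpha
      rw [this, neg_add_cancel_comm]
      congr 1; ring
    simp only [e, Finset.sum_add_distrib, Finset.sum_const, Nat.card_Ico, nsmul_eq_mul, Nat.cast_sub hp]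
    linarith
  have : ∀ᶠ η in 𝓝[>] (0 : ℝ), ∑ i ∈ Finset.Ico p₀ N, rate n (-Real.log f) η i <
      (k + ((n : ℝ) - 2) / 2) * ((N : ℝ) - p₀) :=
    nhdsWithin_le_nhds ((hc.tendsto 0).eventually_lt_const h0)
  obtain ⟨η, h1, h2⟩ := (this.and self_mem_nhdsWithin).exists
  exact ⟨η, h2, h1⟩

lemma small_ev (a : ℝ) {b : ℝ} (hb : 0 < b) : ∀ᶠ τ in 𝓝[>] (0 : ℝ), a * τ ≤ b := by
  have : Tendsto (fun τ : ℝ => a * τ) (𝓝 0) (𝓝 (a * 0)) := (continuous_const.mul continuous_id).tendsto 0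
  rw [mul_zero] at this
  exact nhdsWithin_le_nhds (this.eventually_le_const hb)

lemma swap_ne (hn : 2 ≤ n) {ε : ℝ} (hε : Good n ε) {N : ℕ} {w w' e : BB n} {s s' se : ℕ → ℝ}
    {sw : Prop} {p : ℕ} {ψ : ℝ → W n} (h : MoveOK (aB : BB n → BF (W n)) ε N w w' e s s' se sw p ψ)
    (hsw : sw) : HX (iota w) ≠ HX (iota w') := by
  intro he
  have e1 : aB w' = aB w := by unfold aB; rw [he]
  have hw := h.mem 0 ⟨le_rfl, zero_le_one⟩ 0 ⟨by norm_num, by norm_num⟩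
  rw [pt_zero] at hw
  obtain ⟨φ, hφ⟩ := ((fam hn hε).nice _ hw).eigSys
  have a := h.ent hsw (φ p) (hφ.eig p) (hφ.orth.1 p)
  have b := h.ext hsw (φ p) (by rw [e1]; exact hφ.eig p) (hφ.orth.1 p)
  linarith

/-- exponential bound from the checkpoints -/
lemma bound_of_tl {A ρ κ C' : ℝ} (hA : 0 < A) (hρ : 1 < ρ) (hκ : 0 ≤ κ) (hC : 0 ≤ C') {N J : ℕ}
    {Eb : ℕ → ℕ → ℝ} (hE : ∀ k < N, Eb 0 k ≤ C' ∧ ∀ m, Eb (m + 1) k ≤ C' * Real.exp (κ * tl A ρ m))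
    {y t : ℝ} (h : ∀ m ≤ J, t ≤ tl A ρ m → y ≤ 2 * ∑ k ∈ Finset.range N, Eb m k) (ht0 : 0 ≤ t)
    (ht : t ≤ tl A ρ J) : y ≤ 2 * N * C' * Real.exp (κ * t) := by
  classical
  have hex : ∃ m, t ≤ tl A ρ m := ⟨J, ht⟩
  have h1 := h _ (Nat.find_min' hex ht) (Nat.find_spec hex)
  refine h1.trans ?_
  have : ∀ k ∈ Finset.range N, Eb (Nat.find hex) k ≤ C' * Real.exp (κ * t) := fun k hk => by
    obtain ⟨a, b⟩ := hE k (Finset.mem_range.1 hk)
    rcases hm : Nat.find hex with _ | m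
    · exact a.trans (le_mul_of_one_le_right hC (Real.one_le_exp (by positivity)))
    · have := Nat.find_min hex (show m < Nat.find hex by omega)
      refine (b m).trans (mul_le_mul_of_nonneg_left (Real.exp_le_exp.2 ?_) hC)
      exact mul_le_mul_of_nonneg_left (not_le.1 this).le hκ
  have h2 := Finset.sum_le_card_nsmul _ _ _ this
  rw [Finset.card_range, nsmul_eq_mul] at h2
  nlinarith

end Crest.Agent.R202
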