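/-!
# Row 202 (S0309, S0310): overview of the proof

Metric `g = dr² + r² f(t)² h_{b(t)}`, `t = log r`, on `ℝⁿ` (`metric l b`, `f = e^l`), where `h_b` has the round volume form and inverse
`H_b = det(1+b)^{-1/(n-1)}(Π + b)`, `b` a small symmetric tangential polynomial tensor (`BB n`).  `f` decreases from `1` to `f∞`, `ζ = -l' ~ ZT/t²`,
`‖b'‖ ≲ 1/t`, so `Ric ≥ 0` (Geo1–5).  Harmonic functions `U = ϖ ũ` solve `ũ'' = (f⁻² A_b + q) ũ` (Geo6, Harm); we solve it in the Galerkin space of polynomials
of degree `< M` with uniform Sobolev bounds (Reg) and let `M → ∞` along an ultrafilter (Lim, Harm).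
A solution following the `i`-th eigenvalue of `A_b` grows like `exp ∫ √(λᵢ/f² + q)`.  The curve `b(t)` rests near `0` most of the time and repeatedly runs through a cycle of moves
(Gen7) that passes, for `p = N-1, …, p₀+1`, close to a conical double eigenvalue `λ_{p-1} = λ_p`; a control `θ_m ∈ [-1,1]` per passage is tuned by Poincaré–Miranda (Flags) so that
the `p`-th solution is handed exactly to the position `p-1`.  The `N` solutions then all grow at the average rate (Sched).
Cone/growth estimates come from an energy-type Lyapunov form (Dyn1–3, Tokens).  Existence of the conical points and connectivity of the simple-spectrum set (Gen1–7) follow from three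
hypotheses (P), (DD), (X) proved with a stress identity and unique continuation (Forms2, Ucp, PDD, HypX), and from a symmetric deformation closing the gaps between levels (Gen6, Start).

Dependencies: Defs, GDefs → Sph1 → Sph2 → Sph3, Sph4; Forms1 → Forms2, Ucp → PDD, HypX; Gen1 → Gen2 → Gen3,4,5 → Gen7; Gen6 → Start; Lim; Flow; Reg; Eig → Gal;
Dyn1, Dyn2 → Dyn3; Flags; Tokens; Sched; Geo1 → Geo2, Geo3 → Geo4 → Geo5, Geo6; Time, KB, Harm; Inst, Main, Num.
Every file may use the statements of the files it imports (even while they are still `sorry`).
-/
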