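import Crest.Agent.R202.Sph3
import Crest.Agent.R202.Flow

/-! # Row 202, Reg: uniform Sobolev estimates for the Galerkin equation -/

set_option autoImplicit false
open scoped ContDiff RealInnerProductSpace
open Set Filter Topology MeasureTheory Crest.GeometryTopology.CoordMetric

noncomputable section
namespace Crest.Agent.R202

variable {n : ℕ}

theorem rega_mvt {f f' : ℝ → ℝ} (h : ∀ x, HasDerivAt f (f' x) x) {a b : ℝ} (hab : a < b) :
    ∃ ξ, a < ξ ∧ ξ < b ∧ f b - f a = f' ξ * (b - a) := by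
  obtain ⟨ξ, hξ, he⟩ := exists_hasDerivAt_eq_slope f f' hab
    (fun x _ => (h x).continuousAt.continuousWithinAt) (fun x _ => h x)
  refine ⟨ξ, hξ.1, hξ.2, ?_⟩
  rw [he, div_mul_cancel₀ _ (sub_pos.2 hab).ne']

theorem rega_mono {f f' : ℝ → ℝ} (h : ∀ x, HasDerivAt f (f' x) x) (h0 : ∀ x, 0 ≤ f' x) {a b : ℝ}
    (hab : a ≤ b) : f a ≤ f b :=
  monotone_of_hasDerivAt_nonneg h (fun x => h0 x) hab

/-- integrate `c g ≤ u'' + h` -/
theorem rega_Q {u u' u'' g k h H : ℝ → ℝ} {c : ℝ} (hc : 0 < c)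
    (hu : ∀ x, HasDerivAt u (u' x) x) (hu' : ∀ x, HasDerivAt u' (u'' x) x)
    (hk : ∀ x, HasDerivAt k (g x) x) (hH : ∀ x, HasDerivAt H (h x) x)
    (u0 : ∀ x, 0 ≤ u x) (g0 : ∀ x, 0 ≤ g x) (h0 : ∀ x, 0 ≤ h x)
    (hd : ∀ x, c * g x - h x ≤ u'' x) (t : ℝ) :
    c * (k (t + 1) - k t) ≤ u (t + 2) + u (t - 1) + (H (t + 2) - H (t - 1)) := by
  obtain ⟨t₁, a1, a2, e1⟩ := rega_mvt hu (show t - 1 < t by linarith)
  obtain ⟨t₂, b1, b2, e2⟩ := rega_mvt hu (show t + 1 < t + 2 by linarith)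
  have hW : ∀ x, HasDerivAt (fun x => u' x + H x - c * k x) (u'' x + h x - c * g x) x :=
    fun x => ((hu' x).add (hH x)).sub ((hk x).const_mul c)
  have m1 := rega_mono hW (fun x => by linarith [hd x]) (show t₁ ≤ t₂ by linarith)
  have m2 := rega_mono hk g0 a2.le
  have m3 := rega_mono hk g0 b1.le
  have m4 := rega_mono hH h0 a1.le
  have m5 := rega_mono hH h0 b2.le
  have e1' : u' t₁ = u t - u (t - 1) := by rw [e1]; ring
  have e2' : u' t₂ = u (t + 2) - u (t + 1) := by rw [e2]; ring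
  have m6 : c * (k (t + 1) - k t) ≤ c * (k t₂ - k t₁) :=
    mul_le_mul_of_nonneg_left (by linarith) hc.le
  have := u0 t
  have := u0 (t + 1)
  linarith

/-- pointwise bound from `u ≤ g` and `u'' ≥ -h` -/
theorem rega_P {u u' u'' g k h H : ℝ → ℝ}
    (hu : ∀ x, HasDerivAt u (u' x) x) (hu' : ∀ x, HasDerivAt u' (u'' x) x)
    (hk : ∀ x, HasDerivAt k (g x) x) (hH : ∀ x, HasDerivAt H (h x) x)
    (g0 : ∀ x, 0 ≤ g x) (h0 : ∀ x, 0 ≤ h x) (hug : ∀ x, u x ≤ g x)
    (hd : ∀ x, - h x ≤ u'' x) (t : ℝ) :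
    u t ≤ (k (t + 1) - k t) + (k t - k (t - 1)) + (H (t + 1) - H (t - 1)) := by
  have hW : ∀ x, HasDerivAt (fun x => u' x + H x) (u'' x + h x) x :=
    fun x => (hu' x).add (hH x)
  have hW0 : ∀ x, 0 ≤ u'' x + h x := fun x => by linarith [hd x]
  have k1 := rega_mono hk g0 (show t ≤ t + 1 by linarith)
  have k2 := rega_mono hk g0 (show t - 1 ≤ t by linarith)
  have H1 := rega_mono hH h0 (show t ≤ t + 1 by linarith)
  have H2 := rega_mono hH h0 (show t - 1 ≤ t by linarith)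
  rcases le_total 0 (u' t) with hp | hp
  · obtain ⟨ξ, a1, a2, e1⟩ := rega_mvt hk (show t < t + 1 by linarith)
    obtain ⟨η, b1, b2, e2⟩ := rega_mvt hu a1
    have m1 := rega_mono hW hW0 b1.le
    have m2 := rega_mono hH h0 (show η ≤ t + 1 by linarith)
    have h1 : -(H (t + 1) - H (t - 1)) ≤ u' η := by linarith
    have h2 : -(H (t + 1) - H (t - 1)) * (ξ - t) ≤ u' η * (ξ - t) :=
      mul_le_mul_of_nonneg_right h1 (by linarith)
    have h3 : (H (t + 1) - H (t - 1)) * (ξ - t) ≤ (H (t + 1) - H (t - 1)) * 1 :=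
      mul_le_mul_of_nonneg_left (by linarith) (by linarith)
    have h4 := hug ξ
    have e1' : g ξ = k (t + 1) - k t := by rw [e1]; ring
    linarith
  · obtain ⟨ξ, a1, a2, e1⟩ := rega_mvt hk (show t - 1 < t by linarith)
    obtain ⟨η, b1, b2, e2⟩ := rega_mvt hu a2
    have m1 := rega_mono hW hW0 b2.le
    have m2 := rega_mono hH h0 (show t - 1 ≤ η by linarith)
    have h1 : u' η ≤ H (t + 1) - H (t - 1) := by linarith
    have h2 : u' η * (t - ξ) ≤ (H (t + 1) - H (t - 1)) * (t - ξ) :=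
      mul_le_mul_of_nonneg_right h1 (by linarith)
    have h3 : (H (t + 1) - H (t - 1)) * (t - ξ) ≤ (H (t + 1) - H (t - 1)) * 1 :=
      mul_le_mul_of_nonneg_left (by linarith) (by linarith)
    have h4 := hug ξ
    have e1' : g ξ = k t - k (t - 1) := by rw [e1]; ring
    linarith

theorem rega_ind (c E C₀ : ℝ) (A : ℕ → ℝ) (hc : 0 < c) (hE : 0 ≤ E) (Φ : ℝ → ℝ) (hΦ : ∀ t, 0 ≤ Φ t)
    (hΦE : ∀ s t, s ≤ t + 1 + 1 → Φ s ≤ E * Φ t) (j : ℕ) : ∃ C : ℝ, 0 ≤ C ∧
    ∀ (T : ℝ) (F F' F'' G K : ℕ → ℝ → ℝ),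
      (∀ i t, HasDerivAt (F i) (F' i t) t ∧ HasDerivAt (F' i) (F'' i t) t) →
      (∀ i t, HasDerivAt (K i) (G i t) t) → (∀ i t, 0 ≤ F i t ∧ 0 ≤ G i t) →
      (∀ i t, c * G i t - A i * ∑ i' ∈ Finset.range i, G i' t ≤ F'' i t) →
      (∀ i t, F (i + 1) t ≤ G i t) → (∀ t ≤ T, F 0 t ≤ C₀ * Φ t) →
      (∀ t ≤ T - 3 * j, F j t ≤ C * Φ t) ∧
        ∀ i < j, ∀ t ≤ T - 3 * j + 1, K i (t + 1) - K i t ≤ C * Φ t := by
  induction j with
  | zero =>
    refine ⟨|C₀|, abs_nonneg _, fun T F F' F'' G K _ _ _ _ _ h0 => ⟨fun t ht => ?_, fun i hi => absurd hi (Nat.not_lt_zero _)⟩⟩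
    exact (h0 t (by simpa using ht)).trans (mul_le_mul_of_nonneg_right (le_abs_self _) (hΦ t))
  | succ j ih =>
    obtain ⟨C, hC, ih⟩ := ih
    obtain ⟨C₁, hC₁⟩ : ∃ C₁ : ℝ, C₁ = C + (2 * (C * E) + |A j| * (j * (3 * (C * E)))) / c := ⟨_, rfl⟩
    have hq : 0 ≤ (2 * (C * E) + |A j| * (j * (3 * (C * E)))) / c := by positivity
    have hC₁0 : 0 ≤ C₁ := by rw [hC₁]; positivity
    have hCC₁ : C ≤ C₁ := by rw [hC₁]; linarith
    refine ⟨C₁ + 2 * (C₁ * E) + |A (j + 1)| * ((j + 1 : ℕ) * (2 * (C₁ * E))), by positivity,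
      fun T F F' F'' G K hF hK h0 hd hFG hF0 => ?_⟩
    obtain ⟨ihF, ihK⟩ := ih T F F' F'' G K hF hK h0 hd hFG hF0
    have hsum : ∀ m x, HasDerivAt (fun x => |A m| * ∑ i ∈ Finset.range m, K i x)
        (|A m| * ∑ i ∈ Finset.range m, G i x) x := fun m x =>
      (HasDerivAt.fun_sum (fun i _ => hK i x)).const_mul _
    have hs0 : ∀ m x, 0 ≤ ∑ i ∈ Finset.range m, G i x := fun m x =>
      Finset.sum_nonneg fun i _ => (h0 i x).2
    have hs0' : ∀ m x, 0 ≤ |A m| * ∑ i ∈ Finset.range m, G i x := fun m x =>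
      mul_nonneg (abs_nonneg _) (hs0 m x)
    have hd' : ∀ m x, c * G m x - |A m| * ∑ i ∈ Finset.range m, G i x ≤ F'' m x := fun m x => by
      have := mul_le_mul_of_nonneg_right (le_abs_self (A m)) (hs0 m x)
      linarith [hd m x]
    have hCE : ∀ (D : ℝ), 0 ≤ D → ∀ s t, s ≤ t + 1 + 1 → D * Φ s ≤ D * E * Φ t := fun D hD s t h => by
      rw [mul_assoc]; exact mul_le_mul_of_nonneg_left (hΦE s t h) hD
    have hQ : ∀ i < j + 1, ∀ t ≤ T - 3 * j - 2, K i (t + 1) - K i t ≤ C₁ * Φ t := by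
      intro i hi t ht
      rcases Nat.lt_succ_iff_lt_or_eq.1 hi with hi | rfl
      · exact (ihK i hi t (by linarith)).trans (mul_le_mul_of_nonneg_right hCC₁ (hΦ t))
      · have h1 := rega_Q hc (fun x => (hF i x).1) (fun x => (hF i x).2) (hK i) (hsum i)
          (fun x => (h0 i x).1) (fun x => (h0 i x).2) (hs0' i) (hd' i) t
        have h2 : F i (t + 2) ≤ C * E * Φ t :=
          (ihF (t + 2) (by linarith)).trans (hCE C hC _ _ (by linarith))
        have h3 : F i (t - 1) ≤ C * E * Φ t :=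
          (ihF (t - 1) (by linarith)).trans (hCE C hC _ _ (by linarith))
        have h4 : ∑ i' ∈ Finset.range i, K i' (t + 2) - ∑ i' ∈ Finset.range i, K i' (t - 1)
            ≤ i * (3 * (C * E) * Φ t) := by
          rw [← Finset.sum_sub_distrib]
          refine (Finset.sum_le_card_nsmul _ _ (3 * (C * E) * Φ t) fun i' hi' => ?_).trans
            (by simp)
          have hi'' := Finset.mem_range.1 hi'
          have a1 := (ihK i' hi'' (t - 1) (by linarith)).trans (hCE C hC _ t (by linarith))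
          have a2 := (ihK i' hi'' t (by linarith)).trans (hCE C hC _ t (by linarith))
          have a3 := (ihK i' hi'' (t + 1) (by linarith)).trans (hCE C hC _ t (by linarith))
          rw [show t - 1 + 1 = t by ring] at a1
          rw [show t + 1 + 1 = t + 2 by ring] at a3
          linarith
        have h5 := mul_le_mul_of_nonneg_left h4 (abs_nonneg (A i))
        have h6 : K i (t + 1) - K i t ≤ (2 * (C * E) + |A i| * (i * (3 * (C * E)))) / c * Φ t := by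
          rw [div_mul_eq_mul_div, le_div_iff₀ hc]
          nlinarith
        have h7 := mul_nonneg hC (hΦ t)
        rw [hC₁]; linarith
    have hx : 0 ≤ 2 * (C₁ * E) := by positivity
    have hy : 0 ≤ |A (j + 1)| * ((j + 1 : ℕ) * (2 * (C₁ * E))) := by positivity
    refine ⟨fun t ht => ?_, fun i hi t ht => ?_⟩
    · push_cast at ht
      have h1 := rega_P (fun x => (hF (j + 1) x).1) (fun x => (hF (j + 1) x).2) (hK j) (hsum (j + 1))
        (fun x => (h0 j x).2) (hs0' (j + 1)) (hFG j)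
        (fun x => by
          have := mul_nonneg hc.le (h0 (j + 1) x).2
          linarith [hd' (j + 1) x]) t
      have hQ2 : ∀ i < j + 1, K i (t + 1) - K i t ≤ C₁ * E * Φ t ∧ K i t - K i (t - 1) ≤ C₁ * E * Φ t := by
        intro i hi
        have a1 := (hQ i hi (t - 1) (by linarith)).trans (hCE C₁ hC₁0 _ t (by linarith))
        have a2 := (hQ i hi t (by linarith)).trans (hCE C₁ hC₁0 _ t (by linarith))
        rw [show t - 1 + 1 = t by ring] at a1
        exact ⟨a2, a1⟩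
      have h4 : ∑ i' ∈ Finset.range (j + 1), K i' (t + 1) - ∑ i' ∈ Finset.range (j + 1), K i' (t - 1)
          ≤ (j + 1 : ℕ) * (2 * (C₁ * E) * Φ t) := by
        rw [← Finset.sum_sub_distrib]
        refine (Finset.sum_le_card_nsmul _ _ (2 * (C₁ * E) * Φ t) fun i' hi' => ?_).trans
          (by simp)
        have := hQ2 i' (Finset.mem_range.1 hi')
        linarith [this.1, this.2]
      have h5 := mul_le_mul_of_nonneg_left h4 (abs_nonneg (A (j + 1)))
      have h6 := hQ2 j (Nat.lt_succ_self j)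
      have h7 := mul_nonneg hC₁0 (hΦ t)
      nlinarith [h6.1, h6.2]
    · push_cast at ht
      refine (hQ i hi t (by linarith)).trans (mul_le_mul_of_nonneg_right (by linarith) (hΦ t))

/-- **scalar lemma.**  Claim(j): `F j t ≤ C Φ t` and `∫_t^{t+1} G j ≤ C Φ t` for `t ≤ T - 3j - 3`, `Φ t = exp(κ max t 0)`.  Mean value theorem: `t₁ ∈ [t-1,t]` with
`F j' t₁ ≥ -F j (t-1)`, `t₂ ∈ [t+1,t+2]` with `F j' t₂ ≤ F j (t+2)`; integrate the differential inequality over `[t₁,t₂]`.  Next `F (j+1)` has points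
`s₁ ∈ [t-1,t]`, `s₂ ∈ [t,t+1]` with value `≤ ∫ G j`, and `F (j+1)'' ≥ -h`, `h = A (j+1) Σ_{i ≤ j} G i`, gives `F (j+1) t ≤ max + 2∫_{s₁}^{s₂} h`. -/
theorem scalar_reg (c κ C₀ : ℝ) (A : ℕ → ℝ) (hc : 0 < c) (hκ : 0 ≤ κ) (j : ℕ) : ∃ C : ℝ,
    ∀ (T : ℝ) (F F' F'' G : ℕ → ℝ → ℝ),
      (∀ i t, HasDerivAt (F i) (F' i t) t ∧ HasDerivAt (F' i) (F'' i t) t) →
      (∀ i, Continuous (F'' i) ∧ Continuous (G i)) → (∀ i t, 0 ≤ F i t ∧ 0 ≤ G i t) →
      (∀ i t, c * G i t - A i * ∑ i' ∈ Finset.range i, G i' t ≤ F'' i t) →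
      (∀ i t, F (i + 1) t ≤ G i t) → (∀ t ≤ T, F 0 t ≤ C₀ * Real.exp (κ * max t 0)) →
      ∀ t ≤ T - 3 * j, F j t ≤ C * Real.exp (κ * max t 0) := by
  obtain ⟨C, -, hC⟩ := rega_ind c (Real.exp (κ * 2)) C₀ A hc (Real.exp_pos _).le
    (fun t => Real.exp (κ * max t 0)) (fun t => (Real.exp_pos _).le)
    (fun s t h => by
      rw [← Real.exp_add, ← mul_add]
      refine Real.exp_le_exp.2 (mul_le_mul_of_nonneg_left ?_ hκ)
      refine max_le (by linarith [le_max_left t 0]) (by linarith [le_max_right t 0])) j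
  refine ⟨C, fun T F F' F'' G hF hcont h0 hd hFG hF0 => ?_⟩
  exact (hC T F F' F'' G (fun i x => ∫ s in (0:ℝ)..x, G i s) hF
    (fun i t => intervalIntegral.integral_hasDerivAt_right ((hcont i).2.intervalIntegrable _ _)
        ((hcont i).2.stronglyMeasurableAtFilter _ _) (hcont i).2.continuousAt)
    h0 hd hFG hF0).1

end Crest.Agent.R202
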