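import Crest.Agent.R202.Sph3
import Crest.Agent.R202.Flow
import Crest.Agent.R202.Rega

/-! # Row 202, Reg (auxiliary): rotation derivatives of Galerkin solutions -/

set_option autoImplicit false
open scoped ContDiff RealInnerProductSpace
open Set Filter Topology MeasureTheory

noncomputable section
namespace Crest.Agent.R202

variable {n : ℕ}

/-- the rotation field of a plane on the Galerkin space -/
def regL (π : Plane n) (M : ℕ) : PM n M →L[ℝ] PM n M :=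
  LinearMap.toContinuousLinearMap
    { toFun := fun x => PM.mk (π.L (incl M x)) (Lv_gen_Plt _ _ (incl_mem x))
      map_add' := fun x y => (incl M).injective (by simp)
      map_smul' := fun c x => (incl M).injective (by simp) }

theorem incl_regL (π : Plane n) (M : ℕ) (x : PM n M) : incl M (regL π M x) = π.L (incl M x) := rfl

theorem incl_regL_pow (π : Plane n) (M k : ℕ) (x : PM n M) :
    incl M ((regL π M ^ k) x) = (π.L ^ k) (incl M x) := by
  induction k with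
  | zero => rfl
  | succ k ih => rw [pow_succ', pow_succ', mul_apply_eq_comp, incl_regL, ih]; rfl

theorem reg_skew (π : Plane n) (k : ℕ) (u w : W n) :
    ⟪(π.L ^ k) u, w⟫ = (-1) ^ k * ⟪u, (π.L ^ k) w⟫ := by
  induction k generalizing w with
  | zero => simp
  | succ k ih =>
    rw [pow_succ' π.L, Module.End.mul_apply, π.L_skew, ih, ← Module.End.mul_apply, ← pow_succ,
      ← pow_succ']
    ring

theorem reg_gr_nonneg (u : W n) : 0 ≤ gr u := Real.sqrt_nonneg _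

/-- the elliptic estimate for `⟪L^k u, L^k A u⟫` -/
theorem reg_ell (π : Plane n) {M k : ℕ} {K : X n} {c D : ℝ} (hc : 0 < c)
    (hK : OrbSmooth K) (hco : ∀ w, c * form (PiX n) w w ≤ form K w w)
    (hD : ∀ i ≤ k, (k.choose i : ℝ) * (n * ‖orbD π i K‖) ≤ D) (x : PM n M) :
    c * gr ((π.L ^ k) (incl M x)) ^ 2 -
      D ^ 2 * k / c * ∑ i ∈ Finset.range k, gr ((π.L ^ i) (incl M x)) ^ 2 ≤
      2 * ⟪(regL π M ^ k) (opA M K x), (regL π M ^ k) x⟫ := by
  have e : ⟪(regL π M ^ k) (opA M K x), (regL π M ^ k) x⟫ = ∑ i ∈ Finset.range (k + 1),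
      (k.choose i : ℝ) * form (orbD π i K) ((π.L ^ (k - i)) (incl M x)) ((π.L ^ k) (incl M x)) := by
    rw [← (incl M).inner_map_map, incl_regL_pow, reg_skew, ← incl_regL_pow, (incl M).inner_map_map,
      inner_opA, incl_regL_pow, incl_regL_pow, comm_iter π (hK π), ← mul_assoc, ← mul_pow]
    simp
  rw [e, Finset.sum_range_succ', ← Finset.sum_range_reflect _ k]
  simp only [Nat.choose_zero_right, Nat.cast_one, one_mul, orbD_zero, Nat.sub_zero]
  have h0 := hco ((π.L ^ k) (incl M x))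
  rw [← gr_sq] at h0
  obtain ⟨g, hg⟩ : ∃ g, g = gr ((π.L ^ k) (incl M x)) := ⟨_, rfl⟩
  have h1 : ∑ i ∈ Finset.range k,
      -(c / k * g ^ 2 + D ^ 2 * k / c * gr ((π.L ^ (k - 1 - i)) (incl M x)) ^ 2) ≤
      ∑ i ∈ Finset.range k, 2 * ((k.choose (i + 1) : ℝ) *
        form (orbD π (i + 1) K) ((π.L ^ (k - (i + 1))) (incl M x)) ((π.L ^ k) (incl M x))) := by
    refine Finset.sum_le_sum fun i hi => ?_
    have hik := Finset.mem_range.1 hi
    have hk : (0 : ℝ) < k := Nat.cast_pos.2 (by omega)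
    rw [show k - 1 - i = k - (i + 1) by omega]
    obtain ⟨g', hg'⟩ : ∃ g', g' = gr ((π.L ^ (k - (i + 1))) (incl M x)) := ⟨_, rfl⟩
    have h2 := form_le (orbD π (i + 1) K) ((π.L ^ (k - (i + 1))) (incl M x)) ((π.L ^ k) (incl M x))
    rw [← hg, ← hg'] at h2
    have h3 := mul_le_mul_of_nonneg_left (neg_le_of_abs_le h2) (Nat.cast_nonneg (k.choose (i + 1)))
    have h4 := mul_le_mul_of_nonneg_right (hD (i + 1) hik)
      (mul_nonneg (hg' ▸ reg_gr_nonneg _ : 0 ≤ g') (hg ▸ reg_gr_nonneg _ : 0 ≤ g))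
    have h5 : 2 * (D * (g' * g)) ≤ c / k * g ^ 2 + D ^ 2 * k / c * g' ^ 2 := by
      have h6 : c / k * g ^ 2 + D ^ 2 * k / c * g' ^ 2 - 2 * (D * (g' * g)) =
          (c * g - D * k * g') ^ 2 / (c * k) := by field_simp; ring
      have h7 : 0 ≤ (c * g - D * k * g') ^ 2 / (c * k) := by positivity
      linarith
    rw [← hg']
    linarith
  rw [Finset.sum_neg_distrib, Finset.sum_add_distrib, ← Finset.mul_sum, ← Finset.mul_sum,
    ← Finset.mul_sum, Finset.sum_const, Finset.card_range, nsmul_eq_mul] at h1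
  have h2 : c / k * (k * g ^ 2) ≤ c * g ^ 2 := by
    rw [← mul_assoc]
    gcongr
    rcases eq_or_ne (k : ℝ) 0 with hk | hk
    · simpa [hk] using hc.le
    · exact (div_mul_cancel₀ c hk).le
  rw [← hg] at h0 ⊢
  linarith

/-- bounds for `‖L^k u‖` -/
theorem reg_pow (K : ℕ → ℝ → X n) (q : ℝ → ℝ) (c κ C₀ : ℝ) (hc : 0 < c) (hκ : 0 ≤ κ)
    (hq : ContDiff ℝ ∞ q) (hq0 : ∀ t, 0 ≤ q t) (hK : ∀ M, ContDiff ℝ ∞ (K M))
    (hco : ∀ M t w, c * form (PiX n) w w ≤ form (K M t) w w)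
    (h1 : ∀ M t, OrbSmooth (K M t)) (π : Plane n)
    (h2 : ∀ j : ℕ, ∃ C : ℝ, ∀ M t, ‖orbD π j (K M t)‖ ≤ C)
    (u u' : ∀ M, ℝ → PM n M) (T : ℕ → ℝ)
    (hu : ∀ M, Sol (fun t => opA M (K M t) + q t • (1 : PM n M →L[ℝ] PM n M)) (u M) (u' M))
    (hb : ∀ M, ∀ t ≤ T M, ‖u M t‖ ≤ C₀ * Real.exp (κ * max t 0)) (k : ℕ) :
    ∃ C : ℝ, ∀ M, ∀ t ≤ T M - 3 * k,
      ‖(π.L ^ k) (incl M (u M t))‖ ^ 2 ≤ C * Real.exp (2 * κ * max t 0) := by
  choose C hC using h2
  obtain ⟨D, hD⟩ : ∃ D : ℕ → ℝ, ∀ k, ∀ i ≤ k, ∀ M t,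
      (k.choose i : ℝ) * (n * ‖orbD π i (K M t)‖) ≤ D k := by
    refine ⟨fun k => ∑ i ∈ Finset.range (k + 1), (k.choose i : ℝ) * (n * |C i|),
      fun k i hi M t => le_trans ?_ (Finset.single_le_sum
        (f := fun i => (k.choose i : ℝ) * (n * |C i|)) (fun _ _ => by positivity)
        (Finset.mem_range.2 (Nat.lt_succ_of_le hi)))⟩
    gcongr
    exact (hC i M t).trans (le_abs_self _)
  obtain ⟨C', hC'⟩ := scalar_reg c (2 * κ) (C₀ ^ 2) (fun k => D k ^ 2 * k / c) hc (by positivity) k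
  refine ⟨C', fun M t ht => ?_⟩
  obtain ⟨B, hB⟩ : ∃ B : ℝ → PM n M →L[ℝ] PM n M,
      B = fun t => opA M (K M t) + q t • (1 : PM n M →L[ℝ] PM n M) := ⟨_, rfl⟩
  have hBc : Continuous B := hB ▸ ((opA M).continuous.comp (hK M).continuous).add
    (hq.continuous.smul continuous_const)
  have hs := hu M
  rw [← hB] at hs
  have cu : Continuous (u M) := continuous_iff_continuousAt.2 fun t => (hs t).1.continuousAt
  have cu' : Continuous (u' M) := continuous_iff_continuousAt.2 fun t => (hs t).2.continuousAt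
  have cB : Continuous fun t => B t (u M t) := hBc.clm_apply cu
  have hG : ∀ x : PM n M, gr (incl M x) ^ 2 = ⟪opA M (PiX n) x, x⟫ := fun x => by
    rw [gr_sq, inner_opA]
  have hN : ∀ (i : ℕ) (x : PM n M), ⟪(regL π M ^ i) x, (regL π M ^ i) x⟫ =
      ‖(π.L ^ i) (incl M x)‖ ^ 2 := fun i x => by
    rw [real_inner_self_eq_norm_sq, ← incl_regL_pow, (incl M).norm_map]
  have := hC' (T M) (fun i t => ⟪(regL π M ^ i) (u M t), (regL π M ^ i) (u M t)⟫)
    (fun i t => 2 * ⟪(regL π M ^ i) (u' M t), (regL π M ^ i) (u M t)⟫)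
    (fun i t => 2 * (⟪(regL π M ^ i) (u' M t), (regL π M ^ i) (u' M t)⟫ +
      ⟪(regL π M ^ i) (B t (u M t)), (regL π M ^ i) (u M t)⟫))
    (fun i t => gr ((π.L ^ i) (incl M (u M t))) ^ 2) (fun i t => ?_) (fun i => ⟨by fun_prop, ?_⟩)
    (fun i t => ⟨real_inner_self_nonneg, sq_nonneg _⟩) (fun i t => ?_) (fun i t => ?_)
    (fun t ht => ?_) t ht
  · rwa [hN] at this
  · have d1 := (regL π M ^ i).hasFDerivAt.comp_hasDerivAt t (hs t).1
    have d2 := (regL π M ^ i).hasFDerivAt.comp_hasDerivAt t (hs t).2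
    refine ⟨?_, (d2.inner ℝ d1).const_mul 2⟩
    refine (d1.inner ℝ d1).congr_deriv ?_
    change ⟪(regL π M ^ i) (u M t), (regL π M ^ i) (u' M t)⟫ +
      ⟪(regL π M ^ i) (u' M t), (regL π M ^ i) (u M t)⟫ = _
    rw [real_inner_comm]
    ring
  · simp only [← incl_regL_pow, hG]
    fun_prop
  · have e1 := reg_ell π hc (h1 M t) (hco M t) (fun j hj => hD i j hj M t) (u M t)
    have e2 : (regL π M ^ i) (B t (u M t)) =
        (regL π M ^ i) (opA M (K M t) (u M t)) + q t • (regL π M ^ i) (u M t) := by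
      rw [← map_smul, ← map_add, hB]
      rfl
    have e3 := mul_nonneg (hq0 t) (real_inner_self_nonneg (x := (regL π M ^ i) (u M t)))
    have e4 := real_inner_self_nonneg (x := (regL π M ^ i) (u' M t))
    simp only [e2, inner_add_left, real_inner_smul_left]
    linarith
  · simp only [hN]
    rw [pow_succ' π.L, Module.End.mul_apply]
    exact pow_le_pow_left₀ (norm_nonneg _) (π.norm_L_le _) 2
  · simp only [pow_zero, one_apply_eq_self, real_inner_self_eq_norm_sq]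
    refine (pow_le_pow_left₀ (norm_nonneg _) (hb M t ht) 2).trans_eq ?_
    rw [mul_pow, ← Real.exp_nat_mul, mul_assoc]
    rfl

/-- `√sob` is the norm of a linear map -/
theorem reg_lam (M s : ℕ) : ∃ Λ : PM n M →L[ℝ] PiLp 2 (fun _ : Fin M => W n),
    ∀ x, ‖Λ x‖ = √(sob M s (incl M x)) := by
  refine ⟨(PiLp.continuousLinearEquiv 2 ℝ _).symm.toContinuousLinearMap ∘L
    ContinuousLinearMap.pi fun l : Fin M => (1 + (l : ℝ)) ^ s • (lev l ∘L
      (incl M).toContinuousLinearMap), fun x => ?_⟩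
  rw [PiLp.norm_eq_of_L2, sob, Finset.sum_range]
  congr 1
  refine Finset.sum_congr rfl fun l _ => ?_
  change ‖(1 + (l : ℝ)) ^ s • lev l (incl M x)‖ ^ 2 = _
  rw [norm_smul, mul_pow, Real.norm_eq_abs, sq_abs, ← pow_mul, mul_comm s]

theorem reg_taylor {V : Type*} [NormedAddCommGroup V] [NormedSpace ℝ V] {v v' v'' : ℝ → V}
    (h1 : ∀ t, HasDerivAt v (v' t) t) (h2 : ∀ t, HasDerivAt v' (v'' t) t) {t C : ℝ}
    (hC : ∀ τ ∈ Icc t (t + 1), ‖v'' τ‖ ≤ C) : ‖v' t‖ ≤ ‖v (t + 1)‖ + ‖v t‖ + C := by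
  have hC0 : 0 ≤ C := (norm_nonneg _).trans (hC t ⟨le_rfl, by linarith⟩)
  have a1 := norm_image_sub_le_of_norm_deriv_le_segment' (a := t) (b := t + 1)
    (fun τ _ => (h2 τ).hasDerivWithinAt) fun τ hτ => hC τ (Ico_subset_Icc_self hτ)
  have a2 := norm_image_sub_le_of_norm_deriv_le_segment' (a := t) (b := t + 1)
    (f := fun τ => v τ - τ • v' t) (f' := fun τ => v' τ - v' t) (C := C)
    (fun τ _ => by
      have := ((h1 τ).sub ((hasDerivAt_id τ).smul_const (v' t))).hasDerivWithinAt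
        (s := Icc t (t + 1))
      rw [one_smul] at this
      exact this)
    (fun τ hτ => (a1 τ (Ico_subset_Icc_self hτ)).trans
      (mul_le_of_le_one_right hC0 (by linarith [hτ.2]))) (t + 1) ⟨by linarith, le_rfl⟩
  have e : v' t = v (t + 1) - v t - (v (t + 1) - (t + 1) • v' t - (v t - t • v' t)) := by
    rw [add_smul, one_smul]; abel
  rw [add_sub_cancel_left, mul_one] at a2
  calc ‖v' t‖ ≤ ‖v (t + 1) - v t‖ + ‖v (t + 1) - (t + 1) • v' t - (v t - t • v' t)‖ := by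
        conv_lhs => rw [e]
        exact norm_sub_le _ _
    _ ≤ _ := add_le_add (norm_sub_le _ _) a2

/-- uniform Sobolev bounds on compact time intervals -/
def RegBd (T : ℕ → ℝ) (f : ∀ M, ℝ → PM n M) : Prop :=
  ∀ (s : ℕ) (T' : ℝ), ∃ C c' : ℝ, ∀ M, T' + c' ≤ T M → ∀ t ∈ Icc (-T') T',
    √(sob M s (incl M (f M t))) ≤ C

theorem RegBd.add {T : ℕ → ℝ} {f g : ∀ M, ℝ → PM n M} (hf : RegBd T f) (hg : RegBd T g) :
    RegBd T fun M t => f M t + g M t := fun s T' => by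
  obtain ⟨C, c, h⟩ := hf s T'
  obtain ⟨C', c', h'⟩ := hg s T'
  refine ⟨C + C', max c c', fun M hM t ht => ?_⟩
  rw [map_add]
  exact (sqrt_sob_add_le _ _ _ _).trans (add_le_add
    (h M (by linarith [le_max_left c c']) t ht) (h' M (by linarith [le_max_right c c']) t ht))

theorem RegBd.smul {T : ℕ → ℝ} {f : ∀ M, ℝ → PM n M} (hf : RegBd T f) {q : ℝ → ℝ}
    (hq : Continuous q) : RegBd T fun M t => q t • f M t := fun s T' => by
  obtain ⟨C, c, h⟩ := hf s T'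
  obtain ⟨Q, hQ⟩ := (isCompact_Icc (a := -T') (b := T')).exists_bound_of_continuousOn
    hq.continuousOn
  refine ⟨Q * C, c, fun M hM t ht => ?_⟩
  rw [map_smul, sob_smul, Real.sqrt_mul (sq_nonneg _), Real.sqrt_sq_eq_abs]
  exact mul_le_mul (hQ t ht) (h M hM t ht) (Real.sqrt_nonneg _) ((norm_nonneg _).trans (hQ t ht))

theorem RegBd.opA (hn : 2 ≤ n) {T : ℕ → ℝ} {f : ∀ M, ℝ → PM n M} (hf : RegBd T f)
    {K : ℕ → ℝ → X n} (h1 : ∀ M t, OrbSmooth (K M t))
    (h3 : ∀ (π : Plane n) (j : ℕ) (T : ℝ), ∃ C : ℝ, ∀ M, ∀ t ∈ Icc (-T) T,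
      ‖orbD π j (K M t)‖ ≤ C) : RegBd T fun M t => opA M (K M t) (f M t) := fun s T' => by
  obtain ⟨C, c, h⟩ := hf (s + 2) T'
  obtain ⟨C₁, hC₁⟩ := sob_opA hn s
  choose D hD using h3
  obtain ⟨A, hA⟩ : ∃ A : ℝ, ∀ (i j : Fin n) (h : i ≠ j), ∀ k ≤ s + 1,
      D (Plane.coord i j h) k T' ≤ A := by
    obtain ⟨A, hA⟩ := (Set.finite_range fun p : {p : Fin n × Fin n // p.1 ≠ p.2} × Fin (s + 2) =>
      D (Plane.coord p.1.1.1 p.1.1.2 p.1.2) p.2 T').bddAbove
    exact ⟨A, fun i j h k hk => hA ⟨(⟨(i, j), h⟩, ⟨k, by omega⟩), rfl⟩⟩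
  refine ⟨√(|C₁| * A ^ 2) * C, c, fun M hM t ht => ?_⟩
  have h2 := hC₁ M (K M t) A (h1 M t) (fun i j h k hk => (hD _ k T' M t ht).trans (hA i j h k hk))
    (f M t)
  have h4 := sob_nonneg M (s + 2) (incl M (f M t))
  calc _ ≤ √(|C₁| * A ^ 2 * sob M (s + 2) (incl M (f M t))) :=
        Real.sqrt_le_sqrt (h2.trans (by gcongr; exact le_abs_self _))
    _ ≤ _ := by
        rw [Real.sqrt_mul (by positivity)]
        exact mul_le_mul_of_nonneg_left (h M hM t ht) (Real.sqrt_nonneg _)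

theorem RegBd.mid {T : ℕ → ℝ} {f f' f'' : ∀ M, ℝ → PM n M} (hf : RegBd T f) (hf'' : RegBd T f'')
    (h1 : ∀ M t, HasDerivAt (f M) (f' M t) t) (h2 : ∀ M t, HasDerivAt (f' M) (f'' M t) t) :
    RegBd T f' := fun s T' => by
  obtain ⟨C, c, h⟩ := hf s (T' + 1)
  obtain ⟨C', c', h'⟩ := hf'' s (T' + 1)
  refine ⟨C + C + C', max c c' + 1, fun M hM t ht => ?_⟩
  obtain ⟨Λ, hΛ⟩ := reg_lam (n := n) M s
  have a1 := h M (by linarith [le_max_left c c'])
  have a2 := h' M (by linarith [le_max_right c c'])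
  simp only [← hΛ] at a1 a2 ⊢
  refine (reg_taylor (fun τ => Λ.hasFDerivAt.comp_hasDerivAt τ (h1 M τ))
    (fun τ => Λ.hasFDerivAt.comp_hasDerivAt τ (h2 M τ)) (t := t) (C := C')
    fun τ hτ => a2 τ ⟨by linarith [ht.1, hτ.1], by linarith [ht.2, hτ.2]⟩).trans ?_
  exact add_le_add_left (add_le_add (a1 (t + 1) ⟨by linarith [ht.1], by linarith [ht.2]⟩)
    (a1 t ⟨by linarith [ht.1], by linarith [ht.2]⟩)) _

theorem reg_smooth {V : Type*} [NormedAddCommGroup V] [NormedSpace ℝ V] {f : ℝ → V}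
    (hf : ContDiff ℝ ∞ f) (i : ℕ) : ContDiff ℝ ∞ (iteratedDeriv i f) := by
  rw [iteratedDeriv_eq_iterate]
  exact hf.iterate_deriv i

theorem reg_deriv {V : Type*} [NormedAddCommGroup V] [NormedSpace ℝ V] {f : ℝ → V}
    (hf : ContDiff ℝ ∞ f) (i : ℕ) (t : ℝ) :
    HasDerivAt (iteratedDeriv i f) (iteratedDeriv (i + 1) f t) t := by
  rw [iteratedDeriv_succ]
  exact ((reg_smooth hf i).differentiable (by simp) t).hasDerivAt

end Crest.Agent.R202
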