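import Crest.Agent.R202.Sph3
import Crest.Agent.R202.Flow
import Crest.Agent.R202.Rega
import Crest.Agent.R202.RegAux

/-! # Row 202, Reg: uniform Sobolev estimates for the Galerkin equation -/

set_option autoImplicit false
open scoped ContDiff RealInnerProductSpace
open Set Filter Topology MeasureTheory Crest.GeometryTopology.CoordMetric

noncomputable section
namespace Crest.Agent.R202

variable {n : ℕ}

/-- **regularity.**  (a) For a coordinate plane, `L = L_{ij}`, `F k = ‖L^k u‖²`, `G k = gr(L^k u)²`: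
`F k'' = 2‖L^k u'‖² + 2 q F k + 2⟪L^k u, L^k A u⟫` and `⟪L^k u, L^k A u⟫ = (-1)^k form K u (L^k (L^k u)) = Σ binom(k,i) form(orbD i K)(L^{k-i}u)(L^k u)
≥ c G k - C √(G k) Σ_{i<k}√(G i)` (`L` maps `Plt n M` to itself, `inner_opA`, `comm_iter`, `form_le`).  `scalar_reg`, then `sob_le_pow`.
(b) order `0` is (a); for `a ≥ 2`: `u^{(a+2)} = Σ binom(a,i) (opA (K^{(i)}) + q^{(i)}) u^{(a-i)}` and `sob_opA`; order `1` by
`√sob(u' t) ≤ √sob(u (t+1)) + √sob(u t) + sup √sob(u'')` (apply the mean value inequality to the linear map `x ↦ ((1+l)^s lev l x)_l`). -/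
theorem reg (hn : 2 ≤ n) (K : ℕ → ℝ → X n) (q : ℝ → ℝ) (c κ C₀ : ℝ) (hc : 0 < c) (hκ : 0 ≤ κ)
    (hq : ContDiff ℝ ∞ q) (hq0 : ∀ t, 0 ≤ q t) (hK : ∀ M, ContDiff ℝ ∞ (K M))
    (hco : ∀ M t w, c * form (PiX n) w w ≤ form (K M t) w w)
    (h1 : ∀ M t i, OrbSmooth (iteratedDeriv i (K M) t))
    (h2 : ∀ (π : Plane n) (j : ℕ), ∃ C : ℝ, ∀ M t, ‖orbD π j (K M t)‖ ≤ C)
    (h3 : ∀ (π : Plane n) (i j : ℕ) (T : ℝ), ∃ C : ℝ, ∀ M, ∀ t ∈ Icc (-T) T,
      ‖orbD π j (iteratedDeriv i (K M) t)‖ ≤ C)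
    (u u' : ∀ M, ℝ → PM n M) (T : ℕ → ℝ)
    (hu : ∀ M, Sol (fun t => opA M (K M t) + q t • (1 : PM n M →L[ℝ] PM n M)) (u M) (u' M))
    (hb : ∀ M, ∀ t ≤ T M, ‖u M t‖ ≤ C₀ * Real.exp (κ * max t 0)) :
    (∀ s, ∃ C c' : ℝ, ∀ M, ∀ t ≤ T M - c', sob M s (incl M (u M t)) ≤ C * Real.exp (2 * κ * max t 0)) ∧
    ∀ (s a : ℕ) (T' : ℝ), ∃ C c' : ℝ, ∀ M, T' + c' ≤ T M → ∀ t ∈ Icc (-T') T',
      sob M s (incl M (iteratedDeriv a (u M) t)) ≤ C := by
  have pa : ∀ s, ∃ C c' : ℝ, ∀ M, ∀ t ≤ T M - c',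
      sob M s (incl M (u M t)) ≤ C * Real.exp (2 * κ * max t 0) := fun s => by
    have b0 : ∀ M, ∀ t ≤ T M, ‖incl M (u M t)‖ ^ 2 ≤ C₀ ^ 2 * Real.exp (2 * κ * max t 0) := by
      intro M t ht
      rw [(incl M).norm_map]
      refine (pow_le_pow_left₀ (norm_nonneg _) (hb M t ht) 2).trans_eq ?_
      rw [mul_pow, ← Real.exp_nat_mul, mul_assoc]
      rfl
    have hs : (0 : ℝ) ≤ 3 * s := by positivity
    have b1 : ∀ i j : Fin n, ∃ C : ℝ, ∀ M, ∀ t ≤ T M - 3 * s,
        ‖(Lij i j ^ s) (incl M (u M t))‖ ^ 2 ≤ C * Real.exp (2 * κ * max t 0) := fun i j => by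
      rcases eq_or_ne i j with rfl | h
      · refine ⟨C₀ ^ 2, fun M t ht => ?_⟩
        rw [Lij_self]
        rcases Nat.eq_zero_or_pos s with rfl | h0
        · exact b0 M t (by linarith)
        · rw [zero_pow h0.ne', LinearMap.zero_apply, norm_zero, zero_pow two_ne_zero]
          positivity
      · rw [Lij_eq i j h]
        exact reg_pow K q c κ C₀ hc hκ hq hq0 hK hco
          (fun M t => by simpa only [iteratedDeriv_zero] using h1 M t 0) _ (h2 _) u u' T hu hb s
    choose D hD using b1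
    obtain ⟨C, hC⟩ := sob_le_pow hn s
    refine ⟨|C| * (C₀ ^ 2 + ∑ i, ∑ j, D i j), 3 * s, fun M t ht => ?_⟩
    refine (hC M _ (incl_mem _)).trans ?_
    rw [mul_assoc]
    refine mul_le_mul (le_abs_self _) ?_ (by positivity) (abs_nonneg _)
    rw [add_mul, Finset.sum_mul]
    refine add_le_add (b0 M t (by linarith)) (Finset.sum_le_sum fun i _ => ?_)
    rw [Finset.sum_mul]
    exact Finset.sum_le_sum fun j _ => hD i j M t ht
  refine ⟨pa, ?_⟩
  have su : ∀ M, ContDiff ℝ ∞ (u M) := fun M =>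
    (Sol.contDiff (((opA M).contDiff.comp (hK M)).add (hq.smul contDiff_const)) (hu M)).1
  obtain ⟨F, hF⟩ : ∃ F : ℕ → ℕ → ∀ M, ℝ → PM n M, F = fun i j M t =>
      opA M (iteratedDeriv i (K M) t) (iteratedDeriv j (u M) t) +
        iteratedDeriv i q t • iteratedDeriv j (u M) t := ⟨_, rfl⟩
  have sF : ∀ i j M, ContDiff ℝ ∞ (F i j M) := fun i j M => by
    rw [hF]
    exact (((opA M).contDiff.comp (reg_smooth (hK M) i)).clm_apply (reg_smooth (su M) j)).add
      ((reg_smooth hq i).smul (reg_smooth (su M) j))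
  have dF : ∀ i j M, deriv (F i j M) = F (i + 1) j M + F i (j + 1) M := fun i j M => by
    funext t
    have := (((opA M).hasFDerivAt.comp_hasDerivAt t (reg_deriv (hK M) i t)).clm_apply
      (reg_deriv (su M) j t)).add ((reg_deriv hq i t).smul (reg_deriv (su M) j t))
    rw [hF]
    refine this.deriv.trans ?_
    simp only [Function.comp_apply, Pi.add_apply]
    abel
  have bF : ∀ m i j, (∀ j' ≤ j + m, RegBd T fun M => iteratedDeriv j' (u M)) →
      RegBd T fun M => iteratedDeriv m (F i j M) := by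
    intro m
    induction m with
    | zero =>
      intro i j h
      simp only [iteratedDeriv_zero, hF]
      exact ((h j le_rfl).opA hn (fun M t => h1 M t i) fun π k T => h3 π i k T).add
        ((h j le_rfl).smul (reg_smooth hq i).continuous)
    | succ m ih =>
      intro i j h
      have := (ih (i + 1) j fun j' hj => h j' (by omega)).add
        (ih i (j + 1) fun j' hj => h j' (by omega))
      convert this using 2 with M
      funext t
      rw [iteratedDeriv_succ', dF]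
      exact iteratedDeriv_add ((sF _ _ M).of_le (by exact_mod_cast le_top)).contDiffAt
        ((sF _ _ M).of_le (by exact_mod_cast le_top)).contDiffAt
  have e2 : ∀ m M, iteratedDeriv (m + 2) (u M) = iteratedDeriv m (F 0 0 M) := fun m M => by
    rw [iteratedDeriv_succ', iteratedDeriv_succ', funext fun t => (hu M t).1.deriv,
      funext fun t => (hu M t).2.deriv, hF]
    simp only [iteratedDeriv_zero]
    rfl
  have b0 : RegBd T fun M => iteratedDeriv 0 (u M) := fun s T' => by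
    obtain ⟨C, c', h⟩ := pa s
    refine ⟨√(|C| * Real.exp (2 * κ * max T' 0)), c', fun M hM t ht => Real.sqrt_le_sqrt ?_⟩
    simp only [iteratedDeriv_zero]
    refine (h M t (by linarith [ht.2])).trans ?_
    gcongr
    · exact le_abs_self _
    · exact ht.2
  have b2 : ∀ m, (∀ j ≤ m, RegBd T fun M => iteratedDeriv j (u M)) →
      RegBd T fun M => iteratedDeriv (m + 2) (u M) := fun m h => by
    simp only [e2]
    exact bF m 0 0 fun j hj => h j (by omega)
  have key : ∀ a, RegBd T fun M => iteratedDeriv a (u M) := by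
    intro a
    induction a using Nat.strong_induction_on with
    | _ a ih =>
      rcases a with _ | _ | a
      · exact b0
      · exact b0.mid (b2 0 fun j hj => by rwa [Nat.le_zero.1 hj])
          (fun M => reg_deriv (su M) 0) fun M => reg_deriv (su M) 1
      · exact b2 a fun j hj => ih j (by omega)
  intro s a T'
  obtain ⟨C, c', h⟩ := key a s T'
  exact ⟨C ^ 2, c', fun M hM t ht => (Real.sqrt_le_iff.1 (h M hM t ht)).2⟩

end Crest.Agent.R202
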