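import Crest.Agent.R202.Sph1

/-! # Row 202, Sph2: polynomials and spherical harmonics -/

set_option autoImplicit false
open scoped ContDiff RealInnerProductSpace
open Set Filter Topology MeasureTheory Crest.GeometryTopology.CoordMetric

noncomputable section
namespace Crest.Agent.R202

variable {n : ℕ}

theorem toW_mul (p q : MvPolynomial (Fin n) ℝ) : toW (p * q) = mulW (toW p) (toW q) := by
  exact W.eq_of_sphere fun x => by simp [toW_apply_sphere]
theorem mulW_poly {u w : W n} (hu : u ∈ Poly n) (hw : w ∈ Poly n) : mulW u w ∈ Poly n := by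
  obtain ⟨p, rfl⟩ := hu
  obtain ⟨q, rfl⟩ := hw
  exact ⟨p * q, toW_mul p q⟩
theorem Hom_le_Plt {j l : ℕ} (h : j < l) : Hom n j ≤ Plt n l := by
  exact le_iSup (fun j : Fin l => Hom n j) ⟨j, h⟩
theorem Plt_mono {l l' : ℕ} (h : l ≤ l') : Plt n l ≤ Plt n l' := by
  exact iSup_le fun j => Hom_le_Plt (lt_of_lt_of_le j.2 h)
theorem toW_mem_Plt (p : MvPolynomial (Fin n) ℝ) {l : ℕ} (h : p.totalDegree < l) : toW p ∈ Plt n l := by
  rw [← MvPolynomial.sum_homogeneousComponent p, map_sum]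
  refine Submodule.sum_mem _ fun i hi => Hom_le_Plt (j := i) ?_ ?_
  · have := Finset.mem_range.1 hi
    omega
  · exact ⟨_, MvPolynomial.homogeneousComponent_mem i p, rfl⟩
theorem Plt_le_Poly (l : ℕ) : Plt n l ≤ Poly n := by
  refine iSup_le fun j => ?_
  rintro _ ⟨p, -, rfl⟩
  exact ⟨p, rfl⟩
theorem mem_Poly_iff {u : W n} : u ∈ Poly n ↔ ∃ l, u ∈ Plt n l := by
  refine ⟨?_, fun ⟨l, hl⟩ => Plt_le_Poly l hl⟩
  rintro ⟨p, rfl⟩
  exact ⟨_, toW_mem_Plt p (Nat.lt_succ_self _)⟩
/-- multiply by `Σ xᵢ²` -/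
theorem Hom_le_Hom (l : ℕ) : Hom n l ≤ Hom n (l + 2) := by
  rintro _ ⟨p, hp, rfl⟩
  refine ⟨p * ∑ i, MvPolynomial.X i ^ 2, ?_, W.eq_of_sphere fun x => ?_⟩
  · exact MvPolynomial.IsHomogeneous.mul hp
      (MvPolynomial.IsHomogeneous.sum _ _ _ fun i _ => MvPolynomial.isHomogeneous_X_pow i 2)
  · have : ∑ i, (x : E n) i ^ 2 = 1 := by
      rw [← EuclideanSpace.real_norm_sq_eq, Sp.norm_eq, one_pow]
    simp [toW_apply_sphere, this]

theorem sph2a_inner (e x : E n) : ⟪e, x⟫ = ∑ i, e i * x i := by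
  simp [PiLp.inner_apply, mul_comm]

/-- derivative of `x_k / |x|` in a tangential direction -/
theorem sph2a_fderiv_X (k : Fin n) (x : Sp n) (v : E n) (hv : ⟪(x : E n), v⟫ = 0) :
    fderiv ℝ (toW (MvPolynomial.X k) : W n) x v = v k := by
  have hx := Sp.ne_zero x
  have h1 : HasFDerivAt (fun y : E n => ‖y‖ ^ 2) (2 • innerSL ℝ (x : E n)) x :=
    (hasStrictFDerivAt_norm_sq (x : E n)).hasFDerivAt
  have hx2 : ‖(x : E n)‖ ^ 2 ≠ 0 := by rw [Sp.norm_eq]; norm_num
  have h2 := h1.sqrt hx2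
  have hx3 : √(‖(x : E n)‖ ^ 2) ≠ 0 := by rw [Sp.norm_eq]; norm_num
  have h3 := (hasDerivAt_inv hx3).comp_hasFDerivAt (x : E n) h2
  have h4 : HasFDerivAt (fun y : E n => y k) (EuclideanSpace.proj k : E n →L[ℝ] ℝ) x :=
    (EuclideanSpace.proj k : E n →L[ℝ] ℝ).hasFDerivAt
  have h5 := h3.mul h4
  have h6 : (toW (MvPolynomial.X k) : W n) =ᶠ[𝓝 (x : E n)]
      ((fun y : ℝ => y⁻¹) ∘ fun y : E n => √(‖y‖ ^ 2)) * fun y : E n => y k := by
    filter_upwards [isOpen_compl_singleton.mem_nhds hx] with y hy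
    rw [toW_apply_of_ne _ hy]
    simp
  rw [h6.fderiv_eq, h5.fderiv]
  simp [hv]

theorem sph2a_gen_coord (e e' x : E n) (i : Fin n) :
    gen e e' x i = ∑ j, (e j * e' i - e' j * e i) * x j := by
  simp only [gen_apply, sph2a_inner, PiLp.sub_apply, PiLp.smul_apply, smul_eq_mul, Finset.sum_mul,
    ← Finset.sum_sub_distrib]
  exact Finset.sum_congr rfl fun j _ => by ring

/-- for a skew field (`⟪x, Ξ x⟫ = 0`) the derivative of `p(x/|x|)` along `Ξ x` at a unit vector is `Σ ∂ᵢp (Ξ x)ᵢ` -/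
theorem Lv_gen_toW (e e' : E n) (p : MvPolynomial (Fin n) ℝ) :
    Lv (gen e e') (toW p) = toW (∑ i, ∑ j,
      MvPolynomial.C (e j * e' i - e' j * e i) * MvPolynomial.X j * MvPolynomial.pderiv i p) := by
  have key : ∀ x : Sp n, Lv (gen e e') (toW p) x =
      ∑ i, gen e e' x i * MvPolynomial.eval (fun i => (x : E n) i) (MvPolynomial.pderiv i p) := by
    intro x
    induction p using MvPolynomial.induction_on with
    | C a =>
      have : (toW (MvPolynomial.C a) : W n) = a • oneW :=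
        W.eq_of_sphere fun x => by simp [toW_apply_sphere]
      rw [this, map_smul, Lv_oneW]
      simp
    | add p q hp hq =>
      rw [map_add, map_add, W.add_apply, hp, hq, ← Finset.sum_add_distrib]
      exact Finset.sum_congr rfl fun i _ => by simp [mul_add]
    | mul_X p k hp =>
      have hk : Lv (gen e e') (toW (MvPolynomial.X k)) x = gen e e' x k :=
        sph2a_fderiv_X k x _ (by
          rw [gen_apply, inner_sub_right, real_inner_smul_right, real_inner_smul_right,
            real_inner_comm e', real_inner_comm e]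
          ring)
      rw [toW_mul, Lv_mulW, W.add_apply, mulW_apply, mulW_apply, hp, hk, toW_apply_sphere,
        toW_apply_sphere, MvPolynomial.eval_X, Finset.sum_mul]
      have : ∀ i, gen e e' x i * MvPolynomial.eval (fun i => (x : E n) i)
          (MvPolynomial.pderiv i (p * MvPolynomial.X k)) =
          gen e e' x i * MvPolynomial.eval (fun i => (x : E n) i) (MvPolynomial.pderiv i p) *
            (x : E n) k + if i = k then
              MvPolynomial.eval (fun i => (x : E n) i) p * gen e e' x k else 0 := by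
        intro i
        rw [Derivation.leibniz]
        by_cases hik : i = k
        · subst hik; simp; ring
        · simp [MvPolynomial.pderiv_X_of_ne (Ne.symm hik), hik]; ring
      rw [Finset.sum_congr rfl fun i _ => this i, Finset.sum_add_distrib]
      simp
  refine W.eq_of_sphere fun x => ?_
  rw [key, toW_apply_sphere]
  simp only [map_sum, map_mul, MvPolynomial.eval_C, MvPolynomial.eval_X, sph2a_gen_coord,
    Finset.sum_mul]
theorem Lv_gen_Hom (e e' : E n) {l : ℕ} {u : W n} (h : u ∈ Hom n l) : Lv (gen e e') u ∈ Hom n l := by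
  obtain ⟨p, hp, rfl⟩ := h
  rw [Lv_gen_toW]
  refine ⟨_, ?_, rfl⟩
  refine Submodule.sum_mem _ fun i _ => Submodule.sum_mem _ fun j _ => ?_
  have hp' : p.IsHomogeneous l := hp
  rcases l with _ | l
  · have : p = MvPolynomial.C (p.coeff 0) :=
      MvPolynomial.totalDegree_eq_zero_iff_eq_C.1
        ((MvPolynomial.totalDegree_zero_iff_isHomogeneous _).2 hp')
    rw [this, MvPolynomial.pderiv_C, mul_zero]
    exact Submodule.zero_mem _
  · have := (MvPolynomial.isHomogeneous_C_mul_X (e j * e' i - e' j * e i) j).mul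
      (hp'.pderiv (i := i))
    rwa [show 1 + (l + 1 - 1) = l + 1 by omega] at this
theorem Lv_gen_Plt (e e' : E n) {l : ℕ} {u : W n} (h : u ∈ Plt n l) : Lv (gen e e') u ∈ Plt n l := by
  have : Plt n l ≤ (Plt n l).comap (Lv (gen e e')) :=
    iSup_le fun j v hv => Hom_le_Plt j.2 (Lv_gen_Hom e e' hv)
  exact this h
/-- skewness of `Lv (gen e e')` for arbitrary `e, e'`: bilinearity in `(e,e')` and `Lij_skew` -/
theorem Lv_gen_skew (e e' : E n) (u w : W n) : ⟪Lv (gen e e') u, w⟫ = -⟪u, Lv (gen e e') w⟫ := by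
  have key : ∀ u : W n, Lv (gen e e') u = ∑ i, ∑ j, (e i * e' j) • Lij i j u := fun u => by
    refine W.eq_of_sphere fun x => ?_
    rw [Lv_sphere]
    simp only [W.sum_apply, W.smul_apply, Lij_sphere, sph2a_gen_coord, Finset.mul_sum, mul_sub,
      sub_mul, Finset.sum_sub_distrib]
    congr 1
    · rw [Finset.sum_comm]
      exact Finset.sum_congr rfl fun i _ => Finset.sum_congr rfl fun j _ => by ring
    · exact Finset.sum_congr rfl fun i _ => Finset.sum_congr rfl fun j _ => by ring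
  rw [key, key]
  simp only [sum_inner, inner_sum, real_inner_smul_left, real_inner_smul_right, Lij_skew,
    ← Finset.sum_neg_distrib, mul_neg]
theorem Lv_gen_Lev (e e' : E n) {l : ℕ} {u : W n} (h : u ∈ Lev n l) : Lv (gen e e') u ∈ Lev n l := by
  refine ⟨Lv_gen_Plt e e' h.1, fun w hw => ?_⟩
  have h1 := Lv_gen_skew e e' w u
  rw [h.2 _ (Lv_gen_Plt e e' hw)] at h1
  linarith
theorem sph2a_ent (g : E n ≃ₗᵢ[ℝ] E n) (x : E n) (k : Fin n) : g x k = ∑ i, ent g k i * x i := by
  have : x = ∑ i, x i • EuclideanSpace.single i (1 : ℝ) := by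
    ext j; simp [Finset.sum_apply, Pi.single_apply]
  conv_lhs => rw [this]
  simp [ent, mul_comm]

theorem sph2a_act_act (g : E n ≃ₗᵢ[ℝ] E n) (w : W n) : act g (act g.symm w) = w := by
  ext x; simp

theorem sph2a_inner_act (g : E n ≃ₗᵢ[ℝ] E n) (u w : W n) : ⟪w, act g u⟫ = ⟪act g.symm w, u⟫ := by
  rw [← inner_act g (act g.symm w) u, sph2a_act_act]

theorem act_Hom (g : E n ≃ₗᵢ[ℝ] E n) {l : ℕ} {u : W n} (h : u ∈ Hom n l) : act g u ∈ Hom n l := by
  obtain ⟨p, hp, rfl⟩ := h
  have hp' : p.IsHomogeneous l := hp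
  let f : Fin n → MvPolynomial (Fin n) ℝ := fun k => ∑ i, MvPolynomial.C (ent g k i) * MvPolynomial.X i
  have hf : ∀ k, (f k).IsHomogeneous 1 := fun k =>
    MvPolynomial.IsHomogeneous.sum _ _ _ fun i _ => MvPolynomial.isHomogeneous_C_mul_X _ i
  refine ⟨MvPolynomial.aeval f p, by simpa using hp'.aeval f hf, W.eq_of_sphere fun x => ?_⟩
  rw [act_apply, ← sphMap_coe, toW_apply_sphere, toW_apply_sphere, ← MvPolynomial.coe_aeval_eq_eval,
    ← MvPolynomial.coe_aeval_eq_eval]
  change MvPolynomial.aeval _ (MvPolynomial.aeval f p) = MvPolynomial.aeval _ p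
  rw [← AlgHom.comp_apply, MvPolynomial.comp_aeval]
  congr 2
  funext k
  simp [f, sph2a_ent]
theorem act_Plt (g : E n ≃ₗᵢ[ℝ] E n) {l : ℕ} {u : W n} (h : u ∈ Plt n l) : act g u ∈ Plt n l := by
  have : Plt n l ≤ (Plt n l).comap (act g) :=
    iSup_le fun j v hv => Hom_le_Plt j.2 (act_Hom g hv)
  exact this h
theorem act_Lev (g : E n ≃ₗᵢ[ℝ] E n) {l : ℕ} {u : W n} (h : u ∈ Lev n l) : act g u ∈ Lev n l := by
  refine ⟨act_Plt g h.1, fun w hw => ?_⟩
  rw [sph2a_inner_act]
  exact h.2 _ (act_Plt g.symm hw)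

theorem Lev_orth {l l' : ℕ} (h : l ≠ l') {u w : W n} (hu : u ∈ Lev n l) (hw : w ∈ Lev n l') :
    ⟪u, w⟫ = 0 := by
  rcases lt_or_gt_of_ne h with h | h
  · exact hw.2 _ (Plt_mono h hu.1)
  · rw [real_inner_comm]
    exact hu.2 _ (Plt_mono h hw.1)
theorem lev_mem (l : ℕ) (u : W n) : lev l u ∈ Lev n l := Submodule.starProjection_apply_mem _ _
theorem prP_mem (M : ℕ) (u : W n) : prP M u ∈ Plt n M := Submodule.starProjection_apply_mem _ _
theorem prP_eq_sum (M : ℕ) (u : W n) : prP M u = ∑ l ∈ Finset.range M, lev l u := by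
  induction M with
  | zero =>
    have := prP_mem 0 u
    have h0 : Plt n 0 = ⊥ := iSup_of_empty _
    rw [h0] at this
    simpa using this
  | succ M ih =>
    rw [Finset.sum_range_succ, ← ih]
    have h0 : u - prP M u ∈ (Plt n M)ᗮ := Submodule.sub_starProjection_mem_orthogonal u
    have h1 : u - prP (M + 1) u ∈ (Plt n (M + 1))ᗮ := Submodule.sub_starProjection_mem_orthogonal u
    have : lev M u = prP (M + 1) u - prP M u := by
      refine Submodule.eq_starProjection_of_mem_orthogonal ⟨?_, ?_⟩ fun z hz => ?_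
      · exact Submodule.sub_mem _ (prP_mem _ u) (Plt_mono (Nat.le_succ M) (prP_mem _ u))
      · have : prP (M + 1) u - prP M u = (u - prP M u) - (u - prP (M + 1) u) := by abel
        rw [this]
        exact Submodule.sub_mem _ h0 (Submodule.orthogonal_le (Plt_mono (Nat.le_succ M)) h1)
      · have : u - (prP (M + 1) u - prP M u) = (u - prP (M + 1) u) + prP M u := by abel
        rw [this, inner_add_right, h1 z hz.1, real_inner_comm, hz.2 _ (prP_mem M u), add_zero]
    rw [this]; abel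
theorem sum_lev {M : ℕ} {u : W n} (h : u ∈ Plt n M) : ∑ l ∈ Finset.range M, lev l u = u := by
  rw [← prP_eq_sum]
  exact Submodule.starProjection_eq_self_iff.2 h
theorem lev_eq_zero {M l : ℕ} {u : W n} (h : u ∈ Plt n M) (hl : M ≤ l) : lev l u = 0 := by
  refine Submodule.eq_starProjection_of_mem_orthogonal (Submodule.zero_mem _) fun z hz => ?_
  rw [sub_zero, real_inner_comm]
  exact hz.2 _ (Plt_mono hl h)
theorem norm_sq_eq_sum_lev {M : ℕ} {u : W n} (h : u ∈ Plt n M) :
    ‖u‖ ^ 2 = ∑ l ∈ Finset.range M, ‖lev l u‖ ^ 2 := by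
  rw [← real_inner_self_eq_norm_sq]
  conv_lhs => enter [2]; rw [← sum_lev h]
  rw [sum_inner]
  refine Finset.sum_congr rfl fun l _ => ?_
  have h1 : ⟪lev l u, u - lev l u⟫ = 0 :=
    Submodule.sub_starProjection_mem_orthogonal (K := Lev n l) u _ (lev_mem l u)
  rw [inner_sub_right, real_inner_self_eq_norm_sq] at h1
  linarith
theorem lev_Lv_gen (e e' : E n) (l : ℕ) (u : W n) : lev l (Lv (gen e e') u) = Lv (gen e e') (lev l u) := by
  refine Submodule.eq_starProjection_of_mem_orthogonal (Lv_gen_Lev e e' (lev_mem l u))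
    fun z hz => ?_
  have h1 := Lv_gen_skew e e' z (u - lev l u)
  have h2 : ⟪Lv (gen e e') z, u - lev l u⟫ = 0 :=
    Submodule.sub_starProjection_mem_orthogonal (K := Lev n l) u _ (Lv_gen_Lev e e' hz)
  rw [← map_sub]
  linarith
theorem lev_act (g : E n ≃ₗᵢ[ℝ] E n) (l : ℕ) (u : W n) : lev l (act g u) = act g (lev l u) := by
  refine Submodule.eq_starProjection_of_mem_orthogonal (act_Lev g (lev_mem l u)) fun z hz => ?_
  rw [← map_sub, sph2a_inner_act]
  exact Submodule.sub_starProjection_mem_orthogonal (K := Lev n l) u _ (act_Lev g.symm hz)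
theorem sph2a_parity {j : ℕ} {u : W n} (h : u ∈ Hom n j) :
    act (LinearIsometryEquiv.neg ℝ) u = ((-1 : ℝ) ^ j) • u := by
  obtain ⟨p, hp, rfl⟩ := h
  have hp' : p.IsHomogeneous j := hp
  refine W.eq_of_sphere fun x => ?_
  rw [act_apply, ← sphMap_coe, W.smul_apply, toW_apply_sphere, toW_apply_sphere,
    MvPolynomial.eval_eq, MvPolynomial.eval_eq, Finset.mul_sum]
  refine Finset.sum_congr rfl fun d hd => ?_
  rw [hp'.degree_eq_sum_deg_support hd, ← Finset.prod_pow_eq_pow_sum, mul_left_comm,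
    ← Finset.prod_mul_distrib]
  congr 1
  refine Finset.prod_congr rfl fun i _ => ?_
  rw [← mul_pow]
  simp

theorem sph2a_Hom_le (j k : ℕ) : Hom n j ≤ Hom n (j + 2 * k) := by
  induction k with
  | zero => exact le_rfl
  | succ k ih => exact ih.trans (Hom_le_Hom _)

/-- `Plt (l+1) = Hom l ⊔ Hom (l-1)` and `Hom l ⊥ Hom (l-1)` by `x ↦ -x` (`LinearIsometryEquiv.neg`) -/
theorem Lev_le_Hom (l : ℕ) : Lev n l ≤ Hom n l := by
  let T : Submodule ℝ (W n) := Plt n l ⊓
    LinearMap.ker (act (LinearIsometryEquiv.neg ℝ) + ((-1 : ℝ) ^ l) • (LinearMap.id : W n →ₗ[ℝ] W n))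
  have hle : Plt n (l + 1) ≤ Hom n l ⊔ T := by
    refine iSup_le fun j => ?_
    have hj := j.2
    rcases Nat.even_or_odd' (l - j) with ⟨k, hk | hk⟩
    · have : l = j + 2 * k := by omega
      refine le_sup_of_le_left ?_
      conv_rhs => rw [this]
      exact sph2a_Hom_le _ _
    · have : l = j + 2 * k + 1 := by omega
      refine le_sup_of_le_right fun v hv => ⟨Hom_le_Plt (by omega) hv, ?_⟩
      change act (LinearIsometryEquiv.neg ℝ) v + ((-1 : ℝ) ^ l) • v = 0
      have h2 : (-1 : ℝ) ^ l = -(-1) ^ (j : ℕ) := by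
        conv_lhs => rw [this]
        rw [pow_succ, pow_add, pow_mul]
        simp
      rw [sph2a_parity hv, h2, neg_smul, add_neg_cancel]
  intro u hu
  obtain ⟨a, ha, b, hb, rfl⟩ := Submodule.mem_sup.1 (hle hu.1)
  have hb2 : act (LinearIsometryEquiv.neg ℝ) b = -(((-1 : ℝ) ^ l) • b) :=
    eq_neg_of_add_eq_zero_left hb.2
  have h1 := inner_act (LinearIsometryEquiv.neg ℝ) b a
  rw [hb2, sph2a_parity ha, inner_neg_left, real_inner_smul_left, real_inner_smul_right,
    ← mul_assoc, ← mul_pow] at h1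
  have h2 : ⟪b, a⟫ = 0 := by
    simp only [mul_neg, mul_one, neg_neg, one_pow, one_mul] at h1
    linarith
  have h3 : ⟪b, a + b⟫ = 0 := hu.2 _ hb.1
  rw [inner_add_right, h2, zero_add, inner_self_eq_zero] at h3
  rw [h3, add_zero]
  exact ha

end Crest.Agent.R202
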