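import Crest.Agent.R202.Sph1
import Crest.Agent.R202.Sph2a

/-! # Row 202, Sph2: polynomials and spherical harmonics -/

set_option autoImplicit false
open scoped ContDiff RealInnerProductSpace
open Set Filter Topology MeasureTheory Crest.GeometryTopology.CoordMetric

noncomputable section
namespace Crest.Agent.R202

variable {n : ℕ}

section Aux
open MvPolynomial

theorem sph2b_Lij_toW (i j : Fin n) (p : MvPolynomial (Fin n) ℝ) :
    Lij i j (toW p) = toW (MvPolynomial.X i * MvPolynomial.pderiv j p - MvPolynomial.X j * MvPolynomial.pderiv i p) := by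
  rw [Lij, Lv_gen_toW]
  congr 1
  simp [sub_mul, Finset.sum_sub_distrib, apply_ite (C : ℝ → MvPolynomial (Fin n) ℝ), ite_mul]

theorem sph2b_lap {l : ℕ} {p : MvPolynomial (Fin n) ℝ} (hp : p.IsHomogeneous l) :
    ∑ i, ∑ j, (MvPolynomial.X i *
        MvPolynomial.pderiv j (MvPolynomial.X i * MvPolynomial.pderiv j p - MvPolynomial.X j * MvPolynomial.pderiv i p) -
      MvPolynomial.X j *
        MvPolynomial.pderiv i (MvPolynomial.X i * MvPolynomial.pderiv j p - MvPolynomial.X j * MvPolynomial.pderiv i p)) =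
      2 * ((∑ i, MvPolynomial.X i ^ 2) * ∑ j, MvPolynomial.pderiv j (MvPolynomial.pderiv j p)) - C (2 * ev n l) * p := by
  have h1 := hp.sum_X_mul_pderiv
  have h2 : ∀ j, ∑ i, MvPolynomial.X i * MvPolynomial.pderiv j (MvPolynomial.pderiv i p) = l • MvPolynomial.pderiv j p - MvPolynomial.pderiv j p := by
    intro j
    have := congrArg (MvPolynomial.pderiv j) h1
    simp only [map_sum, Derivation.leibniz, map_nsmul, smul_eq_mul, pderiv_X, Pi.single_apply,
      mul_ite, mul_one, mul_zero, Finset.sum_add_distrib, Finset.sum_ite_eq', Finset.mem_univ,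
      if_true] at this
    exact eq_sub_of_add_eq this
  have h3 : ∑ j, ∑ i, MvPolynomial.X j * (MvPolynomial.X i * MvPolynomial.pderiv j (MvPolynomial.pderiv i p)) =
      l • l • p - l • p := by
    simp only [← Finset.mul_sum, h2, mul_sub, Finset.sum_sub_distrib, mul_smul_comm,
      ← Finset.smul_sum, h1]
  have h4 : ∀ i j : Fin n, MvPolynomial.X i *
        MvPolynomial.pderiv j (MvPolynomial.X i * MvPolynomial.pderiv j p - MvPolynomial.X j * MvPolynomial.pderiv i p) -
      MvPolynomial.X j *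
        MvPolynomial.pderiv i (MvPolynomial.X i * MvPolynomial.pderiv j p - MvPolynomial.X j * MvPolynomial.pderiv i p) =
      (MvPolynomial.X i ^ 2 * MvPolynomial.pderiv j (MvPolynomial.pderiv j p) + MvPolynomial.X j ^ 2 * MvPolynomial.pderiv i (MvPolynomial.pderiv i p)) -
        (MvPolynomial.X j * (MvPolynomial.X i * MvPolynomial.pderiv j (MvPolynomial.pderiv i p)) +
          MvPolynomial.X i * (MvPolynomial.X j * MvPolynomial.pderiv i (MvPolynomial.pderiv j p))) -
        (MvPolynomial.X i * MvPolynomial.pderiv i p + MvPolynomial.X j * MvPolynomial.pderiv j p) +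
        if j = i then 2 * (MvPolynomial.X i * MvPolynomial.pderiv i p) else 0 := by
    intro i j
    simp only [map_sub, Derivation.leibniz, smul_eq_mul, pderiv_X, Pi.single_apply]
    by_cases h : j = i
    · subst h
      simp only [if_true]
      ring
    · simp only [h, Ne.symm h, if_true, if_false]
      ring
  have h5 : ∑ i, ∑ j, MvPolynomial.X j ^ 2 * MvPolynomial.pderiv i (MvPolynomial.pderiv i p) =
      (∑ i, MvPolynomial.X i ^ 2) * ∑ j, MvPolynomial.pderiv j (MvPolynomial.pderiv j p) := by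
    rw [Finset.sum_comm, Finset.sum_mul_sum]
  have h6 : ∑ i, ∑ j, MvPolynomial.X j * (MvPolynomial.X i * MvPolynomial.pderiv j (MvPolynomial.pderiv i p)) =
      l • l • p - l • p := Finset.sum_comm.trans h3
  simp only [h4, Finset.sum_add_distrib, Finset.sum_sub_distrib, Finset.sum_ite_eq',
    Finset.mem_univ, if_true, h3, h5, h6]
  simp only [← Finset.mul_sum, h1, ← Finset.sum_mul, Finset.sum_const, Finset.card_univ,
    Fintype.card_fin]
  simp only [mul_smul_comm, ← Finset.smul_sum, h1]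
  simp only [ev, map_mul, map_sub, map_add, map_natCast, map_ofNat, nsmul_eq_mul]
  ring

theorem sph2b_sum_sq (x : Sp n) : ∑ i, (x : E n) i ^ 2 = 1 := by
  rw [← EuclideanSpace.real_norm_sq_eq, Sp.norm_eq, one_pow]

theorem sph2b_toW_r (k : ℕ) (q : MvPolynomial (Fin n) ℝ) :
    toW ((∑ i, MvPolynomial.X i ^ 2) ^ k * q) = toW q :=
  W.eq_of_sphere fun x => by simp [toW_apply_sphere, sph2b_sum_sq]

theorem sph2b_eval_smul {l : ℕ} {p : MvPolynomial (Fin n) ℝ} (hp : p.IsHomogeneous l) (c : ℝ)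
    (x : Fin n → ℝ) : eval (fun i => c * x i) p = c ^ l * eval x p := by
  rw [eval_eq', eval_eq', Finset.mul_sum]
  refine Finset.sum_congr rfl fun d hd => ?_
  have h : ∑ i, d i = l := by
    rw [← hp (mem_support_iff.1 hd), Finsupp.weight_apply, Finsupp.sum_fintype _ _ (by simp)]
    simp
  simp only [mul_pow, Finset.prod_mul_distrib, Finset.prod_pow_eq_pow_sum, h]
  ring

theorem sph2b_r_hom : (∑ i, MvPolynomial.X i ^ 2 : MvPolynomial (Fin n) ℝ).IsHomogeneous 2 :=
  IsHomogeneous.sum _ _ _ fun i _ => by simpa using (isHomogeneous_X ℝ i).pow 2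

theorem sph2b_split {l : ℕ} (ν : Fin n → ℂ) (hν : ∑ i, ν i ^ 2 = 0) {u : W n} (h : u ∈ Plt n l) :
    ∃ a b : MvPolynomial (Fin n) ℝ, a.IsHomogeneous l ∧ aeval ν a = 0 ∧ b.IsHomogeneous (l + 1) ∧
      u = toW a + toW b := by
  refine Submodule.iSup_induction _ (motive := fun u => ∃ a b : MvPolynomial (Fin n) ℝ,
    a.IsHomogeneous l ∧ aeval ν a = 0 ∧ b.IsHomogeneous (l + 1) ∧ u = toW a + toW b) h ?_ ?_ ?_
  · rintro ⟨j, hj⟩ _ ⟨q, hq, rfl⟩
    have hq' : q.IsHomogeneous j := hq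
    obtain ⟨k, hk | hk⟩ := Nat.even_or_odd' (l - j)
    · refine ⟨(∑ i, MvPolynomial.X i ^ 2) ^ k * q, 0, ?_, ?_, isHomogeneous_zero _ _ _, ?_⟩
      · convert (sph2b_r_hom.pow k).mul hq' using 1
        omega
      · have hk0 : k ≠ 0 := by omega
        simp [hν, hk0]
      · rw [sph2b_toW_r, map_zero, add_zero]
    · refine ⟨0, (∑ i, MvPolynomial.X i ^ 2) ^ (k + 1) * q, isHomogeneous_zero _ _ _, map_zero _,
        ?_, ?_⟩
      · convert (sph2b_r_hom.pow (k + 1)).mul hq' using 1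
        omega
      · rw [sph2b_toW_r, map_zero, zero_add]
  · exact ⟨0, 0, isHomogeneous_zero _ _ _, map_zero _, isHomogeneous_zero _ _ _, by simp⟩
  · rintro _ _ ⟨a, b, h1, h2, h3, rfl⟩ ⟨a', b', h1', h2', h3', rfl⟩
    refine ⟨a + a', b + b', h1.add h1', by rw [map_add, h2, h2', add_zero], h3.add h3', ?_⟩
    rw [map_add, map_add]
    abel

theorem sph2b_eq_zero (hn : 1 ≤ n) {l : ℕ} {a b : MvPolynomial (Fin n) ℝ} (ha : a.IsHomogeneous l)
    (hb : b.IsHomogeneous (l + 1)) (h : toW a = toW b) : a = 0 := by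
  have h1 : ∀ x : Sp n, eval (fun i => (x : E n) i) a = 0 := fun x => by
    have e1 := DFunLike.congr_fun h (x : E n)
    have e2 := DFunLike.congr_fun h ((-x : Sp n) : E n)
    rw [toW_apply_sphere, toW_apply_sphere] at e1 e2
    have e3 : (fun i => ((-x : Sp n) : E n) i) = fun i => (-1 : ℝ) * (x : E n) i := by
      funext i
      simp
    rw [e3, sph2b_eval_smul ha, sph2b_eval_smul hb, pow_succ, mul_assoc,
      mul_right_inj' (pow_ne_zero _ (by norm_num))] at e2
    linarith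
  have h2 : MvPolynomial.X ⟨0, hn⟩ * a = 0 := by
    refine MvPolynomial.funext fun x => ?_
    rw [map_mul, eval_X, map_zero]
    by_cases hx : x = 0
    · simp [hx]
    · have hy : (WithLp.toLp 2 x : E n) ≠ 0 := fun e => hx (by simpa using congrArg WithLp.ofLp e)
      have h3 := h1 ⟨‖(WithLp.toLp 2 x : E n)‖⁻¹ • WithLp.toLp 2 x, by simp [norm_smul, hy]⟩
      simp only [PiLp.smul_apply, smul_eq_mul] at h3
      rw [sph2b_eval_smul ha, mul_eq_zero] at h3
      rw [h3.resolve_left (pow_ne_zero _ (inv_ne_zero (norm_ne_zero_iff.2 hy))), mul_zero]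
  exact (mul_eq_zero.1 h2).resolve_left (X_ne_zero _)

end Aux

/-- For `p` homogeneous of degree `l`: `-(1/2) Σ_{ij} L_{ij}² (toW p) = l(l+n-2) toW p - toW (Σ ∂ᵢ²p)` (a polynomial identity from Euler's
formula, `Σ xᵢ² = 1` on the sphere).  `Δ₀ = -(1/2)Σ L_{ij}²` represents `form (PiX n)` (`form_PiX_Lij`, `Lij_skew`) and preserves `Lev n l`, and `toW (Δp) ∈ Plt n l`. -/
theorem form_Lev {l : ℕ} {u : W n} (h : u ∈ Lev n l) (w : W n) :
    form (PiX n) u w = ev n l * ⟪u, w⟫ := by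
  obtain ⟨p, hp, rfl⟩ := Lev_le_Hom l h
  have hp' : p.IsHomogeneous l := hp
  set D : W n := ∑ i, ∑ j, Lij i j (Lij i j (toW p)) with hD
  set q := ∑ j, MvPolynomial.pderiv j (MvPolynomial.pderiv j p) with hq
  have h1 : D ∈ Lev n l := Submodule.sum_mem _ fun i _ => Submodule.sum_mem _ fun j _ =>
    Lv_gen_Lev _ _ (Lv_gen_Lev _ _ h)
  have h2 : D = (2 : ℝ) • toW q - (2 * ev n l) • toW p := by
    simp only [hD, sph2b_Lij_toW, ← map_sum]
    rw [sph2b_lap hp', map_sub, MvPolynomial.C_mul', map_smul, two_mul, map_add, ← pow_one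
      (∑ i, MvPolynomial.X i ^ 2 : MvPolynomial (Fin n) ℝ), sph2b_toW_r, two_smul]
  have h3 : toW q ∈ Plt n l := by
    rcases Nat.eq_zero_or_pos l with rfl | hl
    · have e := MvPolynomial.totalDegree_eq_zero_iff_eq_C.1 (Nat.le_zero.1 hp'.totalDegree_le)
      rw [hq, e]
      simp
    · exact Hom_le_Plt (show l - 1 - 1 < l by omega)
        ⟨q, MvPolynomial.IsHomogeneous.sum _ _ _ fun j _ => hp'.pderiv.pderiv, rfl⟩
  have h4 : (2 : ℝ) • toW q ∈ Lev n l := by
    rw [sub_eq_iff_eq_add.1 h2.symm]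
    exact add_mem h1 (Submodule.smul_mem _ _ h)
  have h5 : (2 : ℝ) • toW q = 0 :=
    inner_self_eq_zero.1 (Submodule.inner_right_of_mem_orthogonal (Submodule.smul_mem _ _ h3) h4.2)
  have h6 : ∑ i, ∑ j, ⟪Lij i j (toW p), Lij i j w⟫ = -⟪D, w⟫ := by
    simp only [hD, sum_inner, Lij_skew _ _ (Lij _ _ (toW p)), Finset.sum_neg_distrib, neg_neg]
  rw [form_PiX_Lij, h6, h2, h5, zero_sub, inner_neg_left, real_inner_smul_left]
  ring
theorem gr_sq_Plt {M : ℕ} {u : W n} (h : u ∈ Plt n M) :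
    gr u ^ 2 = ∑ l ∈ Finset.range M, ev n l * ‖lev l u‖ ^ 2 := by
  rw [gr_sq]
  have h0 : form (PiX n) u u = ∑ l ∈ Finset.range M, form (PiX n) (lev l u) u := by
    rw [← LinearMap.sum_apply, ← map_sum, sum_lev h]
  rw [h0]
  refine Finset.sum_congr rfl fun l _ => ?_
  have h1 : ⟪u - lev l u, lev l u⟫ = 0 := Submodule.starProjection_inner_eq_zero u _ (lev_mem l u)
  rw [inner_sub_left, real_inner_self_eq_norm_sq, sub_eq_zero] at h1
  rw [form_Lev (lev_mem l u), real_inner_comm, h1]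
theorem ev_strictMono (hn : 2 ≤ n) : StrictMono (ev n) := by
  refine strictMono_nat_of_lt_succ fun l => ?_
  have h1 : (2 : ℝ) ≤ n := by exact_mod_cast hn
  have h2 : (0 : ℝ) ≤ l := Nat.cast_nonneg l
  unfold ev
  push_cast
  nlinarith
theorem Lev_zero : Lev n 0 = Submodule.span ℝ {oneW} := by
  have h0 : Plt n 0 = ⊥ := iSup_of_empty _
  have h1 : Plt n (0 + 1) = Hom n 0 := iSup_unique (ι := Fin 1) fun j => Hom n j
  rw [Lev, h0, h1, Submodule.bot_orthogonal_eq_top, inf_top_eq, Hom,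
    MvPolynomial.homogeneousSubmodule_zero, Submodule.one_eq_span, Submodule.map_span,
    image_singleton, oneW]

/-- **top part.**  If `toW p = toW q` with `deg q < l` then `p(x) = Σ_j q_j(x)|x|^{l-j}`; the terms with `l-j` odd cancel by `x ↦ -x`
(or use `Plt l = Hom (l-1) ⊔ Hom (l-2)` and parity: `toW p ∈ Hom (l-2)`), so `p = (Σ xᵢ²) q'` as polynomials and `p(ν) = 0`. -/
theorem lev_ne_zero (hn : 1 ≤ n) {l : ℕ} {p : MvPolynomial (Fin n) ℝ} (hp : p.IsHomogeneous l) (ν : Fin n → ℂ)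
    (hν : ∑ i, ν i ^ 2 = 0) (h : MvPolynomial.aeval ν p ≠ 0) : lev l (toW p) ≠ 0 := by
  intro h0
  have h1 : toW p ∈ Plt n (l + 1) := Hom_le_Plt (Nat.lt_succ_self l) ⟨p, hp, rfl⟩
  have h2 : toW p ∈ Plt n l := by
    rw [← sum_lev h1, Finset.sum_range_succ, h0, add_zero]
    exact Submodule.sum_mem _ fun j hj => Plt_mono (Finset.mem_range.1 hj) (lev_mem j _).1
  obtain ⟨a, b, ha, haν, hb, e⟩ := sph2b_split ν hν h2
  have h3 : p - a = 0 := sph2b_eq_zero hn (hp.sub ha) hb (by rw [map_sub, e, add_sub_cancel_left])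
  exact h (by rw [sub_eq_zero.1 h3, haν])

end Crest.Agent.R202
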