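import Crest.Agent.R202.Sph1
import Crest.Agent.R202.Sph2b

/-! # Row 202, Sph2: polynomials and spherical harmonics -/

set_option autoImplicit false
open scoped ContDiff RealInnerProductSpace
open Set Filter Topology MeasureTheory Crest.GeometryTopology.CoordMetric

noncomputable section
namespace Crest.Agent.R202

variable {n : ℕ}

theorem sph2_eval_smul {φ : MvPolynomial (Fin n) ℝ} {l : ℕ} (hφ : φ.IsHomogeneous l)
    (c : ℝ) (x : Fin n → ℝ) :
    MvPolynomial.eval (fun i => c * x i) φ = c ^ l * MvPolynomial.eval x φ := by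
  simp only [MvPolynomial.eval_eq, Finset.mul_sum]
  refine Finset.sum_congr rfl fun d hd => ?_
  have h1 : ∑ i ∈ d.support, d i = l := by
    have := hφ (MvPolynomial.mem_support_iff.1 hd)
    rw [← this, Finsupp.weight_apply, Finsupp.sum]
    simp
  simp only [mul_pow, Finset.prod_mul_distrib, Finset.prod_pow_eq_pow_sum, h1]
  ring

theorem sph2_inj (hn : 1 ≤ n) {φ : MvPolynomial (Fin n) ℝ} {l : ℕ} (hφ : φ.IsHomogeneous l)
    (h : toW φ = 0) : φ = 0 := by
  have h1 : ∀ x : Sp n, MvPolynomial.eval (fun i => (x : E n) i) φ = 0 := fun x => by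
    rw [← toW_apply_sphere, h, W.zero_apply]
  refine hφ.eq_zero_of_forall_eval_eq_zero fun r => ?_
  by_cases hr : (WithLp.toLp 2 r : E n) = 0
  · have h2 := sph2_eval_smul hφ 0 fun i => (EuclideanSpace.single (⟨0, hn⟩ : Fin n) (1 : ℝ)) i
    rw [h1 ⟨EuclideanSpace.single (⟨0, hn⟩ : Fin n) (1 : ℝ), by simp⟩, mul_zero] at h2
    rw [← h2]
    congr 2
    funext i
    simpa using congrArg (fun y : E n => y i) hr
  · have h0 : ‖(WithLp.toLp 2 r : E n)‖ ≠ 0 := norm_ne_zero_iff.2 hr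
    have h2 := sph2_eval_smul hφ ‖(WithLp.toLp 2 r : E n)‖
      fun i => (‖(WithLp.toLp 2 r : E n)‖⁻¹ • (WithLp.toLp 2 r : E n)) i
    rw [h1 ⟨‖(WithLp.toLp 2 r : E n)‖⁻¹ • (WithLp.toLp 2 r : E n), by simp [norm_smul, h0]⟩,
      mul_zero] at h2
    rw [← h2]
    congr 2
    funext i
    simp [h0]

theorem sph2_parity {l : ℕ} {u : W n} (hu : u ∈ Hom n l) (x : Sp n) :
    u (-x : Sp n) = (-1) ^ l * u x := by
  obtain ⟨p, hp, rfl⟩ := hu
  rw [toW_apply_sphere, toW_apply_sphere, ← sph2_eval_smul hp]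
  simp

theorem sph2_inf (m : ℕ) : Hom n (m + 1) ⊓ Hom n m = ⊥ := by
  refine eq_bot_iff.2 fun u hu => W.eq_of_sphere fun x => ?_
  have h1 := sph2_parity hu.1 x
  rw [sph2_parity hu.2 x, pow_succ] at h1
  have h2 : (-1 : ℝ) ^ m * u x = 0 := by linarith
  exact (mul_eq_zero.1 h2).resolve_left (pow_ne_zero _ (by norm_num))

theorem sph2_le (m j : ℕ) (h : j ≤ m + 1) : Hom n j ≤ Hom n (m + 1) ⊔ Hom n m := by
  induction m with
  | zero =>
    interval_cases j
    exacts [le_sup_right, le_sup_left]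
  | succ m ih =>
    rcases eq_or_lt_of_le h with rfl | h
    · exact le_sup_left
    · exact (ih (by omega)).trans (sup_le le_sup_right ((Hom_le_Hom m).trans le_sup_left))

theorem sph2_Plt (m : ℕ) : Plt n (m + 2) = Hom n (m + 1) ⊔ Hom n m :=
  le_antisymm (iSup_le fun j => sph2_le m j (by omega))
    (sup_le (Hom_le_Plt (by omega)) (Hom_le_Plt (by omega)))

theorem sph2_choose (k l : ℕ) : (k + l).choose k ≤ (1 + l) ^ k := by
  induction k with
  | zero => simp
  | succ k ih =>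
    refine Nat.le_of_mul_le_mul_right ?_ k.succ_pos
    rw [Nat.add_right_comm, ← Nat.add_one_mul_choose_eq, pow_succ, mul_assoc, mul_comm]
    exact Nat.mul_le_mul ih (by rw [Nat.succ_eq_add_one]; nlinarith)

/-- `toW` is injective on homogeneous polynomials (`MvPolynomial.funext` + homogeneity); the dimension of
`homogeneousSubmodule` is `Fintype.card (Sym (Fin n) l)` (`homogeneousSubmodule_eq_finsupp_supported`, `Sym.equivNatSum`/
`Finsupp` ↔ `Sym`, `Sym.card_sym_eq_choose`). -/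
theorem finrank_Hom (hn : 1 ≤ n) (l : ℕ) : Module.finrank ℝ (Hom n l) = (n + l - 1).choose l := by
  have h1 : Module.finrank ℝ (Hom n l) =
      Module.finrank ℝ (MvPolynomial.homogeneousSubmodule (Fin n) ℝ l) := by
    unfold Hom
    rw [← LinearMap.range_domRestrict]
    refine LinearMap.finrank_range_of_inj ((injective_iff_map_eq_zero _).2 fun p hp => ?_)
    exact Subtype.ext (sph2_inj hn p.2 hp)
  have h2 : {d : Fin n →₀ ℕ | d.degree = l} =
      ((Finset.univ : Finset (Fin n)).finsuppAntidiag l : Finset (Fin n →₀ ℕ)) := by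
    ext d
    simp [Finsupp.degree_eq_sum]
  rw [h1, MvPolynomial.homogeneousSubmodule_eq_finsupp_supported, h2]
  refine (AddMonoidAlgebra.supportedEquivFinsupp _).finrank_eq.trans ?_
  rw [Module.finrank_finsupp_self]
  simpa using Finset.card_finsuppAntidiag_nat_eq_choose (s := (Finset.univ : Finset (Fin n))) l
theorem nl_zero : nl n 0 = 0 := by
  rw [nl, Plt, iSup_of_empty, finrank_bot]
theorem nl_one (hn : 1 ≤ n) : nl n 1 = 1 := by
  have : Plt n 1 = Hom n 0 := le_antisymm (iSup_le fun j => by rw [Fin.eq_zero j]; rfl)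
    (Hom_le_Plt one_pos)
  rw [nl, this, finrank_Hom hn, Nat.choose_zero_right]
theorem nl_succ (hn : 1 ≤ n) (l : ℕ) (hl : 1 ≤ l) :
    nl n (l + 1) = (n + l - 1).choose l + (n + l - 2).choose (l - 1) := by
  obtain ⟨m, rfl⟩ := Nat.exists_eq_add_of_le' hl
  have h1 := Submodule.finrank_sup_add_finrank_inf_eq (Hom n (m + 1)) (Hom n m)
  rw [sph2_inf, finrank_bot, add_zero, ← sph2_Plt, finrank_Hom hn, finrank_Hom hn] at h1
  exact h1
theorem nl_succ_eq (l : ℕ) : nl n (l + 1) = nl n l + Module.finrank ℝ (Lev n l) := by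
  rw [nl, nl, Lev, inf_comm]
  exact (Submodule.finrank_add_inf_finrank_orthogonal (Plt_mono l.le_succ)).symm
theorem nl_strictMono (hn : 2 ≤ n) : StrictMono (nl n) := by
  have hn1 : 1 ≤ n := by omega
  refine strictMono_nat_of_lt_succ fun l => ?_
  obtain ⟨k, rfl⟩ := Nat.exists_eq_add_of_le' hn
  rcases l with _ | _ | m
  · rw [nl_zero, nl_one hn1]
    exact one_pos
  · rw [nl_one hn1, nl_succ hn1 1 le_rfl]
    simp
  · rw [nl_succ hn1 _ (by omega), nl_succ hn1 _ (by omega)]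
    have e1 : k + 2 + (m + 1) - 1 = k + m + 1 + 1 := by omega
    have e2 : k + 2 + (m + 1) - 2 = k + m + 1 := by omega
    have e3 : k + 2 + (m + 1 + 1) - 1 = k + m + 1 + 1 + 1 := by omega
    have e4 : k + 2 + (m + 1 + 1) - 2 = k + m + 1 + 1 := by omega
    have h1 : 0 < (k + m + 1).choose (m + 1) := Nat.choose_pos (by omega)
    have h2 := Nat.choose_succ_succ' (k + m + 1 + 1) (m + 1)
    have h3 := Nat.choose_succ_succ' (k + m + 1) m
    rw [e1, e2, e3, e4, Nat.add_sub_cancel, show m + 2 - 1 = m + 1 from rfl, h2]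
    omega
theorem levOf_spec (hn : 2 ≤ n) (i l : ℕ) : levOf n i = l ↔ nl n l ≤ i ∧ i < nl n (l + 1) := by
  have hm := nl_strictMono hn
  constructor
  · intro h
    have h1 : levOf n i ∈ {l | i < nl n (l + 1)} := Nat.sInf_mem ⟨i, hm.le_apply⟩
    refine ⟨?_, h ▸ h1⟩
    rcases l with _ | m
    · rw [nl_zero]
      exact Nat.zero_le _
    · exact not_lt.1 (Nat.notMem_of_lt_sInf (s := {l | i < nl n (l + 1)})
        (m.lt_succ_self.trans_eq h.symm))
  · rintro ⟨h1, h2⟩
    exact le_antisymm (Nat.sInf_le h2) (le_csInf ⟨l, h2⟩ fun m hm' =>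
      Nat.lt_succ_iff.1 (hm.lt_iff_lt.1 (h1.trans_lt hm')))
theorem finrank_Lev_le (hn : 1 ≤ n) (l : ℕ) : (Module.finrank ℝ (Lev n l) : ℝ) ≤ (1 + (l : ℝ)) ^ n := by
  have h1 := Submodule.finrank_mono (Lev_le_Hom (n := n) l)
  obtain ⟨k, rfl⟩ := Nat.exists_eq_add_of_le' hn
  rw [finrank_Hom hn, show k + 1 + l - 1 = k + l by omega, ← Nat.choose_symm_add] at h1
  have h2 : (1 + l) ^ k ≤ (1 + l) ^ (k + 1) := Nat.pow_le_pow_right (by omega) k.le_succ
  exact_mod_cast h1.trans ((sph2_choose k l).trans h2)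

end Crest.Agent.R202
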