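import Crest.Agent.R202.Sph2

/-! # Row 202, Sph3: Sobolev norms on polynomials -/

set_option autoImplicit false
open scoped ContDiff RealInnerProductSpace
open Set Filter Topology MeasureTheory Crest.GeometryTopology.CoordMetric

noncomputable section
namespace Crest.Agent.R202

variable {n : ℕ}

theorem sph3_eval_sq {l : ℕ} {u : W n} (h : u ∈ Lev n l) (x : E n) :
    u x ^ 2 ≤ (∑ i, ((stdOrthonormalBasis ℝ (Lev n l) i : Lev n l) : W n) x ^ 2) * ‖u‖ ^ 2 := by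
  set b := stdOrthonormalBasis ℝ (Lev n l)
  have h1 : u = ∑ i, ⟪b i, (⟨u, h⟩ : Lev n l)⟫ • ((b i : Lev n l) : W n) := by
    have := congrArg (fun v : Lev n l => (v : W n)) (b.sum_repr' ⟨u, h⟩)
    simpa using this.symm
  have h2 : ∑ i, ⟪b i, (⟨u, h⟩ : Lev n l)⟫ ^ 2 = ‖u‖ ^ 2 := by
    have := b.sum_sq_inner_right (⟨u, h⟩ : Lev n l)
    simpa using this
  have h3 : u x = ∑ i, ((b i : Lev n l) : W n) x * ⟪b i, (⟨u, h⟩ : Lev n l)⟫ := by
    conv_lhs => rw [h1]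
    rw [W.sum_apply]
    simp [mul_comm]
  rw [h3, ← h2]
  exact Finset.sum_mul_sq_le_sq_mul_sq _ _ _

theorem sph3_sup_Lev (hn : 2 ≤ n) : ∃ C : ℝ, 0 ≤ C ∧ ∀ (l : ℕ), ∀ u ∈ Lev n l, ∀ x : Sp n,
    |u x| ≤ C * (1 + (l : ℝ)) ^ n * ‖u‖ := by
  refine ⟨√(1 / integ n 1), Real.sqrt_nonneg _, fun l u hu y => ?_⟩
  set b := stdOrthonormalBasis ℝ (Lev n l) with hb
  set S : E n → ℝ := fun x => ∑ i, ((b i : Lev n l) : W n) x ^ 2 with hS
  have hS0 : ∀ x, 0 ≤ S x := fun x => Finset.sum_nonneg fun _ _ => sq_nonneg _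
  have hσ : 0 < integ n 1 := by
    refine lt_of_le_of_ne (integ_nonneg fun x => by simp) fun h => ?_
    have := integ_eq_zero (F := (1 : CS n)) (fun x => by simp) h.symm
    simpa using DFunLike.congr_fun this y
  have hle : ∀ x : Sp n, S y ≤ S x := fun x => by
    obtain ⟨π, s, e⟩ := exists_rot hn x y
    set k : Lev n l := ∑ i, ((b i : Lev n l) : W n) y • b i with hk
    have k1 : (k : W n) y = S y := by
      simp only [hk, hS, Submodule.coe_sum, Submodule.coe_smul, W.sum_apply, W.smul_apply, sq]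
    have k2 : ‖(k : W n)‖ ^ 2 = S y := by
      rw [← Submodule.coe_norm, ← real_inner_self_eq_norm_sq, hk, b.orthonormal.inner_sum]
      simp [hS, sq]
    have k3 := sph3_eval_sq (act_Lev (rot π s) k.2) x
    rw [act_apply, e, k1, ← real_inner_self_eq_norm_sq, inner_act, real_inner_self_eq_norm_sq,
      k2] at k3
    rcases (hS0 y).eq_or_lt with h | h
    · rw [← h]; exact hS0 x
    · exact le_of_mul_le_mul_right (by rw [← sq]; exact k3) h
  have hint : S y * integ n 1 ≤ Module.finrank ℝ (Lev n l) := by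
    have h1 := integ_mono (F := S y • (1 : CS n))
      (G := ∑ i, res ((b i : Lev n l) : W n) * res ((b i : Lev n l) : W n)) fun x => by
        simpa [hS, sq] using hle x
    rw [map_smul, map_sum, smul_eq_mul] at h1
    refine h1.trans (le_of_eq ?_)
    have : ∀ i, integ n (res ((b i : Lev n l) : W n) * res ((b i : Lev n l) : W n)) = 1 := fun i => by
      rw [← inner_W, real_inner_self_eq_norm_sq, ← Submodule.coe_norm, b.orthonormal.1 i, one_pow]
    simp [this]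
  have h1 : (1 : ℝ) ≤ (1 + (l : ℝ)) ^ n := one_le_pow₀ (by linarith [Nat.cast_nonneg (α := ℝ) l])
  have h2 : S y ≤ 1 / integ n 1 * ((1 + (l : ℝ)) ^ n) ^ 2 := by
    rw [one_div, inv_mul_eq_div, le_div_iff₀ hσ]
    have := finrank_Lev_le (n := n) (by omega) l
    nlinarith
  refine abs_le_of_sq_le_sq' ?_ (by positivity) |> abs_le.2
  rw [mul_pow, mul_pow, Real.sq_sqrt (by positivity)]
  exact (sph3_eval_sq hu y).trans (mul_le_mul_of_nonneg_right h2 (sq_nonneg _))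

theorem sph3_ev_le (hn : 1 ≤ n) (l : ℕ) : ev n l ≤ n * (1 + (l : ℝ)) ^ 2 := by
  have h1 : (1 : ℝ) ≤ n := by exact_mod_cast hn
  have h2 : (0 : ℝ) ≤ l := Nat.cast_nonneg l
  unfold ev
  nlinarith [mul_nonneg h2 h2, mul_nonneg (sub_nonneg.2 h1) (mul_nonneg h2 h2),
    mul_nonneg (sub_nonneg.2 h1) h2]

theorem sph3_gr_Lev {l : ℕ} {u : W n} (h : u ∈ Lev n l) : gr u ^ 2 = ev n l * ‖u‖ ^ 2 := by
  rw [gr_sq, form_Lev h, real_inner_self_eq_norm_sq]

theorem sph3_L_Lev (hn : 1 ≤ n) (π : Plane n) {l : ℕ} {u : W n} (h : u ∈ Lev n l) :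
    ‖π.L u‖ ^ 2 ≤ n * (1 + (l : ℝ)) ^ 2 * ‖u‖ ^ 2 :=
  (pow_le_pow_left₀ (norm_nonneg _) (π.norm_L_le u) 2).trans <| by
    rw [sph3_gr_Lev h]; exact mul_le_mul_of_nonneg_right (sph3_ev_le hn l) (sq_nonneg _)

theorem sph3_pow_Plt (e e' : E n) (k : ℕ) {M : ℕ} {u : W n} (h : u ∈ Plt n M) :
    (Lv (gen e e') ^ k) u ∈ Plt n M := by
  induction k with
  | zero => simpa using h
  | succ k ih => rw [pow_succ', Module.End.mul_apply]; exact Lv_gen_Plt _ _ ih

theorem sph3_pow_Lev (e e' : E n) (k : ℕ) {l : ℕ} {u : W n} (h : u ∈ Lev n l) :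
    (Lv (gen e e') ^ k) u ∈ Lev n l := by
  induction k with
  | zero => simpa using h
  | succ k ih => rw [pow_succ', Module.End.mul_apply]; exact Lv_gen_Lev _ _ ih

theorem sph3_lev_pow (e e' : E n) (k l : ℕ) (u : W n) :
    lev l ((Lv (gen e e') ^ k) u) = (Lv (gen e e') ^ k) (lev l u) := by
  induction k with
  | zero => simp
  | succ k ih => rw [pow_succ', Module.End.mul_apply, Module.End.mul_apply, lev_Lv_gen, ih]

theorem sph3_pow_skew (e e' : E n) (k : ℕ) (u w : W n) :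
    ⟪(Lv (gen e e') ^ k) u, w⟫ = (-1) ^ k * ⟪u, (Lv (gen e e') ^ k) w⟫ := by
  induction k generalizing w with
  | zero => simp
  | succ k ih =>
    conv_lhs => rw [pow_succ', Module.End.mul_apply, Lv_gen_skew, ih]
    rw [pow_succ (Lv (gen e e')), Module.End.mul_apply]
    ring

/-- log-convexity for a skew operator -/
theorem sph3_logconv (e e' : E n) (k : ℕ) (v : W n) :
    ‖Lv (gen e e') v‖ ^ k * ‖v‖ ≤ ‖(Lv (gen e e') ^ k) v‖ * ‖v‖ ^ k := by
  set L : W n →ₗ[ℝ] W n := Lv (gen e e') with hL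
  have h1 : ∀ j, ‖(L ^ (j + 1)) v‖ ^ 2 ≤ ‖(L ^ j) v‖ * ‖(L ^ (j + 2)) v‖ := fun j => by
    rw [← real_inner_self_eq_norm_sq]
    nth_rewrite 1 [pow_succ', Module.End.mul_apply]
    rw [hL, Lv_gen_skew, ← hL, ← Module.End.mul_apply, ← pow_succ']
    exact (neg_le_abs _).trans (abs_real_inner_le_norm _ _)
  have h2 : ∀ j, ‖L v‖ * ‖(L ^ j) v‖ ≤ ‖(L ^ (j + 1)) v‖ * ‖v‖ := fun j => by
    induction j with
    | zero => simp
    | succ j ih =>
      rcases (norm_nonneg ((L ^ (j + 1)) v)).eq_or_lt with h | h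
      · rw [← h, mul_zero]; positivity
      · refine le_of_mul_le_mul_right ?_ h
        have a := mul_le_mul_of_nonneg_left (h1 j) (norm_nonneg (L v))
        have b := mul_le_mul_of_nonneg_right ih (norm_nonneg ((L ^ (j + 2)) v))
        nlinarith
  induction k with
  | zero => simp
  | succ k ih =>
    have a := mul_le_mul_of_nonneg_left ih (norm_nonneg (L v))
    have b := mul_le_mul_of_nonneg_right (h2 k) (pow_nonneg (norm_nonneg v) k)
    rw [pow_succ, pow_succ ‖v‖]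
    nlinarith

theorem sph3_Lev_le_Plt {l M : ℕ} (h : l < M) : Lev n l ≤ Plt n M :=
  inf_le_left.trans (Plt_mono h)

theorem sph3_inner_sum (c : ℕ → ℝ) (z : W n) {M l : ℕ} (hl : l ∈ Finset.range M) :
    ⟪lev l z, ∑ l' ∈ Finset.range M, c l' • lev l' z⟫ = c l * ‖lev l z‖ ^ 2 := by
  rw [inner_sum, Finset.sum_eq_single_of_mem l hl fun l' _ h => by
    rw [real_inner_smul_right, Lev_orth h.symm (lev_mem _ _) (lev_mem _ _), mul_zero],
    real_inner_smul_right, real_inner_self_eq_norm_sq]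

/-- a functional bounded by the gradient seminorm has bounded `H⁻¹` norm -/
theorem sph3_dual (hn : 1 ≤ n) {M : ℕ} {z : W n} (hz : z ∈ Plt n M) {B : ℝ}
    (h : ∀ w ∈ Plt n M, ⟪z, w⟫ ≤ B * gr w) :
    ∑ l ∈ Finset.range M, ((1 + (l : ℝ)) ^ 2)⁻¹ * ‖lev l z‖ ^ 2 ≤ n * B ^ 2 := by
  set c : ℕ → ℝ := fun l => ((1 + (l : ℝ)) ^ 2)⁻¹ with hc
  set w := ∑ l ∈ Finset.range M, c l • lev l z with hw
  set T := ∑ l ∈ Finset.range M, c l * ‖lev l z‖ ^ 2 with hT
  have hT0 : 0 ≤ T := Finset.sum_nonneg fun l _ => by positivity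
  have h1 : ⟪z, w⟫ = T := by
    conv_lhs => rw [← sum_lev hz, sum_inner]
    exact Finset.sum_congr rfl fun l hl => sph3_inner_sum c z hl
  have h2 : gr w ^ 2 ≤ n * T := by
    have e : form (PiX n) w w = ∑ l ∈ Finset.range M, form (PiX n) (c l • lev l z) w := by
      rw [← LinearMap.sum_apply, ← map_sum]
    rw [gr_sq, e, hT, Finset.mul_sum]
    refine Finset.sum_le_sum fun l hl => ?_
    rw [map_smul, LinearMap.smul_apply, form_Lev (lev_mem l z), hw, sph3_inner_sum c z hl,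
      smul_eq_mul, ← mul_assoc]
    refine mul_le_mul_of_nonneg_right ?_ (by positivity)
    rw [hc, inv_mul_le_iff₀ (by positivity), mul_comm]
    exact sph3_ev_le hn l
  have h3 := h w (Submodule.sum_mem _ fun l hl =>
    Submodule.smul_mem _ _ (sph3_Lev_le_Plt (Finset.mem_range.1 hl) (lev_mem l z)))
  rw [h1] at h3
  rcases hT0.eq_or_lt with h0 | h0
  · rw [← h0]; positivity
  · refine le_of_mul_le_mul_right ?_ h0
    have := pow_le_pow_left₀ hT0 h3 2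
    nlinarith [mul_le_mul_of_nonneg_left h2 (sq_nonneg B)]

/-- `Σᵢ φᵢ(x)²` over an orthonormal basis of `Lev n l` is invariant under isometries (`act_Lev`, `inner_act`), hence constant (`exists_rot`),
with integral `finrank (Lev n l) ≤ (1+l)^n`; Cauchy–Schwarz. -/
theorem sup_Lev (hn : 2 ≤ n) : ∃ C : ℝ, ∀ (l : ℕ), ∀ u ∈ Lev n l, ∀ x : Sp n,
    |u x| ≤ C * (1 + (l : ℝ)) ^ n * ‖u‖ := by
  obtain ⟨C, -, h⟩ := sph3_sup_Lev hn
  exact ⟨C, h⟩

theorem Lw_Lev (w : List (Fin n × Fin n)) {l : ℕ} {u : W n} (h : u ∈ Lev n l) :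
    Lw w u ∈ Lev n l ∧ ‖Lw w u‖ ≤ ((n : ℝ) * (1 + l)) ^ w.length * ‖u‖ := by
  induction w with
  | nil => exact ⟨h, by simp [Lw]⟩
  | cons I w ih =>
    refine ⟨Lv_gen_Lev _ _ ih.1, ?_⟩
    have hn : 1 ≤ n := Nat.one_le_iff_ne_zero.2 fun e => (e ▸ I.1 : Fin 0).elim0
    have hn' : (1 : ℝ) ≤ n := by exact_mod_cast hn
    have h1 : ‖Lij I.1 I.2 (Lw w u)‖ ≤ (n : ℝ) * (1 + l) * ‖Lw w u‖ := by
      by_cases e : I.1 = I.2
      · rw [e, Lij_self, LinearMap.zero_apply, norm_zero]; positivity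
      · rw [Lij_eq _ _ e]
        refine le_of_sq_le_sq ((sph3_L_Lev hn _ ih.1).trans ?_) (by positivity)
        rw [mul_pow, mul_pow]
        gcongr
        nlinarith
    rw [List.length_cons, pow_succ', mul_assoc]
    exact h1.trans (mul_le_mul_of_nonneg_left ih.2 (by positivity))
/-- `Lw w` is linear -/
theorem Lw_linear (w : List (Fin n × Fin n)) : IsLinearMap ℝ (Lw w : W n → W n) := by
  induction w with
  | nil => exact ⟨fun _ _ => rfl, fun _ _ => rfl⟩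
  | cons I w ih =>
    exact ⟨fun u v => by simp only [Lw, ih.map_add, map_add],
      fun c u => by simp only [Lw, ih.map_smul, map_smul]⟩

theorem sob_nonneg (M s : ℕ) (u : W n) : 0 ≤ sob M s u := by
  exact Finset.sum_nonneg fun l _ => by positivity
theorem sob_mono (M : ℕ) {s s' : ℕ} (h : s ≤ s') (u : W n) : sob M s u ≤ sob M s' u := by
  refine Finset.sum_le_sum fun l _ => mul_le_mul_of_nonneg_right ?_ (sq_nonneg _)
  exact pow_le_pow_right₀ (by linarith [Nat.cast_nonneg (α := ℝ) l]) (by omega)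
theorem sqrt_sob_add_le (M s : ℕ) (u w : W n) : √(sob M s (u + w)) ≤ √(sob M s u) + √(sob M s w) := by
  have e : ∀ v : W n, sob M s v = ∑ l ∈ Finset.range M, ((1 + (l : ℝ)) ^ s * ‖lev l v‖) ^ 2 :=
    fun v => Finset.sum_congr rfl fun l _ => by ring
  rw [Real.sqrt_le_left (by positivity), add_sq, Real.sq_sqrt (sob_nonneg _ _ _),
    Real.sq_sqrt (sob_nonneg _ _ _), mul_assoc, e, e, e]
  have h := Real.sum_mul_le_sqrt_mul_sqrt (Finset.range M) (fun l => (1 + (l : ℝ)) ^ s * ‖lev l u‖)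
    (fun l => (1 + (l : ℝ)) ^ s * ‖lev l w‖)
  refine le_trans ?_ (add_le_add_left (add_le_add_right (mul_le_mul_of_nonneg_left h zero_le_two) _) _)
  rw [Finset.mul_sum, ← Finset.sum_add_distrib, ← Finset.sum_add_distrib]
  refine Finset.sum_le_sum fun l _ => ?_
  rw [← mul_assoc, ← add_sq, ← mul_add, map_add]
  gcongr
  exact norm_add_le _ _
theorem sob_smul (M s : ℕ) (c : ℝ) (u : W n) : sob M s (c • u) = c ^ 2 * sob M s u := by
  unfold sob
  rw [Finset.mul_sum]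
  refine Finset.sum_congr rfl fun l _ => ?_
  rw [map_smul, norm_smul, mul_pow, Real.norm_eq_abs, sq_abs]
  ring

/-- sum the level bounds with Cauchy–Schwarz and `Σ (1+l)⁻² ≤ 2` -/
theorem sum_lev_le (s : ℕ) (M : ℕ) (u : W n) :
    ∑ l ∈ Finset.range M, (1 + (l : ℝ)) ^ s * ‖lev l u‖ ≤ 2 * √(sob M (s + 1) u) := by
  have h1 : ∀ M : ℕ, ∑ l ∈ Finset.range M, (1 + (l : ℝ))⁻¹ ^ 2 ≤ 2 - 2 / ((M : ℝ) + 1) := by
    intro M
    induction M with
    | zero => simp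
    | succ M ih =>
      rw [Finset.sum_range_succ]
      have : (1 + (M : ℝ))⁻¹ ^ 2 ≤ 2 / ((M : ℝ) + 1) - 2 / ((M : ℝ) + 1 + 1) := by
        have h0 : (0 : ℝ) ≤ M := Nat.cast_nonneg M
        rw [div_sub_div _ _ (by positivity) (by positivity), inv_pow, inv_eq_one_div,
          div_le_div_iff₀ (by positivity) (by positivity)]
        nlinarith
      push_cast
      linarith
  have h := Real.sum_mul_le_sqrt_mul_sqrt (Finset.range M) (fun l => (1 + (l : ℝ))⁻¹)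
    (fun l => (1 + (l : ℝ)) ^ (s + 1) * ‖lev l u‖)
  have e : sob M (s + 1) u = ∑ l ∈ Finset.range M, ((1 + (l : ℝ)) ^ (s + 1) * ‖lev l u‖) ^ 2 :=
    Finset.sum_congr rfl fun l _ => by ring
  rw [e]
  refine (le_of_eq (Finset.sum_congr rfl fun l _ => ?_)).trans
    (h.trans (mul_le_mul_of_nonneg_right ?_ (Real.sqrt_nonneg _)))
  · have : (1 + (l : ℝ)) ≠ 0 := by positivity
    field_simp
    ring
  · rw [Real.sqrt_le_left zero_le_two]
    have : (0 : ℝ) ≤ 2 / ((M : ℝ) + 1) := by positivity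
    linarith [h1 M]
theorem sup_word (hn : 2 ≤ n) (k : ℕ) : ∃ C : ℝ, ∀ (M : ℕ), ∀ u ∈ Plt n M,
    ∀ w : List (Fin n × Fin n), w.length = k → ∀ x : Sp n, |Lw w u x| ≤ C * √(sob M (k + n + 1) u) := by
  obtain ⟨C, hC, h⟩ := sph3_sup_Lev hn
  refine ⟨C * n ^ k * 2, fun M u hu w hw x => ?_⟩
  have e : Lw w u = ∑ l ∈ Finset.range M, Lw w (lev l u) := by
    conv_lhs => rw [← sum_lev hu]
    exact map_sum ((Lw_linear w).mk' _) _ _
  rw [e, W.sum_apply, mul_assoc]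
  refine (Finset.abs_sum_le_sum_abs _ _).trans
    (le_trans ?_ (mul_le_mul_of_nonneg_left (sum_lev_le (k + n) M u) (by positivity)))
  rw [Finset.mul_sum]
  refine Finset.sum_le_sum fun l _ => ?_
  obtain ⟨a, b⟩ := Lw_Lev w (lev_mem l u)
  refine (h l _ a x).trans ((mul_le_mul_of_nonneg_left b (by positivity)).trans (le_of_eq ?_))
  rw [hw, mul_pow]
  ring

/-- log-convexity: `‖L^j v‖² = -⟪L^{j-1}v, L^{j+1}v⟫ ≤ ‖L^{j-1}v‖‖L^{j+1}v‖`, so `‖Lv‖^k ≤ ‖L^k v‖‖v‖^{k-1}`; on `Lev n l` some `L_{ij}` has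
`‖L_{ij}v‖² ≥ 2 ev(l)‖v‖²/n²` (`form_PiX_Lij`, `form_Lev`), and `ev n l ≥ l² ≥ (1+l)²/4` for `l ≥ 1`. -/
theorem pow_Lev (hn : 2 ≤ n) (k : ℕ) : ∃ c : ℝ, 0 < c ∧ ∀ l, 1 ≤ l → ∀ v ∈ Lev n l,
    c * (1 + (l : ℝ)) ^ (2 * k) * ‖v‖ ^ 2 ≤ ∑ i, ∑ j, ‖(Lij i j ^ k) v‖ ^ 2 := by
  have hn' : (2 : ℝ) ≤ n := by exact_mod_cast hn
  refine ⟨(1 / (2 * (n : ℝ) ^ 2)) ^ k, by positivity, fun l hl v hv => ?_⟩
  have hl' : (1 : ℝ) ≤ l := by exact_mod_cast hl
  have h1 : ∑ p : Fin n × Fin n, ‖Lij p.1 p.2 v‖ ^ 2 = 2 * (ev n l * ‖v‖ ^ 2) := by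
    rw [← sph3_gr_Lev hv, gr_sq, form_PiX_Lij, Fintype.sum_prod_type]
    simp only [real_inner_self_eq_norm_sq]
    ring
  have : Nonempty (Fin n) := ⟨⟨0, by omega⟩⟩
  obtain ⟨p, -, hp⟩ := Finset.exists_le_of_sum_le (s := Finset.univ) Finset.univ_nonempty
    (f := fun _ : Fin n × Fin n => 1 / (2 * (n : ℝ) ^ 2) * (1 + (l : ℝ)) ^ 2 * ‖v‖ ^ 2)
    (g := fun p => ‖Lij p.1 p.2 v‖ ^ 2) (by
      rw [h1, Finset.sum_const, Finset.card_univ, Fintype.card_prod, Fintype.card_fin, nsmul_eq_mul,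
        ← mul_assoc, ← mul_assoc, ← mul_assoc]
      refine mul_le_mul_of_nonneg_right ?_ (sq_nonneg _)
      have : ((n * n : ℕ) : ℝ) * (1 / (2 * (n : ℝ) ^ 2)) = 1 / 2 := by push_cast; field_simp
      rw [this, ev]
      nlinarith)
  have h2 : (1 / (2 * (n : ℝ) ^ 2)) ^ k * (1 + (l : ℝ)) ^ (2 * k) * ‖v‖ ^ 2 ≤
      ‖(Lij p.1 p.2 ^ k) v‖ ^ 2 := by
    rcases (norm_nonneg v).eq_or_lt with h0 | h0
    · rw [← h0]; simp
    have a := pow_le_pow_left₀ (by positivity) (sph3_logconv (EuclideanSpace.single p.1 1)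
      (EuclideanSpace.single p.2 1) k v) 2
    have b := mul_le_mul_of_nonneg_right (pow_le_pow_left₀ (by positivity) hp k) (sq_nonneg ‖v‖)
    refine le_of_mul_le_mul_right ?_ (pow_pos (pow_pos h0 k) 2)
    calc _ = (1 / (2 * (n : ℝ) ^ 2) * (1 + (l : ℝ)) ^ 2 * ‖v‖ ^ 2) ^ k * ‖v‖ ^ 2 := by
          rw [mul_pow, mul_pow, ← pow_mul (1 + (l : ℝ))]; ring
      _ ≤ (‖Lij p.1 p.2 v‖ ^ 2) ^ k * ‖v‖ ^ 2 := b
      _ = (‖Lij p.1 p.2 v‖ ^ k * ‖v‖) ^ 2 := by ring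
      _ ≤ (‖(Lij p.1 p.2 ^ k) v‖ * ‖v‖ ^ k) ^ 2 := a
      _ = _ := by ring
  refine h2.trans ?_
  rw [← Fintype.sum_prod_type' (f := fun i j => ‖(Lij i j ^ k) v‖ ^ 2)]
  exact Finset.single_le_sum (f := fun p : Fin n × Fin n => ‖(Lij p.1 p.2 ^ k) v‖ ^ 2)
    (fun _ _ => sq_nonneg _) (Finset.mem_univ p)
theorem sob_le_pow (hn : 2 ≤ n) (k : ℕ) : ∃ C : ℝ, ∀ (M : ℕ), ∀ u ∈ Plt n M,
    sob M k u ≤ C * (‖u‖ ^ 2 + ∑ i, ∑ j, ‖(Lij i j ^ k) u‖ ^ 2) := by
  obtain ⟨c, hc, h⟩ := pow_Lev hn k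
  refine ⟨1 + c⁻¹, fun M u hu => ?_⟩
  have e : ∑ i, ∑ j, ‖(Lij i j ^ k) u‖ ^ 2 =
      ∑ l ∈ Finset.range M, ∑ i, ∑ j, ‖(Lij i j ^ k) (lev l u)‖ ^ 2 := by
    rw [Finset.sum_comm (s := Finset.range M)]
    refine Finset.sum_congr rfl fun i _ => ?_
    rw [Finset.sum_comm (s := Finset.range M)]
    refine Finset.sum_congr rfl fun j _ => ?_
    unfold Lij
    rw [norm_sq_eq_sum_lev (sph3_pow_Plt _ _ k hu)]
    simp only [sph3_lev_pow]
  rw [e, norm_sq_eq_sum_lev hu, ← Finset.sum_add_distrib, Finset.mul_sum]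
  refine Finset.sum_le_sum fun l _ => ?_
  have h0 : 0 ≤ ∑ i, ∑ j, ‖(Lij i j ^ k) (lev l u)‖ ^ 2 := by positivity
  have h1 : 0 ≤ c⁻¹ := by positivity
  have h2 := sq_nonneg ‖lev l u‖
  rcases Nat.eq_zero_or_pos l with rfl | hl
  · simp only [Nat.cast_zero, add_zero, one_pow, one_mul]
    nlinarith [mul_nonneg h1 h0, mul_nonneg h1 h2]
  · have := h l hl _ (lev_mem l u)
    rw [mul_assoc, ← le_inv_mul_iff₀ hc] at this
    nlinarith [mul_nonneg h1 h2]
theorem gr_pow_le (hn : 2 ≤ n) (π : Plane n) (k M : ℕ) {u : W n} (h : u ∈ Plt n M) :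
    gr ((π.L ^ k) u) ^ 2 ≤ (n : ℝ) ^ (k + 1) * sob M (k + 1) u := by
  have h1 : ∀ (l k : ℕ), ∀ v ∈ Lev n l,
      ‖(π.L ^ k) v‖ ^ 2 ≤ (n * (1 + (l : ℝ)) ^ 2) ^ k * ‖v‖ ^ 2 := by
    intro l k v hv
    induction k with
    | zero => simp
    | succ k ih =>
      rw [pow_succ' π.L, Module.End.mul_apply, pow_succ' _ k, mul_assoc _ _ (‖v‖ ^ 2)]
      exact (sph3_L_Lev (by omega) π (sph3_pow_Lev _ _ k hv)).trans
        (mul_le_mul_of_nonneg_left ih (by positivity))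
  rw [gr_sq_Plt (M := M) (u := (π.L ^ k) u) (sph3_pow_Plt _ _ k h), sob, Finset.mul_sum]
  refine Finset.sum_le_sum fun l _ => ?_
  rw [show lev l ((π.L ^ k) u) = (π.L ^ k) (lev l u) from sph3_lev_pow _ _ k l u]
  refine (mul_le_mul (sph3_ev_le (by omega) l) (h1 l k _ (lev_mem l u)) (sq_nonneg _)
    (by positivity)).trans (le_of_eq ?_)
  rw [mul_pow, ← pow_mul]
  ring

/-- **the Galerkin operator loses two derivatives.**  `v = opA M K u`, `k = s+1`, `L = L_{ij}`: for `w ∈ Plt n M`,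
`⟪L^k v, w⟫ = ± form K u (L^k w) = ± Σ binom · form (orbD i K) (L^{k-i}u) w` (`comm_iter`), so `|⟪L^k v,w⟫| ≤ C A √(sob (k+1) u) gr w`.
Take `w = Σ_l (1+l)⁻² lev l (L^k v)`, so `Σ_l (1+l)⁻²‖L^k v_l‖² ≤ C A² sob (s+2) u`; use `pow_Lev`; `lev 0 v = 0` since `∇ oneW = 0`. -/
theorem sob_opA (hn : 2 ≤ n) (s : ℕ) : ∃ C : ℝ, ∀ (M : ℕ) (K : X n) (A : ℝ), OrbSmooth K →
    (∀ (i j : Fin n) (h : i ≠ j), ∀ k ≤ s + 1, ‖orbD (Plane.coord i j h) k K‖ ≤ A) →
    ∀ u : PM n M, sob M s (incl M (opA M K u)) ≤ C * A ^ 2 * sob M (s + 2) (incl M u) := by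
  obtain ⟨c, hc, h⟩ := pow_Lev hn (s + 1)
  have hn' : (2 : ℝ) ≤ n := by exact_mod_cast hn
  refine ⟨c⁻¹ * (n ^ 2 * (n * ((2 ^ (s + 1) * n) ^ 2 * n ^ (s + 2)))), fun M K A hK hA u => ?_⟩
  set v := incl M (opA M K u) with hv
  have hvM : v ∈ Plt n M := incl_mem _
  have hform : ∀ w ∈ Plt n M, ⟪v, w⟫ = form K (incl M u) w := fun w hw => by
    have := inner_opA M K u (PM.mk w hw)
    rwa [← (incl M).inner_map_map, incl_mk] at this
  clear_value v
  clear hv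
  set S := sob M (s + 2) (incl M u) with hS
  have hS0 : 0 ≤ S := sob_nonneg _ _ _
  set B : ℝ := 2 ^ (s + 1) * n * A * √(n ^ (s + 2) * S) with hB
  have hT : ∀ i j : Fin n, ∑ l ∈ Finset.range M, ((1 + (l : ℝ)) ^ 2)⁻¹ *
      ‖(Lij i j ^ (s + 1)) (lev l v)‖ ^ 2 ≤ n * B ^ 2 := by
    intro i j
    by_cases e : i = j
    · rw [e, Lij_self, zero_pow (by omega)]
      simp only [LinearMap.zero_apply, norm_zero, ne_eq, OfNat.ofNat_ne_zero, not_false_eq_true,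
        zero_pow, mul_zero, Finset.sum_const_zero]
      positivity
    have hA0 : 0 ≤ A := (norm_nonneg _).trans (hA i j e 0 (by omega))
    unfold Lij
    simp only [← sph3_lev_pow]
    refine sph3_dual (by omega) (sph3_pow_Plt _ _ _ hvM) fun w hw => ?_
    rw [sph3_pow_skew, hform _ (sph3_pow_Plt _ _ _ hw)]
    have := comm_iter (Plane.coord i j e) (hK _) (s + 1) (incl M u) w
    erw [this]
    rw [← mul_assoc, ← mul_pow, neg_mul_neg, one_mul, one_pow, one_mul]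
    have hg : 0 ≤ gr w := Real.sqrt_nonneg _
    calc _ ≤ ∑ t ∈ Finset.range (s + 1 + 1),
          ((s + 1).choose t : ℝ) * (n * A * (√(n ^ (s + 2) * S) * gr w)) := by
          refine Finset.sum_le_sum fun t ht => mul_le_mul_of_nonneg_left ?_ (Nat.cast_nonneg _)
          refine (le_abs_self _).trans ((form_le _ _ _).trans ?_)
          have h1 := hA i j e t (by have := Finset.mem_range.1 ht; omega)
          have h2 : gr (((Plane.coord i j e).L ^ (s + 1 - t)) (incl M u)) ≤ √(n ^ (s + 2) * S) := by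
            refine Real.le_sqrt_of_sq_le ((gr_pow_le hn _ _ M (incl_mem u)).trans ?_)
            exact mul_le_mul (pow_le_pow_right₀ (by linarith) (by omega)) (sob_mono _ (by omega) _)
              (sob_nonneg _ _ _) (by positivity)
          have h3 : 0 ≤ gr (((Plane.coord i j e).L ^ (s + 1 - t)) (incl M u)) := Real.sqrt_nonneg _
          gcongr
      _ = B * gr w := by
          rw [← Finset.sum_mul, ← Nat.cast_sum, Nat.sum_range_choose, hB]
          push_cast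
          ring
  have h1 : sob M s v ≤ c⁻¹ * ∑ i, ∑ j, ∑ l ∈ Finset.range M, ((1 + (l : ℝ)) ^ 2)⁻¹ *
      ‖(Lij i j ^ (s + 1)) (lev l v)‖ ^ 2 := by
    simp only [Finset.sum_comm (t := Finset.range M), ← Finset.mul_sum]
    rw [sob, Finset.mul_sum]
    refine Finset.sum_le_sum fun l hl => ?_
    rcases Nat.eq_zero_or_pos l with rfl | hl0
    · have hm := sph3_Lev_le_Plt (Finset.mem_range.1 hl) (lev_mem 0 v)
      have a : gr (lev 0 v) = 0 := by
        have := sph3_gr_Lev (lev_mem 0 v)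
        simpa [ev] using this
      have b := form_le K (incl M u) (lev 0 v)
      rw [a, mul_zero, mul_zero, abs_nonpos_iff, ← hform _ hm] at b
      have d : ⟪v, lev 0 v⟫ = ‖lev 0 v‖ ^ 2 := by
        nth_rewrite 1 [← sum_lev hvM]
        rw [real_inner_comm]
        simpa using sph3_inner_sum (fun _ => 1) v hl
      rw [← d, b, mul_zero]
      exact mul_nonneg (by positivity) (mul_nonneg (by positivity)
        (Finset.sum_nonneg fun _ _ => Finset.sum_nonneg fun _ _ => sq_nonneg _))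
    · have := h l hl0 _ (lev_mem l v)
      rw [mul_assoc, ← le_inv_mul_iff₀ hc] at this
      rw [mul_left_comm, le_inv_mul_iff₀ (by positivity)]
      refine le_trans (le_of_eq ?_) this
      ring
  refine h1.trans ?_
  have h2 : ∑ i, ∑ j, ∑ l ∈ Finset.range M, ((1 + (l : ℝ)) ^ 2)⁻¹ *
      ‖(Lij i j ^ (s + 1)) (lev l v)‖ ^ 2 ≤ ∑ _i : Fin n, ∑ _j : Fin n, n * B ^ 2 :=
    Finset.sum_le_sum fun i _ => Finset.sum_le_sum fun j _ => hT i j
  refine (mul_le_mul_of_nonneg_left h2 (by positivity)).trans (le_of_eq ?_)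
  simp only [Finset.sum_const, Finset.card_univ, Fintype.card_fin, nsmul_eq_mul, hB, mul_pow,
    Real.sq_sqrt (show 0 ≤ (n : ℝ) ^ (s + 2) * S by positivity)]
  ring

end Crest.Agent.R202
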